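import Mathlib

set_option linter.all false

section

/-!
P361, low-temperature order of the Heisenberg ferromagnet: common definitions (note 9886).

Part A: charge laws of random permutations (charge network), `X` = set of space-time nodes.
Part B: the physical circuit (Trotter number `N`, extra slice `T` = layer `0`).
Part C: the static Gibbs state, spin 1/2, real matrices in the `S³`-basis.
Part D: the torus and the family of field profiles.
-/

namespace Vale.Agent.P361.LRO

open Finset Matrix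

noncomputable section

/-! ### Part A -/

section A

variable {X : Type} [Fintype X] [DecidableEq X]

/-- Law of the random permutation `σ₁ * σ₂ * ⋯ * σ_m * σ`, where `σ_i` is the transposition
`swap x y` with probability `p` and `1` with probability `1 - p`, `(x, y, p)` the `i`-th entry. -/
def law : List (X × X × ℝ) → Equiv.Perm X → Equiv.Perm X → ℝ
  | [], σ => Pi.single σ 1
  | g :: l, σ => fun π =>
      (1 - g.2.2) * law l σ π + g.2.2 * law l σ (Equiv.swap g.1 g.2.1 * π)

/-- `μ` is the law of a product of independent random transpositions and one permutation. -/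
def IsLaw (μ : Equiv.Perm X → ℝ) : Prop :=
  ∃ (l : List (X × X × ℝ)) (σ : Equiv.Perm X),
    (∀ g ∈ l, 0 ≤ g.2.2 ∧ g.2.2 ≤ 1 / 2) ∧ μ = law l σ

/-- Weight of the flips: the node `x` costs `θ x` if the spin jumps there. -/
def wt (θ : X → ℝ) (π : Equiv.Perm X) (s : X → Fin 2) : ℝ :=
  ∏ x, if s x = s (π x) then 1 else θ x

/-- The charge (jump) at the node `x`, in `{-1, 0, 1}`. -/
def jj (π : Equiv.Perm X) (s : X → Fin 2) (x : X) : ℝ :=
  ((s x : ℕ) : ℝ) - ((s (π x) : ℕ) : ℝ)

/-- Partition function. -/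
def ZZ (μ : Equiv.Perm X → ℝ) (θ : X → ℝ) : ℝ := ∑ π, ∑ s, μ π * wt θ π s

/-- Expectation. -/
def EE (μ : Equiv.Perm X → ℝ) (θ : X → ℝ) (f : Equiv.Perm X → (X → Fin 2) → ℝ) : ℝ :=
  (∑ π, ∑ s, μ π * wt θ π s * f π s) / ZZ μ θ

/-- `K(a) = Var(∑ a_x j_x)`. -/
def KK (μ : Equiv.Perm X → ℝ) (θ : X → ℝ) (a : X → ℝ) : ℝ :=
  EE μ θ fun π s => (∑ x, a x * jj π s x) ^ 2

/-- Conductance `c_uv = - E j_u j_v` (meant for `u ≠ v`). -/
def cc (μ : Equiv.Perm X → ℝ) (θ : X → ℝ) (u v : X) : ℝ :=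
  - EE μ θ fun π s => jj π s u * jj π s v

/-- `v_z = E j_z² = P(j_z ≠ 0)`. -/
def vv (μ : Equiv.Perm X → ℝ) (θ : X → ℝ) (z : X) : ℝ :=
  EE μ θ fun π s => jj π s z ^ 2

/-- The magnetization `M_z = <σ³_z>` at the node `z` (with the slice at `z` removed):
`Z = B + θ_z A`, `M = A / B`. -/
def mag (μ : Equiv.Perm X → ℝ) (θ : X → ℝ) (z : X) : ℝ :=
  (∑ π, ∑ s, if s z = s (π z) then 0 else μ π * wt (Function.update θ z 1) π s) /
    (∑ π, ∑ s, if s z = s (π z) then μ π * wt θ π s else 0)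

/-- Generating polynomial `E ∏ ζ_x^{1 + j_x}` (not normalised). -/
def gen (μ : Equiv.Perm X → ℝ) (θ : X → ℝ) (ζ : X → ℂ) : ℂ :=
  ∑ π, ∑ s, ((μ π * wt θ π s : ℝ) : ℂ) *
    ∏ x, (if s x = s (π x) then ζ x else if s x = 1 then ζ x ^ 2 else 1)

/-- Real stability. -/
def Stable (μ : Equiv.Perm X → ℝ) (θ : X → ℝ) : Prop :=
  ∀ ζ : X → ℂ, (∀ x, 0 < (ζ x).im) → gen μ θ ζ ≠ 0

/-- Lower bound `c` for the effective conductance between the electrodes `E` (potential `1`)
and `G` (potential `0`). -/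
def LB (μ : Equiv.Perm X → ℝ) (θ : X → ℝ) (E G : Finset X) (c : ℝ) : Prop :=
  ∀ a : X → ℝ, (∀ x ∈ E, a x = 1) → (∀ x ∈ G, a x = 0) → c ≤ KK μ θ a

/-- Upper bound `R` for the resistance between the electrode `E` and the unit charge
distribution `q`. -/
def RB (μ : Equiv.Perm X → ℝ) (θ : X → ℝ) (E : Finset X) (q : X → ℝ) (R : ℝ) : Prop :=
  ∀ a : X → ℝ, (∀ x ∈ E, a x = 1) → (1 - ∑ x, q x * a x) ^ 2 ≤ R * KK μ θ a

end A

/-! ### Part B -/

section B

variable {V : Type} [Fintype V] [DecidableEq V]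

/-- `(k, x) ↦ (k - 1, x)` (cyclic). -/
def base (N : ℕ) : Equiv.Perm (Fin (N + 1) × V) :=
  Equiv.prodCongr (Equiv.subRight 1) (Equiv.refl V)

/-- All gates: between the layers `k` and `k + 1`, `k < N`, one gate for each edge of `L`. There
is no gate between the layer `N` and the layer `0`. -/
def gates (L : List (V × V)) (N : ℕ) (p : ℝ) :
    List ((Fin (N + 1) × V) × (Fin (N + 1) × V) × ℝ) :=
  (List.finRange N).flatMap fun k =>
    L.map fun e => ((k.castSucc, e.1), (k.castSucc, e.2), p)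

/-- The law of the worldline permutation; gates `(1 - p) + p P_e`, `p = β / (2N)`. -/
def phys (L : List (V × V)) (β : ℝ) (N : ℕ) : Equiv.Perm (Fin (N + 1) × V) → ℝ :=
  law (gates L N (β / (2 * N))) (base N)

/-- Slice parameters: the layers `1, …, N` are physical (`θ = β h_x / (2N)`), the layer `0` is the
extra slice `T`. -/
def th (β : ℝ) (N : ℕ) (h T : V → ℝ) : Fin (N + 1) × V → ℝ :=
  fun z => if z.1 = 0 then T z.2 else β * h z.2 / (2 * N)

/-- The extra slice `e^{K n_b}`, `n_b = S³_b / |b|`: `θ = tanh (K / (2|b|))` on `b`. -/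
def blk (K : ℝ) (b : Finset V) : V → ℝ :=
  fun x => if x ∈ b then Real.tanh (K / (2 * b.card)) else 0

/-- The nodes of the extra slice in `b`. -/
def hatb (N : ℕ) (b : Finset V) : Finset (Fin (N + 1) × V) := {0} ×ˢ b

/-- `κ_b = Var (Q_b)`, `Q_b` = total charge of the extra slice in `b`. -/
def kap (L : List (V × V)) (β : ℝ) (N : ℕ) (h : V → ℝ) (K : ℝ) (b : Finset V) : ℝ :=
  KK (phys L β N) (th β N h (blk K b)) fun z => if z ∈ hatb N b then 1 else 0

end B

/-! ### Part C -/

section C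

variable {V : Type} [Fintype V] [DecidableEq V]

/-- The exchange of the spins at `x` and `y`. -/
def swapM (x y : V) : Matrix (V → Fin 2) (V → Fin 2) ℝ :=
  Matrix.of fun σ τ => if σ = τ ∘ Equiv.swap x y then 1 else 0

/-- `σ³_x` (`0` = up). -/
def szM (x : V) : Matrix (V → Fin 2) (V → Fin 2) ℝ :=
  Matrix.diagonal fun σ => if σ x = 0 then 1 else -1

/-- `σ¹_x`. -/
def sxM (x : V) : Matrix (V → Fin 2) (V → Fin 2) ℝ :=
  Matrix.of fun σ τ => if σ = Function.update τ x (1 - τ x) then 1 else 0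

/-- `h_xy = 1/4 - S_x · S_y = (1 - P_xy) / 2`. -/
def hM (x y : V) : Matrix (V → Fin 2) (V → Fin 2) ℝ := (1 / 2 : ℝ) • (1 - swapM x y)

/-- `H - ∑ h_x S³_x`, one term `h_xy` for each entry of the list `L` of edges. -/
def ham (L : List (V × V)) (h : V → ℝ) : Matrix (V → Fin 2) (V → Fin 2) ℝ :=
  (L.map fun e => hM e.1 e.2).sum - ∑ x, (h x / 2) • szM x

/-- Gibbs expectation. -/
def gib (L : List (V × V)) (β : ℝ) (h : V → ℝ) (A : Matrix (V → Fin 2) (V → Fin 2) ℝ) : ℝ :=
  Matrix.trace (NormedSpace.exp (-β • ham L h) * A) /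
    Matrix.trace (NormedSpace.exp (-β • ham L h))

/-- `ρ_x = <1/2 - S³_x>`. -/
def rho (L : List (V × V)) (β : ℝ) (h : V → ℝ) (x : V) : ℝ :=
  gib L β h ((1 / 2 : ℝ) • (1 - szM x))

end C

/-! ### Part D -/

/-- The torus of side `n`. -/
abbrev Tor (n : ℕ) : Type := Fin 3 → ZMod n

/-- The nearest neighbour edges `(x, x + e_i)` of the torus (each edge once if `n ≥ 3`). -/
def edges (n : ℕ) [NeZero n] : List (Tor n × Tor n) :=
  ((Finset.univ : Finset (Tor n × Fin 3)).toList).map fun z => (z.1, z.1 + Pi.single z.2 1)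

/-- The family of profiles: `h0 ≤ h ≤ 1`, `|log h_x - log h_y| ≤ lam` for nearest neighbours
(`lam = 1 / L₀`). -/
def Fam (n : ℕ) (h0 lam : ℝ) (h : Tor n → ℝ) : Prop :=
  (∀ x, h0 ≤ h x ∧ h x ≤ 1) ∧
    ∀ (x : Tor n) (i : Fin 3), h x ≤ Real.exp lam * h (x + Pi.single i 1) ∧
      h (x + Pi.single i 1) ≤ Real.exp lam * h x

/-- The cube `x + [0, w)³`. -/
def cube (n : ℕ) (x : Tor n) (w : ℕ) : Finset (Tor n) :=
  (Finset.univ : Finset (Fin 3 → Fin w)).image fun y => x + fun i => ((y i : ℕ) : ZMod n)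

end

end Vale.Agent.P361.LRO

/-- Realizes the equations of `law` (and of its matcher) in this file. -/
theorem Vale.Agent.P361.LRO.eqforce_law : True := by exact (fun _ => trivial) @Vale.Agent.P361.LRO.law.eq_1
end

section

/-!
P361, STAGE 3 (Bloch's law with the constant, spin 1/2): exact outputs of the blocks, as `Prop`s.
Captain: helper569.  See note 10625.  Fields are `h = g / β`, `g ∈ Fam n g0 (β ^ (-9/2))`.
-/

namespace Vale.Agent.P361.LRO.S3

open Finset Matrix Filter Topology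

noncomputable section

/-- Bloch's constant for spin 1/2: `ζ(3/2) / (8 π^{3/2} (1/2)^{3/2})`. -/
def BC : ℝ := (riemannZeta (3 / 2)).re / (8 * Real.pi ^ (3 / 2 : ℝ) * (1 / 2 : ℝ) ^ (3 / 2 : ℝ))

/-- Bootstrap hypothesis on the capped family. -/
def BH3 (n : ℕ) [NeZero n] (β η g0 : ℝ) : Prop :=
  ∀ g : Tor n → ℝ, Fam n g0 (β ^ (-(9 / 2) : ℝ)) g → ∀ x, rho (edges n) β (fun y => g y / β) x ≤ η

/-- The Casimir-type matrix `∑_{x,y in b} h_xy` (ordered pairs) `= N_b (|b| + 1 - N_b)`,
`N_b = J_max - J_b`. -/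
def CM {V : Type} [Fintype V] [DecidableEq V] (b : Finset V) :
    Matrix (V → Fin 2) (V → Fin 2) ℝ := ∑ x ∈ b, ∑ y ∈ b, hM x y

/-- `y_b = <C_b> / |b|^2`, so that `D (1 - D) ≤ C_b / |b|^2 ≤ D (1 + 1/|b|)`, `D = N_b / |b|`. -/
def yb {V : Type} [Fintype V] [DecidableEq V] (L : List (V × V)) (β : ℝ) (h : V → ℝ)
    (b : Finset V) : ℝ := gib L β h (CM b) / (b.card : ℝ) ^ 2

/-- (K) network block (helper118, helper938). -/
def KappaStmt3 : Prop :=
  ∃ c2 c3 : ℝ, 0 < c2 ∧ 0 < c3 ∧ ∀ C7 Lam : ℝ, 0 < C7 → 0 < Lam → ∃ β0 : ℝ, ∀ β : ℝ, β0 ≤ β →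
    ∃ n0 : ℕ, ∀ (n : ℕ) [NeZero n], n0 ≤ n → Odd n → ∀ a : ℕ, Real.sqrt β ≤ (3 : ℝ) ^ a →
    (3 : ℝ) ^ a ≤ β ^ (3 / 4 : ℝ) → ∀ K : ℝ, 1 ≤ K → K ≤ Lam * β ^ (3 / 2 : ℝ) → K ≤ c2 * β * 3 ^ a →
    ∀ g0 : ℝ, (n : ℝ) ^ (-(1 / 4) : ℝ) ≤ g0 → g0 ≤ 1 → BH3 n β (C7 * β ^ (-(3 / 2) : ℝ)) g0 →
    ∀ g : Tor n → ℝ, Fam n g0 (β ^ (-(9 / 2) : ℝ)) g → ∀ x : Tor n,
      ∃ᶠ N : ℕ in atTop, c3 * K ≤ kap (edges n) β N (fun y => g y / β) K (cube n x (3 ^ a))

/-- (D) direction, closure form (helper74, helper111, helper733). -/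
def DirStmt3 : Prop :=
  ∃ C : ℝ, 0 < C ∧ ∀ (V : Type) [Fintype V] [DecidableEq V] (L : List (V × V)) (β : ℝ) (h : V → ℝ)
    (K κ : ℝ) (b : Finset V), 0 < β → (∀ x, 0 ≤ h x) → 1 ≤ K → 0 < κ → b.Nonempty →
    (∃ᶠ N : ℕ in atTop, κ ≤ kap L β N h K b) →
    (∑ x ∈ b, rho L β h x) / b.card ≤ C * (1 + K / κ) * yb L β h b + C / κ

/-- (D) direction, sharp form.  There is a finite law `μ` of `r = N_b = J_max - J_b` in the Gibbs
state such that, with `D = r / |b|`, `m = E D` and `P = P(D < q)`,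
`ρ_b ≤ m + C (K/κ) (m + (1/K) log (C (P + exp (-K q))))`. -/
def DirSharpStmt3 : Prop :=
  ∃ C : ℝ, 0 < C ∧ ∀ (V : Type) [Fintype V] [DecidableEq V] (L : List (V × V)) (β : ℝ) (h : V → ℝ)
    (b : Finset V), 0 < β → (∀ x, 0 ≤ h x) → b.Nonempty →
    ∃ (ι : Type) (_ : Fintype ι) (μ : ι → ℝ) (r : ι → ℕ), (∀ i, 0 ≤ μ i) ∧
      (∀ i, 2 * r i ≤ b.card) ∧ ∑ i, μ i = 1 ∧
      (∀ P : Polynomial ℝ, ∑ i, μ i * P.eval ((r i : ℝ) * ((b.card : ℝ) - r i + 1)) =
        gib L β h (Polynomial.aeval (CM b) P)) ∧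
      ∀ K κ q : ℝ, 1 ≤ K → 0 < κ → 0 ≤ q → q ≤ 1 / 4 →
        (∃ᶠ N : ℕ in atTop, κ ≤ kap L β N h K b) →
        (∑ x ∈ b, rho L β h x) / b.card ≤ (∑ i, μ i * (r i : ℝ)) / b.card +
          C * (K / κ) * ((∑ i, μ i * (r i : ℝ)) / b.card +
            (1 / K) * Real.log (C * ((∑ i, if (r i : ℝ) < q * b.card then μ i else 0) +
              Real.exp (-(K * q)))))

/-- (E) crude energy for all profiles (helper348). -/
def EnergyStmt3 : Prop :=
  ∃ C β0 : ℝ, ∀ β : ℝ, β0 ≤ β → ∃ n0 : ℕ, ∀ (n : ℕ) [NeZero n], n0 ≤ n → ∀ g : Tor n → ℝ,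
    (∀ x, 0 < g x ∧ g x ≤ 1) → ∀ (x : Tor n) (w m : ℕ), 1 ≤ w → (w : ℝ) ≤ 3 * Real.sqrt β →
    β ^ (3 : ℝ) ≤ w * m → (w : ℝ) * m ≤ 2 * β ^ (3 : ℝ) →
    (∑ y : Fin 3 → Fin m, yb (edges n) β (fun z => g z / β)
      (cube n (x + fun i => ((w * (y i : ℕ) : ℕ) : ZMod n)) w)) / (m : ℝ) ^ 3 ≤
      C * β ^ (-(3 / 2) : ℝ)

/-- (B0) start of the bootstrap: the uniform field `1/β` (helper10, helper236). -/
def StartStmt3 : Prop :=
  ∃ C β0 : ℝ, ∀ β : ℝ, β0 ≤ β → ∃ n0 : ℕ, ∀ (n : ℕ) [NeZero n], n0 ≤ n → Odd n → ∀ x : Tor n,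
    rho (edges n) β (fun _ => 1 / β) x ≤ C * β ^ (-(3 / 2) : ℝ)

/-- (B) output of the bootstrap (helper472): Bloch's order for all profiles. -/
def BootStmt3 : Prop :=
  ∃ C7 β0 : ℝ, 0 < C7 ∧ ∀ β : ℝ, β0 ≤ β → ∃ n0 : ℕ, ∀ (n : ℕ) [NeZero n], n0 ≤ n → Odd n →
    ∀ g0 : ℝ, (n : ℝ) ^ (-(1 / 4) : ℝ) ≤ g0 → g0 ≤ 1 → BH3 n β (C7 * β ^ (-(3 / 2) : ℝ)) g0

/-- (M) sharp mean of `N_b`, uniform small field (helper979 (U'), helper101): blocks of side
`3 ^ a ~ β^{1/2 + d}`, any small `d`. -/
def MeanStmt3 : Prop :=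
  ∃ d : ℝ, 0 < d ∧ d ≤ 1 / 100 ∧ ∀ δ : ℝ, 0 < δ → ∃ β0 : ℝ, ∀ β : ℝ, β0 ≤ β → ∀ a : ℕ,
    β ^ (1 / 2 + d) ≤ (3 : ℝ) ^ a → (3 : ℝ) ^ a ≤ 3 * β ^ (1 / 2 + d) →
    ∀ h : ℝ, 0 < h → h ≤ β ^ (-(10 : ℝ)) → ∃ n0 : ℕ, ∀ (n : ℕ) [NeZero n], n0 ≤ n → Odd n →
    ∀ x : Tor n, yb (edges n) β (fun _ => h) (cube n x (3 ^ a)) ≤ (1 + δ) * BC * β ^ (-(3 / 2) : ℝ)

/-- (T) lower tail of `N_b` (helper260): every polynomial which is at most the indicator of
`r < (1 - δ) BC β^{-3/2} |b|` on the spectrum has small expectation. -/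
def TailStmt3 : Prop :=
  ∀ d : ℝ, 0 < d → d ≤ 1 / 100 → ∀ δ : ℝ, 0 < δ → ∃ β0 : ℝ, ∀ β : ℝ, β0 ≤ β → ∀ a : ℕ,
    β ^ (1 / 2 + d) ≤ (3 : ℝ) ^ a → (3 : ℝ) ^ a ≤ 3 * β ^ (1 / 2 + d) →
    ∀ h : ℝ, 0 < h → h ≤ β ^ (-(10 : ℝ)) → ∃ n0 : ℕ, ∀ (n : ℕ) [NeZero n], n0 ≤ n → Odd n →
    ∀ (x : Tor n) (P : Polynomial ℝ),
      (∀ r : ℕ, 2 * r ≤ (cube n x (3 ^ a)).card →
        P.eval ((r : ℝ) * (((cube n x (3 ^ a)).card : ℝ) - r + 1)) ≤
          if (r : ℝ) < (1 - δ) * BC * β ^ (-(3 / 2) : ℝ) * (cube n x (3 ^ a)).card then 1 else 0) →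
      gib (edges n) β (fun _ => h) (Polynomial.aeval (CM (cube n x (3 ^ a))) P) ≤ δ

/-- (F) output for the torus. -/
def FinalStmt3 : Prop :=
  ∀ ε : ℝ, 0 < ε → ∃ β0 : ℝ, ∀ β : ℝ, β0 ≤ β → ∀ h : ℝ, 0 < h → h ≤ β ^ (-(10 : ℝ)) →
    ∃ n0 : ℕ, ∀ (n : ℕ) [NeZero n], n0 ≤ n → Odd n → ∀ x : Tor n,
      rho (edges n) β (fun _ => h) x ≤ (1 + ε) * BC * β ^ (-(3 / 2) : ℝ)

end

end Vale.Agent.P361.LRO.S3
end

section

namespace Vale.Agent.P361.H

open MeasureTheory intervalIntegral Filter Topology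

/-- `J(t) = π⁻¹ ∫₀^π exp(-t(1 - cos θ)) dθ`. -/
noncomputable def bJ (t : ℝ) : ℝ :=
  Real.pi⁻¹ * ∫ θ in (0 : ℝ)..Real.pi, Real.exp (-t * (1 - Real.cos θ))

lemma bJ_nonneg (t : ℝ) : 0 ≤ bJ t := by
  unfold bJ
  refine mul_nonneg (inv_nonneg.2 Real.pi_pos.le) ?_
  exact intervalIntegral.integral_nonneg Real.pi_pos.le fun θ _ => (Real.exp_pos _).le

lemma bJ_integrable (t : ℝ) : IntervalIntegrable
    (fun θ => Real.exp (-t * (1 - Real.cos θ))) volume (0 : ℝ) Real.pi :=
  Continuous.intervalIntegrable (by fun_prop) _ _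

lemma bJ_antitone {s t : ℝ} (h : s ≤ t) : bJ t ≤ bJ s := by
  unfold bJ
  refine mul_le_mul_of_nonneg_left ?_ (inv_nonneg.2 Real.pi_pos.le)
  refine intervalIntegral.integral_mono_on Real.pi_pos.le (bJ_integrable t) (bJ_integrable s) ?_
  intro θ _
  refine Real.exp_le_exp.2 ?_
  have : 0 ≤ 1 - Real.cos θ := by have := Real.cos_le_one θ; linarith
  nlinarith

lemma bJ_continuous : Continuous bJ := by
  unfold bJ
  refine continuous_const.mul ?_
  refine intervalIntegral.continuous_parametric_intervalIntegral_of_continuous' ?_ _ _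
  fun_prop

/-- Symmetric sums. -/
lemma sum_Icc_symm (N : ℕ) (g : ℝ → ℝ) (hg : ∀ x, g (-x) = g x) :
    ∑ l ∈ Finset.Icc (-(N : ℤ)) N, g (l : ℝ) =
      2 * ∑ i ∈ Finset.range (N + 1), g (i : ℝ) - g 0 := by
  induction N with
  | zero => simp; ring
  | succ N ih =>
    have h1 : Finset.Icc (-((N + 1 : ℕ) : ℤ)) ((N + 1 : ℕ) : ℤ) =
        insert ((N + 1 : ℕ) : ℤ) (insert (-((N + 1 : ℕ) : ℤ)) (Finset.Icc (-(N : ℤ)) N)) := by
      ext l
      simp only [Finset.mem_Icc, Finset.mem_insert]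
      omega
    rw [h1, Finset.sum_insert, Finset.sum_insert, ih, Finset.sum_range_succ _ (N + 1)]
    · have : g (((-((N + 1 : ℕ) : ℤ)) : ℤ) : ℝ) = g ((N + 1 : ℕ) : ℝ) := by
        rw [← hg]; congr 1; push_cast; ring
      rw [this]
      push_cast
      ring
    · simp only [Finset.mem_Icc]; omega
    · simp only [Finset.mem_Icc, Finset.mem_insert]; omega

/-- Riemann-sum lower bound. -/
lemma riemann_lower (N : ℕ) (t : ℝ) (ht : 0 ≤ t) :
    bJ t - (2 * N + 1 : ℝ)⁻¹ ≤ (2 * N + 1 : ℝ)⁻¹ * ∑ l ∈ Finset.Icc (-(N : ℤ)) N,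
      Real.exp (-t * (1 - Real.cos (2 * Real.pi / (2 * N + 1) * (l : ℝ)))) := by
  set L : ℝ := 2 * N + 1 with hL
  have hLpos : 0 < L := by positivity
  have hpi := Real.pi_pos
  set w : ℝ := 2 * Real.pi / L with hw
  have hwpos : 0 < w := by positivity
  rw [sum_Icc_symm N (fun x => Real.exp (-t * (1 - Real.cos (w * x))))
    (fun x => by rw [mul_neg, Real.cos_neg])]
  set g : ℝ → ℝ := fun x => Real.exp (-t * (1 - Real.cos (min (w * x) Real.pi))) with hg
  have hanti : AntitoneOn g (Set.Icc (0 : ℝ) (0 + ((N + 1 : ℕ) : ℝ))) := by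
    intro x hx y hy hxy
    refine Real.exp_le_exp.2 ?_
    have h1 : Real.cos (min (w * y) Real.pi) ≤ Real.cos (min (w * x) Real.pi) := by
      refine Real.cos_le_cos_of_nonneg_of_le_pi ?_ (min_le_right _ _) ?_
      · exact le_min (mul_nonneg hwpos.le hx.1) hpi.le
      · exact min_le_min_right _ (mul_le_mul_of_nonneg_left hxy hwpos.le)
    nlinarith
  have h1 := hanti.integral_le_sum
  simp only [zero_add] at h1
  have hcont : Continuous g := by rw [hg]; fun_prop
  have hwN : ∀ i : ℕ, i < N + 1 → w * i ≤ Real.pi := by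
    intro i hi
    have : (i : ℝ) ≤ N := by exact_mod_cast Nat.lt_succ_iff.1 hi
    rw [hw, div_mul_eq_mul_div, div_le_iff₀ hLpos, hL]
    nlinarith
  have h2 : ∑ i ∈ Finset.range (N + 1), g (i : ℝ) =
      ∑ i ∈ Finset.range (N + 1), Real.exp (-t * (1 - Real.cos (w * (i : ℝ)))) := by
    refine Finset.sum_congr rfl fun i hi => ?_
    rw [hg]
    simp only
    rw [min_eq_left (hwN i (Finset.mem_range.1 hi))]
  rw [h2] at h1
  have h3 : ∫ x in (0 : ℝ)..(L / 2), g x ≤ ∫ x in (0 : ℝ)..((N + 1 : ℕ) : ℝ), g x := by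
    have hadd := intervalIntegral.integral_add_adjacent_intervals (μ := volume)
      (hcont.intervalIntegrable 0 (L / 2)) (hcont.intervalIntegrable (L / 2) ((N + 1 : ℕ) : ℝ))
    have : 0 ≤ ∫ x in (L / 2)..((N + 1 : ℕ) : ℝ), g x := by
      refine intervalIntegral.integral_nonneg ?_ fun x _ => (Real.exp_pos _).le
      rw [hL]; push_cast; linarith
    linarith
  have h4 : ∫ x in (0 : ℝ)..(L / 2), g x = w⁻¹ * ∫ θ in (0 : ℝ)..Real.pi,
      Real.exp (-t * (1 - Real.cos θ)) := by
    have e1 : ∫ x in (0 : ℝ)..(L / 2), g x = ∫ x in (0 : ℝ)..(L / 2),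
        (fun θ => Real.exp (-t * (1 - Real.cos θ))) (w * x) := by
      refine intervalIntegral.integral_congr fun x hx => ?_
      rw [Set.uIcc_of_le (by positivity)] at hx
      simp only [hg]
      rw [min_eq_left]
      calc w * x ≤ w * (L / 2) := mul_le_mul_of_nonneg_left hx.2 hwpos.le
        _ = Real.pi := by rw [hw]; field_simp
    rw [e1, intervalIntegral.integral_comp_mul_left (f := fun θ => Real.exp (-t * (1 - Real.cos θ)))
      hwpos.ne', mul_zero]
    have : w * (L / 2) = Real.pi := by rw [hw]; field_simp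
    rw [this, smul_eq_mul]
  have h5 : L * bJ t ≤ 2 * ∑ i ∈ Finset.range (N + 1), Real.exp (-t * (1 - Real.cos (w * (i : ℝ)))) := by
    have e : L * bJ t = 2 * (w⁻¹ * ∫ θ in (0 : ℝ)..Real.pi, Real.exp (-t * (1 - Real.cos θ))) := by
      rw [bJ, hw]; field_simp
    rw [e, ← h4]
    linarith
  have h6 : Real.exp (-t * (1 - Real.cos (w * 0))) = 1 := by simp
  rw [h6]
  have h7 : L⁻¹ * (L * bJ t) ≤ L⁻¹ * (2 * ∑ i ∈ Finset.range (N + 1),
      Real.exp (-t * (1 - Real.cos (w * (i : ℝ))))) :=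
    mul_le_mul_of_nonneg_left h5 (by positivity)
  rw [← mul_assoc, inv_mul_cancel₀ hLpos.ne', one_mul] at h7
  rw [mul_sub, mul_one]
  linarith

/-- Gaussian lower bound for `J`. -/
lemma bJ_gauss_lower {t : ℝ} (ht : 0 < t) :
    Real.pi⁻¹ * (∫ u in (0 : ℝ)..(Real.pi * Real.sqrt t), Real.exp (-(1 / 2) * u ^ 2)) ≤
      Real.sqrt t * bJ t := by
  have hs : 0 < Real.sqrt t := Real.sqrt_pos.2 ht
  have h1 : ∫ θ in (0 : ℝ)..Real.pi, Real.exp (-(1 / 2) * (Real.sqrt t * θ) ^ 2) ≤
      ∫ θ in (0 : ℝ)..Real.pi, Real.exp (-t * (1 - Real.cos θ)) := by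
    refine intervalIntegral.integral_mono_on Real.pi_pos.le
      (Continuous.intervalIntegrable (by fun_prop) _ _) (bJ_integrable t) ?_
    intro θ _
    refine Real.exp_le_exp.2 ?_
    rw [mul_pow, Real.sq_sqrt ht.le]
    have := Real.one_sub_sq_div_two_le_cos (x := θ)
    nlinarith
  rw [intervalIntegral.integral_comp_mul_left (f := fun u => Real.exp (-(1 / 2) * u ^ 2)) hs.ne',
    mul_zero, smul_eq_mul, mul_comm (Real.sqrt t) Real.pi] at h1
  rw [bJ]
  have h2 := mul_le_mul_of_nonneg_left h1 (mul_nonneg hs.le (inv_nonneg.2 Real.pi_pos.le))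
  calc _ = Real.sqrt t * Real.pi⁻¹ * ((Real.sqrt t)⁻¹ *
      ∫ u in (0 : ℝ)..(Real.pi * Real.sqrt t), Real.exp (-(1 / 2) * u ^ 2)) := by
        field_simp
    _ ≤ _ := h2
    _ = _ := by ring

lemma gauss_tendsto : Tendsto (fun t : ℝ => Real.pi⁻¹ *
    (∫ u in (0 : ℝ)..(Real.pi * Real.sqrt t), Real.exp (-(1 / 2) * u ^ 2))) atTop
    (𝓝 (Real.sqrt (2 * Real.pi))⁻¹) := by
  have h1 : Tendsto (fun X : ℝ => ∫ u in (0 : ℝ)..X, Real.exp (-(1 / 2) * u ^ 2)) atTop
      (𝓝 (∫ u in Set.Ioi (0 : ℝ), Real.exp (-(1 / 2) * u ^ 2))) := by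
    refine intervalIntegral_tendsto_integral_Ioi 0 ?_ tendsto_id
    exact (integrable_exp_neg_mul_sq (by norm_num)).integrableOn
  rw [integral_gaussian_Ioi] at h1
  have h2 : Tendsto (fun t : ℝ => Real.pi * Real.sqrt t) atTop atTop :=
    Tendsto.const_mul_atTop Real.pi_pos Real.tendsto_sqrt_atTop
  have h3 := (h1.comp h2).const_mul Real.pi⁻¹
  have e : Real.pi⁻¹ * (Real.sqrt (Real.pi / (1 / 2)) / 2) = (Real.sqrt (2 * Real.pi))⁻¹ := by
    have hpi := Real.pi_pos
    have h4 : Real.sqrt (2 * Real.pi) ^ 2 = 2 * Real.pi := Real.sq_sqrt (by positivity)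
    have h5 : 0 < Real.sqrt (2 * Real.pi) := Real.sqrt_pos.2 (by positivity)
    rw [show Real.pi / (1 / 2) = 2 * Real.pi by ring]
    generalize Real.sqrt (2 * Real.pi) = s at h4 h5
    have h6 : Real.pi = s ^ 2 / 2 := by linarith
    rw [h6]
    field_simp
  rw [e] at h3
  exact h3

/-- For every `c < (2π)^{-1/2}`, eventually `c ≤ √t J(t)`. -/
lemma bJ_asymp {c : ℝ} (hc : c < (Real.sqrt (2 * Real.pi))⁻¹) :
    ∀ᶠ t : ℝ in atTop, c ≤ Real.sqrt t * bJ t := by
  filter_upwards [gauss_tendsto.eventually (lt_mem_nhds hc), eventually_gt_atTop 0] with t h1 h2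
  exact h1.le.trans (bJ_gauss_lower h2)

/-- Partial geometric sums below `1/(e^y - 1)`. -/
lemma geom_le {y : ℝ} (hy : 0 < y) (R : ℕ) :
    ∑ r ∈ Finset.range R, Real.exp (-(((r : ℝ) + 1) * y)) ≤ 1 / (Real.exp y - 1) := by
  have h1 : 0 < Real.exp y - 1 := by have := Real.add_one_lt_exp hy.ne'; linarith
  rw [le_div_iff₀ h1]
  have h2 : ∀ R : ℕ, (∑ r ∈ Finset.range R, Real.exp (-(((r : ℝ) + 1) * y))) * (Real.exp y - 1) =
      1 - Real.exp (-((R : ℝ) * y)) := by
    intro R
    induction R with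
    | zero => simp
    | succ R ih =>
      rw [Finset.sum_range_succ, add_mul, ih, mul_sub, ← Real.exp_add]
      push_cast
      have : -(((R : ℝ) + 1) * y) + y = -(R * y) := by ring
      rw [this]; ring
  rw [h2]
  have := Real.exp_pos (-((R : ℝ) * y))
  linarith

end Vale.Agent.P361.H
end

section

namespace Vale.Agent.P361.H

open Filter Topology

/-- The predicted Bloch coefficient `ζ(3/2) / (8 π^{3/2} S^{3/2})`, here in terms of `S`. -/
noncomputable def blochCoeff (S : ℝ) : ℝ :=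
  (riemannZeta (3 / 2)).re / (8 * Real.pi ^ (3 / 2 : ℝ) * S ^ (3 / 2 : ℝ))

lemma rpow_three_half {x : ℝ} (hx : 0 ≤ x) : x ^ (3 / 2 : ℝ) = Real.sqrt x ^ 3 := by
  rw [Real.sqrt_eq_rpow, ← Real.rpow_natCast, ← Real.rpow_mul hx]
  norm_num

lemma zeta_hasSum : HasSum (fun r : ℕ => 1 / Real.sqrt ((r : ℝ) + 1) ^ 3) (riemannZeta (3 / 2)).re := by
  have h1 : riemannZeta (3 / 2) = ∑' r : ℕ, 1 / ((r : ℂ) + 1) ^ (3 / 2 : ℂ) :=
    zeta_eq_tsum_one_div_nat_add_one_cpow (by norm_num)
  have hterm : ∀ r : ℕ, 1 / ((r : ℂ) + 1) ^ (3 / 2 : ℂ) =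
      ((1 / Real.sqrt ((r : ℝ) + 1) ^ 3 : ℝ) : ℂ) := by
    intro r
    rw [← rpow_three_half (by positivity)]
    push_cast
    rw [Complex.ofReal_cpow (by positivity)]
    push_cast
    rfl
  have hsum : Summable (fun r : ℕ => 1 / Real.sqrt ((r : ℝ) + 1) ^ 3) := by
    have h2 : Summable (fun r : ℕ => 1 / ((r : ℝ)) ^ (3 / 2 : ℝ)) :=
      Real.summable_one_div_nat_rpow.2 (by norm_num)
    have h3 := (summable_nat_add_iff 1).2 h2
    refine h3.congr fun r => ?_
    push_cast
    rw [rpow_three_half (by positivity)]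
  simp only [hterm] at h1
  rw [h1, ← Complex.ofReal_tsum, Complex.ofReal_re]
  exact hsum.hasSum

/-- Abstract asymptotic step: a function `m ≤ S` satisfying the self-consistent bound
obeys the one-sided Bloch law. -/
theorem bloch_of_bound {S : ℝ} (hS : 0 < S) (m : ℝ → ℝ)
    (hm : ∀ β, 0 < β → ∀ q, 0 < q → q < m β → ∀ R : ℕ,
      q * ∑ r ∈ Finset.range R, (bJ (((r : ℝ) + 1) * (β * (2 * S ^ 2)) / q)) ^ 3 ≤
        S * (S - m β))
    {c : ℝ} (hc : c < blochCoeff S) :
    ∀ᶠ β : ℝ in atTop, c < β ^ (3 / 2 : ℝ) * (S - m β) := by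
  have hpi := Real.pi_pos
  -- choose `R`
  have hB : blochCoeff S = (riemannZeta (3 / 2)).re * (1 / (Real.sqrt (2 * Real.pi) ^ 3 *
      Real.sqrt (2 * S) ^ 3)) := by
    rw [blochCoeff, rpow_three_half hpi.le, rpow_three_half hS.le]
    have e : Real.sqrt (2 * Real.pi) ^ 3 * Real.sqrt (2 * S) ^ 3 =
        8 * Real.sqrt Real.pi ^ 3 * Real.sqrt S ^ 3 := by
      rw [← mul_pow, ← Real.sqrt_mul (by positivity),
        show 2 * Real.pi * (2 * S) = 2 ^ 2 * (Real.pi * S) by ring,
        Real.sqrt_mul (by positivity), Real.sqrt_sq (by norm_num), Real.sqrt_mul hpi.le]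
      ring
    rw [e]; ring
  have hR := zeta_hasSum.tendsto_sum_nat
  have hR' := hR.mul_const (1 / (Real.sqrt (2 * Real.pi) ^ 3 * Real.sqrt (2 * S) ^ 3))
  rw [← hB] at hR'
  obtain ⟨R, hRc⟩ := (hR'.eventually (lt_mem_nhds hc)).exists
  set K : ℝ := (∑ r ∈ Finset.range R, 1 / Real.sqrt ((r : ℝ) + 1) ^ 3) *
    (1 / (Real.sqrt (2 * Real.pi) ^ 3 * Real.sqrt (2 * S) ^ 3)) with hK
  -- choose `s`
  have hφ : Tendsto (fun s : ℝ => K * s ^ 4 * Real.sqrt s ^ 3) (𝓝[<] 1) (𝓝 K) := by
    have hc1 : Continuous (fun s : ℝ => K * s ^ 4 * Real.sqrt s ^ 3) := by fun_prop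
    have := (hc1.tendsto 1).mono_left (nhdsWithin_le_nhds (s := Set.Iio 1))
    simpa using this
  have hpos : ∀ᶠ s : ℝ in 𝓝[<] 1, 0 < s :=
    mem_nhdsWithin_of_mem_nhds (lt_mem_nhds one_pos)
  obtain ⟨s, hs1, hs2, hs3⟩ := ((hφ.eventually (lt_mem_nhds hRc)).and
    (hpos.and self_mem_nhdsWithin)).exists
  have hs3 : s < 1 := hs3
  -- asymptotics of `J`
  have hc0 : s * (Real.sqrt (2 * Real.pi))⁻¹ < (Real.sqrt (2 * Real.pi))⁻¹ := by
    have : 0 < (Real.sqrt (2 * Real.pi))⁻¹ := by positivity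
    nlinarith
  have hJ := bJ_asymp hc0
  have hJr : ∀ r ∈ Finset.range R, ∀ᶠ β : ℝ in atTop, s * (Real.sqrt (2 * Real.pi))⁻¹ ≤
      Real.sqrt ((((r : ℝ) + 1) * (2 * S) / s) * β) * bJ ((((r : ℝ) + 1) * (2 * S) / s) * β) := by
    intro r _
    have : Tendsto (fun β : ℝ => (((r : ℝ) + 1) * (2 * S) / s) * β) atTop atTop :=
      Tendsto.const_mul_atTop (by positivity) tendsto_id
    exact this.eventually hJ
  have hJall := (Finset.eventually_all (Finset.range R)).2 hJr
  have hlarge : ∀ᶠ β : ℝ in atTop, c < β ^ (3 / 2 : ℝ) * (S * (1 - s)) := by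
    have : Tendsto (fun β : ℝ => β ^ (3 / 2 : ℝ) * (S * (1 - s))) atTop atTop :=
      Tendsto.atTop_mul_const (mul_pos hS (by linarith)) (tendsto_rpow_atTop (by norm_num))
    exact this.eventually_gt_atTop c
  filter_upwards [hJall, hlarge, eventually_gt_atTop 0] with β h1 h2 hβ
  rcases le_or_gt (m β) (s * S) with hle | hgt
  · refine h2.trans_le (mul_le_mul_of_nonneg_left ?_ (by positivity))
    linarith
  · have hb := hm β hβ (s * S) (by positivity) hgt R
    have hsb : 0 < Real.sqrt β := Real.sqrt_pos.2 hβ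
    rw [rpow_three_half hβ.le]
    -- termwise bound
    have hterm : ∀ r ∈ Finset.range R, s ^ 3 * Real.sqrt s ^ 3 * (1 / (Real.sqrt (2 * Real.pi) ^ 3 *
        Real.sqrt (2 * S) ^ 3)) * (1 / Real.sqrt ((r : ℝ) + 1) ^ 3) ≤
        Real.sqrt β ^ 3 * (bJ (((r : ℝ) + 1) * (β * (2 * S ^ 2)) / (s * S))) ^ 3 := by
      intro r hr
      have h3 := h1 r hr
      have e1 : ((r : ℝ) + 1) * (β * (2 * S ^ 2)) / (s * S) = ((r : ℝ) + 1) * (2 * S) / s * β := by
        field_simp
      rw [e1]
      set J := bJ (((r : ℝ) + 1) * (2 * S) / s * β) with hJdef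
      have e2 : Real.sqrt (((r : ℝ) + 1) * (2 * S) / s * β) =
          Real.sqrt ((r : ℝ) + 1) * Real.sqrt (2 * S) / Real.sqrt s * Real.sqrt β := by
        rw [Real.sqrt_mul (by positivity), Real.sqrt_div (by positivity),
          Real.sqrt_mul (by positivity)]
      rw [e2] at h3
      have hss : 0 < Real.sqrt s := Real.sqrt_pos.2 hs2
      have hsr : 0 < Real.sqrt ((r : ℝ) + 1) := Real.sqrt_pos.2 (by positivity)
      have hs2S : 0 < Real.sqrt (2 * S) := Real.sqrt_pos.2 (by positivity)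
      have hs2p : 0 < Real.sqrt (2 * Real.pi) := Real.sqrt_pos.2 (by positivity)
      have h4 : s * Real.sqrt s * (1 / (Real.sqrt (2 * Real.pi) * Real.sqrt (2 * S))) *
          (1 / Real.sqrt ((r : ℝ) + 1)) ≤ Real.sqrt β * J := by
        have h5 := mul_le_mul_of_nonneg_left h3 (a := Real.sqrt s / (Real.sqrt ((r : ℝ) + 1) *
          Real.sqrt (2 * S))) (by positivity)
        refine le_trans (le_of_eq ?_) (h5.trans (le_of_eq ?_))
        · field_simp
        · field_simp
      have h6 := pow_le_pow_left₀ (by positivity) h4 3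
      refine le_trans (le_of_eq ?_) (h6.trans (le_of_eq ?_))
      · field_simp
      · ring
    have hsum := Finset.sum_le_sum hterm
    rw [← Finset.mul_sum, ← Finset.mul_sum] at hsum
    have hfin : K * s ^ 4 * Real.sqrt s ^ 3 ≤ Real.sqrt β ^ 3 * (S - m β) := by
      have h7 : Real.sqrt β ^ 3 * (s * S * ∑ r ∈ Finset.range R,
          (bJ (((r : ℝ) + 1) * (β * (2 * S ^ 2)) / (s * S))) ^ 3) ≤
          Real.sqrt β ^ 3 * (S * (S - m β)) := mul_le_mul_of_nonneg_left hb (by positivity)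
      have h8 : S * (K * s ^ 4 * Real.sqrt s ^ 3) ≤ S * (Real.sqrt β ^ 3 * (S - m β)) := by
        calc S * (K * s ^ 4 * Real.sqrt s ^ 3)
            = s * S * (s ^ 3 * Real.sqrt s ^ 3 * (1 / (Real.sqrt (2 * Real.pi) ^ 3 *
        Real.sqrt (2 * S) ^ 3)) * ∑ r ∈ Finset.range R, (1 / Real.sqrt ((r : ℝ) + 1) ^ 3)) := by
              rw [hK]; ring
          _ ≤ s * S * (Real.sqrt β ^ 3 * ∑ r ∈ Finset.range R,
                (bJ (((r : ℝ) + 1) * (β * (2 * S ^ 2)) / (s * S))) ^ 3) :=
              mul_le_mul_of_nonneg_left hsum (by positivity)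
          _ = Real.sqrt β ^ 3 * (s * S * ∑ r ∈ Finset.range R,
                (bJ (((r : ℝ) + 1) * (β * (2 * S ^ 2)) / (s * S))) ^ 3) := by ring
          _ ≤ Real.sqrt β ^ 3 * (S * (S - m β)) := h7
          _ = _ := by ring
      exact le_of_mul_le_mul_left h8 hS
    exact hs1.trans_le hfin

end Vale.Agent.P361.H
end

section

namespace Vale.Agent.P361.H

open MeasureTheory Filter Topology

/-- The Brillouin zone `[-π, π]³`. -/
def cube : Set (Fin 3 → ℝ) := Set.univ.pi fun _ => Set.Icc (-Real.pi) Real.pi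

lemma integral_symm (t : ℝ) :
    ∫ θ in Set.Icc (-Real.pi) Real.pi, Real.exp (-t * (1 - Real.cos θ)) = 2 * Real.pi * bJ t := by
  have hpi := Real.pi_pos
  rw [integral_Icc_eq_integral_Ioc, ← intervalIntegral.integral_of_le (by linarith)]
  have hint : ∀ a b : ℝ, IntervalIntegrable (fun θ => Real.exp (-t * (1 - Real.cos θ))) volume a b :=
    fun a b => Continuous.intervalIntegrable (by fun_prop) _ _
  rw [← intervalIntegral.integral_add_adjacent_intervals (hint (-Real.pi) 0) (hint 0 Real.pi)]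
  have h1 : ∫ θ in (-Real.pi)..0, Real.exp (-t * (1 - Real.cos θ)) =
      ∫ θ in (0 : ℝ)..Real.pi, Real.exp (-t * (1 - Real.cos θ)) := by
    have := intervalIntegral.integral_comp_neg (a := 0) (b := Real.pi)
      (fun θ => Real.exp (-t * (1 - Real.cos θ)))
    simp only [Real.cos_neg, neg_zero] at this
    exact this.symm
  rw [h1, bJ]
  field_simp
  ring

lemma cube_measure : (volume : Measure (Fin 3 → ℝ)).restrict cube =
    Measure.pi (fun _ : Fin 3 => (volume : Measure ℝ).restrict (Set.Icc (-Real.pi) Real.pi)) := by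
  rw [cube, volume_pi, Measure.restrict_pi_pi]

lemma integral_cube_exp (t : ℝ) :
    ∫ k in cube, Real.exp (-t * ∑ j, (1 - Real.cos (k j))) = (2 * Real.pi * bJ t) ^ 3 := by
  rw [cube_measure]
  have h1 : ∀ k : Fin 3 → ℝ, Real.exp (-t * ∑ j, (1 - Real.cos (k j))) =
      ∏ j, Real.exp (-t * (1 - Real.cos (k j))) := by
    intro k; rw [Finset.mul_sum, Real.exp_sum]
  simp only [h1]
  rw [integral_fintype_prod_eq_pow (fun θ => Real.exp (-t * (1 - Real.cos θ))), integral_symm]
  simp

lemma integrable_cube_exp (t : ℝ) :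
    IntegrableOn (fun k : Fin 3 → ℝ => Real.exp (-t * ∑ j, (1 - Real.cos (k j)))) cube := by
  have hc : Continuous (fun k : Fin 3 → ℝ => Real.exp (-t * ∑ j, (1 - Real.cos (k j)))) := by
    fun_prop
  refine hc.continuousOn.integrableOn_compact ?_
  exact isCompact_univ_pi fun _ => isCompact_Icc

/-- Series expansion of the Bose factor: convergence of the partial sums. -/
lemma bose_tendsto {y : ℝ} (hy : 0 < y) :
    Tendsto (fun R : ℕ => ∑ r ∈ Finset.range R, Real.exp (-(((r : ℝ) + 1) * y))) atTop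
      (𝓝 (1 / (Real.exp y - 1))) := by
  have h1 : 0 < Real.exp y - 1 := by have := Real.add_one_lt_exp hy.ne'; linarith
  have h2 : ∀ R : ℕ, ∑ r ∈ Finset.range R, Real.exp (-(((r : ℝ) + 1) * y)) =
      (1 - Real.exp (-y) ^ R) / (Real.exp y - 1) := by
    intro R
    rw [eq_div_iff h1.ne']
    induction R with
    | zero => simp
    | succ R ih =>
      rw [Finset.sum_range_succ, add_mul, ih, mul_sub, ← Real.exp_add]
      rw [← Real.exp_nat_mul, ← Real.exp_nat_mul]
      push_cast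
      have e1 : -(((R : ℝ) + 1) * y) + y = (R : ℝ) * (-y) := by ring
      have e2 : -(((R : ℝ) + 1) * y) = ((R : ℝ) + 1) * (-y) := by ring
      rw [e1, e2]; ring
  simp only [h2]
  have h3 : Tendsto (fun R : ℕ => Real.exp (-y) ^ R) atTop (𝓝 0) :=
    tendsto_pow_atTop_nhds_zero_of_lt_one (Real.exp_pos _).le (Real.exp_lt_one_iff.2 (by linarith))
  have h4 := (tendsto_const_nhds (x := (1 : ℝ))).sub h3
  rw [sub_zero] at h4
  exact h4.div_const _

/-- Passage from the truncated series to the integral of the Bose factor. -/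
theorem integral_bose_le {a b C : ℝ} (ha : 0 < a) (hb : 0 ≤ b)
    (hC : ∀ R : ℕ, ∑ r ∈ Finset.range R, Real.exp (-(((r : ℝ) + 1) * b)) *
      (bJ (((r : ℝ) + 1) * a)) ^ 3 ≤ C) :
    IntegrableOn (fun k : Fin 3 → ℝ =>
      1 / (Real.exp (a * ∑ j, (1 - Real.cos (k j)) + b) - 1)) cube ∧
    ((2 * Real.pi) ^ 3)⁻¹ * ∫ k in cube,
      1 / (Real.exp (a * ∑ j, (1 - Real.cos (k j)) + b) - 1) ≤ C := by
  have hpi := Real.pi_pos
  set D : (Fin 3 → ℝ) → ℝ := fun k => ∑ j, (1 - Real.cos (k j)) with hD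
  have hD0 : ∀ k, 0 ≤ D k := fun k => Finset.sum_nonneg fun j _ => by
    have := Real.cos_le_one (k j); linarith
  have hDc : Continuous D := by rw [hD]; fun_prop
  set g : ℕ → (Fin 3 → ℝ) → ℝ := fun R k =>
    ∑ r ∈ Finset.range R, Real.exp (-(((r : ℝ) + 1) * (a * D k + b))) with hg
  set f : (Fin 3 → ℝ) → ℝ := fun k => 1 / (Real.exp (a * D k + b) - 1) with hf
  have hgc : ∀ R, Continuous (g R) := fun R => by
    rw [hg]; fun_prop
  have hg0 : ∀ R k, 0 ≤ g R k := fun R k => Finset.sum_nonneg fun r _ => (Real.exp_pos _).le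
  have hf0 : ∀ k, 0 ≤ f k := by
    intro k
    have h1 : 0 ≤ a * D k + b := by have := hD0 k; positivity
    have h2 : 1 ≤ Real.exp (a * D k + b) := Real.one_le_exp h1
    exact div_nonneg zero_le_one (by linarith)
  have hfm : Measurable f := by
    rw [hf]
    exact measurable_const.div ((Real.continuous_exp.comp
      ((continuous_const.mul hDc).add continuous_const)).measurable.sub measurable_const)
  -- integrals of partial sums
  have hgint : ∀ R, ∫ k in cube, g R k = (2 * Real.pi) ^ 3 *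
      ∑ r ∈ Finset.range R, Real.exp (-(((r : ℝ) + 1) * b)) * (bJ (((r : ℝ) + 1) * a)) ^ 3 := by
    intro R
    simp only [hg]
    rw [integral_finsetSum, Finset.mul_sum]
    · refine Finset.sum_congr rfl fun r _ => ?_
      have e : ∀ k, Real.exp (-(((r : ℝ) + 1) * (a * D k + b))) =
          Real.exp (-(((r : ℝ) + 1) * b)) * Real.exp (-(((r : ℝ) + 1) * a) * D k) := by
        intro k; rw [← Real.exp_add]; congr 1; ring
      simp only [e]
      rw [integral_const_mul]
      have := integral_cube_exp (((r : ℝ) + 1) * a)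
      simp only [hD]
      rw [this]; ring
    · intro r _
      have : Continuous (fun k => Real.exp (-(((r : ℝ) + 1) * (a * D k + b)))) := by fun_prop
      exact (this.continuousOn.integrableOn_compact (isCompact_univ_pi fun _ => isCompact_Icc))
  have hgI : ∀ R, IntegrableOn (g R) cube := fun R =>
    (hgc R).continuousOn.integrableOn_compact (isCompact_univ_pi fun _ => isCompact_Icc)
  have hC' : ∀ R, ∫ k in cube, g R k ≤ (2 * Real.pi) ^ 3 * C := by
    intro R
    rw [hgint]
    exact mul_le_mul_of_nonneg_left (hC R) (by positivity)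
  have hC0 : 0 ≤ (2 * Real.pi) ^ 3 * C := by
    have := hC' 0
    simp only [hg, Finset.range_zero, Finset.sum_empty, integral_zero] at this
    exact this
  -- a.e. convergence
  have hae : ∀ᵐ k ∂(volume.restrict cube), Tendsto (fun R => ENNReal.ofReal (g R k)) atTop
      (𝓝 (ENNReal.ofReal (f k))) := by
    have h0 : ∀ᵐ k : Fin 3 → ℝ ∂(volume.restrict cube), k 0 ≠ 0 := by
      refine ae_restrict_of_ae ?_
      rw [volume_pi]
      exact Measure.ae_eval_ne (fun _ => (volume : Measure ℝ)) 0 0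
    have hmem : ∀ᵐ k : Fin 3 → ℝ ∂(volume.restrict cube), k ∈ cube :=
      ae_restrict_mem (MeasurableSet.univ_pi fun _ => measurableSet_Icc)
    filter_upwards [h0, hmem] with k hk hkc
    have hDpos : 0 < D k := by
      have h1 : 0 < 1 - Real.cos (k 0) := by
        have hk0 := hkc 0 (Set.mem_univ _)
        have h2 : Real.cos (k 0) ≠ 1 := by
          intro h
          have h3 := (Real.cos_eq_one_iff_of_lt_of_lt (by linarith [hk0.1]) (by linarith [hk0.2])).1 h
          exact hk h3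
        have := lt_of_le_of_ne (Real.cos_le_one (k 0)) h2
        linarith
      refine Finset.sum_pos' (fun j _ => ?_) ⟨0, Finset.mem_univ _, h1⟩
      have := Real.cos_le_one (k j); linarith
    have hy : 0 < a * D k + b := by positivity
    exact (ENNReal.continuous_ofReal.tendsto _).comp (bose_tendsto hy)
  have hmono : ∀ᵐ k ∂(volume.restrict cube), Monotone fun R => ENNReal.ofReal (g R k) := by
    refine Eventually.of_forall fun k => monotone_nat_of_le_succ fun R => ?_
    refine ENNReal.ofReal_le_ofReal ?_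
    simp only [hg]
    rw [Finset.sum_range_succ]
    have := (Real.exp_pos (-(((R : ℝ) + 1) * (a * D k + b)))).le
    linarith
  have hlim := lintegral_tendsto_of_tendsto_of_monotone
    (fun R => ((hgc R).measurable.ennreal_ofReal).aemeasurable) hmono hae
  have hle : ∫⁻ k in cube, ENNReal.ofReal (f k) ≤ ENNReal.ofReal ((2 * Real.pi) ^ 3 * C) := by
    refine le_of_tendsto hlim (Eventually.of_forall fun R => ?_)
    rw [← ofReal_integral_eq_lintegral_ofReal (hgI R) (Eventually.of_forall fun k => hg0 R k)]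
    exact ENNReal.ofReal_le_ofReal (hC' R)
  have hfI : IntegrableOn f cube := by
    refine ⟨hfm.aestronglyMeasurable, ?_⟩
    rw [hasFiniteIntegral_iff_ofReal (Eventually.of_forall hf0)]
    exact hle.trans_lt ENNReal.ofReal_lt_top
  refine ⟨hfI, ?_⟩
  have hint : ∫ k in cube, f k ≤ (2 * Real.pi) ^ 3 * C := by
    rw [integral_eq_lintegral_of_nonneg_ae (Eventually.of_forall hf0) hfm.aestronglyMeasurable]
    exact ENNReal.toReal_le_of_le_ofReal hC0 hle
  have h8 : 0 < ((2 * Real.pi) ^ 3)⁻¹ := by positivity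
  calc ((2 * Real.pi) ^ 3)⁻¹ * ∫ k in cube, f k
      ≤ ((2 * Real.pi) ^ 3)⁻¹ * ((2 * Real.pi) ^ 3 * C) := mul_le_mul_of_nonneg_left hint h8.le
    _ = C := by rw [← mul_assoc, inv_mul_cancel₀ (by positivity), one_mul]

end Vale.Agent.P361.H
end

section

/-!
P361, low-temperature order: the statements of the blocks of note 9886 and the step of the bootstrap from them.
-/

namespace Vale.Agent.P361.LRO

open Filter Finset Matrix

noncomputable section

/-- `D_b = (4 / |b|²) ∑_{pairs} <h_xy>` (here as a sum over ordered pairs) -/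
def Dst {V : Type} [Fintype V] [DecidableEq V] (L : List (V × V)) (β : ℝ) (h : V → ℝ)
    (b : Finset V) : ℝ :=
  2 / (b.card : ℝ) ^ 2 * ∑ x ∈ b, ∑ y ∈ b, gib L β h (hM x y)

/-- `η = β ^ (-1/100)` -/
def etaB (β : ℝ) : ℝ := β ^ (-(1 / 100) : ℝ)

/-- **Block (1)**, the block twist. -/
def PTwist : Prop :=
  ∃ C : ℝ, 0 < C ∧ ∀ (V : Type) [Fintype V] [DecidableEq V] (L : List (V × V)),
    (∀ e ∈ L, e.1 ≠ e.2) → ∀ β : ℝ, 0 < β → ∀ h : V → ℝ, (∀ x, 0 < h x ∧ h x ≤ 1) →
      ∀ (b : Finset V) (K κ : ℝ), b.Nonempty → 10 ≤ K → K ≤ b.card → 0 < κ →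
        (∃ᶠ N : ℕ in atTop, κ ≤ kap L β N h K b) →
          (∑ x ∈ b, rho L β h x) / b.card ≤ C / κ + C * (1 + K) ^ 4 * Dst L β h b

/-- **Block (7)**, the energy. -/
def PEnergy (q : ℕ) : Prop :=
  ∃ C : ℝ, 0 < C ∧ ∀ β : ℝ, 1 ≤ β → ∀ (n : ℕ) [NeZero n] (w m : ℕ), 0 < w → 0 < m →
    3 * (w * m) ≤ n → ∀ h : Tor n → ℝ, (∀ x, 0 < h x ∧ h x ≤ 1) → ∀ x0 : Tor n,
      ∑ y : Fin 3 → Fin m,
          Dst (edges n) β h (cube n (x0 + fun i => ((w * (y i : ℕ) : ℕ) : ZMod n)) w) ≤
        (m : ℝ) ^ 3 * (C * (w : ℝ) ^ q * (1 / β + 1 / ((w : ℝ) * m)))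

/-- **Block (8)**, regularity (Lee-Yang and Harnack). -/
def PHarn : Prop :=
  ∀ (V : Type) [Fintype V] [DecidableEq V] (L : List (V × V)), (∀ e ∈ L, e.1 ≠ e.2) →
    ∀ β : ℝ, 0 < β → ∀ h h' : V → ℝ, (∀ x, 0 < h x) → (∀ x, 0 < h' x) → ∀ d : ℝ, 0 ≤ d →
      3 * d < Real.pi / 2 → (∀ x, |Real.log (h x) - Real.log (h' x)| ≤ d) → ∀ z,
        0 < 1 - 2 * rho L β h z ∧
        1 / (1 - 2 * rho L β h' z) - 1 ≤ 2 * (1 / (1 - 2 * rho L β h z) - 1) + 9 / 2 * d ^ 2

/-- **Translations.** -/
def PTrans : Prop :=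
  ∀ (n : ℕ) [NeZero n] (β : ℝ) (h : Tor n → ℝ) (v x : Tor n),
    rho (edges n) β (fun y => h (y + v)) x = rho (edges n) β h (x + v)

/-- **Blocks (2)-(6)**: the lower bound for `κ_b` in the bootstrap. -/
def PSix (w : ℝ → ℕ) (lam : ℝ → ℝ) : Prop :=
  ∃ c : ℝ, 0 < c ∧ ∀ A : ℝ, 0 < A → ∀ᶠ β : ℝ in atTop, ∀ᶠ n : ℕ in atTop, Odd n →
    ∀ [NeZero n] (h0 : ℝ), (n : ℝ) ^ (-(1 / 4) : ℝ) ≤ h0 → h0 ≤ 1 →
      (∀ h, Fam n h0 (lam β) h → ∀ x, rho (edges n) β h x ≤ etaB β) →
      ∀ h, Fam n h0 (lam β) h → ∀ x, ∃ᶠ N : ℕ in atTop,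
        c * (A / etaB β) ≤ kap (edges n) β N h (A / etaB β) (cube n x (w β))

/-- the conditions on the parameters: `w` side of the blocks, `w * m` side of the cubes,
`lam` = inverse of `L₀` -/
def Par (q : ℕ) (w m : ℝ → ℕ) (lam : ℝ → ℝ) : Prop :=
  ∀ A C : ℝ, 0 < A → 0 < C → ∀ᶠ β : ℝ in atTop, 0 < w β ∧ 0 < m β ∧ 0 ≤ lam β ∧
    10 ≤ A / etaB β ∧ A / etaB β ≤ (w β : ℝ) ^ 3 ∧
    (1 + A / etaB β) ^ 4 * (C * (w β : ℝ) ^ q * (1 / β + 1 / ((w β : ℝ) * m β))) ≤
      etaB β / 32 ∧
    9 / 2 * (3 * (w β * m β) * lam β) ^ 2 ≤ etaB β / 7 ∧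
    3 * (3 * (w β * m β) * lam β) < Real.pi / 2

/-- **The step of the bootstrap.** -/
def PStep (lam : ℝ → ℝ) : Prop :=
  ∀ᶠ β : ℝ in atTop, ∀ᶠ n : ℕ in atTop, Odd n → ∀ [NeZero n] (h0 : ℝ),
    (n : ℝ) ^ (-(1 / 4) : ℝ) ≤ h0 → h0 ≤ 1 →
      (∀ h, Fam n h0 (lam β) h → ∀ x, rho (edges n) β h x ≤ etaB β) →
      ∀ h, Fam n h0 (lam β) h → ∀ x, rho (edges n) β h x ≤ etaB β / 2

end

end Vale.Agent.P361.LRO
end

section

/-!
P361, block (1): scalar part of the block twist.
-/

namespace Vale.Agent.P361.LRO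

open Finset MeasureTheory intervalIntegral

/-! ## The twist integral -/

/-- `Z(t) = c ∏ (1 - p_j (1 - t))` -/
noncomputable def zt {ι : Type*} [Fintype ι] (c : ℝ) (p : ι → ℝ) (t : ℝ) : ℝ :=
  c * ∏ j, (1 - p j * (1 - t))

theorem zt_nonneg {ι : Type*} [Fintype ι] {c : ℝ} {p : ι → ℝ} (hc : 0 ≤ c)
    (hp0 : ∀ j, 0 ≤ p j) (hp1 : ∀ j, p j ≤ 1 / 2) {t : ℝ} (ht : -1 ≤ t) :
    0 ≤ zt c p t := by
  unfold zt
  refine mul_nonneg hc (prod_nonneg fun j _ => ?_)
  have h1 : p j * (1 - t) ≤ 1 / 2 * 2 := by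
    have := hp0 j
    have := hp1 j
    nlinarith
  linarith

theorem continuous_zt {ι : Type*} [Fintype ι] (c : ℝ) (p : ι → ℝ) : Continuous (zt c p) := by
  unfold zt
  fun_prop

theorem hasDerivAt_zt {ι : Type*} [Fintype ι] [DecidableEq ι] (c : ℝ) (p : ι → ℝ) (t : ℝ) :
    HasDerivAt (zt c p) (c * ∑ j, (∏ i ∈ univ.erase j, (1 - p i * (1 - t))) * p j) t := by
  unfold zt
  have h : ∀ j ∈ (univ : Finset ι), HasDerivAt (fun t => 1 - p j * (1 - t)) (p j) t := by
    intro j _
    have h1 : HasDerivAt (fun t : ℝ => 1 - t) (-1) t := by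
      simpa using (hasDerivAt_id t).const_sub 1
    have h2 := (h1.const_mul (p j)).const_sub 1
    simpa using h2
  have h3 := HasDerivAt.fun_finsetProd h
  simp only [smul_eq_mul] at h3
  exact h3.const_mul c

/-- `κ ∫ (1-t) Z ≤ ∫ Z`. -/
theorem zint {ι : Type*} [Fintype ι] {c : ℝ} {p : ι → ℝ} (hc : 0 ≤ c)
    (hp0 : ∀ j, 0 ≤ p j) (hp1 : ∀ j, p j ≤ 1 / 2) :
    (∑ j, p j) * ∫ t in (-1 : ℝ)..1, (1 - t) * zt c p t ≤ ∫ t in (-1 : ℝ)..1, zt c p t := by
  classical
  have hcz := continuous_zt c p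
  set D : ℝ → ℝ := fun t => c * ∑ j, (∏ i ∈ univ.erase j, (1 - p i * (1 - t))) * p j with hD
  have hcD : Continuous D := by
    rw [hD]
    refine continuous_const.mul (continuous_finsetSum _ fun j _ => ?_)
    exact (continuous_finsetProd _ fun i _ => by fun_prop).mul continuous_const
  have hder : ∀ t, HasDerivAt (zt c p) (D t) t := fun t => hasDerivAt_zt c p t
  have hge : ∀ t ∈ Set.Icc (-1 : ℝ) 1, (∑ j, p j) * zt c p t ≤ D t := by
    intro t ht
    rw [hD]
    simp only
    unfold zt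
    rw [← mul_assoc, mul_comm (∑ j, p j) c, mul_assoc]
    refine mul_le_mul_of_nonneg_left ?_ hc
    rw [sum_mul]
    refine sum_le_sum fun j _ => ?_
    rw [← mul_prod_erase univ _ (mem_univ j)]
    have hf : ∀ i, 0 ≤ 1 - p i * (1 - t) := by
      intro i
      have := hp0 i
      have := hp1 i
      have := ht.1
      have := ht.2
      nlinarith
    have hprod : 0 ≤ ∏ i ∈ univ.erase j, (1 - p i * (1 - t)) := prod_nonneg fun i _ => hf i
    have hle : 1 - p j * (1 - t) ≤ 1 := by
      have := hp0 j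
      have := ht.2
      nlinarith
    have := mul_le_mul_of_nonneg_right hle hprod
    nlinarith [hp0 j]
  -- integration by parts for (1-t) Z
  have hparts : ∫ t in (-1 : ℝ)..1, ((-1) * zt c p t + (1 - t) * D t) =
      (1 - 1) * zt c p 1 - (1 - (-1)) * zt c p (-1) := by
    have h : ∀ t ∈ Set.uIcc (-1 : ℝ) 1, HasDerivAt (fun t => (1 - t) * zt c p t)
        ((-1) * zt c p t + (1 - t) * D t) t := by
      intro t _
      have h1 : HasDerivAt (fun t : ℝ => 1 - t) (-1) t := by
        simpa using (hasDerivAt_id t).const_sub 1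
      exact h1.mul (hder t)
    have hint : IntervalIntegrable (fun t => (-1) * zt c p t + (1 - t) * D t) volume (-1) 1 := by
      apply Continuous.intervalIntegrable
      fun_prop
    exact intervalIntegral.integral_eq_sub_of_hasDerivAt h hint
  have i1 : IntervalIntegrable (fun t => (-1) * zt c p t) volume (-1) 1 := by
    apply Continuous.intervalIntegrable; fun_prop
  have i2 : IntervalIntegrable (fun t => (1 - t) * D t) volume (-1) 1 := by
    apply Continuous.intervalIntegrable; fun_prop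
  rw [intervalIntegral.integral_add i1 i2, intervalIntegral.integral_const_mul] at hparts
  have hmono : ∫ t in (-1 : ℝ)..1, (∑ j, p j) * ((1 - t) * zt c p t) ≤
      ∫ t in (-1 : ℝ)..1, (1 - t) * D t := by
    refine intervalIntegral.integral_mono_on (by norm_num) ?_ i2 ?_
    · apply Continuous.intervalIntegrable; fun_prop
    · intro t ht
      have h1 := hge t ht
      have h2 : 0 ≤ 1 - t := by linarith [ht.2]
      nlinarith [mul_le_mul_of_nonneg_left h1 h2]
  rw [intervalIntegral.integral_const_mul] at hmono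
  have hz : 0 ≤ zt c p (-1) := zt_nonneg hc hp0 hp1 le_rfl
  linarith

/-! ## Spin averages, `J = N / 2` -/

/-- `A(J) = avg_{M=-J..J} e^{kM}`, `N = 2J`. -/
noncomputable def sA (k : ℝ) (N : ℕ) : ℝ :=
  (∑ j ∈ range (N + 1), Real.exp (k * ((N : ℝ) / 2 - j))) / ((N : ℝ) + 1)

/-- `b(J) = ∑ M e^{kM} / (J (J+1) (2J+1))`, `N = 2J`. -/
noncomputable def sB (k : ℝ) (N : ℕ) : ℝ :=
  (∑ j ∈ range (N + 1), ((N : ℝ) / 2 - j) * Real.exp (k * ((N : ℝ) / 2 - j))) /
    (((N : ℝ) + 1) * ((N : ℝ) / 2) * ((N : ℝ) / 2 + 1))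

theorem sA_pos (k : ℝ) (N : ℕ) : 0 < sA k N := by
  unfold sA
  refine div_pos (sum_pos (fun j _ => Real.exp_pos _) ⟨0, by simp⟩) (by positivity)

theorem sA_step_lower {k : ℝ} (hk : 0 ≤ k) (N : ℕ) : Real.exp (-k) * sA k (N + 2) ≤ sA k N := by
  unfold sA
  have hN : (0 : ℝ) < (N : ℝ) + 1 := by positivity
  have h1 : Real.exp (-k) * ∑ j ∈ range (N + 2 + 1), Real.exp (k * (((N + 2 : ℕ) : ℝ) / 2 - j)) =
      (∑ j ∈ range (N + 1), Real.exp (k * ((N : ℝ) / 2 - j))) +
        Real.exp (k * ((N : ℝ) / 2 - (N + 1 : ℕ))) + Real.exp (k * ((N : ℝ) / 2 - (N + 2 : ℕ))) := by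
    rw [mul_sum, ← sum_range_succ, ← sum_range_succ]
    refine sum_congr rfl fun j _ => ?_
    rw [← Real.exp_add]
    congr 1
    push_cast
    ring
  have hmin : ∀ j ∈ range (N + 1), Real.exp (k * ((N : ℝ) / 2 - N)) ≤
      Real.exp (k * ((N : ℝ) / 2 - j)) := by
    intro j hj
    apply Real.exp_le_exp.2
    have : (j : ℝ) ≤ N := by exact_mod_cast Nat.lt_succ_iff.1 (mem_range.1 hj)
    exact mul_le_mul_of_nonneg_left (by linarith) hk
  have hsum : ((N : ℝ) + 1) * Real.exp (k * ((N : ℝ) / 2 - N)) ≤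
      ∑ j ∈ range (N + 1), Real.exp (k * ((N : ℝ) / 2 - j)) := by
    have := sum_le_sum hmin
    simpa using this
  have e1 : Real.exp (k * ((N : ℝ) / 2 - (N + 1 : ℕ))) ≤ Real.exp (k * ((N : ℝ) / 2 - N)) := by
    apply Real.exp_le_exp.2
    push_cast
    exact mul_le_mul_of_nonneg_left (by linarith) hk
  have e2 : Real.exp (k * ((N : ℝ) / 2 - (N + 2 : ℕ))) ≤ Real.exp (k * ((N : ℝ) / 2 - N)) := by
    apply Real.exp_le_exp.2
    push_cast
    exact mul_le_mul_of_nonneg_left (by linarith) hk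
  have m1 := mul_le_mul_of_nonneg_right e1 hN.le
  have m2 := mul_le_mul_of_nonneg_right e2 hN.le
  rw [← mul_div_assoc, h1, div_le_div_iff₀ (by positivity) hN]
  push_cast at m1 m2 ⊢
  linarith

theorem sA_eq_cosh (k : ℝ) (N : ℕ) :
    sA k N = (∑ j ∈ range (N + 1), Real.cosh (k * ((N : ℝ) / 2 - j))) / ((N : ℝ) + 1) := by
  unfold sA
  congr 1
  have h : ∑ j ∈ range (N + 1), Real.exp (k * ((N : ℝ) / 2 - j)) =
      ∑ j ∈ range (N + 1), Real.exp (-(k * ((N : ℝ) / 2 - j))) := by
    rw [← sum_range_reflect]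
    refine sum_congr rfl fun j hj => ?_
    have hj' : j ≤ N := Nat.lt_succ_iff.1 (mem_range.1 hj)
    congr 1
    rw [show N + 1 - 1 - j = N - j by omega, Nat.cast_sub hj']
    ring
  have h2 : ∑ j ∈ range (N + 1), Real.cosh (k * ((N : ℝ) / 2 - j)) =
      ((∑ j ∈ range (N + 1), Real.exp (k * ((N : ℝ) / 2 - j))) +
        ∑ j ∈ range (N + 1), Real.exp (-(k * ((N : ℝ) / 2 - j)))) / 2 := by
    rw [← sum_add_distrib, sum_div]
    exact sum_congr rfl fun j _ => Real.cosh_eq _
  rw [h2, ← h]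
  ring

theorem sA_step_upper (k : ℝ) (N : ℕ) : sA k N ≤ sA k (N + 2) := by
  rw [sA_eq_cosh, sA_eq_cosh]
  have hN : (0 : ℝ) < (N : ℝ) + 1 := by positivity
  have h1 : ∑ j ∈ range (N + 2 + 1), Real.cosh (k * (((N + 2 : ℕ) : ℝ) / 2 - j)) =
      (∑ j ∈ range (N + 1), Real.cosh (k * ((N : ℝ) / 2 - j))) +
        Real.cosh (k * ((N : ℝ) / 2 + 1)) + Real.cosh (k * ((N : ℝ) / 2 + 1)) := by
    rw [sum_range_succ', sum_range_succ]
    have e0 : ∑ j ∈ range (N + 1), Real.cosh (k * (((N + 2 : ℕ) : ℝ) / 2 - (j + 1 : ℕ))) =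
        ∑ j ∈ range (N + 1), Real.cosh (k * ((N : ℝ) / 2 - j)) := by
      refine sum_congr rfl fun j _ => ?_
      congr 1
      push_cast
      ring
    rw [e0]
    have e1 : Real.cosh (k * (((N + 2 : ℕ) : ℝ) / 2 - ((N + 1 : ℕ) + 1 : ℕ))) =
        Real.cosh (k * ((N : ℝ) / 2 + 1)) := by
      rw [← Real.cosh_neg]
      congr 1
      push_cast
      ring
    have e2 : Real.cosh (k * (((N + 2 : ℕ) : ℝ) / 2 - (0 : ℕ))) =
        Real.cosh (k * ((N : ℝ) / 2 + 1)) := by
      congr 1
      push_cast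
      ring
    rw [e1, e2]
  have hmax : ∀ j ∈ range (N + 1), Real.cosh (k * ((N : ℝ) / 2 - j)) ≤
      Real.cosh (k * ((N : ℝ) / 2 + 1)) := by
    intro j hj
    rw [Real.cosh_le_cosh]
    have : (j : ℝ) ≤ N := by exact_mod_cast Nat.lt_succ_iff.1 (mem_range.1 hj)
    have hj0 : (0 : ℝ) ≤ j := by positivity
    rw [abs_mul, abs_mul]
    refine mul_le_mul_of_nonneg_left ?_ (abs_nonneg k)
    rw [abs_le, abs_of_nonneg (by positivity : (0 : ℝ) ≤ (N : ℝ) / 2 + 1)]
    constructor <;> linarith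
  have hsum : ∑ j ∈ range (N + 1), Real.cosh (k * ((N : ℝ) / 2 - j)) ≤
      ((N : ℝ) + 1) * Real.cosh (k * ((N : ℝ) / 2 + 1)) := by
    have := sum_le_sum hmax
    simpa using this
  rw [h1, div_le_div_iff₀ hN (by positivity)]
  push_cast
  nlinarith

theorem sA_mono (k : ℝ) (N m : ℕ) : sA k N ≤ sA k (N + 2 * m) := by
  induction m with
  | zero => simp
  | succ m ih =>
    refine ih.trans ?_
    have := sA_step_upper k (N + 2 * m)
    rwa [show N + 2 * m + 2 = N + 2 * (m + 1) by ring] at this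

theorem sA_lower {k : ℝ} (hk : 0 ≤ k) (N m : ℕ) :
    Real.exp (-(k * m)) * sA k (N + 2 * m) ≤ sA k N := by
  induction m with
  | zero => simp
  | succ m ih =>
    have h := sA_step_lower hk (N + 2 * m)
    rw [show N + 2 * m + 2 = N + 2 * (m + 1) by ring] at h
    refine le_trans ?_ ih
    have e : Real.exp (-(k * ((m + 1 : ℕ) : ℝ))) = Real.exp (-(k * m)) * Real.exp (-k) := by
      rw [← Real.exp_add]
      congr 1
      push_cast
      ring
    rw [e, mul_assoc]
    exact mul_le_mul_of_nonneg_left h (Real.exp_pos _).le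

theorem sB_nonneg {k : ℝ} (hk : 0 ≤ k) (N : ℕ) : 0 ≤ sB k N := by
  unfold sB
  refine div_nonneg ?_ (by positivity)
  have h : ∑ j ∈ range (N + 1), ((N : ℝ) / 2 - j) * Real.exp (k * ((N : ℝ) / 2 - j)) =
      ∑ j ∈ range (N + 1), (-((N : ℝ) / 2 - j)) * Real.exp (-(k * ((N : ℝ) / 2 - j))) := by
    rw [← sum_range_reflect]
    refine sum_congr rfl fun j hj => ?_
    have hj' : j ≤ N := Nat.lt_succ_iff.1 (mem_range.1 hj)
    rw [show N + 1 - 1 - j = N - j by omega, Nat.cast_sub hj']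
    congr 1
    · ring
    · congr 1
      ring
  have h2 : 0 ≤ (∑ j ∈ range (N + 1), ((N : ℝ) / 2 - j) * Real.exp (k * ((N : ℝ) / 2 - j))) +
      ∑ j ∈ range (N + 1), ((N : ℝ) / 2 - j) * Real.exp (k * ((N : ℝ) / 2 - j)) := by
    nth_rewrite 2 [h]
    rw [← sum_add_distrib]
    refine sum_nonneg fun j _ => ?_
    have e : ((N : ℝ) / 2 - j) * Real.exp (k * ((N : ℝ) / 2 - j)) +
        (-((N : ℝ) / 2 - j)) * Real.exp (-(k * ((N : ℝ) / 2 - j))) =
        ((N : ℝ) / 2 - j) * (Real.exp (k * ((N : ℝ) / 2 - j)) -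
          Real.exp (-(k * ((N : ℝ) / 2 - j)))) := by ring
    rw [e]
    rcases le_total 0 ((N : ℝ) / 2 - j) with h0 | h0
    · refine mul_nonneg h0 (sub_nonneg.2 (Real.exp_le_exp.2 ?_))
      have := mul_nonneg hk h0
      linarith
    · refine mul_nonneg_of_nonpos_of_nonpos h0 (sub_nonpos.2 (Real.exp_le_exp.2 ?_))
      have := mul_nonpos_of_nonneg_of_nonpos hk h0
      linarith
  linarith

theorem sB_mul_le (k : ℝ) (N : ℕ) : sB k N * ((N : ℝ) / 2) ≤ sA k N := by
  rcases Nat.eq_zero_or_pos N with rfl | hN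
  · simpa using (sA_pos k 0).le
  have hN' : (0 : ℝ) < N := by exact_mod_cast hN
  unfold sB sA
  have h1 : ∑ j ∈ range (N + 1), ((N : ℝ) / 2 - j) * Real.exp (k * ((N : ℝ) / 2 - j)) ≤
      ((N : ℝ) / 2) * ∑ j ∈ range (N + 1), Real.exp (k * ((N : ℝ) / 2 - j)) := by
    rw [mul_sum]
    refine sum_le_sum fun j _ => mul_le_mul_of_nonneg_right ?_ (Real.exp_pos _).le
    have : (0 : ℝ) ≤ j := by positivity
    linarith
  set S := ∑ j ∈ range (N + 1), Real.exp (k * ((N : ℝ) / 2 - j)) with hS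
  have hS0 : 0 ≤ S := sum_nonneg fun j _ => (Real.exp_pos _).le
  set T := ∑ j ∈ range (N + 1), ((N : ℝ) / 2 - j) * Real.exp (k * ((N : ℝ) / 2 - j))
  have e : T / (((N : ℝ) + 1) * ((N : ℝ) / 2) * ((N : ℝ) / 2 + 1)) * ((N : ℝ) / 2) =
      T / (((N : ℝ) + 1) * ((N : ℝ) / 2 + 1)) := by
    field_simp
  rw [e, div_le_div_iff₀ (by positivity) (by positivity)]
  have : T * ((N : ℝ) + 1) ≤ ((N : ℝ) / 2) * S * ((N : ℝ) + 1) :=
    mul_le_mul_of_nonneg_right h1 (by positivity)
  nlinarith [mul_nonneg hS0 hN'.le]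

/-- scalar inequality `A (1 - M/J) ≤ 2 (A - b M)` for `|M| ≤ J`, `0 ≤ b`, `b J ≤ A`. -/
theorem one_sub_le {A b J M : ℝ} (hJ : 0 < J) (hb : 0 ≤ b) (hbJ : b * J ≤ A) (h1 : -J ≤ M)
    (h2 : M ≤ J) : A * (1 - M / J) ≤ 2 * (A - b * M) := by
  have hA : 0 ≤ A := le_trans (mul_nonneg hb hJ.le) hbJ
  have e : 2 * (A - b * M) - A * (1 - M / J) = ((A * (J + M)) - 2 * b * J * M) / J := by
    field_simp
    ring
  have h : 0 ≤ ((A * (J + M)) - 2 * b * J * M) / J := by
    refine div_nonneg ?_ hJ.le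
    rcases le_total 0 M with h0 | h0
    · nlinarith [mul_le_mul_of_nonneg_right hbJ h0]
    · have : 0 ≤ -(b * J * M) := by
        have := mul_nonneg (mul_nonneg hb hJ.le) (neg_nonneg.2 h0)
        linarith
      nlinarith [mul_nonneg hA (by linarith : 0 ≤ J + M)]
  linarith

/-- The final inequality of (1) for a joint law of `(J, M)`: `J = N/2`, `N = Nmax - 2 m`,
`Nmax = |b|`, `d = m / |b|`, `rhobar = avg (1/2 - M/|b|)`. -/
theorem rhobar_le {ι : Type*} [Fintype ι] (w : ι → ℝ) (hw : ∀ i, 0 ≤ w i) (hw1 : ∑ i, w i = 1)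
    (N : ι → ℕ) (m : ι → ℕ) (Nb : ℕ) (hNb : 0 < Nb) (hN : ∀ i, N i + 2 * m i = Nb) (M : ι → ℝ)
    (hM1 : ∀ i, -((N i : ℝ) / 2) ≤ M i) (hM2 : ∀ i, M i ≤ (N i : ℝ) / 2) {k κ : ℝ} (hk : 0 ≤ k)
    (hκ : 0 < κ)
    (h : κ * ∑ i, w i * (sA k (N i) - sB k (N i) * M i) ≤ ∑ i, w i * sA k (N i)) :
    ∑ i, w i * (1 / 2 - M i / Nb) ≤
      (1 + k * Nb) * (∑ i, w i * ((m i : ℝ) / Nb)) + Real.exp 1 / κ := by
  have hNb' : (0 : ℝ) < Nb := by exact_mod_cast hNb
  have hNi : ∀ i, ((N i : ℝ)) / 2 = (Nb : ℝ) / 2 - m i := by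
    intro i
    have : ((N i : ℝ)) + 2 * m i = Nb := by exact_mod_cast hN i
    linarith
  set Amax := sA k Nb with hAmax
  have hAp : 0 < Amax := sA_pos k Nb
  have hAle : ∀ i, sA k (N i) ≤ Amax := by
    intro i
    have := sA_mono k (N i) (m i)
    rwa [hN i] at this
  have hAge : ∀ i, Real.exp (-(k * m i)) * Amax ≤ sA k (N i) := by
    intro i
    have := sA_lower hk (N i) (m i)
    rwa [hN i] at this
  -- pointwise bound
  have hpt : ∀ i, (1 / 2 - M i / Nb) ≤ (1 + k * Nb) * ((m i : ℝ) / Nb) +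
      Real.exp 1 / Amax * (sA k (N i) - sB k (N i) * M i) := by
    intro i
    have hG : 0 ≤ sA k (N i) - sB k (N i) * M i := by
      have h1 := sB_nonneg hk (N i)
      have h2 := sB_mul_le k (N i)
      nlinarith [mul_le_mul_of_nonneg_left (hM2 i) h1]
    have hm0 : (0 : ℝ) ≤ m i := by positivity
    have hd0 : 0 ≤ (m i : ℝ) / Nb := by positivity
    have hsplit : 1 / 2 - M i / Nb = (m i : ℝ) / Nb + ((N i : ℝ) / 2 - M i) / Nb := by
      rw [hNi i]
      field_simp
      ring
    rcases Nat.eq_zero_or_pos (N i) with h0 | h0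
    · have hM0 : (N i : ℝ) / 2 - M i ≤ 0 := by
        have := hM1 i
        rw [h0] at this ⊢
        simp at this ⊢
        linarith
      have : ((N i : ℝ) / 2 - M i) / Nb ≤ 0 := div_nonpos_of_nonpos_of_nonneg hM0 hNb'.le
      have e1 : 0 ≤ k * Nb * ((m i : ℝ) / Nb) := by positivity
      have e2 : 0 ≤ Real.exp 1 / Amax * (sA k (N i) - sB k (N i) * M i) :=
        mul_nonneg (by positivity) hG
      rw [hsplit]
      nlinarith
    have hN0 : (0 : ℝ) < N i := by exact_mod_cast h0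
    have hJ : (0 : ℝ) < (N i : ℝ) / 2 := by positivity
    have hNle : (N i : ℝ) ≤ Nb := by
      have := hNi i
      linarith
    -- (N/2 - M)/Nb ≤ (1/2)(1 - M/J)
    have hq0 : 0 ≤ 1 - M i / ((N i : ℝ) / 2) := by
      rw [sub_nonneg, div_le_one hJ]
      exact hM2 i
    have hq : ((N i : ℝ) / 2 - M i) / Nb ≤ 1 / 2 * (1 - M i / ((N i : ℝ) / 2)) := by
      have e : (N i : ℝ) / 2 - M i = (N i : ℝ) / 2 * (1 - M i / ((N i : ℝ) / 2)) := by
        field_simp
      rw [e, mul_div_right_comm]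
      refine mul_le_mul_of_nonneg_right ?_ hq0
      rw [div_le_iff₀ hNb']
      linarith
    have hkey := one_sub_le hJ (sB_nonneg hk (N i)) (sB_mul_le k (N i)) (hM1 i) (hM2 i)
    rcases le_total (k * m i) 1 with hc | hc
    · have hAi : Amax ≤ Real.exp 1 * sA k (N i) := by
        have h1 : Real.exp (-1) * Amax ≤ sA k (N i) :=
          le_trans (mul_le_mul_of_nonneg_right (Real.exp_le_exp.2 (by linarith)) hAp.le) (hAge i)
        have h2 := mul_le_mul_of_nonneg_left h1 (Real.exp_pos 1).le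
        rw [← mul_assoc, ← Real.exp_add] at h2
        simpa using h2
      have h3 : 1 - M i / ((N i : ℝ) / 2) ≤
          Real.exp 1 / Amax * (sA k (N i) * (1 - M i / ((N i : ℝ) / 2))) := by
        rw [← mul_assoc, div_mul_eq_mul_div]
        refine le_mul_of_one_le_left hq0 ?_
        rw [le_div_iff₀ hAp]
        linarith
      have h4 : Real.exp 1 / Amax * (sA k (N i) * (1 - M i / ((N i : ℝ) / 2))) ≤
          Real.exp 1 / Amax * (2 * (sA k (N i) - sB k (N i) * M i)) :=
        mul_le_mul_of_nonneg_left hkey (by positivity)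
      have e1 : 0 ≤ k * Nb * ((m i : ℝ) / Nb) := by positivity
      rw [hsplit]
      nlinarith
    · have h5 : 1 - M i / ((N i : ℝ) / 2) ≤ 2 := by
        have : -1 ≤ M i / ((N i : ℝ) / 2) := by
          rw [le_div_iff₀ hJ]
          linarith [hM1 i]
        linarith
      have h6 : 1 ≤ k * Nb * ((m i : ℝ) / Nb) := by
        rw [mul_assoc, mul_div_cancel₀ _ hNb'.ne']
        exact hc
      have e2 : 0 ≤ Real.exp 1 / Amax * (sA k (N i) - sB k (N i) * M i) :=
        mul_nonneg (by positivity) hG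
      rw [hsplit]
      nlinarith
  have hsum := sum_le_sum fun i (_ : i ∈ univ) => mul_le_mul_of_nonneg_left (hpt i) (hw i)
  refine hsum.trans ?_
  have e1 : ∑ i, w i * ((1 + k * Nb) * ((m i : ℝ) / Nb) +
      Real.exp 1 / Amax * (sA k (N i) - sB k (N i) * M i)) =
      (1 + k * Nb) * (∑ i, w i * ((m i : ℝ) / Nb)) +
        Real.exp 1 / Amax * ∑ i, w i * (sA k (N i) - sB k (N i) * M i) := by
    rw [mul_sum, mul_sum, ← sum_add_distrib]
    exact sum_congr rfl fun i _ => by ring
  rw [e1]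
  have hA1 : ∑ i, w i * sA k (N i) ≤ Amax := by
    calc ∑ i, w i * sA k (N i) ≤ ∑ i, w i * Amax :=
          sum_le_sum fun i _ => mul_le_mul_of_nonneg_left (hAle i) (hw i)
      _ = Amax := by rw [← sum_mul, hw1, one_mul]
  have h7 : ∑ i, w i * (sA k (N i) - sB k (N i) * M i) ≤ Amax / κ := by
    rw [le_div_iff₀ hκ]
    linarith
  have h8 : Real.exp 1 / Amax * ∑ i, w i * (sA k (N i) - sB k (N i) * M i) ≤ Real.exp 1 / κ := by
    refine (mul_le_mul_of_nonneg_left h7 (by positivity)).trans (le_of_eq ?_)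
    field_simp
  linarith

end Vale.Agent.P361.LRO
end

section

/-!
P361, block (1): the rotated slice `rotT` on a block (`Dst` is in `Top.lean`).
-/

namespace Vale.Agent.P361.LRO

open Finset Matrix

noncomputable section

/-- `1 + θ (cos φ σ³ + sin φ σ¹)`. -/
def rotM (θ φ : ℝ) : Matrix (Fin 2) (Fin 2) ℝ :=
  !![1 + θ * Real.cos φ, θ * Real.sin φ; θ * Real.sin φ, 1 - θ * Real.cos φ]

variable {V : Type} [Fintype V] [DecidableEq V]

/-- The product of `rotM θ φ` over the sites of `b`. -/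
def rotT (b : Finset V) (θ φ : ℝ) : Matrix (V → Fin 2) (V → Fin 2) ℝ :=
  Matrix.of fun σ τ => ∏ x, if x ∈ b then rotM θ φ (σ x) (τ x) else if σ x = τ x then 1 else 0

/-- One time step: all gates, then all slices; `p = β / (2N)`. -/
def stepM (L : List (V × V)) (β : ℝ) (h : V → ℝ) (N : ℕ) : Matrix (V → Fin 2) (V → Fin 2) ℝ :=
  (L.map fun e => (1 - β / (2 * N)) • (1 : Matrix (V → Fin 2) (V → Fin 2) ℝ) +
    (β / (2 * N)) • swapM e.1 e.2).prod *
  Matrix.diagonal fun σ : V → Fin 2 => ∏ x, (1 + β * h x / (2 * N) * if σ x = 0 then 1 else -1)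

end

end Vale.Agent.P361.LRO
end

section

/-!
Block (1) of the low temperature order proof (P361): the symmetrisation lemma
`1 - symM A ≤ ½ ∑_{pairs in A} (1 - swap)`.
-/

namespace Vale.Agent.P361.LRO.Tw

open Finset Matrix

set_option linter.unusedSectionVars false

variable {V : Type} [Fintype V] [DecidableEq V]

/-- Number of down spins (`1`) of `σ` in `A`. -/
def dn (A : Finset V) (σ : V → Fin 2) : ℕ := ∑ x ∈ A, (σ x : ℕ)

/-- `σ` and `τ` agree outside `A` and have the same number of down spins in `A`. -/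
def Rel (A : Finset V) (σ τ : V → Fin 2) : Prop :=
  (∀ x, x ∉ A → σ x = τ x) ∧ dn A σ = dn A τ

instance (A : Finset V) (σ τ : V → Fin 2) : Decidable (Rel A σ τ) := by
  unfold Rel; infer_instance

theorem Rel.refl (A : Finset V) (σ : V → Fin 2) : Rel A σ σ := ⟨fun _ _ => rfl, rfl⟩

theorem Rel.symm {A : Finset V} {σ τ : V → Fin 2} (h : Rel A σ τ) : Rel A τ σ :=
  ⟨fun x hx => (h.1 x hx).symm, h.2.symm⟩

theorem Rel.trans {A : Finset V} {σ τ ρ : V → Fin 2} (h : Rel A σ τ) (h' : Rel A τ ρ) :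
    Rel A σ ρ :=
  ⟨fun x hx => (h.1 x hx).trans (h'.1 x hx), h.2.trans h'.2⟩

/-- Averaging over the permutations of `A`. -/
noncomputable def symM (A : Finset V) : Matrix (V → Fin 2) (V → Fin 2) ℝ :=
  Matrix.of fun σ τ => if Rel A σ τ then ((A.card.choose (dn A σ) : ℕ) : ℝ)⁻¹ else 0

theorem dn_insert {a : V} {A : Finset V} (ha : a ∉ A) (σ : V → Fin 2) :
    dn (insert a A) σ = (σ a : ℕ) + dn A σ := by
  unfold dn; rw [Finset.sum_insert ha]

theorem dn_comp_swap {A : Finset V} {x y : V} (hx : x ∈ A) (hy : y ∈ A) (σ : V → Fin 2) :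
    dn A (σ ∘ Equiv.swap x y) = dn A σ := by
  unfold dn
  refine Finset.sum_equiv (Equiv.swap x y) ?_ (fun i _ => rfl)
  intro i
  by_cases h1 : i = x
  · subst h1; simp [hx, hy]
  · by_cases h2 : i = y
    · subst h2; simp [hx, hy]
    · rw [Equiv.swap_apply_of_ne_of_ne h1 h2]

theorem dn_le (A : Finset V) (σ : V → Fin 2) : dn A σ ≤ A.card := by
  unfold dn
  calc ∑ x ∈ A, (σ x : ℕ) ≤ ∑ x ∈ A, 1 := Finset.sum_le_sum fun x _ => by
        have := (σ x).isLt; omega
    _ = A.card := by simp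

theorem swap_comp_swap (x y : V) (σ : V → Fin 2) :
    (σ ∘ Equiv.swap x y) ∘ Equiv.swap x y = σ := by
  funext i; simp

theorem rel_swap_iff {a y : V} {A : Finset V} (ha : a ∉ A) (hy : y ∈ insert a A)
    (σ τ : V → Fin 2) :
    Rel A (σ ∘ Equiv.swap a y) τ ↔ (σ y = τ a ∧ Rel (insert a A) σ τ) := by
  have haA : a ∈ insert a A := Finset.mem_insert_self a A
  have hd : dn (insert a A) (σ ∘ Equiv.swap a y) = dn (insert a A) σ := dn_comp_swap haA hy σ
  rw [dn_insert ha (σ ∘ Equiv.swap a y)] at hd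
  have hsa : (σ ∘ Equiv.swap a y) a = σ y := by simp
  rw [hsa] at hd
  constructor
  · rintro ⟨h1, h2⟩
    have h3 : σ y = τ a := by rw [← hsa]; exact h1 a ha
    refine ⟨h3, ?_, ?_⟩
    · intro x hx
      have hxa : x ≠ a := fun h => hx (h ▸ haA)
      have hxy : x ≠ y := fun h => hx (h ▸ hy)
      have hxA : x ∉ A := fun h => hx (Finset.mem_insert_of_mem h)
      have := h1 x hxA
      simpa [Equiv.swap_apply_of_ne_of_ne hxa hxy] using this
    · rw [dn_insert ha τ, ← hd, h2, h3]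
  · rintro ⟨h3, h1, h2⟩
    refine ⟨?_, ?_⟩
    · intro x hxA
      by_cases hxa : x = a
      · subst hxa; rw [hsa]; exact h3
      · have hx : x ∉ insert a A := by
          intro h; rcases Finset.mem_insert.1 h with h | h
          · exact hxa h
          · exact hxA h
        have hxy : x ≠ y := fun h => hx (h ▸ hy)
        have := h1 x hx
        simpa [Equiv.swap_apply_of_ne_of_ne hxa hxy] using this
    · have h4 := h2
      rw [dn_insert ha τ, ← hd, h3] at h4
      omega

theorem card_filter_one (A : Finset V) (σ : V → Fin 2) :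
    (A.filter fun y => σ y = 1).card = dn A σ := by
  unfold dn
  rw [Finset.card_filter]
  refine Finset.sum_congr rfl fun x _ => ?_
  rcases Fin.exists_fin_two.1 ⟨σ x, rfl⟩ with h | h <;> simp [h]

theorem card_filter_zero (A : Finset V) (σ : V → Fin 2) :
    (A.filter fun y => σ y = 0).card + dn A σ = A.card := by
  rw [← card_filter_one, ← Finset.card_filter_add_card_filter_not (s := A) (fun y => σ y = 0)]
  congr 1
  congr 1
  refine Finset.filter_congr fun x _ => ?_
  constructor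
  · intro h; rw [h]; decide
  · intro h
    rcases Fin.exists_fin_two.1 ⟨σ x, rfl⟩ with h' | h'
    · exact absurd h' h
    · exact h'

/-- The recursion of the symmetrisation kernel. -/
theorem symM_rec {a : V} {A : Finset V} (ha : a ∉ A) (σ τ : V → Fin 2) :
    (((insert a A).card : ℕ) : ℝ) * symM (insert a A) σ τ
      = ∑ y ∈ insert a A, symM A (σ ∘ Equiv.swap a y) τ := by
  have hc : (insert a A).card = A.card + 1 := Finset.card_insert_of_notMem ha
  by_cases hR : Rel (insert a A) σ τ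
  · have hL : symM (insert a A) σ τ
        = (((insert a A).card.choose (dn (insert a A) τ) : ℕ) : ℝ)⁻¹ := by
      unfold symM; simp only [Matrix.of_apply]; rw [if_pos hR, hR.2]
    have hS : ∑ y ∈ insert a A, symM A (σ ∘ Equiv.swap a y) τ
        = ((((insert a A).filter fun y => σ y = τ a).card : ℕ) : ℝ)
            * (((A.card.choose (dn A τ) : ℕ) : ℝ)⁻¹) := by
      rw [Finset.card_filter]
      push_cast
      rw [Finset.sum_mul]
      refine Finset.sum_congr rfl fun y hy => ?_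
      unfold symM; simp only [Matrix.of_apply]
      by_cases h : σ y = τ a
      · have hr : Rel A (σ ∘ Equiv.swap a y) τ := (rel_swap_iff ha hy σ τ).2 ⟨h, hR⟩
        rw [if_pos hr, hr.2]; simp [h]
      · have hr : ¬ Rel A (σ ∘ Equiv.swap a y) τ := fun h' => h ((rel_swap_iff ha hy σ τ).1 h').1
        rw [if_neg hr]; simp [h]
    rw [hL, hS]
    have hdτ := dn_insert ha τ
    have hle := dn_le A τ
    have hpos1 : (0 : ℝ) < ((A.card.choose (dn A τ) : ℕ) : ℝ) := by
      exact_mod_cast Nat.choose_pos hle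
    have hpos2 : (0 : ℝ) < (((insert a A).card.choose (dn (insert a A) τ) : ℕ) : ℝ) := by
      exact_mod_cast Nat.choose_pos (dn_le _ _)
    rw [← div_eq_mul_inv, ← div_eq_mul_inv, div_eq_div_iff hpos2.ne' hpos1.ne']
    rcases Fin.exists_fin_two.1 ⟨τ a, rfl⟩ with h | h
    · -- τ a = 0
      have h0 : τ a = 0 := h
      rw [h0] at hdτ ⊢
      have hcard := card_filter_zero (insert a A) σ
      rw [hR.2] at hcard
      have hdt : dn (insert a A) τ = dn A τ := by rw [hdτ]; simp
      rw [hdt, hc] at hcard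
      rw [hdt, hc]
      have key := Nat.choose_mul_succ_eq A.card (dn A τ)
      have e1 : (Finset.filter (fun y => σ y = 0) (insert a A)).card = A.card + 1 - dn A τ := by
        omega
      rw [e1]
      have key' : ((A.card.choose (dn A τ) * (A.card + 1) : ℕ) : ℝ)
          = (((A.card + 1).choose (dn A τ) * (A.card + 1 - dn A τ) : ℕ) : ℝ) := by
        exact_mod_cast key
      rw [Nat.cast_mul, Nat.cast_mul] at key'
      linarith [key', mul_comm ((A.card.choose (dn A τ) : ℕ) : ℝ) ((A.card + 1 : ℕ) : ℝ),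
        mul_comm (((A.card + 1).choose (dn A τ) : ℕ) : ℝ) ((A.card + 1 - dn A τ : ℕ) : ℝ)]
    · have h1 : τ a = 1 := h
      rw [h1] at hdτ ⊢
      have hcard := card_filter_one (insert a A) σ
      rw [hR.2] at hcard
      have hdt : dn (insert a A) τ = dn A τ + 1 := by rw [hdτ]; simp [add_comm]
      rw [hdt] at hcard
      rw [hcard, hdt, hc]
      have key := Nat.add_one_mul_choose_eq A.card (dn A τ)
      have key' : (((A.card + 1) * A.card.choose (dn A τ) : ℕ) : ℝ)
          = (((A.card + 1).choose (dn A τ + 1) * (dn A τ + 1) : ℕ) : ℝ) := by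
        exact_mod_cast key
      rw [Nat.cast_mul, Nat.cast_mul] at key'
      linarith [key', mul_comm (((A.card + 1).choose (dn A τ + 1) : ℕ) : ℝ)
        ((dn A τ + 1 : ℕ) : ℝ)]
  · have hL : symM (insert a A) σ τ = 0 := by
      unfold symM; simp only [Matrix.of_apply]; rw [if_neg hR]
    rw [hL, mul_zero]
    symm
    refine Finset.sum_eq_zero fun y hy => ?_
    unfold symM; simp only [Matrix.of_apply]
    rw [if_neg fun h' => hR ((rel_swap_iff ha hy σ τ).1 h').2]

theorem symM_empty : symM (∅ : Finset V) = 1 := by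
  ext σ τ
  unfold symM; simp only [Matrix.of_apply]
  by_cases h : σ = τ
  · subst h; rw [if_pos (Rel.refl _ _)]; simp [dn]
  · rw [if_neg, Matrix.one_apply_ne h]
    intro h'; exact h (funext fun x => h'.1 x (Finset.notMem_empty x))

theorem symM_rowsum (A : Finset V) : ∀ σ : V → Fin 2, ∑ τ, symM A σ τ = 1 := by
  induction A using Finset.induction_on with
  | empty =>
    intro σ; rw [symM_empty]; simp [Matrix.one_apply]
  | insert a A ha ih =>
    intro σ
    have h1 : (((insert a A).card : ℕ) : ℝ) * ∑ τ, symM (insert a A) σ τ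
        = ((insert a A).card : ℕ) := by
      rw [Finset.mul_sum]
      rw [Finset.sum_congr rfl fun τ _ => symM_rec ha σ τ]
      rw [Finset.sum_comm]
      rw [Finset.sum_congr rfl fun y _ => ih (σ ∘ Equiv.swap a y)]
      simp
    have hc : (((insert a A).card : ℕ) : ℝ) ≠ 0 := by
      have : (insert a A).card ≠ 0 := by
        rw [Finset.card_insert_of_notMem ha]; omega
      exact_mod_cast this
    have h2 : (((insert a A).card : ℕ) : ℝ) * ∑ τ, symM (insert a A) σ τ
        = (((insert a A).card : ℕ) : ℝ) * 1 := by rw [h1, mul_one]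
    exact mul_left_cancel₀ hc h2

theorem symM_symm (A : Finset V) (σ τ : V → Fin 2) : symM A σ τ = symM A τ σ := by
  unfold symM; simp only [Matrix.of_apply]
  by_cases h : Rel A σ τ
  · rw [if_pos h, if_pos h.symm, h.2]
  · rw [if_neg h, if_neg fun h' => h h'.symm]

theorem symM_transpose (A : Finset V) : (symM A)ᵀ = symM A := by
  ext σ τ; rw [Matrix.transpose_apply]; exact symM_symm A τ σ

theorem symM_congr {A : Finset V} {σ τ : V → Fin 2} (h : Rel A σ τ) (ρ : V → Fin 2) :
    symM A τ ρ = symM A σ ρ := by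
  unfold symM; simp only [Matrix.of_apply]
  by_cases h' : Rel A σ ρ
  · rw [if_pos h', if_pos (h.symm.trans h'), h.2]
  · rw [if_neg h', if_neg fun h'' => h' (h.trans h'')]

theorem symM_mul_self (A : Finset V) : symM A * symM A = symM A := by
  ext σ ρ
  rw [Matrix.mul_apply]
  have : ∀ τ, symM A σ τ * symM A τ ρ = symM A σ τ * symM A σ ρ := by
    intro τ
    by_cases h : Rel A σ τ
    · rw [symM_congr h ρ]
    · have : symM A σ τ = 0 := by unfold symM; simp only [Matrix.of_apply]; rw [if_neg h]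
      rw [this, zero_mul, zero_mul]
  rw [Finset.sum_congr rfl fun τ _ => this τ, ← Finset.sum_mul, symM_rowsum, one_mul]

theorem swapM_mul_apply (x y : V) (M : Matrix (V → Fin 2) (V → Fin 2) ℝ) (σ τ : V → Fin 2) :
    (swapM x y * M) σ τ = M (σ ∘ Equiv.swap x y) τ := by
  rw [Matrix.mul_apply, Finset.sum_eq_single (σ ∘ Equiv.swap x y)]
  · unfold swapM; simp only [Matrix.of_apply]
    rw [swap_comp_swap, if_pos rfl, one_mul]
  · intro ρ _ hρ
    unfold swapM; simp only [Matrix.of_apply]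
    rw [if_neg, zero_mul]
    intro h; exact hρ (by rw [h, swap_comp_swap])
  · intro h; exact absurd (Finset.mem_univ _) h

theorem swapM_transpose (x y : V) : (swapM x y : Matrix (V → Fin 2) (V → Fin 2) ℝ)ᵀ = swapM x y := by
  ext σ τ
  rw [Matrix.transpose_apply]
  unfold swapM; simp only [Matrix.of_apply]
  have : (τ = σ ∘ Equiv.swap x y) ↔ (σ = τ ∘ Equiv.swap x y) := by
    constructor
    · intro h; rw [h, swap_comp_swap]
    · intro h; rw [h, swap_comp_swap]
  simp only [this]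

theorem swapM_mul_self (x y : V) :
    (swapM x y * swapM x y : Matrix (V → Fin 2) (V → Fin 2) ℝ) = 1 := by
  ext σ τ
  rw [swapM_mul_apply]
  unfold swapM; simp only [Matrix.of_apply]
  have : (σ ∘ Equiv.swap x y = τ ∘ Equiv.swap x y) ↔ (σ = τ) := by
    constructor
    · intro h
      have h2 := congrArg (fun f => f ∘ Equiv.swap x y) h
      simpa only [swap_comp_swap] using h2
    · intro h; rw [h]
  simp only [this, Matrix.one_apply]

theorem swapM_self (x : V) : (swapM x x : Matrix (V → Fin 2) (V → Fin 2) ℝ) = 1 := by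
  ext σ τ
  unfold swapM; simp only [Matrix.of_apply]
  rw [Equiv.swap_self, Matrix.one_apply]
  simp

theorem swapM_comm (x y : V) : (swapM x y : Matrix (V → Fin 2) (V → Fin 2) ℝ) = swapM y x := by
  unfold swapM; rw [Equiv.swap_comm]

/-- `1 - swap` is positive semidefinite. -/
theorem one_sub_swapM_posSemidef (x y : V) :
    (1 - swapM x y : Matrix (V → Fin 2) (V → Fin 2) ℝ).PosSemidef := by
  have h : (1 - swapM x y : Matrix (V → Fin 2) (V → Fin 2) ℝ)
      = (1 / 2 : ℝ) • ((1 - swapM x y)ᴴ * (1 - swapM x y)) := by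
    rw [Matrix.conjTranspose_eq_transpose_of_trivial, Matrix.transpose_sub,
      Matrix.transpose_one, swapM_transpose, sub_mul, mul_sub, mul_sub, swapM_mul_self,
      mul_one, one_mul, mul_one]
    ext σ τ
    simp only [Matrix.sub_apply, Matrix.smul_apply, smul_eq_mul]
    ring
  rw [h]
  exact (Matrix.posSemidef_conjTranspose_mul_self _).smul (by norm_num)

theorem one_sub_symM_posSemidef (A : Finset V) :
    (1 - symM A : Matrix (V → Fin 2) (V → Fin 2) ℝ).PosSemidef := by
  have h : (1 - symM A : Matrix (V → Fin 2) (V → Fin 2) ℝ) = (1 - symM A)ᴴ * (1 - symM A) := by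
    rw [Matrix.conjTranspose_eq_transpose_of_trivial, Matrix.transpose_sub,
      Matrix.transpose_one, symM_transpose, sub_mul, mul_sub, mul_sub, symM_mul_self,
      mul_one, one_mul, mul_one]
    abel
  rw [h]
  exact Matrix.posSemidef_conjTranspose_mul_self _

theorem symM_posSemidef (A : Finset V) :
    (symM A : Matrix (V → Fin 2) (V → Fin 2) ℝ).PosSemidef := by
  have h : (symM A : Matrix (V → Fin 2) (V → Fin 2) ℝ) = (symM A)ᴴ * symM A := by
    rw [Matrix.conjTranspose_eq_transpose_of_trivial, symM_transpose, symM_mul_self]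
  rw [h]
  exact Matrix.posSemidef_conjTranspose_mul_self _

/-- `X = ∑_{y ∈ A} (1 - swap a y)`. -/
def XM (a : V) (A : Finset V) : Matrix (V → Fin 2) (V → Fin 2) ℝ := ∑ y ∈ A, (1 - swapM a y)

theorem XM_posSemidef (a : V) (A : Finset V) : (XM a A).PosSemidef := by
  unfold XM
  exact Matrix.posSemidef_sum _ fun y _ => one_sub_swapM_posSemidef a y

/-- one step of the symmetrisation inequality -/
theorem step_psd {a : V} {A : Finset V} (ha : a ∉ A) :
    (XM a A - ((A.card : ℝ) + 1) • (symM A - symM (insert a A))).PosSemidef := by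
  have hrec : ((A.card : ℝ) + 1) • symM (insert a A)
      = symM A + (∑ y ∈ A, swapM a y) * symM A := by
    ext σ τ
    rw [Matrix.smul_apply, smul_eq_mul, Matrix.add_apply, Finset.sum_mul, Matrix.sum_apply]
    have h := symM_rec ha σ τ
    rw [Finset.card_insert_of_notMem ha, Finset.sum_insert ha] at h
    push_cast at h
    rw [h, Equiv.swap_self]
    congr 1
    refine Finset.sum_congr rfl fun y _ => ?_
    rw [swapM_mul_apply]
  have hX : XM a A = (A.card : ℝ) • (1 : Matrix (V → Fin 2) (V → Fin 2) ℝ)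
      - ∑ y ∈ A, swapM a y := by
    unfold XM
    rw [Finset.sum_sub_distrib, Finset.sum_const, Nat.cast_smul_eq_nsmul]
  have hTT : (∑ y ∈ A, (swapM a y : Matrix (V → Fin 2) (V → Fin 2) ℝ))ᵀ
      = ∑ y ∈ A, swapM a y := by
    rw [Matrix.transpose_sum]
    exact Finset.sum_congr rfl fun y _ => swapM_transpose a y
  have hrec' : ((A.card : ℝ) + 1) • symM (insert a A)
      = symM A + symM A * (∑ y ∈ A, swapM a y) := by
    have h := congrArg Matrix.transpose hrec
    rw [Matrix.transpose_smul, Matrix.transpose_add, Matrix.transpose_mul, hTT,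
      symM_transpose, symM_transpose] at h
    exact h
  have hcomm : (∑ y ∈ A, swapM a y) * symM A = symM A * (∑ y ∈ A, swapM a y) := by
    have := hrec.symm.trans hrec'
    exact add_left_cancel this
  have hXc : XM a A * symM A = symM A * XM a A := by
    rw [hX, sub_mul, mul_sub, hcomm, Matrix.smul_mul, Matrix.mul_smul, one_mul, mul_one]
  have key : XM a A - ((A.card : ℝ) + 1) • (symM A - symM (insert a A))
      = (1 - symM A)ᴴ * XM a A * (1 - symM A) := by
    rw [Matrix.conjTranspose_eq_transpose_of_trivial, Matrix.transpose_sub,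
      Matrix.transpose_one, symM_transpose]
    have h1 : (1 - symM A) * XM a A * (1 - symM A) = XM a A - XM a A * symM A := by
      rw [sub_mul, one_mul, mul_sub, mul_one, sub_mul]
      rw [← hXc, mul_assoc (XM a A) (symM A) (symM A), symM_mul_self]
      abel
    rw [h1, smul_sub, hrec, hX, sub_mul, Matrix.smul_mul, one_mul, add_smul, one_smul]
    abel
  rw [key]
  exact (XM_posSemidef a A).conjTranspose_mul_mul_same _

/-- **Symmetrisation lemma.** `1 - Π_A ≤ ¼ ∑_{x,y ∈ A} (1 - swap x y)`. -/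
theorem sym_psd (A : Finset V) :
    ((1 / 4 : ℝ) • (∑ x ∈ A, ∑ y ∈ A, (1 - swapM x y)) - (1 - symM A) :
      Matrix (V → Fin 2) (V → Fin 2) ℝ).PosSemidef := by
  induction A using Finset.induction_on with
  | empty =>
    simp only [Finset.sum_empty, smul_zero, symM_empty, sub_self]
    exact Matrix.PosSemidef.zero
  | insert a A ha ih =>
    have hsum : (∑ x ∈ insert a A, ∑ y ∈ insert a A,
        (1 - swapM x y : Matrix (V → Fin 2) (V → Fin 2) ℝ))
        = (∑ x ∈ A, ∑ y ∈ A, (1 - swapM x y)) + (2 : ℝ) • XM a A := by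
      rw [Finset.sum_insert ha]
      rw [Finset.sum_insert ha]
      rw [Finset.sum_congr rfl fun x _ => Finset.sum_insert ha]
      rw [Finset.sum_add_distrib]
      have h1 : ∑ x ∈ A, (1 - swapM x a : Matrix (V → Fin 2) (V → Fin 2) ℝ) = XM a A := by
        unfold XM; exact Finset.sum_congr rfl fun x _ => by rw [swapM_comm]
      rw [h1, swapM_self, sub_self, zero_add, two_smul]
      unfold XM
      abel
    have hdec : ((1 / 4 : ℝ) • (∑ x ∈ insert a A, ∑ y ∈ insert a A, (1 - swapM x y))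
        - (1 - symM (insert a A)) : Matrix (V → Fin 2) (V → Fin 2) ℝ)
        = ((1 / 4 : ℝ) • (∑ x ∈ A, ∑ y ∈ A, (1 - swapM x y)) - (1 - symM A))
          + (((A.card : ℝ) + 1)⁻¹ •
              (XM a A - ((A.card : ℝ) + 1) • (symM A - symM (insert a A)))
            + (1 / 2 - ((A.card : ℝ) + 1)⁻¹) • XM a A) := by
      have hne : ((A.card : ℝ) + 1) ≠ 0 := by positivity
      rw [hsum]
      ext σ τ
      simp only [Matrix.sub_apply, Matrix.add_apply, Matrix.smul_apply, smul_eq_mul]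
      field_simp
      ring
    rw [hdec]
    refine ih.add (Matrix.PosSemidef.add ?_ ?_)
    · exact (step_psd ha).smul (by positivity)
    · by_cases hA : A = ∅
      · subst hA
        have : XM a (∅ : Finset V) = 0 := by unfold XM; simp
        rw [this, smul_zero]; exact Matrix.PosSemidef.zero
      · refine (XM_posSemidef a A).smul ?_
        have h1 : (1 : ℝ) ≤ A.card := by
          exact_mod_cast Finset.card_pos.2 (Finset.nonempty_iff_ne_empty.2 hA)
        have h2 : ((A.card : ℝ) + 1)⁻¹ ≤ 1 / 2 := by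
          rw [inv_le_comm₀ (by linarith) (by norm_num)]
          norm_num; linarith
        linarith

end Vale.Agent.P361.LRO.Tw
end

section

/-!
P361, block (1): real-rootedness of the charge law gives the block twist inequality.
-/

namespace Vale.Agent.P361.LRO

open Finset MeasureTheory intervalIntegral

/-- Factorization of a real polynomial all of whose complex roots are real and `≤ -1`. -/
theorem exists_factor (F : Polynomial ℝ) (hF1 : 0 < F.eval 1)
    (hroots : ∀ τ : ℂ, (F.map (algebraMap ℝ ℂ)).eval τ = 0 → ∃ r : ℝ, r ≤ -1 ∧ τ = (r : ℂ)) :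
    ∃ (ι : Type) (_ : Fintype ι) (p : ι → ℝ), (∀ j, 0 ≤ p j) ∧ (∀ j, p j ≤ 1 / 2) ∧
      (∀ t : ℝ, F.eval t = zt (F.eval 1) p t) := by
  classical
  set G := F.map (algebraMap ℝ ℂ) with hG
  have hev : ∀ t : ℝ, G.eval (t : ℂ) = ((F.eval t : ℝ) : ℂ) := by
    intro t
    rw [hG, Polynomial.eval_map_algebraMap]
    have := Polynomial.aeval_algebraMap_apply ℂ t F
    simpa using this
  have hGne : G ≠ 0 := by
    intro h0
    have := hev 1
    rw [h0] at this
    simp only [Polynomial.eval_zero] at this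
    have h2 : F.eval 1 = 0 := by exact_mod_cast this.symm
    linarith
  have hsp : G.Splits := IsAlgClosed.splits G
  have hroot : ∀ τ ∈ G.roots, ∃ r : ℝ, r ≤ -1 ∧ τ = (r : ℂ) := by
    intro τ hτ
    exact hroots τ ((Polynomial.mem_roots hGne).1 hτ)
  have hprod : ∀ t : ℂ, G.eval t = G.leadingCoeff * ∏ j : G.roots, (t - (j : ℂ)) := by
    intro t
    rw [hsp.eval_eq_prod_roots t]
    congr 1
    rw [Finset.prod_eq_multiset_prod, ← Multiset.map_univ]
  refine ⟨G.roots, inferInstance, fun j => 1 / (1 - ((j : ℂ)).re), ?_, ?_, ?_⟩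
  · intro j
    obtain ⟨r, hr, hjr⟩ := hroot (j : ℂ) (Multiset.coe_mem)
    have hre : ((j : ℂ)).re = r := by rw [hjr]; simp
    change 0 ≤ 1 / (1 - ((j : ℂ)).re)
    rw [hre]
    apply div_nonneg <;> linarith
  · intro j
    obtain ⟨r, hr, hjr⟩ := hroot (j : ℂ) (Multiset.coe_mem)
    have hre : ((j : ℂ)).re = r := by rw [hjr]; simp
    change 1 / (1 - ((j : ℂ)).re) ≤ 1 / 2
    rw [hre, div_le_div_iff₀ (by linarith) (by norm_num)]
    linarith
  · intro t
    have h1 := hev t
    have h2 := hev 1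
    rw [hprod] at h1 h2
    have hfac : ∀ j : G.roots, ((t : ℂ) - (j : ℂ)) = (((1 : ℝ) : ℂ) - (j : ℂ)) *
        (((1 - 1 / (1 - ((j : ℂ)).re) * (1 - t) : ℝ)) : ℂ) := by
      intro j
      obtain ⟨r, hr, hjr⟩ := hroot (j : ℂ) (Multiset.coe_mem)
      rw [hjr]
      simp only [Complex.ofReal_re]
      rw [← Complex.ofReal_sub, ← Complex.ofReal_sub, ← Complex.ofReal_mul]
      congr 1
      have : (1 - r) ≠ 0 := by linarith
      field_simp
      ring
    rw [Finset.prod_congr rfl fun j _ => hfac j, Finset.prod_mul_distrib, ← mul_assoc, h2] at h1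
    unfold zt
    rw [← Complex.ofReal_prod] at h1
    exact_mod_cast h1.symm

variable {X : Type} [Fintype X] [DecidableEq X]

/-- The twisted partition function, block charge `Q = ∑_{x ∈ b} j_x`, angle `φ`. -/
noncomputable def Zf (μ : Equiv.Perm X → ℝ) (θ : X → ℝ) (b : Finset X) (φ : ℝ) : ℝ :=
  ∑ π, ∑ s, μ π * wt θ π s * Real.cos (φ * ∑ x ∈ b, jj π s x)

/-- Integer valued block charge. -/
def qz (π : Equiv.Perm X) (s : X → Fin 2) (b : Finset X) : ℤ :=
  ∑ x ∈ b, (((s x : ℕ) : ℤ) - ((s (π x) : ℕ) : ℤ))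

omit [Fintype X] [DecidableEq X] in
theorem qz_cast (π : Equiv.Perm X) (s : X → Fin 2) (b : Finset X) :
    ((qz π s b : ℤ) : ℝ) = ∑ x ∈ b, jj π s x := by
  unfold qz jj
  push_cast
  rfl

/-- The Chebyshev polynomial of the law of `Q`. -/
noncomputable def FP (μ : Equiv.Perm X → ℝ) (θ : X → ℝ) (b : Finset X) : Polynomial ℝ :=
  ∑ π, ∑ s, Polynomial.C (μ π * wt θ π s) * Polynomial.Chebyshev.T ℝ (qz π s b)

theorem FP_eval_cos (μ : Equiv.Perm X → ℝ) (θ : X → ℝ) (b : Finset X) (φ : ℝ) :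
    (FP μ θ b).eval (Real.cos φ) = Zf μ θ b φ := by
  unfold FP Zf
  rw [Polynomial.eval_finsetSum]
  refine sum_congr rfl fun π _ => ?_
  rw [Polynomial.eval_finsetSum]
  refine sum_congr rfl fun s _ => ?_
  rw [Polynomial.eval_mul, Polynomial.eval_C, Polynomial.Chebyshev.T_real_cos, ← qz_cast,
    mul_comm φ]

theorem FP_eval_one (μ : Equiv.Perm X → ℝ) (θ : X → ℝ) (b : Finset X) :
    (FP μ θ b).eval 1 = ZZ μ θ := by
  have h := FP_eval_cos μ θ b 0
  rw [Real.cos_zero] at h
  rw [h]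
  unfold Zf ZZ
  simp

theorem FP_deriv_one (μ : Equiv.Perm X → ℝ) (θ : X → ℝ) (b : Finset X) :
    (FP μ θ b).derivative.eval 1 = ∑ π, ∑ s, μ π * wt θ π s * (∑ x ∈ b, jj π s x) ^ 2 := by
  unfold FP
  rw [Polynomial.derivative_sum, Polynomial.eval_finsetSum]
  refine sum_congr rfl fun π _ => ?_
  rw [Polynomial.derivative_sum, Polynomial.eval_finsetSum]
  refine sum_congr rfl fun s _ => ?_
  rw [Polynomial.derivative_C_mul, Polynomial.Chebyshev.T_derivative_eq_U, Polynomial.eval_mul,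
    Polynomial.eval_C, Polynomial.eval_mul, Polynomial.Chebyshev.U_eval_one, ← qz_cast]
  simp
  ring_nf
  tauto

/-- The exponent `1 + j_x`. -/
def ex (π : Equiv.Perm X) (s : X → Fin 2) (x : X) : ℕ :=
  if s x = s (π x) then 1 else if s x = 1 then 2 else 0

omit [Fintype X] [DecidableEq X] in
theorem ex_cast (π : Equiv.Perm X) (s : X → Fin 2) (x : X) :
    ((ex π s x : ℕ) : ℤ) = 1 + (((s x : ℕ) : ℤ) - ((s (π x) : ℕ) : ℤ)) := by
  unfold ex
  generalize s x = a
  generalize s (π x) = b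
  fin_cases a <;> fin_cases b <;> simp

omit [DecidableEq X] in
theorem sum_ex (π : Equiv.Perm X) (s : X → Fin 2) : ∑ x, ex π s x = Fintype.card X := by
  have h : ((∑ x, ex π s x : ℕ) : ℤ) = ((Fintype.card X : ℕ) : ℤ) := by
    push_cast
    simp only [ex_cast]
    rw [sum_add_distrib, sum_sub_distrib, Equiv.sum_comp π fun x => ((s x : ℕ) : ℤ)]
    simp
  exact_mod_cast h

omit [Fintype X] [DecidableEq X] in
theorem sum_ex_b (π : Equiv.Perm X) (s : X → Fin 2) (b : Finset X) :
    ((∑ x ∈ b, ex π s x : ℕ) : ℤ) = (b.card : ℤ) + qz π s b := by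
  push_cast
  simp only [ex_cast]
  rw [sum_add_distrib]
  unfold qz
  simp

theorem gen_eq (μ : Equiv.Perm X → ℝ) (θ : X → ℝ) (ζ : X → ℂ) :
    gen μ θ ζ = ∑ π, ∑ s, ((μ π * wt θ π s : ℝ) : ℂ) * ∏ x, ζ x ^ ex π s x := by
  unfold gen
  refine sum_congr rfl fun π _ => sum_congr rfl fun s _ => ?_
  congr 1
  refine prod_congr rfl fun x _ => ?_
  unfold ex
  split_ifs <;> simp

theorem gen_smulF (μ : Equiv.Perm X → ℝ) (θ : X → ℝ) (ζ : X → ℂ) (l : ℂ) :
    gen μ θ (fun x => l * ζ x) = l ^ Fintype.card X * gen μ θ ζ := by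
  rw [gen_eq, gen_eq, mul_sum]
  refine sum_congr rfl fun π _ => ?_
  rw [mul_sum]
  refine sum_congr rfl fun s _ => ?_
  simp only [mul_pow]
  rw [prod_mul_distrib, prod_pow_eq_pow_sum, sum_ex]
  ring

/-- The Laurent polynomial of the law of `Q`. -/
noncomputable def SQ (μ : Equiv.Perm X → ℝ) (θ : X → ℝ) (b : Finset X) (w : ℂ) : ℂ :=
  ∑ π, ∑ s, ((μ π * wt θ π s : ℝ) : ℂ) * w ^ qz π s b

theorem gen_block (μ : Equiv.Perm X → ℝ) (θ : X → ℝ) (b : Finset X) {w : ℂ} (hw : w ≠ 0) :
    gen μ θ (fun x => if x ∈ b then w else 1) = w ^ b.card * SQ μ θ b w := by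
  rw [gen_eq]
  unfold SQ
  rw [mul_sum]
  refine sum_congr rfl fun π _ => ?_
  rw [mul_sum]
  refine sum_congr rfl fun s _ => ?_
  have h1 : ∏ x, (if x ∈ b then w else 1) ^ ex π s x = ∏ x ∈ b, w ^ ex π s x := by
    rw [← prod_subset (subset_univ b)]
    · refine prod_congr rfl fun x hx => ?_
      rw [if_pos hx]
    · intro x _ hx
      rw [if_neg hx, one_pow]
  have h2 : ∏ x ∈ b, w ^ ex π s x = w ^ b.card * w ^ qz π s b := by
    rw [prod_pow_eq_pow_sum, ← zpow_natCast, sum_ex_b, zpow_add₀ hw, zpow_natCast]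
  rw [h1, h2]
  ring

/-- Flip of all spins. -/
def flipE : (X → Fin 2) ≃ (X → Fin 2) where
  toFun s := fun x => Fin.rev (s x)
  invFun s := fun x => Fin.rev (s x)
  left_inv s := by funext x; simp
  right_inv s := by funext x; simp

omit [DecidableEq X] in
theorem wt_flipF (θ : X → ℝ) (π : Equiv.Perm X) (s : X → Fin 2) :
    wt θ π (flipE s) = wt θ π s := by
  unfold wt flipE
  refine prod_congr rfl fun x _ => ?_
  simp

omit [Fintype X] [DecidableEq X] in
theorem qz_flip (π : Equiv.Perm X) (s : X → Fin 2) (b : Finset X) :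
    qz π (flipE s) b = - qz π s b := by
  unfold qz flipE
  rw [← sum_neg_distrib]
  refine sum_congr rfl fun x _ => ?_
  change ((Fin.rev (s x) : ℕ) : ℤ) - ((Fin.rev (s (π x)) : ℕ) : ℤ) = _
  generalize s x = a
  generalize s (π x) = c
  fin_cases a <;> fin_cases c <;> simp

theorem SQ_inv (μ : Equiv.Perm X → ℝ) (θ : X → ℝ) (b : Finset X) (w : ℂ) :
    SQ μ θ b w⁻¹ = SQ μ θ b w := by
  unfold SQ
  refine sum_congr rfl fun π _ => ?_
  rw [← Equiv.sum_comp flipE]
  refine sum_congr rfl fun s _ => ?_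
  rw [wt_flipF, qz_flip, inv_zpow', neg_neg]

theorem FP_eval_ccos (μ : Equiv.Perm X → ℝ) (θ : X → ℝ) (b : Finset X) (φ : ℂ) :
    ((FP μ θ b).map (algebraMap ℝ ℂ)).eval (Complex.cos φ) =
      SQ μ θ b (Complex.exp (φ * Complex.I)) := by
  have h1 : ((FP μ θ b).map (algebraMap ℝ ℂ)).eval (Complex.cos φ) =
      ∑ π, ∑ s, ((μ π * wt θ π s : ℝ) : ℂ) * Complex.cos (qz π s b * φ) := by
    unfold FP
    rw [Polynomial.map_sum, Polynomial.eval_finsetSum]
    refine sum_congr rfl fun π _ => ?_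
    rw [Polynomial.map_sum, Polynomial.eval_finsetSum]
    refine sum_congr rfl fun s _ => ?_
    rw [Polynomial.map_mul, Polynomial.map_C, Polynomial.Chebyshev.map_T, Polynomial.eval_mul,
      Polynomial.eval_C, Polynomial.Chebyshev.T_complex_cos]
    rfl
  have h2 : (2 : ℂ) * ((FP μ θ b).map (algebraMap ℝ ℂ)).eval (Complex.cos φ) =
      SQ μ θ b (Complex.exp (φ * Complex.I)) + SQ μ θ b (Complex.exp (φ * Complex.I))⁻¹ := by
    rw [h1]
    unfold SQ
    rw [mul_sum, ← sum_add_distrib]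
    refine sum_congr rfl fun π _ => ?_
    rw [mul_sum, ← sum_add_distrib]
    refine sum_congr rfl fun s _ => ?_
    rw [← Complex.exp_neg, ← Complex.exp_int_mul, ← Complex.exp_int_mul, Complex.cos]
    ring_nf
  rw [SQ_inv] at h2
  linear_combination h2 / 2

theorem SQ_ne_zero_of_im_pos {μ : Equiv.Perm X → ℝ} {θ : X → ℝ} (hst : Stable μ θ)
    (b : Finset X) {w : ℂ} (hw : 0 < w.im) : SQ μ θ b w ≠ 0 := by
  have hw0 : w ≠ 0 := by
    rintro rfl
    simp at hw
  intro h0
  set δ : ℝ := w.im / (2 * (|w.re| + 1)) with hδ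
  have hδ0 : 0 < δ := by positivity
  set l : ℂ := 1 + δ * Complex.I with hl
  have hlim : l.im = δ := by simp [hl]
  have hlre : l.re = 1 := by simp [hl]
  have h1 : gen μ θ (fun x => l * (if x ∈ b then w else 1)) ≠ 0 := by
    apply hst
    intro x
    split_ifs
    · rw [Complex.mul_im, hlim, hlre]
      have h2 : δ * (|w.re| + 1) = w.im / 2 := by
        rw [hδ]
        field_simp
      have h3 : -(δ * |w.re|) ≤ δ * w.re := by
        have := neg_abs_le w.re
        nlinarith
      nlinarith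
    · rw [mul_one, hlim]
      exact hδ0
  apply h1
  rw [gen_smulF, gen_block μ θ b hw0, h0]
  simp

theorem SQ_pos_real {μ : Equiv.Perm X → ℝ} {θ : X → ℝ} (hμ : ∀ π, 0 ≤ μ π)
    (hθ : ∀ x, 0 ≤ θ x) (hZ : 0 < ZZ μ θ) (b : Finset X) {r : ℝ} (hr : 0 < r) :
    SQ μ θ b (r : ℂ) ≠ 0 := by
  have hwt : ∀ π s, 0 ≤ wt θ π s := by
    intro π s
    unfold wt
    refine prod_nonneg fun x _ => ?_
    split_ifs
    · norm_num
    · exact hθ x
  have h1 : SQ μ θ b (r : ℂ) = ((∑ π, ∑ s, μ π * wt θ π s * r ^ qz π s b : ℝ) : ℂ) := by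
    unfold SQ
    push_cast
    rfl
  rw [h1]
  intro h0
  have h2 : (∑ π, ∑ s, μ π * wt θ π s * r ^ qz π s b : ℝ) = 0 := by exact_mod_cast h0
  have h3 : ∀ π, ∑ s, μ π * wt θ π s * r ^ qz π s b = 0 := by
    intro π
    exact (sum_eq_zero_iff_of_nonneg (fun π _ => sum_nonneg fun s _ =>
      mul_nonneg (mul_nonneg (hμ π) (hwt π s)) (zpow_pos hr _).le)).1 h2 π (mem_univ _)
  have h4 : ZZ μ θ = 0 := by
    unfold ZZ
    refine sum_eq_zero fun π _ => sum_eq_zero fun s _ => ?_
    have := (sum_eq_zero_iff_of_nonneg (fun s _ =>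
      mul_nonneg (mul_nonneg (hμ π) (hwt π s)) (zpow_pos hr _).le)).1 (h3 π) s (mem_univ _)
    rcases mul_eq_zero.1 this with h | h
    · exact h
    · exact absurd h (zpow_pos hr _).ne'
  linarith

theorem FP_roots {μ : Equiv.Perm X → ℝ} {θ : X → ℝ} (hμ : ∀ π, 0 ≤ μ π)
    (hθ : ∀ x, 0 ≤ θ x) (hZ : 0 < ZZ μ θ) (hst : Stable μ θ) (b : Finset X) (τ : ℂ)
    (hτ : ((FP μ θ b).map (algebraMap ℝ ℂ)).eval τ = 0) : ∃ r : ℝ, r ≤ -1 ∧ τ = (r : ℂ) := by
  obtain ⟨φ, rfl⟩ := Complex.cos_surjective τ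
  rw [FP_eval_ccos] at hτ
  set w := Complex.exp (φ * Complex.I) with hw
  have hw0 : w ≠ 0 := Complex.exp_ne_zero _
  have hcos : Complex.cos φ = (w + w⁻¹) / 2 := by
    rw [hw, ← Complex.exp_neg, Complex.cos]
    ring_nf
  have him : w.im = 0 := by
    rcases lt_trichotomy w.im 0 with h | h | h
    · exfalso
      have h1 : 0 < (w⁻¹).im := by
        rw [Complex.inv_im]
        apply div_pos (by linarith)
        exact Complex.normSq_pos.2 hw0
      have := SQ_ne_zero_of_im_pos hst b h1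
      rw [SQ_inv] at this
      exact this hτ
    · exact h
    · exact absurd hτ (SQ_ne_zero_of_im_pos hst b h)
  have hwr : w = ((w.re : ℝ) : ℂ) := by
    apply Complex.ext
    · simp
    · simp [him]
  have hneg : w.re < 0 := by
    rcases lt_trichotomy w.re 0 with h | h | h
    · exact h
    · exfalso
      apply hw0
      rw [hwr, h]
      simp
    · exfalso
      rw [hwr] at hτ
      exact SQ_pos_real hμ hθ hZ b h hτ
  refine ⟨(w.re + w.re⁻¹) / 2, ?_, ?_⟩
  · have h1 : (w.re + w.re⁻¹) / 2 + 1 = (w.re + 1) ^ 2 / (2 * w.re) := by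
      have hne : w.re ≠ 0 := hneg.ne
      field_simp
      ring
    have h2 : (w.re + 1) ^ 2 / (2 * w.re) ≤ 0 :=
      div_nonpos_of_nonneg_of_nonpos (sq_nonneg _) (by linarith)
    linarith
  · rw [hcos]
    conv_lhs => rw [hwr]
    push_cast
    rfl

theorem KK_block (μ : Equiv.Perm X → ℝ) (θ : X → ℝ) (b : Finset X) :
    KK μ θ (fun z => if z ∈ b then 1 else 0) =
      (∑ π, ∑ s, μ π * wt θ π s * (∑ x ∈ b, jj π s x) ^ 2) / ZZ μ θ := by
  unfold KK EE
  congr 1
  refine sum_congr rfl fun π _ => sum_congr rfl fun s _ => ?_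
  congr 2
  simp

/-- **Block twist, `t`-form.** -/
theorem kap_int_t {μ : Equiv.Perm X → ℝ} {θ : X → ℝ} (hμ : ∀ π, 0 ≤ μ π)
    (hθ : ∀ x, 0 ≤ θ x) (hZ : 0 < ZZ μ θ) (hst : Stable μ θ) (b : Finset X) :
    KK μ θ (fun z => if z ∈ b then 1 else 0) *
        (∫ t in (-1 : ℝ)..1, (1 - t) * (FP μ θ b).eval t) ≤
      ∫ t in (-1 : ℝ)..1, (FP μ θ b).eval t := by
  classical
  obtain ⟨ι, hι, p, hp0, hp1, hF⟩ := exists_factor (FP μ θ b) (by rw [FP_eval_one]; exact hZ)
    (FP_roots hμ hθ hZ hst b)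
  rw [FP_eval_one] at hF
  have hd1 : HasDerivAt (fun t => (FP μ θ b).eval t) ((FP μ θ b).derivative.eval 1) 1 :=
    (FP μ θ b).hasDerivAt 1
  have hd2 := hasDerivAt_zt (ZZ μ θ) p 1
  have hfun : (fun t => (FP μ θ b).eval t) = zt (ZZ μ θ) p := funext hF
  rw [hfun] at hd1
  have hd3 := hd1.unique hd2
  have hsum : ∑ j, p j = KK μ θ (fun z => if z ∈ b then 1 else 0) := by
    rw [KK_block, ← FP_deriv_one, hd3, eq_div_iff hZ.ne', mul_comm]
    congr 1
    refine sum_congr rfl fun j _ => ?_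
    simp
  have h := zint hZ.le hp0 hp1
  rw [hsum] at h
  simp only [← hF] at h
  exact h

/-- **Block twist, angle form.** -/
theorem kap_int {μ : Equiv.Perm X → ℝ} {θ : X → ℝ} (hμ : ∀ π, 0 ≤ μ π)
    (hθ : ∀ x, 0 ≤ θ x) (hZ : 0 < ZZ μ θ) (hst : Stable μ θ) (b : Finset X) :
    KK μ θ (fun z => if z ∈ b then 1 else 0) *
        (∫ φ in (0 : ℝ)..Real.pi, Real.sin φ * (1 - Real.cos φ) * Zf μ θ b φ) ≤
      ∫ φ in (0 : ℝ)..Real.pi, Real.sin φ * Zf μ θ b φ := by
  have hsub : ∀ g : ℝ → ℝ, Continuous g →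
      (∫ φ in (0 : ℝ)..Real.pi, Real.sin φ * g (Real.cos φ)) = ∫ t in (-1 : ℝ)..1, g t := by
    intro g hg
    have h := integral_comp_mul_deriv (a := 0) (b := Real.pi) (f := Real.cos)
      (f' := fun φ => -Real.sin φ) (g := g) (fun x _ => Real.hasDerivAt_cos x)
      (by fun_prop) hg
    rw [Real.cos_zero, Real.cos_pi, integral_symm (-1 : ℝ) 1] at h
    have h2 : (∫ φ in (0 : ℝ)..Real.pi, (g ∘ Real.cos) φ * -Real.sin φ) =
        - ∫ φ in (0 : ℝ)..Real.pi, Real.sin φ * g (Real.cos φ) := by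
      rw [← intervalIntegral.integral_neg]
      refine integral_congr fun φ _ => ?_
      simp only [Function.comp]
      ring
    rw [h2] at h
    linarith
  have hc : Continuous fun t : ℝ => (FP μ θ b).eval t := (FP μ θ b).continuous
  have h1 := hsub (fun t => (FP μ θ b).eval t) hc
  have h2 := hsub (fun t => (1 - t) * (FP μ θ b).eval t) (by fun_prop)
  simp only [FP_eval_cos] at h1 h2
  have h3 := kap_int_t hμ hθ hZ hst b
  rw [← h1, ← h2] at h3
  simpa only [mul_assoc] using h3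

end Vale.Agent.P361.LRO
end

section

/-! P361 LRO, dictionary: permutation network <-> products of matrices. -/

namespace Vale.Agent.P361.LRO.Dict

open Finset Matrix

variable {R : Type*} [CommRing R] [Algebra ℝ R]

section A

variable {X : Type} [Fintype X] [DecidableEq X]

/-- a gate acting on a kernel -/
def gateOp (g : X × X × ℝ) (T : (X → Fin 2) → (X → Fin 2) → R) :
    (X → Fin 2) → (X → Fin 2) → R :=
  fun s t => (1 - g.2.2) • T s t + g.2.2 • T (s ∘ Equiv.swap g.1 g.2.1) t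

/-- all gates of a list, the first one acts first -/
def actL (l : List (X × X × ℝ)) (T : (X → Fin 2) → (X → Fin 2) → R) :
    (X → Fin 2) → (X → Fin 2) → R :=
  l.foldl (fun T g => gateOp g T) T

theorem law_sum (l : List (X × X × ℝ)) (σ : Equiv.Perm X)
    (T : (X → Fin 2) → (X → Fin 2) → R) :
    ∑ π, law l σ π • ∑ s : X → Fin 2, T s (s ∘ π) = ∑ s : X → Fin 2, actL l T s (s ∘ σ) := by
  induction l generalizing T with
  | nil =>
    simp only [law, actL, List.foldl_nil]
    rw [Finset.sum_eq_single σ]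
    · simp
    · intro π _ hπ
      rw [Pi.single_eq_of_ne hπ, zero_smul]
    · simp
  | cons g l ih =>
    have h1 : actL (g :: l) T = actL l (gateOp g T) := rfl
    rw [h1, ← ih]
    simp only [law, add_smul, Finset.sum_add_distrib, gateOp, smul_add]
    congr 1
    · refine Finset.sum_congr rfl fun π _ => ?_
      rw [← Finset.smul_sum, smul_smul, mul_comm]
    · rw [← Equiv.sum_comp (Equiv.mulLeft (Equiv.swap g.1 g.2.1))]
      refine Finset.sum_congr rfl fun π _ => ?_
      simp only [Equiv.coe_mulLeft]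
      rw [← mul_assoc, Equiv.swap_mul_self, one_mul, mul_comm, mul_smul]
      rw [← Finset.smul_sum]
      congr 2
      rw [← Equiv.sum_comp (Equiv.arrowCongr (Equiv.swap g.1 g.2.1) (Equiv.refl (Fin 2)))]
      refine Finset.sum_congr rfl fun s _ => ?_
      have e1 : (Equiv.arrowCongr (Equiv.swap g.1 g.2.1) (Equiv.refl (Fin 2))) s
          = s ∘ Equiv.swap g.1 g.2.1 := by
        funext x; simp [Equiv.arrowCongr]
      rw [e1]
      congr 1
      funext x
      simp
  
end A

end Vale.Agent.P361.LRO.Dict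
end

section

/-!
P361, LRO: basic facts on the charge network of `Defs.lean`, part A (helper169).

`SA μ θ z f`, `SB μ θ z f`: unnormalised sums over the configurations with / without a jump at the
node `z`, the slice weight at `z` removed.
-/

namespace Vale.Agent.P361.LRO

open Finset

noncomputable section

variable {X : Type} [Fintype X] [DecidableEq X]

/-! ### The law -/

theorem law_nonneg (l : List (X × X × ℝ)) (hl : ∀ g ∈ l, 0 ≤ g.2.2 ∧ g.2.2 ≤ 1)
    (σ π : Equiv.Perm X) : 0 ≤ law l σ π := by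
  induction l generalizing π with
  | nil =>
    simp only [law]
    by_cases h : π = σ
    · subst h; simp
    · simp [Pi.single_eq_of_ne h]
  | cons g l ih =>
    simp only [law]
    have hg := hl g (by simp)
    have ih' := fun π => ih (fun g' hg' => hl g' (by simp [hg'])) π
    have h1 := mul_nonneg (sub_nonneg.mpr hg.2) (ih' π)
    have h2 := mul_nonneg hg.1 (ih' (Equiv.swap g.1 g.2.1 * π))
    linarith

theorem law_sum (l : List (X × X × ℝ)) (σ : Equiv.Perm X) : ∑ π, law l σ π = 1 := by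
  induction l with
  | nil =>
    simp only [law]
    rw [Finset.sum_eq_single σ]
    · simp
    · intro π _ h; simp [Pi.single_eq_of_ne h]
    · intro h; exact absurd (Finset.mem_univ σ) h
  | cons g l ih =>
    simp only [law]
    rw [Finset.sum_add_distrib, ← Finset.mul_sum, ← Finset.mul_sum, ih]
    have h : ∑ π, law l σ (Equiv.swap g.1 g.2.1 * π) = ∑ π, law l σ π :=
      Equiv.sum_comp (Equiv.mulLeft (Equiv.swap g.1 g.2.1)) (fun π => law l σ π)
    rw [h, ih]; ring

theorem IsLaw.nonneg {μ : Equiv.Perm X → ℝ} (h : IsLaw μ) (π : Equiv.Perm X) : 0 ≤ μ π := by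
  obtain ⟨l, σ, hl, rfl⟩ := h
  exact law_nonneg l (fun g hg => ⟨(hl g hg).1, (hl g hg).2.trans (by norm_num)⟩) σ π

theorem IsLaw.sum {μ : Equiv.Perm X → ℝ} (h : IsLaw μ) : ∑ π, μ π = 1 := by
  obtain ⟨l, σ, _, rfl⟩ := h
  exact law_sum l σ

/-! ### Weights -/

omit [DecidableEq X] in
theorem wt_nonneg {θ : X → ℝ} (hθ : ∀ x, 0 ≤ θ x) (π : Equiv.Perm X) (s : X → Fin 2) :
    0 ≤ wt θ π s :=
  Finset.prod_nonneg fun x _ => by split_ifs <;> simp [hθ x]

omit [DecidableEq X] in
theorem wt_const (θ : X → ℝ) (π : Equiv.Perm X) (i : Fin 2) : wt θ π (fun _ => i) = 1 := by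
  simp [wt]

theorem wt_eq_mul_erase (θ : X → ℝ) (π : Equiv.Perm X) (s : X → Fin 2) (z : X) :
    wt θ π s = (if s z = s (π z) then 1 else θ z) *
      ∏ x ∈ univ.erase z, (if s x = s (π x) then 1 else θ x) := by
  unfold wt
  exact (Finset.mul_prod_erase univ (fun x => if s x = s (π x) then (1:ℝ) else θ x)
    (Finset.mem_univ z)).symm

theorem wt_update_of_eq (θ : X → ℝ) {π : Equiv.Perm X} {s : X → Fin 2} {z : X}
    (h : s z = s (π z)) (t : ℝ) : wt (Function.update θ z t) π s = wt θ π s := by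
  rw [wt_eq_mul_erase _ _ _ z, wt_eq_mul_erase θ _ _ z, if_pos h, if_pos h]
  congr 1
  refine Finset.prod_congr rfl fun x hx => ?_
  rw [Function.update_of_ne (Finset.ne_of_mem_erase hx)]

theorem wt_of_ne (θ : X → ℝ) {π : Equiv.Perm X} {s : X → Fin 2} {z : X}
    (h : s z ≠ s (π z)) : wt θ π s = θ z * wt (Function.update θ z 1) π s := by
  rw [wt_eq_mul_erase _ _ _ z, wt_eq_mul_erase (Function.update θ z 1) _ _ z, if_neg h, if_neg h,
    Function.update_self, one_mul]
  congr 1
  refine Finset.prod_congr rfl fun x hx => ?_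
  rw [Function.update_of_ne (Finset.ne_of_mem_erase hx)]

/-! ### Charges -/

omit [DecidableEq X] in
theorem sum_jj (π : Equiv.Perm X) (s : X → Fin 2) : ∑ x, jj π s x = 0 := by
  unfold jj
  rw [Finset.sum_sub_distrib, sub_eq_zero]
  exact (Equiv.sum_comp π (fun x => ((s x : ℕ) : ℝ))).symm

omit [Fintype X] [DecidableEq X] in
theorem jj_sq (π : Equiv.Perm X) (s : X → Fin 2) (x : X) :
    jj π s x ^ 2 = if s x = s (π x) then 0 else 1 := by
  unfold jj
  generalize s x = a
  generalize s (π x) = b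
  fin_cases a <;> fin_cases b <;> simp

omit [Fintype X] [DecidableEq X] in
theorem jj_eq_zero {π : Equiv.Perm X} {s : X → Fin 2} {x : X} (h : s x = s (π x)) :
    jj π s x = 0 := by
  unfold jj; rw [h]; ring

omit [Fintype X] [DecidableEq X] in
theorem jj_abs_le (π : Equiv.Perm X) (s : X → Fin 2) (x : X) : |jj π s x| ≤ 1 := by
  rw [← sq_le_one_iff_abs_le_one, jj_sq]
  split_ifs <;> norm_num

/-! ### Unnormalised sums -/

/-- `∑ μ wt f`. -/
def SS (μ : Equiv.Perm X → ℝ) (θ : X → ℝ) (f : Equiv.Perm X → (X → Fin 2) → ℝ) : ℝ :=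
  ∑ π, ∑ s, μ π * wt θ π s * f π s

/-- Jump at `z`, slice weight of `z` removed. -/
def SA (μ : Equiv.Perm X → ℝ) (θ : X → ℝ) (z : X)
    (f : Equiv.Perm X → (X → Fin 2) → ℝ) : ℝ :=
  ∑ π, ∑ s, if s z = s (π z) then 0 else μ π * wt (Function.update θ z 1) π s * f π s

/-- No jump at `z`. -/
def SB (μ : Equiv.Perm X → ℝ) (θ : X → ℝ) (z : X)
    (f : Equiv.Perm X → (X → Fin 2) → ℝ) : ℝ :=
  ∑ π, ∑ s, if s z = s (π z) then μ π * wt θ π s * f π s else 0

/-- the constant function `1` -/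
def one' : Equiv.Perm X → (X → Fin 2) → ℝ := fun _ _ => 1

theorem SS_split (μ : Equiv.Perm X → ℝ) (θ : X → ℝ) (z : X)
    (f : Equiv.Perm X → (X → Fin 2) → ℝ) : SS μ θ f = SB μ θ z f + θ z * SA μ θ z f := by
  unfold SS SA SB
  rw [Finset.mul_sum, ← Finset.sum_add_distrib]
  refine Finset.sum_congr rfl fun π _ => ?_
  rw [Finset.mul_sum, ← Finset.sum_add_distrib]
  refine Finset.sum_congr rfl fun s _ => ?_
  by_cases h : s z = s (π z)
  · simp [h]
  · rw [if_neg h, if_neg h, wt_of_ne θ h]; ring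

theorem SA_update (μ : Equiv.Perm X → ℝ) (θ : X → ℝ) (z : X) (t : ℝ)
    (f : Equiv.Perm X → (X → Fin 2) → ℝ) : SA μ (Function.update θ z t) z f = SA μ θ z f := by
  unfold SA; simp only [Function.update_idem]

theorem SB_update (μ : Equiv.Perm X → ℝ) (θ : X → ℝ) (z : X) (t : ℝ)
    (f : Equiv.Perm X → (X → Fin 2) → ℝ) : SB μ (Function.update θ z t) z f = SB μ θ z f := by
  unfold SB
  refine Finset.sum_congr rfl fun π _ => Finset.sum_congr rfl fun s _ => ?_
  split_ifs with h
  · rw [wt_update_of_eq θ h]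
  · rfl

theorem ZZ_eq (μ : Equiv.Perm X → ℝ) (θ : X → ℝ) : ZZ μ θ = SS μ θ one' := by
  simp [ZZ, SS, one']

theorem EE_eq (μ : Equiv.Perm X → ℝ) (θ : X → ℝ) (f : Equiv.Perm X → (X → Fin 2) → ℝ) :
    EE μ θ f = SS μ θ f / SS μ θ one' := by
  rw [EE, ZZ_eq]; rfl

theorem mag_eq (μ : Equiv.Perm X → ℝ) (θ : X → ℝ) (z : X) :
    mag μ θ z = SA μ θ z one' / SB μ θ z one' := by
  simp [mag, SA, SB, one']

theorem SS_add (μ : Equiv.Perm X → ℝ) (θ : X → ℝ) (f g : Equiv.Perm X → (X → Fin 2) → ℝ) :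
    SS μ θ (fun π s => f π s + g π s) = SS μ θ f + SS μ θ g := by
  unfold SS
  rw [← Finset.sum_add_distrib]
  refine Finset.sum_congr rfl fun π _ => ?_
  rw [← Finset.sum_add_distrib]
  exact Finset.sum_congr rfl fun s _ => by ring

theorem SS_sub (μ : Equiv.Perm X → ℝ) (θ : X → ℝ) (f g : Equiv.Perm X → (X → Fin 2) → ℝ) :
    SS μ θ (fun π s => f π s - g π s) = SS μ θ f - SS μ θ g := by
  unfold SS
  rw [← Finset.sum_sub_distrib]
  refine Finset.sum_congr rfl fun π _ => ?_
  rw [← Finset.sum_sub_distrib]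
  exact Finset.sum_congr rfl fun s _ => by ring

theorem SS_mul (μ : Equiv.Perm X → ℝ) (θ : X → ℝ) (c : ℝ)
    (f : Equiv.Perm X → (X → Fin 2) → ℝ) :
    SS μ θ (fun π s => c * f π s) = c * SS μ θ f := by
  unfold SS
  rw [Finset.mul_sum]
  refine Finset.sum_congr rfl fun π _ => ?_
  rw [Finset.mul_sum]
  exact Finset.sum_congr rfl fun s _ => by ring

theorem SS_neg (μ : Equiv.Perm X → ℝ) (θ : X → ℝ) (f : Equiv.Perm X → (X → Fin 2) → ℝ) :
    SS μ θ (fun π s => - f π s) = - SS μ θ f := by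
  have := SS_mul μ θ (-1) f
  simpa using this

theorem SS_sum {ι : Type*} (μ : Equiv.Perm X → ℝ) (θ : X → ℝ) (t : Finset ι)
    (f : ι → Equiv.Perm X → (X → Fin 2) → ℝ) :
    SS μ θ (fun π s => ∑ i ∈ t, f i π s) = ∑ i ∈ t, SS μ θ (f i) := by
  unfold SS
  simp only [Finset.mul_sum]
  have h : ∀ π : Equiv.Perm X, ∑ s : X → Fin 2, ∑ i ∈ t, μ π * wt θ π s * f i π s =
      ∑ i ∈ t, ∑ s : X → Fin 2, μ π * wt θ π s * f i π s := fun π => Finset.sum_comm
  rw [Finset.sum_congr rfl fun π _ => h π, Finset.sum_comm]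

theorem SS_nonneg {μ : Equiv.Perm X → ℝ} (hμ : ∀ π, 0 ≤ μ π) {θ : X → ℝ} (hθ : ∀ x, 0 ≤ θ x)
    {f : Equiv.Perm X → (X → Fin 2) → ℝ} (hf : ∀ π s, 0 ≤ f π s) : 0 ≤ SS μ θ f :=
  Finset.sum_nonneg fun π _ => Finset.sum_nonneg fun s _ =>
    mul_nonneg (mul_nonneg (hμ π) (wt_nonneg hθ π s)) (hf π s)

theorem SS_mono {μ : Equiv.Perm X → ℝ} (hμ : ∀ π, 0 ≤ μ π) {θ : X → ℝ} (hθ : ∀ x, 0 ≤ θ x)
    {f g : Equiv.Perm X → (X → Fin 2) → ℝ} (hf : ∀ π s, f π s ≤ g π s) :
    SS μ θ f ≤ SS μ θ g :=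
  Finset.sum_le_sum fun π _ => Finset.sum_le_sum fun s _ =>
    mul_le_mul_of_nonneg_left (hf π s) (mul_nonneg (hμ π) (wt_nonneg hθ π s))

theorem SA_nonneg {μ : Equiv.Perm X → ℝ} (hμ : ∀ π, 0 ≤ μ π) {θ : X → ℝ} (hθ : ∀ x, 0 ≤ θ x)
    (z : X) {f : Equiv.Perm X → (X → Fin 2) → ℝ} (hf : ∀ π s, 0 ≤ f π s) :
    0 ≤ SA μ θ z f :=
  Finset.sum_nonneg fun π _ => Finset.sum_nonneg fun s _ => by
    split_ifs
    · exact le_rfl
    · refine mul_nonneg (mul_nonneg (hμ π) (wt_nonneg (fun x => ?_) π s)) (hf π s)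
      by_cases hx : x = z
      · subst hx; simp
      · rw [Function.update_of_ne hx]; exact hθ x

theorem SB_pos {μ : Equiv.Perm X → ℝ} (hμ : ∀ π, 0 ≤ μ π) (hμ1 : ∑ π, μ π = 1) {θ : X → ℝ}
    (hθ : ∀ x, 0 ≤ θ x) (z : X) : 1 ≤ SB μ θ z one' := by
  rw [← hμ1]
  unfold SB one'
  refine Finset.sum_le_sum fun π _ => ?_
  have h : (if (fun _ : X => (0 : Fin 2)) z = (fun _ : X => (0 : Fin 2)) (π z) then
      μ π * wt θ π (fun _ => 0) * 1 else 0) = μ π := by
    simp [wt_const]
  calc μ π = _ := h.symm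
    _ ≤ _ := Finset.single_le_sum (f := fun s : X → Fin 2 =>
        if s z = s (π z) then μ π * wt θ π s * 1 else 0) (fun s _ => by
          split_ifs
          · exact mul_nonneg (mul_nonneg (hμ π) (wt_nonneg hθ π s)) zero_le_one
          · exact le_rfl) (Finset.mem_univ (fun _ : X => (0 : Fin 2)))

theorem SS_one_pos {μ : Equiv.Perm X → ℝ} (hμ : ∀ π, 0 ≤ μ π) (hμ1 : ∑ π, μ π = 1) {θ : X → ℝ}
    (hθ : ∀ x, 0 ≤ θ x) : 1 ≤ SS μ θ one' := by
  rw [← hμ1]
  unfold SS one'
  refine Finset.sum_le_sum fun π _ => ?_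
  have h : μ π * wt θ π (fun _ => 0) * 1 = μ π := by
    simp [wt_const]
  calc μ π = _ := h.symm
    _ ≤ _ := Finset.single_le_sum (f := fun s : X → Fin 2 => μ π * wt θ π s * 1) (fun s _ =>
          mul_nonneg (mul_nonneg (hμ π) (wt_nonneg hθ π s)) zero_le_one) (Finset.mem_univ _)

theorem ZZ_pos {μ : Equiv.Perm X → ℝ} (h : IsLaw μ) {θ : X → ℝ} (hθ : ∀ x, 0 ≤ θ x) :
    0 < ZZ μ θ := by
  rw [ZZ_eq]
  exact lt_of_lt_of_le one_pos (SS_one_pos h.nonneg h.sum hθ)

theorem EE_split (μ : Equiv.Perm X → ℝ) (θ : X → ℝ) (z : X)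
    (f : Equiv.Perm X → (X → Fin 2) → ℝ) :
    EE μ θ f = (SB μ θ z f + θ z * SA μ θ z f) / (SB μ θ z one' + θ z * SA μ θ z one') := by
  rw [EE_eq, SS_split μ θ z f, SS_split μ θ z one']

theorem SB_mul_jj (μ : Equiv.Perm X → ℝ) (θ : X → ℝ) (z : X)
    (f : Equiv.Perm X → (X → Fin 2) → ℝ) : SB μ θ z (fun π s => jj π s z * f π s) = 0 := by
  unfold SB
  refine Finset.sum_eq_zero fun π _ => Finset.sum_eq_zero fun s _ => ?_
  split_ifs with h
  · simp only [jj_eq_zero h]; ring
  · rfl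

theorem SA_mul_jj_sq (μ : Equiv.Perm X → ℝ) (θ : X → ℝ) (z : X)
    (f : Equiv.Perm X → (X → Fin 2) → ℝ) :
    SA μ θ z (fun π s => jj π s z ^ 2 * f π s) = SA μ θ z f := by
  unfold SA
  refine Finset.sum_congr rfl fun π _ => Finset.sum_congr rfl fun s _ => ?_
  split_ifs with h
  · rfl
  · simp only [jj_sq, if_neg h]; ring

theorem SB_mul_jj_sq (μ : Equiv.Perm X → ℝ) (θ : X → ℝ) (z : X)
    (f : Equiv.Perm X → (X → Fin 2) → ℝ) :
    SB μ θ z (fun π s => jj π s z ^ 2 * f π s) = 0 := by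
  unfold SB
  refine Finset.sum_eq_zero fun π _ => Finset.sum_eq_zero fun s _ => ?_
  split_ifs with h
  · simp only [jj_eq_zero h]; ring
  · rfl

theorem SS_mul_jj_sq (μ : Equiv.Perm X → ℝ) (θ : X → ℝ) (z : X)
    (f : Equiv.Perm X → (X → Fin 2) → ℝ) :
    SS μ θ (fun π s => jj π s z ^ 2 * f π s) = θ z * SA μ θ z f := by
  rw [SS_split μ θ z, SB_mul_jj_sq, SA_mul_jj_sq, zero_add]

theorem SS_mul_jj (μ : Equiv.Perm X → ℝ) (θ : X → ℝ) (z : X)
    (f : Equiv.Perm X → (X → Fin 2) → ℝ) :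
    SS μ θ (fun π s => jj π s z * f π s) = θ z * SA μ θ z (fun π s => jj π s z * f π s) := by
  rw [SS_split μ θ z, SB_mul_jj, zero_add]

/-- `v_z = θ_z A / Z`. -/
theorem vv_eq (μ : Equiv.Perm X → ℝ) (θ : X → ℝ) (z : X) :
    vv μ θ z = θ z * SA μ θ z one' / SS μ θ one' := by
  rw [vv, EE_eq]
  congr 1
  have := SS_mul_jj_sq μ θ z one'
  simpa [one'] using this

/-- `v_z = θ_z M_z / (1 + θ_z M_z)`. -/
theorem vv_eq_mag {μ : Equiv.Perm X → ℝ} (h : IsLaw μ) {θ : X → ℝ} (hθ : ∀ x, 0 ≤ θ x) (z : X) :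
    vv μ θ z = θ z * mag μ θ z / (1 + θ z * mag μ θ z) := by
  have hB : 0 < SB μ θ z one' := lt_of_lt_of_le one_pos (SB_pos h.nonneg h.sum hθ z)
  have hA : 0 ≤ SA μ θ z one' := SA_nonneg h.nonneg hθ z fun _ _ => zero_le_one
  have hZ : 0 < SB μ θ z one' + θ z * SA μ θ z one' := by
    have := mul_nonneg (hθ z) hA; linarith
  rw [vv_eq, SS_split μ θ z, mag_eq]
  have h1 : 1 + θ z * (SA μ θ z one' / SB μ θ z one') =
      (SB μ θ z one' + θ z * SA μ θ z one') / SB μ θ z one' := by
    field_simp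
  rw [h1]
  field_simp

theorem mag_nonneg {μ : Equiv.Perm X → ℝ} (h : IsLaw μ) {θ : X → ℝ} (hθ : ∀ x, 0 ≤ θ x) (z : X) :
    0 ≤ mag μ θ z := by
  rw [mag_eq]
  exact div_nonneg (SA_nonneg h.nonneg hθ z fun _ _ => zero_le_one)
    (le_trans zero_le_one (SB_pos h.nonneg h.sum hθ z))

theorem vv_nonneg {μ : Equiv.Perm X → ℝ} (h : IsLaw μ) {θ : X → ℝ} (hθ : ∀ x, 0 ≤ θ x) (z : X) :
    0 ≤ vv μ θ z := by
  rw [vv_eq_mag h hθ]
  have h1 := mul_nonneg (hθ z) (mag_nonneg h hθ z)
  exact div_nonneg h1 (by linarith)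

theorem vv_le_mul_mag {μ : Equiv.Perm X → ℝ} (h : IsLaw μ) {θ : X → ℝ} (hθ : ∀ x, 0 ≤ θ x)
    (z : X) : vv μ θ z ≤ θ z * mag μ θ z := by
  rw [vv_eq_mag h hθ]
  have h1 := mul_nonneg (hθ z) (mag_nonneg h hθ z)
  exact div_le_self h1 (by linarith)

theorem mag_update (μ : Equiv.Perm X → ℝ) (θ : X → ℝ) (z : X) (t : ℝ) :
    mag μ (Function.update θ z t) z = mag μ θ z := by
  rw [mag_eq, mag_eq, SA_update, SB_update]

/-! ### The quadratic form -/

/-- With weight `g`: `E (a·j)² g = (1/2) ∑ ∑ (- E j_u j_v g) (a_u - a_v)²`. -/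
theorem SS_quad (μ : Equiv.Perm X → ℝ) (θ : X → ℝ) (g : Equiv.Perm X → (X → Fin 2) → ℝ)
    (a : X → ℝ) :
    SS μ θ (fun π s => (∑ x, a x * jj π s x) ^ 2 * g π s) =
      (1 / 2) * ∑ u, ∑ v, (- SS μ θ (fun π s => jj π s u * jj π s v * g π s)) *
        (a u - a v) ^ 2 := by
  have hpt : ∀ (π : Equiv.Perm X) (s : X → Fin 2), (∑ x, a x * jj π s x) ^ 2 * g π s =
      ∑ u, ∑ v, (-(1 / 2) * (a u - a v) ^ 2) * (jj π s u * jj π s v * g π s) := by
    intro π s
    have h0 := sum_jj π s
    have e1 : ∑ u, ∑ v, (-(1 / 2) * (a u - a v) ^ 2) * (jj π s u * jj π s v * g π s) =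
        g π s * ((∑ u, a u * jj π s u) * (∑ v, a v * jj π s v)
          - (1 / 2) * ((∑ u, a u ^ 2 * jj π s u) * (∑ v, jj π s v))
          - (1 / 2) * ((∑ u, jj π s u) * (∑ v, a v ^ 2 * jj π s v))) := by
      rw [Finset.sum_mul_sum, Finset.sum_mul_sum, Finset.sum_mul_sum]
      simp only [Finset.mul_sum, ← Finset.sum_sub_distrib]
      refine Finset.sum_congr rfl fun u _ => Finset.sum_congr rfl fun v _ => ?_
      ring
    rw [e1, h0]; ring
  have h2 : (fun (π : Equiv.Perm X) (s : X → Fin 2) => (∑ x, a x * jj π s x) ^ 2 * g π s) =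
      fun π s => ∑ u, ∑ v, (-(1 / 2) * (a u - a v) ^ 2) * (jj π s u * jj π s v * g π s) := by
    funext π s; exact hpt π s
  rw [h2, SS_sum, Finset.mul_sum]
  refine Finset.sum_congr rfl fun u _ => ?_
  rw [SS_sum, Finset.mul_sum]
  refine Finset.sum_congr rfl fun v _ => ?_
  rw [SS_mul]; ring

/-- `K(a) = (1/2) ∑ ∑ c_uv (a_u - a_v)²`. -/
theorem KK_eq_sum (μ : Equiv.Perm X → ℝ) (θ : X → ℝ) (a : X → ℝ) :
    KK μ θ a = (1 / 2) * ∑ u, ∑ v, cc μ θ u v * (a u - a v) ^ 2 := by
  have h := SS_quad μ θ one' a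
  simp only [one', mul_one] at h
  have h' : (1 : Equiv.Perm X → (X → Fin 2) → ℝ) = one' := rfl
  rw [KK, EE_eq, h, mul_div_assoc]
  congr 1
  rw [Finset.sum_div]
  refine Finset.sum_congr rfl fun u _ => ?_
  rw [Finset.sum_div]
  refine Finset.sum_congr rfl fun v _ => ?_
  rw [cc, EE_eq, neg_mul, neg_div, mul_div_right_comm, neg_mul]

theorem cc_symm (μ : Equiv.Perm X → ℝ) (θ : X → ℝ) (u v : X) : cc μ θ u v = cc μ θ v u := by
  unfold cc
  congr 2
  funext π s
  ring

theorem cc_self (μ : Equiv.Perm X → ℝ) (θ : X → ℝ) (u : X) : cc μ θ u u = - vv μ θ u := by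
  unfold cc vv
  congr 2
  funext π s
  ring

theorem sum_cc (μ : Equiv.Perm X → ℝ) (θ : X → ℝ) (u : X) : ∑ v, cc μ θ u v = 0 := by
  have h : ∑ v, SS μ θ (fun π s => jj π s u * jj π s v) = 0 := by
    rw [← SS_sum]
    have : (fun (π : Equiv.Perm X) (s : X → Fin 2) => ∑ i, jj π s u * jj π s i) =
        fun _ _ => 0 := by
      funext π s
      rw [← Finset.mul_sum, sum_jj, mul_zero]
    rw [this]
    simp [SS]
  unfold cc
  simp only [EE_eq]
  rw [Finset.sum_neg_distrib, ← Finset.sum_div, h, zero_div, neg_zero]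

/-- `v_z = ∑_{x ≠ z} c_zx`. -/
theorem vv_eq_sum_cc (μ : Equiv.Perm X → ℝ) (θ : X → ℝ) (z : X) :
    vv μ θ z = ∑ x ∈ univ.erase z, cc μ θ z x := by
  have h1 := sum_cc μ θ z
  rw [← Finset.add_sum_erase _ _ (Finset.mem_univ z), cc_self] at h1
  linarith

theorem KK_nonneg {μ : Equiv.Perm X → ℝ} (hμ : ∀ π, 0 ≤ μ π) {θ : X → ℝ} (hθ : ∀ x, 0 ≤ θ x)
    (a : X → ℝ) : 0 ≤ KK μ θ a := by
  rw [KK, EE_eq]
  exact div_nonneg (SS_nonneg hμ hθ fun _ _ => sq_nonneg _)
    (SS_nonneg hμ hθ fun _ _ => zero_le_one)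

end

end Vale.Agent.P361.LRO
end

section

/-!
P361 stage 3, block (M): hard core bosons on a finite set. `hcM a` is the compression of the
second quantization of the one-particle matrix `a` to the hard core space.
-/

set_option linter.unusedSectionVars false

namespace Vale.Agent.P361.LRO.S3

open Finset Matrix

noncomputable section

variable {V : Type} [Fintype V] [DecidableEq V]

/-- Annihilation of a down spin (particle) at `x`. -/
def aM (x : V) : Matrix (V → Fin 2) (V → Fin 2) ℝ :=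
  Matrix.of fun σ τ => if σ x = 0 ∧ τ = Function.update σ x 1 then 1 else 0

/-- Number of particles at `x`. -/
def nM (x : V) : Matrix (V → Fin 2) (V → Fin 2) ℝ :=
  Matrix.diagonal fun σ => if σ x = 1 then 1 else 0

/-- Compression of `dΓ(a)` to the hard core space. -/
def hcM (a : V → V → ℝ) : Matrix (V → Fin 2) (V → Fin 2) ℝ :=
  ∑ x, ∑ y, a x y • ((aM x)ᵀ * aM y)

/-- Number of particles of a configuration. -/
def totN (σ : V → Fin 2) : ℕ := ∑ x, (σ x : ℕ)

theorem fin2_ne {a : Fin 2} (h : a ≠ 0) : a = 1 := by omega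

theorem nM_eq (x : V) : nM x = (1 / 2 : ℝ) • (1 - szM x) := by
  ext σ τ
  rw [nM, szM, Matrix.smul_apply, Matrix.sub_apply, Matrix.one_apply, Matrix.diagonal_apply,
    Matrix.diagonal_apply]
  by_cases h : σ = τ
  · rw [if_pos h, if_pos h, if_pos h]
    by_cases h0 : σ x = 0
    · rw [if_pos h0, if_neg (by rw [h0]; decide)]; norm_num
    · rw [if_neg h0, if_pos (fin2_ne h0), smul_eq_mul]; norm_num
  · rw [if_neg h, if_neg h, if_neg h]; simp

theorem aM_apply (x : V) (σ τ : V → Fin 2) :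
    aM x σ τ = if σ x = 0 ∧ τ = Function.update σ x 1 then 1 else 0 := rfl

theorem aM_mulVec (x : V) (f : (V → Fin 2) → ℝ) (σ : V → Fin 2) :
    (aM x *ᵥ f) σ = if σ x = 0 then f (Function.update σ x 1) else 0 := by
  rw [Matrix.mulVec, dotProduct]
  by_cases h : σ x = 0
  · rw [if_pos h, Finset.sum_eq_single (Function.update σ x 1)]
    · rw [aM_apply, if_pos ⟨h, rfl⟩, one_mul]
    · intro τ _ hτ
      rw [aM_apply, if_neg (fun h' => hτ h'.2), zero_mul]
    · intro h'; exact absurd (Finset.mem_univ _) h'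
  · rw [if_neg h]
    refine Finset.sum_eq_zero fun τ _ => ?_
    rw [aM_apply, if_neg (fun h' => h h'.1), zero_mul]

theorem hcM_form (a : V → V → ℝ) (f g : (V → Fin 2) → ℝ) :
    f ⬝ᵥ (hcM a *ᵥ g) = ∑ x, ∑ y, a x y * ∑ σ, (aM x *ᵥ f) σ * (aM y *ᵥ g) σ := by
  rw [hcM, Matrix.sum_mulVec, dotProduct_sum]
  refine Finset.sum_congr rfl fun x _ => ?_
  rw [Matrix.sum_mulVec, dotProduct_sum]
  refine Finset.sum_congr rfl fun y _ => ?_
  rw [Matrix.smul_mulVec, dotProduct_smul, smul_eq_mul, ← Matrix.mulVec_mulVec,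
    Matrix.dotProduct_mulVec, Matrix.vecMul_transpose]
  rfl

theorem hcM_add (a b : V → V → ℝ) : hcM (fun x y => a x y + b x y) = hcM a + hcM b := by
  simp only [hcM, add_smul, Finset.sum_add_distrib]

theorem hcM_smul (c : ℝ) (a : V → V → ℝ) : hcM (fun x y => c * a x y) = c • hcM a := by
  simp only [hcM, mul_smul, Finset.smul_sum]

theorem hcM_sub (a b : V → V → ℝ) : hcM (fun x y => a x y - b x y) = hcM a - hcM b := by
  simp only [hcM, sub_smul, Finset.sum_sub_distrib]

theorem hcM_sum {ι : Type*} (s : Finset ι) (a : ι → V → V → ℝ) :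
    hcM (fun x y => ∑ i ∈ s, a i x y) = ∑ i ∈ s, hcM (a i) := by
  simp only [hcM, Finset.sum_smul]
  have h1 : ∀ x : V, ∑ y, ∑ i ∈ s, a i x y • ((aM x)ᵀ * aM y) =
      ∑ i ∈ s, ∑ y, a i x y • ((aM x)ᵀ * aM y) := fun x => Finset.sum_comm
  simp only [h1]
  exact Finset.sum_comm

theorem aM_transpose_mul_apply (x y : V) (σ τ : V → Fin 2) :
    ((aM x)ᵀ * aM y) σ τ = if σ x = 1 ∧ (Function.update σ x 0) y = 0 ∧
      τ = Function.update (Function.update σ x 0) y 1 then 1 else 0 := by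
  rw [Matrix.mul_apply]
  by_cases hσ : σ x = 1
  · rw [Finset.sum_eq_single (Function.update σ x 0)]
    · have h1 : (aM x)ᵀ σ (Function.update σ x 0) = 1 := by
        rw [Matrix.transpose_apply, aM_apply, if_pos]
        refine ⟨by simp, ?_⟩
        rw [Function.update_idem, ← hσ, Function.update_eq_self]
      rw [h1, one_mul, aM_apply]
      by_cases h2 : (Function.update σ x 0) y = 0
      · by_cases h3 : τ = Function.update (Function.update σ x 0) y 1
        · rw [if_pos ⟨h2, h3⟩, if_pos ⟨hσ, h2, h3⟩]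
        · rw [if_neg (fun h => h3 h.2), if_neg (fun h => h3 h.2.2)]
      · rw [if_neg (fun h => h2 h.1), if_neg (fun h => h2 h.2.1)]
    · intro ρ _ hρ
      have h1 : (aM x)ᵀ σ ρ = 0 := by
        rw [Matrix.transpose_apply, aM_apply, if_neg]
        rintro ⟨h2, h3⟩
        apply hρ
        rw [h3, Function.update_idem, ← h2, Function.update_eq_self]
      rw [h1, zero_mul]
    · intro h; exact absurd (Finset.mem_univ _) h
  · rw [if_neg (fun h => hσ h.1)]
    refine Finset.sum_eq_zero fun ρ _ => ?_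
    have h1 : (aM x)ᵀ σ ρ = 0 := by
      rw [Matrix.transpose_apply, aM_apply, if_neg]
      rintro ⟨h2, h3⟩
      exact hσ (by rw [h3]; simp)
    rw [h1, zero_mul]

theorem aM_self (x : V) : (aM x)ᵀ * aM x = nM x := by
  ext σ τ
  rw [aM_transpose_mul_apply, nM, Matrix.diagonal_apply]
  by_cases hσ : σ x = 1
  · have h1 : Function.update (Function.update σ x 0) x 1 = σ := by
      rw [Function.update_idem, ← hσ, Function.update_eq_self]
    rw [h1]
    by_cases hτ : σ = τ
    · rw [if_pos ⟨hσ, by simp, hτ.symm⟩, if_pos hτ, if_pos hσ]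
    · rw [if_neg (fun h => hτ h.2.2.symm), if_neg hτ]
  · rw [if_neg (fun h => hσ h.1)]
    split_ifs <;> rfl

/-- `(a_x - a_y)ᵀ (a_x - a_y) = 2 h_xy + 2 n_x n_y`. -/
theorem hop_eq {x y : V} (hxy : x ≠ y) :
    (aM x - aM y)ᵀ * (aM x - aM y) = (2 : ℝ) • hM x y + (2 : ℝ) • (nM x * nM y) := by
  have h0 : (aM x - aM y)ᵀ * (aM x - aM y) = nM x + nM y -
      ((aM x)ᵀ * aM y + (aM y)ᵀ * aM x) := by
    rw [Matrix.transpose_sub, Matrix.sub_mul, Matrix.mul_sub, Matrix.mul_sub, aM_self, aM_self]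
    abel
  rw [h0, hM, smul_smul]
  ext σ τ
  rw [Matrix.sub_apply, Matrix.add_apply, Matrix.add_apply, aM_transpose_mul_apply,
    aM_transpose_mul_apply, Matrix.add_apply, Matrix.smul_apply, Matrix.smul_apply, nM, nM,
    Matrix.diagonal_mul_diagonal, Matrix.diagonal_apply, Matrix.diagonal_apply,
    Matrix.diagonal_apply, Matrix.sub_apply, Matrix.one_apply, swapM, Matrix.of_apply]
  have hx1 : (Function.update σ x 0) y = σ y := Function.update_of_ne hxy.symm _ _
  have hy1 : (Function.update σ y 0) x = σ x := Function.update_of_ne hxy _ _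
  rw [hx1, hy1]
  -- the exchanged configuration
  have hsw : (σ = τ ∘ Equiv.swap x y) ↔ τ = σ ∘ Equiv.swap x y := by
    constructor
    · rintro rfl; funext z; simp
    · rintro rfl; funext z; simp
  have e1 : (2 : ℝ) * (1 / 2) = 1 := by norm_num
  rw [e1]
  have hval : ∀ z, (σ ∘ Equiv.swap x y) z = if z = x then σ y else if z = y then σ x else σ z := by
    intro z
    rw [Function.comp_apply, Equiv.swap_apply_def]
    split_ifs <;> rfl
  by_cases hx : σ x = 1
  · by_cases hy : σ y = 1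
    · -- both down
      have hs : σ ∘ Equiv.swap x y = σ := by
        funext z
        rw [hval]
        split_ifs with h1 h2
        · rw [h1, hx, hy]
        · rw [h2, hx, hy]
        · rfl
      have c1 : ¬ (σ x = 1 ∧ σ y = 0 ∧ τ = Function.update (Function.update σ x 0) y 1) :=
        fun h => absurd h.2.1 (by rw [hy]; decide)
      have c2 : ¬ (σ y = 1 ∧ σ x = 0 ∧ τ = Function.update (Function.update σ y 0) x 1) :=
        fun h => absurd h.2.1 (by rw [hx]; decide)
      rw [if_neg c1, if_neg c2]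
      simp only [hsw, hs]
      by_cases hτ : σ = τ
      · subst hτ
        simp [hx, hy]
        norm_num
      · have hτ' : ¬ τ = σ := fun h => hτ h.symm
        simp [hτ, hτ']
    · -- x down, y up
      have hy0 : σ y = 0 := by
        by_contra h
        exact hy (fin2_ne h)
      have c2 : ¬ (σ y = 1 ∧ σ x = 0 ∧ τ = Function.update (Function.update σ y 0) x 1) :=
        fun h => absurd h.1 hy
      have hs : σ ∘ Equiv.swap x y = Function.update (Function.update σ x 0) y 1 := by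
        funext z
        rw [hval]
        by_cases h1 : z = x
        · rw [if_pos h1, h1, Function.update_of_ne hxy, Function.update_self, hy0]
        · rw [if_neg h1]
          by_cases h2 : z = y
          · rw [if_pos h2, h2, Function.update_self, hx]
          · rw [if_neg h2, Function.update_of_ne h2, Function.update_of_ne h1]
      rw [if_neg c2]
      simp only [hsw, ← hs]
      have hne : σ ≠ σ ∘ Equiv.swap x y := by
        intro h
        have := congrFun h x
        rw [hval, if_pos rfl, hx, hy0] at this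
        exact absurd this (by decide)
      by_cases hτ : σ = τ
      · subst hτ
        simp [hx, hy0, hne]
      · by_cases hτ2 : τ = σ ∘ Equiv.swap x y
        · subst hτ2
          simp [hx, hy0, hne]
        · simp [hx, hy0, hτ, hτ2]
  · have hx0 : σ x = 0 := by
      by_contra h
      exact hx (fin2_ne h)
    have c1 : ¬ (σ x = 1 ∧ σ y = 0 ∧ τ = Function.update (Function.update σ x 0) y 1) :=
      fun h => absurd h.1 hx
    rw [if_neg c1]
    by_cases hy : σ y = 1
    · have hs : σ ∘ Equiv.swap x y = Function.update (Function.update σ y 0) x 1 := by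
        funext z
        rw [hval]
        by_cases h1 : z = x
        · rw [if_pos h1, h1, Function.update_self, hy]
        · rw [if_neg h1, Function.update_of_ne h1]
          by_cases h2 : z = y
          · rw [if_pos h2, h2, Function.update_self, hx0]
          · rw [if_neg h2, Function.update_of_ne h2]
      simp only [hsw, ← hs]
      have hne : σ ≠ σ ∘ Equiv.swap x y := by
        intro h
        have := congrFun h x
        rw [hval, if_pos rfl, hx0, hy] at this
        exact absurd this (by decide)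
      by_cases hτ : σ = τ
      · subst hτ
        simp [hx0, hy, hne]
      · by_cases hτ2 : τ = σ ∘ Equiv.swap x y
        · subst hτ2
          simp [hx0, hy, hne]
        · simp [hx0, hy, hτ, hτ2]
    · have hy0 : σ y = 0 := by
        by_contra h
        exact hy (fin2_ne h)
      have hs : σ ∘ Equiv.swap x y = σ := by
        funext z
        rw [hval]
        split_ifs with h1 h2
        · rw [h1, hx0, hy0]
        · rw [h2, hx0, hy0]
        · rfl
      have c2 : ¬ (σ y = 1 ∧ σ x = 0 ∧ τ = Function.update (Function.update σ y 0) x 1) :=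
        fun h => absurd h.1 hy
      rw [if_neg c2]
      simp only [hsw, hs]
      by_cases hτ : σ = τ
      · subst hτ
        simp [hx0, hy0]
      · have hτ' : ¬ τ = σ := fun h => hτ h.symm
        simp [hτ, hτ']

/-- One-particle form of a pair. -/
def pairK (x y : V) (u v : V) : ℝ :=
  ((if u = x then 1 else 0) - if u = y then 1 else 0) *
    ((if v = x then 1 else 0) - if v = y then 1 else 0)

theorem hcM_rank_one (f : V → ℝ) :
    hcM (fun u v => f u * f v) = (∑ u, f u • aM u)ᵀ * ∑ v, f v • aM v := by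
  rw [hcM, Matrix.transpose_sum, Finset.sum_mul]
  refine Finset.sum_congr rfl fun u _ => ?_
  rw [Finset.mul_sum]
  refine Finset.sum_congr rfl fun v _ => ?_
  rw [Matrix.transpose_smul, Matrix.smul_mul, Matrix.mul_smul, smul_smul]

theorem hcM_pairK {x y : V} (hxy : x ≠ y) :
    hcM (pairK x y) = (2 : ℝ) • hM x y + (2 : ℝ) • (nM x * nM y) := by
  rw [← hop_eq hxy]
  have h1 : (∑ u, (((if u = x then 1 else 0) - if u = y then 1 else 0 : ℝ)) • aM u) =
      aM x - aM y := by
    simp only [sub_smul, Finset.sum_sub_distrib, ite_smul, one_smul, zero_smul,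
      Finset.sum_ite_eq', Finset.mem_univ, if_true]
  have h2 := hcM_rank_one (fun u : V => ((if u = x then 1 else 0) - if u = y then 1 else 0 : ℝ))
  rw [h1] at h2
  exact h2

theorem hcM_one : hcM (fun x y : V => if x = y then (1 : ℝ) else 0) = ∑ x : V, nM x := by
  rw [hcM]
  refine Finset.sum_congr rfl fun x _ => ?_
  rw [Finset.sum_eq_single x]
  · rw [if_pos rfl, one_smul, aM_self]
  · intro y _ hy
    rw [if_neg (Ne.symm hy), zero_smul]
  · intro h; exact absurd (Finset.mem_univ _) h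

/-- `hcM` of a sum of rank one kernels. -/
theorem hcM_rank {ι : Type*} (s : Finset ι) (al : ι → ℝ) (e : ι → V → ℝ) :
    hcM (fun u v => ∑ i ∈ s, al i * (e i u * e i v)) =
      ∑ i ∈ s, al i • ((∑ u, e i u • aM u)ᵀ * ∑ v, e i v • aM v) := by
  rw [hcM_sum]
  refine Finset.sum_congr rfl fun i _ => ?_
  rw [hcM_smul, hcM_rank_one]

theorem hcM_rank_posSemidef {ι : Type*} (s : Finset ι) (al : ι → ℝ) (e : ι → V → ℝ)
    (hal : ∀ i ∈ s, 0 ≤ al i) :
    (hcM (fun u v => ∑ i ∈ s, al i * (e i u * e i v))).PosSemidef := by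
  rw [hcM_rank]
  refine Matrix.posSemidef_sum _ fun i hi => ?_
  have h := Matrix.posSemidef_conjTranspose_mul_self (∑ v, e i v • aM v)
  rw [Matrix.conjTranspose_eq_transpose_of_trivial] at h
  exact h.smul (hal i hi)

theorem hcM_symm {a : V → V → ℝ} (ha : ∀ x y, a x y = a y x) : (hcM a)ᵀ = hcM a := by
  rw [hcM, Matrix.transpose_sum]
  simp only [Matrix.transpose_sum, Matrix.transpose_smul, Matrix.transpose_mul,
    Matrix.transpose_transpose]
  rw [Finset.sum_comm]
  refine Finset.sum_congr rfl fun x _ => Finset.sum_congr rfl fun y _ => ?_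
  rw [ha]

theorem totN_update (σ : V → Fin 2) (x : V) (h : σ x = 0) :
    totN (Function.update σ x 1) = totN σ + 1 := by
  unfold totN
  rw [← Finset.add_sum_erase _ _ (Finset.mem_univ x), ← Finset.add_sum_erase _ (fun z => (σ z : ℕ))
    (Finset.mem_univ x), Function.update_self, h]
  have : ∑ z ∈ Finset.univ.erase x, ((Function.update σ x 1 z : Fin 2) : ℕ) =
      ∑ z ∈ Finset.univ.erase x, ((σ z : Fin 2) : ℕ) := by
    refine Finset.sum_congr rfl fun z hz => ?_
    rw [Function.update_of_ne (Finset.ne_of_mem_erase hz)]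
  rw [this]
  simp only [Fin.val_one, Fin.val_zero]
  ring

/-- `hcM a` preserves the number of particles. -/
theorem hcM_comm (a : V → V → ℝ) (σ τ : V → Fin 2) (h : totN σ ≠ totN τ) : hcM a σ τ = 0 := by
  rw [hcM, Matrix.sum_apply]
  refine Finset.sum_eq_zero fun x _ => ?_
  rw [Matrix.sum_apply]
  refine Finset.sum_eq_zero fun y _ => ?_
  rw [Matrix.smul_apply, aM_transpose_mul_apply, if_neg, smul_zero]
  rintro ⟨h1, h2, h3⟩
  apply h
  rw [h3, totN_update _ _ h2]
  have h4 := totN_update (Function.update σ x 0) x (by simp)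
  rw [Function.update_idem, ← h1, Function.update_eq_self] at h4
  exact h4

end

end Vale.Agent.P361.LRO.S3
end

section

/-!
P361, step (5): the family `F(h0)` of field profiles (closure properties, bumps, retraction).
-/

namespace Vale.Agent.P361.LRO

open Finset

noncomputable section

variable {n : ℕ} {h0 h0' lam lam' : ℝ} {g h : Tor n → ℝ}

/-- `|log h_x - log h_y| ≤ lam` for nearest neighbours. -/
def LipN (n : ℕ) (lam : ℝ) (h : Tor n → ℝ) : Prop :=
  ∀ (x : Tor n) (i : Fin 3), h x ≤ Real.exp lam * h (x + Pi.single i 1) ∧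
    h (x + Pi.single i 1) ≤ Real.exp lam * h x

theorem fam_iff : Fam n h0 lam h ↔ (∀ x, h0 ≤ h x ∧ h x ≤ 1) ∧ LipN n lam h := Iff.rfl

theorem Fam.lip (H : Fam n h0 lam h) : LipN n lam h := H.2

theorem Fam.ge (H : Fam n h0 lam h) (x : Tor n) : h0 ≤ h x := (H.1 x).1

theorem Fam.le_one (H : Fam n h0 lam h) (x : Tor n) : h x ≤ 1 := (H.1 x).2

theorem LipN.max (hg : LipN n lam g) (hh : LipN n lam h) : LipN n lam fun x => max (g x) (h x) := by
  intro x i
  have e : 0 ≤ Real.exp lam := (Real.exp_pos _).le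
  refine ⟨?_, ?_⟩
  · rw [mul_max_of_nonneg _ _ e]
    exact max_le_max (hg x i).1 (hh x i).1
  · rw [mul_max_of_nonneg _ _ e]
    exact max_le_max (hg x i).2 (hh x i).2

theorem LipN.smul (hh : LipN n lam h) {c : ℝ} (hc : 0 ≤ c) : LipN n lam fun x => c * h x := by
  intro x i
  refine ⟨?_, ?_⟩
  · calc c * h x ≤ c * (Real.exp lam * h (x + Pi.single i 1)) :=
        mul_le_mul_of_nonneg_left (hh x i).1 hc
      _ = _ := by ring
  · calc c * h (x + Pi.single i 1) ≤ c * (Real.exp lam * h x) :=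
        mul_le_mul_of_nonneg_left (hh x i).2 hc
      _ = _ := by ring

theorem lipN_const {c : ℝ} (hc : 0 ≤ c) (hl : 0 ≤ lam) : LipN n lam fun _ => c := by
  intro x i
  have : c ≤ Real.exp lam * c := le_mul_of_one_le_left hc (Real.one_le_exp hl)
  exact ⟨this, this⟩

theorem LipN.translate (hh : LipN n lam h) (v : Tor n) : LipN n lam fun x => h (x + v) := by
  intro x i
  have e : x + Pi.single i 1 + v = x + v + Pi.single i 1 := by abel
  simp only [e]
  exact hh (x + v) i

theorem LipN.mono (hh : LipN n lam h) (h1 : ∀ x, 0 ≤ h x) (hl : lam ≤ lam') : LipN n lam' h := by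
  intro x i
  have e := Real.exp_le_exp.2 hl
  exact ⟨(hh x i).1.trans (mul_le_mul_of_nonneg_right e (h1 _)),
    (hh x i).2.trans (mul_le_mul_of_nonneg_right e (h1 _))⟩

/-- Bumps: `exp (- lam (d(x) - r)₊)` for a function `d` that changes by at most `1` from a site to
its neighbour. -/
theorem lipN_bump {d : Tor n → ℝ} (hl : 0 ≤ lam) (r : ℝ)
    (hd : ∀ x i, |d (x + Pi.single i 1) - d x| ≤ 1) :
    LipN n lam fun x => Real.exp (-(lam * Max.max (d x - r) 0)) := by
  intro x i
  have h1 := abs_le.1 (hd x i)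
  constructor
  · rw [← Real.exp_add]
    refine Real.exp_le_exp.2 ?_
    have : Max.max (d (x + Pi.single i 1) - r) 0 ≤ Max.max (d x - r) 0 + 1 :=
      max_le (by have := le_max_left (d x - r) 0; linarith [h1.2])
        (by have := le_max_right (d x - r) 0; linarith)
    nlinarith
  · rw [← Real.exp_add]
    refine Real.exp_le_exp.2 ?_
    have : Max.max (d x - r) 0 ≤ Max.max (d (x + Pi.single i 1) - r) 0 + 1 :=
      max_le (by have := le_max_left (d (x + Pi.single i 1) - r) 0; linarith [h1.1])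
        (by have := le_max_right (d (x + Pi.single i 1) - r) 0; linarith)
    nlinarith

theorem bump_le_one {d : Tor n → ℝ} (hl : 0 ≤ lam) (r : ℝ) (x : Tor n) :
    Real.exp (-(lam * Max.max (d x - r) 0)) ≤ 1 :=
  Real.exp_le_one_iff.2 (by have := mul_nonneg hl (le_max_right (d x - r) 0); linarith)

theorem bump_eq_one {d : Tor n → ℝ} {r : ℝ} {x : Tor n} (hx : d x ≤ r) :
    Real.exp (-(lam * Max.max (d x - r) 0)) = 1 := by
  rw [max_eq_right (by linarith), mul_zero, neg_zero, Real.exp_zero]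

/-! ### The family -/

theorem fam_const {c : ℝ} (h1 : h0 ≤ c) (h2 : c ≤ 1) (hc : 0 ≤ c) (hl : 0 ≤ lam) :
    Fam n h0 lam fun _ => c :=
  ⟨fun _ => ⟨h1, h2⟩, lipN_const hc hl⟩

/-- `max g h` with `g` in the family, `h` log-Lipschitz and `≤ 1`. -/
theorem Fam.sup' (hg : Fam n h0 lam g) (hh : LipN n lam h) (h1 : ∀ x, h x ≤ 1) :
    Fam n h0 lam fun x => max (g x) (h x) :=
  ⟨fun x => ⟨(hg.ge x).trans (le_max_left _ _), max_le (hg.le_one x) (h1 x)⟩, hg.lip.max hh⟩

theorem Fam.sup (hg : Fam n h0 lam g) (hh : Fam n h0' lam h) :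
    Fam n h0 lam fun x => max (g x) (h x) :=
  hg.sup' hh.lip hh.le_one

/-- The path of profiles used for lowering: `max (g, c h)`, `0 ≤ c ≤ 1`. -/
theorem Fam.max_smul (hg : Fam n h0 lam g) (hh : LipN n lam h) (h1 : ∀ x, h x ≤ 1)
    (h2 : ∀ x, 0 ≤ h x) {c : ℝ} (hc : 0 ≤ c) (hc1 : c ≤ 1) :
    Fam n h0 lam fun x => max (g x) (c * h x) :=
  hg.sup' (hh.smul hc) fun x =>
    (mul_le_of_le_one_left (h2 x) hc1).trans (h1 x)

theorem Fam.translate (H : Fam n h0 lam h) (v : Tor n) : Fam n h0 lam fun x => h (x + v) :=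
  ⟨fun x => H.1 (x + v), H.lip.translate v⟩

theorem Fam.mono (H : Fam n h0 lam h) (h1 : h0' ≤ h0) (hl : lam ≤ lam') (hp : 0 ≤ h0) :
    Fam n h0' lam' h :=
  ⟨fun x => ⟨h1.trans (H.ge x), H.le_one x⟩, H.lip.mono (fun x => hp.trans (H.ge x)) hl⟩

/-- The bumped profile. -/
theorem Fam.bump (H : Fam n h0 lam h) {d : Tor n → ℝ} (hl : 0 ≤ lam) (r : ℝ)
    (hd : ∀ x i, |d (x + Pi.single i 1) - d x| ≤ 1) :
    Fam n h0 lam fun x => Max.max (h x) (Real.exp (-(lam * Max.max (d x - r) 0))) :=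
  H.sup' (lipN_bump hl r hd) (bump_le_one hl r)

/-- The retraction onto the smaller family. -/
theorem Fam.retract (H : Fam n h0' lam h) (h1 : h0 ≤ 1) (hp : 0 ≤ h0) (hl : 0 ≤ lam) :
    Fam n h0 lam fun x => Max.max (h x) h0 :=
  ⟨fun x => ⟨le_max_right _ _, max_le (H.le_one x) h1⟩, H.lip.max (lipN_const hp hl)⟩

theorem abs_retract_sub (H : Fam n h0' lam h) (hh : h0' ≤ h0) (x : Tor n) :
    |Max.max (h x) h0 - h x| ≤ h0 - h0' := by
  have h1 := H.ge x
  rw [abs_of_nonneg (by linarith [le_max_left (h x) h0])]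
  rcases le_total (h x) h0 with h2 | h2
  · rw [max_eq_right h2]; linarith
  · rw [max_eq_left h2]; linarith

theorem LipN.step (hh : LipN n lam h) (i : Fin 3) (m : ℕ) (x : Tor n) :
    h x ≤ Real.exp (lam * m) * h (x + m • (Pi.single i 1 : Tor n)) ∧
      h (x + m • (Pi.single i 1 : Tor n)) ≤ Real.exp (lam * m) * h x := by
  induction m with
  | zero => simp
  | succ m ih =>
    have e : x + (m + 1) • (Pi.single i 1 : Tor n) =
        x + m • (Pi.single i 1 : Tor n) + Pi.single i 1 := by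
      rw [succ_nsmul]; abel
    have e2 : Real.exp (lam * ((m + 1 : ℕ) : ℝ)) = Real.exp (lam * m) * Real.exp lam := by
      rw [← Real.exp_add]; congr 1; push_cast; ring
    have h3 := hh (x + m • (Pi.single i 1 : Tor n)) i
    rw [e, e2]
    constructor
    · calc h x ≤ Real.exp (lam * m) * h (x + m • (Pi.single i 1 : Tor n)) := ih.1
        _ ≤ Real.exp (lam * m) *
            (Real.exp lam * h (x + m • (Pi.single i 1 : Tor n) + Pi.single i 1)) :=
          mul_le_mul_of_nonneg_left h3.1 (Real.exp_pos _).le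
        _ = _ := by ring
    · calc h (x + m • (Pi.single i 1 : Tor n) + Pi.single i 1) ≤
          Real.exp lam * h (x + m • (Pi.single i 1 : Tor n)) := h3.2
        _ ≤ Real.exp lam * (Real.exp (lam * m) * h x) :=
          mul_le_mul_of_nonneg_left ih.2 (Real.exp_pos _).le
        _ = _ := by ring

/-- Translation by a vector with natural coordinates. -/
theorem LipN.vec (hh : LipN n lam h) (v : Fin 3 → ℕ) (x : Tor n) :
    h x ≤ Real.exp (lam * (v 0 + v 1 + v 2 : ℕ)) * h (x + fun i => ((v i : ℕ) : ZMod n)) ∧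
      h (x + fun i => ((v i : ℕ) : ZMod n)) ≤ Real.exp (lam * (v 0 + v 1 + v 2 : ℕ)) * h x := by
  have e : (x + fun i => ((v i : ℕ) : ZMod n)) = x + v 0 • (Pi.single 0 1 : Tor n) +
      v 1 • (Pi.single 1 1 : Tor n) + v 2 • (Pi.single 2 1 : Tor n) := by
    funext i
    fin_cases i <;> simp
  have a0 := hh.step 0 (v 0) x
  have a1 := hh.step 1 (v 1) (x + v 0 • (Pi.single 0 1 : Tor n))
  have a2 := hh.step 2 (v 2) (x + v 0 • (Pi.single 0 1 : Tor n) + v 1 • (Pi.single 1 1 : Tor n))
  have e2 : Real.exp (lam * (v 0 + v 1 + v 2 : ℕ)) =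
      Real.exp (lam * v 0) * (Real.exp (lam * v 1) * Real.exp (lam * v 2)) := by
    rw [← Real.exp_add, ← Real.exp_add]; congr 1; push_cast; ring
  rw [e, e2]
  have p0 := (Real.exp_pos (lam * v 0)).le
  have p1 := (Real.exp_pos (lam * v 1)).le
  have p2 := (Real.exp_pos (lam * v 2)).le
  constructor
  · calc h x ≤ _ := a0.1
      _ ≤ _ := mul_le_mul_of_nonneg_left a1.1 p0
      _ ≤ _ := mul_le_mul_of_nonneg_left (mul_le_mul_of_nonneg_left a2.1 p1) p0
      _ = _ := by ring
  · calc _ ≤ _ := a2.2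
      _ ≤ _ := mul_le_mul_of_nonneg_left a1.2 p2
      _ ≤ _ := mul_le_mul_of_nonneg_left (mul_le_mul_of_nonneg_left a0.2 p1) p2
      _ = _ := by ring

theorem isCompact_fam (n : ℕ) [NeZero n] (h0 lam : ℝ) : IsCompact {h : Tor n → ℝ | Fam n h0 lam h} := by
  have h1 : IsCompact (Set.pi Set.univ fun _ : Tor n => Set.Icc h0 (1 : ℝ)) :=
    isCompact_univ_pi fun _ => isCompact_Icc
  refine h1.of_isClosed_subset ?_ ?_
  · have e : {h : Tor n → ℝ | Fam n h0 lam h} =
        (⋂ x, {h : Tor n → ℝ | h0 ≤ h x ∧ h x ≤ 1}) ∩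
          ⋂ x, ⋂ i : Fin 3, {h : Tor n → ℝ | h x ≤ Real.exp lam * h (x + Pi.single i 1) ∧
            h (x + Pi.single i 1) ≤ Real.exp lam * h x} := by
      ext h
      simp only [Set.mem_ofPred_eq, Set.mem_inter_iff, Set.mem_iInter]
      exact Iff.rfl
    rw [e]
    refine IsClosed.inter (isClosed_iInter fun x => ?_)
      (isClosed_iInter fun x => isClosed_iInter fun i => ?_)
    · exact (isClosed_le continuous_const (continuous_apply x)).inter
        (isClosed_le (continuous_apply x) continuous_const)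
    · have c1 : Continuous fun h : Tor n → ℝ => h x := continuous_apply x
      have c2 : Continuous fun h : Tor n → ℝ => h (x + Pi.single i 1) := continuous_apply _
      exact (isClosed_le c1 (continuous_const.mul c2)).inter
        (isClosed_le c2 (continuous_const.mul c1))
  · intro h hh x _
    exact ⟨(hh.1 x).1, (hh.1 x).2⟩

end

end Vale.Agent.P361.LRO
end

section

/-!
P361 LRO, block (4) LOC: interfaces.  Everything on helper118's `LRO/Defs.lean`.

For a permutation `π` of the nodes: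
* `Zp π θ = ∑_{t, t ∘ π = t} ∏ (1 + θ_x t_x)` (spins constant on the cycles);
* `Zf π θ u v`: the spin is flipped exactly at `u` and `v`, the factors of `u, v` are dropped.
-/

namespace Vale.Agent.P361.LRO.Loc

open Finset Vale.Agent.P361.LRO

noncomputable section

variable {X : Type} [Fintype X] [DecidableEq X]

/-- Sign of a spin. -/
def sg (a : Fin 2) : ℝ := if a = 0 then 1 else -1

/-- Dual partition function of a permutation. -/
def Zp (π : Equiv.Perm X) (θ : X → ℝ) : ℝ :=
  ∑ t : X → Fin 2, if (∀ x, t (π x) = t x) then ∏ x, (1 + θ x * sg (t x)) else 0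

/-- The same with flips exactly at the nodes `u, v`, whose factors are dropped. -/
def Zf (π : Equiv.Perm X) (θ : X → ℝ) (u v : X) : ℝ :=
  ∑ t : X → Fin 2, if (∀ x, (t (π x) = t x ↔ (x ≠ u ∧ x ≠ v))) then
    ∏ x, (if x = u ∨ x = v then 1 else 1 + θ x * sg (t x)) else 0

/-- Expectation of a function of the permutation (linear in the gate list). -/
def ev (l : List (X × X × ℝ)) (σ : Equiv.Perm X) (F : Equiv.Perm X → ℝ) : ℝ :=
  ∑ π, law l σ π * F π

/-- All gates of the list are honest. -/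
def OKg (l : List (X × X × ℝ)) : Prop := ∀ g ∈ l, 0 ≤ g.2.2 ∧ g.2.2 ≤ 1 / 2

/-- A (helper1): Fourier transform on the cycles. -/
def FourierStmt : Prop :=
  ∀ (X : Type) [Fintype X] [DecidableEq X] (π : Equiv.Perm X) (θ : X → ℝ),
    (∑ s, wt θ π s = Zp π θ) ∧
    (∀ u v, u ≠ v → -(∑ s, wt θ π s * (jj π s u * jj π s v)) = θ u * θ v * Zf π θ u v) ∧
    (∀ u, ∑ s, (if s u = s (π u) then 0 else wt θ π s) =
      θ u * ∑ t : X → Fin 2, if (∀ x, t (π x) = t x) then
        ∏ x, (if x = u then sg (t x) else 1 + θ x * sg (t x)) else 0)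

/-- B (helper759): Griffiths on the cycles; one more transposition changes `Zp` by at most `2`. -/
def RingStmt : Prop :=
  ∀ (X : Type) [Fintype X] [DecidableEq X] (π : Equiv.Perm X) (θ : X → ℝ),
    (∀ x, 0 ≤ θ x ∧ θ x ≤ 1) →
    0 < Zp π θ ∧ ∀ a b, Zp (Equiv.swap a b * π) θ ≤ 2 * Zp π θ

/-- D (helper759): the arc bound.  `w` lists the nodes strictly between `u` and `v`. -/
def ArcStmt : Prop :=
  ∀ (X : Type) [Fintype X] [DecidableEq X] (π : Equiv.Perm X) (θ : X → ℝ),
    (∀ x, 0 ≤ θ x ∧ θ x ≤ 1) → ∀ (u v : X), u ≠ v →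
    0 ≤ Zf π θ u v ∧
    ∀ (m : ℕ), (π ^ (m + 1)) u = v → (∀ i, 1 ≤ i → i ≤ m → (π ^ i) u ≠ u ∧ (π ^ i) u ≠ v) →
      (∀ i, i ≤ m + 1 → ∀ j, j ≤ m + 1 → (π ^ i) u = (π ^ j) u → i = j) →
      (∏ i ∈ Finset.range m, (1 - θ ((π ^ (i + 1)) u)) / (1 + θ ((π ^ (i + 1)) u))) /
        ((1 + θ u) * (1 + θ v)) * Zp π θ ≤ Zf π θ u v

/-- Replace the probability of the gates for which `S` holds by `0`. -/
def closeG (S : X × X × ℝ → Prop) [DecidablePred S] (l : List (X × X × ℝ)) :
    List (X × X × ℝ) :=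
  l.map fun g => if S g then (g.1, g.2.1, 0) else g

/-- C (helper428): closing gates.  `G ≥ 0` any function; for `Zp` the reverse bound. -/
def CloseStmt : Prop :=
  ∀ (X : Type) [Fintype X] [DecidableEq X] (l : List (X × X × ℝ)) (σ : Equiv.Perm X)
    (S : X × X × ℝ → Prop) [DecidablePred S], OKg l →
    (∀ F : Equiv.Perm X → ℝ, (∀ π, 0 ≤ F π) →
      (l.map fun g => if S g then 1 - g.2.2 else 1).prod * ev (closeG S l) σ F ≤ ev l σ F) ∧
    (∀ θ : X → ℝ, (∀ x, 0 ≤ θ x ∧ θ x ≤ 1) →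
      ev l σ (fun π => Zp π θ) ≤
        (l.map fun g => if S g then 1 + g.2.2 else 1).prod *
          ev (closeG S l) σ fun π => Zp π θ)

/-- Gates with `S` closed, except that the `j`-th gate is open (probability `1`). -/
def pat (S : X × X × ℝ → Prop) [DecidablePred S] (l : List (X × X × ℝ)) (j : ℕ) :
    List (X × X × ℝ) :=
  (closeG S l).modify j fun g => (g.1, g.2.1, 1)

/-- C' (helper428): exactly one open gate (with `H`, where `H` implies `S`). -/
def OneOpenStmt : Prop :=
  ∀ (X : Type) [Fintype X] [DecidableEq X] (l : List (X × X × ℝ)) (σ : Equiv.Perm X)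
    (S H : X × X × ℝ → Prop) [DecidablePred S] [DecidablePred H], OKg l →
    (∀ g, H g → S g) →
    (∀ F : Equiv.Perm X → ℝ, (∀ π, 0 ≤ F π) →
      (l.map fun g => if S g then 1 - g.2.2 else 1).prod *
        (∑ j ∈ Finset.range l.length, if ∃ g, l[j]? = some g ∧ H g then
          ((l[j]?).map fun g => g.2.2).getD 0 * ev (pat S l j) σ F else 0) ≤ ev l σ F) ∧
    (∀ j, ∀ θ : X → ℝ, (∀ x, 0 ≤ θ x ∧ θ x ≤ 1) →
      ev (closeG S l) σ (fun π => Zp π θ) ≤ 2 * ev (pat S l j) σ fun π => Zp π θ)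

/-- Final form for the physical circuit: same site. `k < k'` layers. -/
def LocSame (V : Type) [Fintype V] [DecidableEq V] (L : List (V × V)) (d : ℕ) : Prop :=
  ∀ (β : ℝ) (N : ℕ), 0 < β → β ≤ N → (∀ x : V, (L.countP fun e => e.1 = x ∨ e.2 = x) ≤ d) →
    ∀ θ : Fin (N + 1) × V → ℝ, (∀ z, 0 ≤ θ z ∧ θ z ≤ 1) →
    ∀ (x : V) (k k' : Fin (N + 1)) (τ : ℝ), 0 ≤ τ → τ < 1 → k < k' →
      (∀ i, k < i → i < k' → θ (i, x) ≤ τ) →
      θ (k', x) * θ (k, x) * ((1 / 4) *
        (((1 - β / (2 * N)) / (1 + β / (2 * N))) ^ (d * ((k' : ℕ) - k)) *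
          ((1 - τ) / (1 + τ)) ^ ((k' : ℕ) - k))) ≤
        cc (phys L β N) θ (k', x) (k, x)

/-- Final form: neighbours `x ≠ y`, `(x, y) ∈ L`. -/
def LocNN (V : Type) [Fintype V] [DecidableEq V] (L : List (V × V)) (d : ℕ) : Prop :=
  ∀ (β : ℝ) (N : ℕ), 0 < β → β ≤ N → (∀ x : V, (L.countP fun e => e.1 = x ∨ e.2 = x) ≤ d) →
    ∀ θ : Fin (N + 1) × V → ℝ, (∀ z, 0 ≤ θ z ∧ θ z ≤ 1) →
    ∀ (x y : V) (k k' : Fin (N + 1)) (τ : ℝ), x ≠ y → ((x, y) ∈ L ∨ (y, x) ∈ L) →
      0 ≤ τ → τ < 1 → k < k' →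
      (∀ i, k < i → i < k' → θ (i, x) ≤ τ ∧ θ (i, y) ≤ τ) →
      θ (k', x) * θ (k, y) * ((1 / 8) * (β / (2 * N) * ((k' : ℕ) - k : ℕ)) *
        (((1 - β / (2 * N)) / (1 + β / (2 * N))) ^ (2 * d * ((k' : ℕ) - k)) *
          ((1 - τ) / (1 + τ)) ^ ((k' : ℕ) - k))) ≤
        cc (phys L β N) θ (k', x) (k, y)

/-- Positivity of the conductances and the network form of `K`. -/
def NetStmt : Prop :=
  ∀ (X : Type) [Fintype X] [DecidableEq X] (μ : Equiv.Perm X → ℝ), IsLaw μ →
    ∀ θ : X → ℝ, (∀ x, 0 ≤ θ x ∧ θ x ≤ 1) →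
    0 < ZZ μ θ ∧ (∀ u v, u ≠ v → 0 ≤ cc μ θ u v) ∧ (∀ u v, cc μ θ u v = cc μ θ v u) ∧
    (∀ u, ∑ v ∈ univ.erase u, cc μ θ u v = vv μ θ u) ∧
    (∀ a : X → ℝ, KK μ θ a = (1 / 2) * ∑ u, ∑ v ∈ univ.erase u, cc μ θ u v * (a u - a v) ^ 2) ∧
    (∀ u, vv μ θ u ≤ θ u)

end

end Vale.Agent.P361.LRO.Loc
end

section

/-!
P361, low-temperature order, stage R2/R3: lower bound for the conductance between two nodes far
apart in time (long windows).  One induction over the letters of the word between the two nodes.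
-/

namespace Vale.Agent.P361.LRO.Bloch

open Finset Matrix

set_option linter.unusedSectionVars false

noncomputable section

variable {V : Type} [Fintype V] [DecidableEq V]

/-- Real matrices on the configurations. -/
abbrev MM (V : Type) : Type := Matrix (V → Fin 2) (V → Fin 2) ℝ

/-- Letters: gates and slices. -/
inductive Lt (V : Type) : Type
  | gate (a b : V) (p : ℝ) : Lt V
  | node (z : V) (t : ℝ) : Lt V

/-- The matrix of a letter. -/
def mt : Lt V → MM V
  | .gate a b p => (1 - p) • (1 : MM V) + p • swapM a b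
  | .node z t => 1 + t • szM z

/-- The matrix of a word. -/
def wd (w : List (Lt V)) : MM V := (w.map mt).prod

/-- Honest letters. -/
def Ok : Lt V → Prop
  | .gate _ _ p => 0 ≤ p ∧ p ≤ 1
  | .node _ t => 0 ≤ t ∧ t ≤ 1

/-- Entrywise order. -/
def Le (A B : MM V) : Prop := ∀ i j, A i j ≤ B i j

theorem Le.refl (A : MM V) : Le A A := fun _ _ => le_rfl

theorem Le.trans {A B C : MM V} (h : Le A B) (h' : Le B C) : Le A C :=
  fun i j => (h i j).trans (h' i j)

theorem Le.add {A B C D : MM V} (h : Le A B) (h' : Le C D) : Le (A + C) (B + D) :=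
  fun i j => add_le_add (h i j) (h' i j)

theorem Le.mul_right {A B C : MM V} (h : Le A B) (hC : Le 0 C) : Le (A * C) (B * C) := by
  intro i j
  simp only [Matrix.mul_apply]
  exact Finset.sum_le_sum fun k _ => mul_le_mul_of_nonneg_right (h i k) (hC k j)

theorem Le.mul_left {A B C : MM V} (h : Le A B) (hC : Le 0 C) : Le (C * A) (C * B) := by
  intro i j
  simp only [Matrix.mul_apply]
  exact Finset.sum_le_sum fun k _ => mul_le_mul_of_nonneg_left (h k j) (hC i k)

theorem Le.smul {A B : MM V} (h : Le A B) {c : ℝ} (hc : 0 ≤ c) : Le (c • A) (c • B) :=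
  fun i j => by simpa using mul_le_mul_of_nonneg_left (h i j) hc

theorem Le.zero_mul {A C : MM V} (h : Le 0 A) (hC : Le 0 C) : Le 0 (A * C) := by
  have := h.mul_right hC
  rwa [Matrix.zero_mul] at this

theorem Le.zero_smul {A : MM V} (h : Le 0 A) {c : ℝ} (hc : 0 ≤ c) : Le 0 (c • A) := by
  have := h.smul hc
  rwa [_root_.smul_zero] at this

theorem Le.zero_add {A B : MM V} (h : Le 0 A) (h' : Le 0 B) : Le 0 (A + B) := by
  have := h.add h'
  rwa [_root_.add_zero] at this

theorem Le.sum {ι : Type*} {s : Finset ι} {f g : ι → MM V} (h : ∀ i ∈ s, Le (f i) (g i)) :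
    Le (∑ i ∈ s, f i) (∑ i ∈ s, g i) := by
  intro i j
  simp only [Matrix.sum_apply]
  exact Finset.sum_le_sum fun k hk => h k hk i j

theorem Le.zero_sum {ι : Type*} {s : Finset ι} {f : ι → MM V} (h : ∀ i ∈ s, Le 0 (f i)) :
    Le 0 (∑ i ∈ s, f i) := by
  intro i j
  simp only [Matrix.sum_apply, Matrix.zero_apply]
  exact Finset.sum_nonneg fun k hk => h k hk i j

theorem Le.trace {A B : MM V} (h : Le A B) : trace A ≤ trace B := by
  unfold Matrix.trace
  exact Finset.sum_le_sum fun i _ => h i i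

theorem one_nonneg : Le (0 : MM V) 1 := by
  intro i j
  rw [Matrix.zero_apply, Matrix.one_apply]
  split_ifs <;> norm_num

theorem swapM_nonneg (a b : V) : Le (0 : MM V) (swapM a b) := by
  intro i j
  simp only [swapM, Matrix.zero_apply, Matrix.of_apply]
  split_ifs <;> norm_num

theorem sxM_nonneg (x : V) : Le (0 : MM V) (sxM x) := by
  intro i j
  simp only [sxM, Matrix.zero_apply, Matrix.of_apply]
  split_ifs <;> norm_num

theorem node_nonneg (z : V) {t : ℝ} (h0 : 0 ≤ t) (h1 : t ≤ 1) : Le (0 : MM V) (1 + t • szM z) := by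
  intro i j
  simp only [szM, Matrix.zero_apply, Matrix.add_apply, Matrix.smul_apply, Matrix.one_apply,
    Matrix.diagonal_apply, smul_eq_mul]
  split_ifs <;> linarith

theorem gate_nonneg (a b : V) {p : ℝ} (h0 : 0 ≤ p) (h1 : p ≤ 1) :
    Le (0 : MM V) ((1 - p) • (1 : MM V) + p • swapM a b) :=
  (one_nonneg.zero_smul (by linarith)).zero_add ((swapM_nonneg a b).zero_smul h0)

theorem mt_nonneg {l : Lt V} (h : Ok l) : Le 0 (mt l) := by
  cases l with
  | gate a b p => exact gate_nonneg a b h.1 h.2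
  | node z t => exact node_nonneg z h.1 h.2

theorem wd_nonneg {w : List (Lt V)} (h : ∀ l ∈ w, Ok l) : Le 0 (wd w) := by
  induction w with
  | nil => exact one_nonneg
  | cons l w ih =>
    unfold wd
    rw [List.map_cons, List.prod_cons]
    exact (mt_nonneg (h l (by simp))).zero_mul (ih fun l' hl' => h l' (by simp [hl']))

/-- Projection on equal spins at `a, b`. -/
def eqM (a b : V) : MM V := Matrix.diagonal fun σ => if σ a = σ b then 1 else 0

theorem eqM_nonneg (a b : V) : Le (0 : MM V) (eqM a b) := by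
  intro i j
  simp only [eqM, Matrix.zero_apply, Matrix.diagonal_apply]
  split_ifs <;> norm_num

theorem eqM_le_one (a b : V) : Le (eqM a b) (1 : MM V) := by
  intro i j
  simp only [eqM, Matrix.diagonal_apply, Matrix.one_apply]
  split_ifs <;> norm_num

theorem eqM_le_swapM (a b : V) : Le (eqM a b) (swapM a b) := by
  intro i j
  simp only [eqM, Matrix.diagonal_apply, swapM, Matrix.of_apply]
  split_ifs with h1 h2 h3 h4
  · exact le_rfl
  · exfalso
    apply h3
    subst h1
    funext z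
    simp only [Function.comp_apply]
    rcases eq_or_ne z a with rfl | hza
    · simp [h2]
    · rcases eq_or_ne z b with rfl | hzb
      · simp [h2]
      · rw [Equiv.swap_apply_of_ne_of_ne hza hzb]
  · norm_num
  · norm_num
  · norm_num
  · norm_num

/-- exchange of unequal spins -/
def exM (a b : V) : MM V := swapM a b - eqM a b

/-- unequal spins -/
def neM (a b : V) : MM V := 1 - eqM a b

theorem exM_nonneg (a b : V) : Le (0 : MM V) (exM a b) := by
  intro i j
  have := eqM_le_swapM a b i j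
  simp only [exM, Matrix.zero_apply, Matrix.sub_apply]
  linarith

theorem neM_nonneg (a b : V) : Le (0 : MM V) (neM a b) := by
  intro i j
  have := eqM_le_one a b i j
  simp only [neM, Matrix.zero_apply, Matrix.sub_apply]
  linarith

/-! ### The walk -/

/-- one letter: scalar weights -/
def stq : Lt V → (V → ℕ → ℝ) → V → ℕ → ℝ
  | .gate a b p, q => fun y j => if y = a ∨ y = b then
      (1 - p) * q y j + p * (if j = 0 then 0 else q (Equiv.swap a b y) (j - 1)) else q y j
  | .node z t, q => fun y j => if y = z then (1 - t) / (1 + t) * q y j else q y j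

/-- one letter: matrices -/
def stY : Lt V → (V → ℕ → MM V) → V → ℕ → MM V
  | .gate a b p, Y => fun y j => if y = a ∨ y = b then
      (1 - p) • Y y j + p • (if j = 0 then 0 else Y (Equiv.swap a b y) (j - 1) * swapM a b)
      else Y y j * ((1 - p) • (1 : MM V) + p • swapM a b)
  | .node z t, Y => fun y j => if y = z then (1 - t) • Y y j else Y y j * (1 + t • szM z)

/-- the weights after a word -/
def qq : List (Lt V) → (V → ℕ → ℝ) → V → ℕ → ℝ
  | [], q => q
  | l :: w, q => qq w (stq l q)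

/-- the matrices after a word -/
def YY : List (Lt V) → (V → ℕ → MM V) → V → ℕ → MM V
  | [], Y => Y
  | l :: w, Y => YY w (stY l Y)

theorem stY_nonneg {l : Lt V} (hl : Ok l) {Y : V → ℕ → MM V} (hY : ∀ y j, Le 0 (Y y j)) (y : V)
    (j : ℕ) : Le 0 (stY l Y y j) := by
  cases l with
  | gate a b p =>
    simp only [stY]
    split_ifs with h1 h2
    · exact ((hY y j).zero_smul (by linarith [hl.2])).zero_add ((Le.refl 0).zero_smul hl.1)
    · exact ((hY y j).zero_smul (by linarith [hl.2])).zero_add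
        (((hY _ _).zero_mul (swapM_nonneg a b)).zero_smul hl.1)
    · exact (hY y j).zero_mul (gate_nonneg a b hl.1 hl.2)
  | node z t =>
    simp only [stY]
    split_ifs with h1
    · exact (hY y j).zero_smul (by linarith [hl.2])
    · exact (hY y j).zero_mul (node_nonneg z hl.1 hl.2)

theorem stq_nonneg {l : Lt V} (hl : Ok l) {q : V → ℕ → ℝ} (hq : ∀ y j, 0 ≤ q y j) (y : V)
    (j : ℕ) : 0 ≤ stq l q y j := by
  cases l with
  | gate a b p =>
    simp only [stq]
    split_ifs with h1 h2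
    · have := mul_nonneg (by linarith [hl.2] : 0 ≤ 1 - p) (hq y j)
      linarith
    · exact add_nonneg (mul_nonneg (by linarith [hl.2]) (hq _ _)) (mul_nonneg hl.1 (hq _ _))
    · exact hq y j
  | node z t =>
    simp only [stq]
    split_ifs with h1
    · exact mul_nonneg (div_nonneg (by linarith [hl.2]) (by linarith [hl.1])) (hq y j)
    · exact hq y j

/-- `∑_{y, j < J} Y(y, j) σ¹_y` -/
def SS (J : ℕ) (Y : V → ℕ → MM V) : MM V := ∑ y, ∑ j ∈ range J, Y y j * sxM y

theorem sxM_mul_swapM (x a b : V) :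
    (sxM x : MM V) * swapM a b = swapM a b * sxM (Equiv.swap a b x) := by
  ext σ τ
  have h1 : ((sxM x : MM V) * swapM a b) σ τ =
      if σ = Function.update (τ ∘ Equiv.swap a b) x (1 - (τ ∘ Equiv.swap a b) x) then 1 else 0 := by
    rw [Matrix.mul_apply, Finset.sum_eq_single (τ ∘ Equiv.swap a b)]
    · simp [sxM, swapM]
    · intro ρ _ hρ
      simp [swapM, hρ]
    · intro h
      exact absurd (Finset.mem_univ _) h
  have h2 : (swapM a b * (sxM (Equiv.swap a b x) : MM V)) σ τ =
      if σ = (Function.update τ (Equiv.swap a b x) (1 - τ (Equiv.swap a b x))) ∘ Equiv.swap a b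
        then 1 else 0 := by
    rw [Matrix.mul_apply, Finset.sum_eq_single
      (Function.update τ (Equiv.swap a b x) (1 - τ (Equiv.swap a b x)))]
    · simp [sxM, swapM]
    · intro ρ _ hρ
      simp [sxM, hρ]
    · intro h
      exact absurd (Finset.mem_univ _) h
  have h3 : (Function.update τ (Equiv.swap a b x) (1 - τ (Equiv.swap a b x))) ∘ Equiv.swap a b =
      Function.update (τ ∘ Equiv.swap a b) x (1 - (τ ∘ Equiv.swap a b) x) := by
    funext z
    rcases eq_or_ne z x with rfl | hz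
    · simp
    · have : Equiv.swap a b z ≠ Equiv.swap a b x := fun h => hz ((Equiv.swap a b).injective h)
      simp [Function.update_of_ne hz, Function.update_of_ne this]
  rw [h1, h2, h3]

theorem sxM_mul_szM {x z : V} (h : x ≠ z) : (sxM x : MM V) * szM z = szM z * sxM x := by
  ext σ τ
  rw [szM, Matrix.mul_diagonal, Matrix.diagonal_mul]
  simp only [sxM, Matrix.of_apply]
  split_ifs with h1 h2 h3 h3
  · norm_num
  · exfalso
    apply h3
    rw [h1, Function.update_of_ne h.symm]
    exact h2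
  · exfalso
    apply h2
    rw [h1, Function.update_of_ne h.symm] at h3
    exact h3
  · norm_num
  · norm_num
  · norm_num
  · norm_num
  · norm_num

theorem sxM_mul_node_le (x : V) {t : ℝ} (ht : 0 ≤ t) :
    Le ((1 - t) • (sxM x : MM V)) (sxM x * (1 + t • szM x)) := by
  intro σ τ
  have h0 := sxM_nonneg x σ τ
  rw [Matrix.mul_add, Matrix.mul_one, Matrix.mul_smul, szM, Matrix.add_apply, Matrix.smul_apply,
    Matrix.smul_apply, Matrix.mul_diagonal]
  simp only [smul_eq_mul, Matrix.zero_apply] at *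
  split_ifs
  · nlinarith
  · nlinarith

theorem shift_le {A : ℕ → MM V} (hA : ∀ j, Le 0 (A j)) (J : ℕ) :
    Le (∑ j ∈ range J, if j = 0 then 0 else A (j - 1)) (∑ j ∈ range J, A j) := by
  cases J with
  | zero => exact Le.refl _
  | succ J =>
    rw [Finset.sum_range_succ', Finset.sum_range_succ]
    simp only [Nat.add_eq_zero_iff, one_ne_zero, and_false, if_false, if_true, Nat.add_sub_cancel]
    exact (Le.refl _).add (hA J)

theorem sxM_mul_gate (y a b : V) (p : ℝ) :
    (sxM y : MM V) * ((1 - p) • (1 : MM V) + p • swapM a b) =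
      (1 - p) • sxM y + p • (swapM a b * sxM (Equiv.swap a b y)) := by
  rw [Matrix.mul_add, Matrix.mul_smul, Matrix.mul_smul, Matrix.mul_one, sxM_mul_swapM]

theorem SS_gate_ne (J : ℕ) {a b : V} {p : ℝ} (Y : V → ℕ → MM V) {y : V}
    (hy : ¬ (y = a ∨ y = b)) :
    ∑ j ∈ range J, stY (.gate a b p) Y y j * sxM y =
      (∑ j ∈ range J, (1 - p) • (Y y j * sxM y)) +
        ∑ j ∈ range J, p • (Y (Equiv.swap a b y) j * (swapM a b * sxM y)) := by
  have hsw : Equiv.swap a b y = y := by
    push Not at hy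
    exact Equiv.swap_apply_of_ne_of_ne hy.1 hy.2
  rw [← Finset.sum_add_distrib]
  refine Finset.sum_congr rfl fun j _ => ?_
  have h1 : stY (.gate a b p) Y y j = Y y j * ((1 - p) • (1 : MM V) + p • swapM a b) := by
    simp only [stY, if_neg hy]
  rw [h1, hsw, Matrix.mul_add, Matrix.add_mul, Matrix.mul_smul, Matrix.mul_smul, Matrix.smul_mul,
    Matrix.smul_mul, Matrix.mul_one, Matrix.mul_assoc]

theorem SS_gate_mem (J : ℕ) {a b : V} {p : ℝ} (Y : V → ℕ → MM V) {y : V}
    (hy : y = a ∨ y = b) :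
    ∑ j ∈ range J, stY (.gate a b p) Y y j * sxM y =
      (∑ j ∈ range J, (1 - p) • (Y y j * sxM y)) +
        ∑ j ∈ range J, (if j = 0 then 0 else
          (fun j => p • (Y (Equiv.swap a b y) j * (swapM a b * sxM y))) (j - 1)) := by
  rw [← Finset.sum_add_distrib]
  refine Finset.sum_congr rfl fun j _ => ?_
  have h1 : stY (.gate a b p) Y y j = (1 - p) • Y y j +
      p • (if j = 0 then 0 else Y (Equiv.swap a b y) (j - 1) * swapM a b) := by
    simp only [stY, if_pos hy]
  rw [h1]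
  by_cases hj : j = 0
  · rw [if_pos hj, if_pos hj, smul_zero, add_zero, add_zero, Matrix.smul_mul]
  · rw [if_neg hj, if_neg hj, Matrix.add_mul, Matrix.smul_mul, Matrix.smul_mul,
      Matrix.mul_assoc]

theorem SS_step_gate (J : ℕ) {a b : V} {p : ℝ} (h0 : 0 ≤ p) {Y : V → ℕ → MM V}
    (hY : ∀ y j, Le 0 (Y y j)) :
    Le (SS J (stY (.gate a b p) Y)) (SS J Y * ((1 - p) • (1 : MM V) + p • swapM a b)) := by
  have h1 : SS J Y * ((1 - p) • (1 : MM V) + p • swapM a b) =
      ∑ y, ((∑ j ∈ range J, (1 - p) • (Y y j * sxM y)) +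
        ∑ j ∈ range J, p • (Y y j * (swapM a b * sxM (Equiv.swap a b y)))) := by
    unfold SS
    rw [Finset.sum_mul]
    refine Finset.sum_congr rfl fun y _ => ?_
    rw [Finset.sum_mul, ← Finset.sum_add_distrib]
    refine Finset.sum_congr rfl fun j _ => ?_
    rw [Matrix.mul_assoc, sxM_mul_gate, Matrix.mul_add, Matrix.mul_smul, Matrix.mul_smul]
  have h2 : ∑ y, ∑ j ∈ range J, p • (Y y j * (swapM a b * sxM (Equiv.swap a b y))) =
      ∑ y, ∑ j ∈ range J, p • (Y (Equiv.swap a b y) j * (swapM a b * sxM y)) := by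
    rw [← Equiv.sum_comp (Equiv.swap a b)
      (fun y => ∑ j ∈ range J, p • (Y y j * (swapM a b * sxM (Equiv.swap a b y))))]
    refine Finset.sum_congr rfl fun y _ => Finset.sum_congr rfl fun j _ => ?_
    rw [Equiv.swap_apply_self]
  rw [h1, Finset.sum_add_distrib, h2, ← Finset.sum_add_distrib]
  unfold SS
  refine Le.sum fun y _ => ?_
  by_cases hy : y = a ∨ y = b
  · rw [SS_gate_mem J Y hy]
    have h3 : ∀ j, Le 0 (p • (Y (Equiv.swap a b y) j * (swapM a b * sxM y))) := fun j =>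
      Le.zero_smul (Le.zero_mul (hY (Equiv.swap a b y) j)
        (Le.zero_mul (swapM_nonneg a b) (sxM_nonneg y))) h0
    have h4 := shift_le (A := fun j => p • (Y (Equiv.swap a b y) j * (swapM a b * sxM y))) h3 J
    exact Le.add (Le.refl _) h4
  · rw [SS_gate_ne J Y hy]
    exact Le.refl _

theorem SS_step_node (J : ℕ) {z : V} {t : ℝ} (h0 : 0 ≤ t) {Y : V → ℕ → MM V}
    (hY : ∀ y j, Le 0 (Y y j)) :
    Le (SS J (stY (.node z t) Y)) (SS J Y * (1 + t • szM z)) := by
  unfold SS
  rw [Finset.sum_mul]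
  refine Le.sum fun y _ => ?_
  rw [Finset.sum_mul]
  refine Le.sum fun j _ => ?_
  by_cases hy : y = z
  · have h1 : stY (.node z t) Y y j = (1 - t) • Y y j := by
      simp only [stY, if_pos hy]
    subst hy
    rw [h1, Matrix.smul_mul, ← Matrix.mul_smul, Matrix.mul_assoc]
    exact (sxM_mul_node_le y h0).mul_left (hY y j)
  · have h1 : stY (.node z t) Y y j = Y y j * (1 + t • szM z) := by
      simp only [stY, if_neg hy]
    rw [h1, Matrix.mul_assoc, Matrix.mul_assoc]
    have h2 : (1 + t • szM z : MM V) * sxM y = sxM y * (1 + t • szM z) := by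
      rw [Matrix.mul_add, Matrix.add_mul, Matrix.mul_one, Matrix.one_mul, Matrix.mul_smul,
        Matrix.smul_mul, sxM_mul_szM hy]
    rw [h2]
    exact Le.refl _

theorem SS_step (J : ℕ) {l : Lt V} (hl : Ok l) {Y : V → ℕ → MM V} (hY : ∀ y j, Le 0 (Y y j)) :
    Le (SS J (stY l Y)) (SS J Y * mt l) := by
  cases l with
  | gate a b p => exact SS_step_gate J hl.1 hY
  | node z t => exact SS_step_node J hl.1 hY

theorem wd_cons (l : Lt V) (w : List (Lt V)) : wd (l :: w) = mt l * wd w := by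
  unfold wd
  rw [List.map_cons, List.prod_cons]

theorem SS_word (J : ℕ) {w : List (Lt V)} (hw : ∀ l ∈ w, Ok l) {Y : V → ℕ → MM V}
    (hY : ∀ y j, Le 0 (Y y j)) : Le (SS J (YY w Y)) (SS J Y * wd w) := by
  induction w generalizing Y with
  | nil =>
    unfold wd
    simp only [YY, List.map_nil, List.prod_nil, Matrix.mul_one]
    exact Le.refl _
  | cons l w ih =>
    have hl := hw l (by simp)
    have hw' : ∀ l' ∈ w, Ok l' := fun l' hl' => hw l' (by simp [hl'])
    rw [wd_cons, ← Matrix.mul_assoc]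
    simp only [YY]
    exact (ih hw' fun y j => stY_nonneg hl hY y j).trans
      ((SS_step J hl hY).mul_right (wd_nonneg hw'))

/-! ### The defects -/

/-- Bounds for the defects at all gates of the word (`B = δ Z`). -/
def HX (C : MM V) (B : ℝ) : List (Lt V) → MM V → Prop
  | [], _ => True
  | .gate a b p :: w, Q => (trace (Q * exM a b * wd w * C) ≤ B ∧
      trace (Q * neM a b * wd w * C) ≤ B) ∧ HX C B w (Q * mt (.gate a b p))
  | .node z t :: w, Q => HX C B w (Q * mt (.node z t))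

/-- Transport of the potential along the word. -/
def Pot (c : ℝ) : List (Lt V) → (V → ℝ) → (V → ℝ) → Prop
  | [], a, a' => ∀ y, a y ≤ a' y
  | .gate x y p :: w, a, a' => ∃ a1 : V → ℝ,
      (∀ v, (v = x ∨ v = y) → a v + p ≤ a1 v ∧ a (Equiv.swap x y v) + (1 - p) ≤ a1 v + c) ∧
      (∀ v, a v ≤ a1 v) ∧ Pot c w a1 a'
  | .node _ _ :: w, a, a' => Pot c w a a'

theorem YY_trace (C : MM V) (hC : Le 0 C) {c B : ℝ} (hB : 0 ≤ B) :
    ∀ (w : List (Lt V)), (∀ l ∈ w, Ok l) → ∀ (Y R : V → ℕ → MM V) (q : V → ℕ → ℝ) (Q : MM V)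
      (a a' : V → ℝ), (∀ y j, Le 0 (Y y j)) → (∀ y j, Le 0 (R y j)) → (∀ y j, 0 ≤ q y j) →
      Le 0 Q → (∀ y j, Le (q y j • Q - R y j) (Y y j)) →
      (∀ y j, trace (R y j * wd w * C) ≤ B * (a y + c * j) * q y j) →
      HX C B w Q → Pot c w a a' → ∀ y j,
      qq w q y j * (trace (Q * wd w * C) - B * (a' y + c * j)) ≤ trace (YY w Y y j * C) := by
  intro w
  induction w with
  | nil =>
    intro _ Y R q Q a a' hY hR hq hQ hYq hr _ hpot y j
    simp only [YY, qq, wd, List.map_nil, List.prod_nil, Matrix.mul_one] at *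
    have h1 := ((hYq y j).mul_right hC).trace
    rw [Matrix.sub_mul, Matrix.smul_mul, Matrix.trace_sub, Matrix.trace_smul, smul_eq_mul] at h1
    have h2 := hr y j
    have h3 : B * (a y + c * j) * q y j ≤ B * (a' y + c * j) * q y j :=
      mul_le_mul_of_nonneg_right (mul_le_mul_of_nonneg_left (by linarith [hpot y]) hB) (hq y j)
    linarith
  | cons l w ih =>
    intro hw Y R q Q a a' hY hR hq hQ hYq hr hHX hpot y j
    have hl := hw l (by simp)
    have hw' : ∀ l' ∈ w, Ok l' := fun l' hl' => hw l' (by simp [hl'])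
    have hwn := wd_nonneg hw'
    have hZ : trace (Q * wd (l :: w) * C) = trace (Q * mt l * wd w * C) := by
      rw [wd_cons, ← Matrix.mul_assoc]
    rw [hZ]
    simp only [YY, qq]
    cases l with
    | gate x z p =>
      have hp := hl
      simp only [Ok] at hp
      obtain ⟨a1, ha1, ha2, hpot'⟩ := hpot
      obtain ⟨⟨hX, hN⟩, hHX'⟩ := hHX
      have hp1 : 0 ≤ 1 - p := by linarith [hp.2]
      set g : MM V := (1 - p) • (1 : MM V) + p • swapM x z with hg
      have hgn : Le 0 g := gate_nonneg x z hp.1 hp.2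
      have hrg : ∀ y j, trace (R y j * g * wd w * C) ≤ B * (a y + c * j) * q y j := by
        intro y j
        have := hr y j
        rwa [wd_cons, ← Matrix.mul_assoc] at this
      -- the new defects
      set R' : V → ℕ → MM V := fun y j => if y = x ∨ y = z then
        (1 - p) • ((q y j * p) • (Q * exM x z) + R y j * g) +
          p • (if j = 0 then 0 else (q (Equiv.swap x z y) (j - 1) * (1 - p)) • (Q * neM x z) +
            R (Equiv.swap x z y) (j - 1) * g) else R y j * g with hR'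
      refine ih hw' (stY (.gate x z p) Y) R' (stq (.gate x z p) q) (Q * g) a1 a'
        (fun y j => stY_nonneg hl hY y j) ?_ (fun y j => stq_nonneg hl hq y j)
        (hQ.zero_mul hgn) ?_ ?_ hHX' hpot' y j
      · intro y j
        rw [hR']
        simp only
        split_ifs with h1 h2
        · exact (((((hQ.zero_mul (exM_nonneg x z)).zero_smul (mul_nonneg (hq _ _) hp.1)).zero_add
            ((hR _ _).zero_mul hgn))).zero_smul hp1).zero_add ((Le.refl 0).zero_smul hp.1)
        · exact (((((hQ.zero_mul (exM_nonneg x z)).zero_smul (mul_nonneg (hq _ _) hp.1)).zero_add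
            ((hR _ _).zero_mul hgn))).zero_smul hp1).zero_add
            ((((hQ.zero_mul (neM_nonneg x z)).zero_smul (mul_nonneg (hq _ _) hp1)).zero_add
            ((hR _ _).zero_mul hgn)).zero_smul hp.1)
        · exact (hR _ _).zero_mul hgn
      · intro y j
        -- stay
        have hstay : ∀ y j, Le (q y j • (Q * g) - ((q y j * p) • (Q * exM x z) + R y j * g))
            (Y y j) := by
          intro y j
          have e1 : g - p • exM x z = (1 - p) • (1 : MM V) + p • eqM x z := by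
            rw [hg, exM, smul_sub]; abel
          have h0 : Le 0 (g - p • exM x z) := by
            rw [e1]
            exact (one_nonneg.zero_smul hp1).zero_add ((eqM_nonneg x z).zero_smul hp.1)
          have h1 : Le (g - p • exM x z) 1 := by
            rw [e1]
            have : Le ((1 - p) • (1 : MM V) + p • eqM x z) ((1 - p) • (1 : MM V) + p • 1) :=
              (Le.refl _).add ((eqM_le_one x z).smul hp.1)
            rwa [← add_smul, sub_add_cancel, one_smul] at this
          have h2 := h1.mul_left (hY y j)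
          rw [Matrix.mul_one] at h2
          have h3 := (hYq y j).mul_right h0
          have h4 : Le (R y j * (g - p • exM x z)) (R y j * g) := by
            refine Le.mul_left ?_ (hR y j)
            intro i k
            have := exM_nonneg x z i k
            simp only [Matrix.sub_apply, Matrix.smul_apply, smul_eq_mul, Matrix.zero_apply] at *
            have := mul_nonneg hp.1 this
            linarith
          refine Le.trans ?_ (h3.trans h2)
          intro i k
          have h5 := h4 i k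
          have e2 : ((q y j • Q - R y j) * (g - p • exM x z)) i k =
              (q y j • (Q * g)) i k - ((q y j * p) • (Q * exM x z)) i k -
                (R y j * (g - p • exM x z)) i k := by
            rw [Matrix.sub_mul, Matrix.smul_mul, Matrix.mul_sub, Matrix.mul_smul, smul_sub,
              smul_smul]
            simp only [Matrix.sub_apply]
          rw [e2]
          simp only [Matrix.sub_apply, Matrix.add_apply]
          linarith
        -- move
        have hmove : ∀ y j, Le (q y j • (Q * g) - ((q y j * (1 - p)) • (Q * neM x z) +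
            R y j * g)) (Y y j * swapM x z) := by
          intro y j
          have e1 : g - (1 - p) • neM x z = p • swapM x z + (1 - p) • eqM x z := by
            rw [hg, neM, smul_sub]; abel
          have h0 : Le 0 (g - (1 - p) • neM x z) := by
            rw [e1]
            exact ((swapM_nonneg x z).zero_smul hp.1).zero_add ((eqM_nonneg x z).zero_smul hp1)
          have h1 : Le (g - (1 - p) • neM x z) (swapM x z) := by
            rw [e1]
            have : Le (p • swapM x z + (1 - p) • eqM x z) (p • swapM x z + (1 - p) • swapM x z) :=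
              (Le.refl _).add ((eqM_le_swapM x z).smul hp1)
            rwa [← add_smul, add_sub_cancel, one_smul] at this
          have h2 := h1.mul_left (hY y j)
          have h3 := (hYq y j).mul_right h0
          have h4 : Le (R y j * (g - (1 - p) • neM x z)) (R y j * g) := by
            refine Le.mul_left ?_ (hR y j)
            intro i k
            have := neM_nonneg x z i k
            simp only [Matrix.sub_apply, Matrix.smul_apply, smul_eq_mul, Matrix.zero_apply] at *
            have := mul_nonneg hp1 this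
            linarith
          refine Le.trans ?_ (h3.trans h2)
          intro i k
          have h5 := h4 i k
          have e2 : ((q y j • Q - R y j) * (g - (1 - p) • neM x z)) i k =
              (q y j • (Q * g)) i k - ((q y j * (1 - p)) • (Q * neM x z)) i k -
                (R y j * (g - (1 - p) • neM x z)) i k := by
            rw [Matrix.sub_mul, Matrix.smul_mul, Matrix.mul_sub, Matrix.mul_smul, smul_sub,
              smul_smul]
            simp only [Matrix.sub_apply]
          rw [e2]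
          simp only [Matrix.sub_apply, Matrix.add_apply]
          linarith
        rw [hR']
        simp only [stY, stq]
        by_cases h1 : y = x ∨ y = z
        · simp only [if_pos h1]
          by_cases h2 : j = 0
          · simp only [if_pos h2, smul_zero, mul_zero, add_zero]
            intro i k
            have := (hstay y j i k)
            simp only [Matrix.sub_apply, Matrix.smul_apply, smul_eq_mul, Matrix.add_apply] at *
            nlinarith [mul_le_mul_of_nonneg_left this hp1]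
          · simp only [if_neg h2]
            intro i k
            have h5 := (hstay y j i k)
            have h6 := (hmove (Equiv.swap x z y) (j - 1) i k)
            simp only [Matrix.sub_apply, Matrix.smul_apply, smul_eq_mul, Matrix.add_apply] at *
            nlinarith [mul_le_mul_of_nonneg_left h5 hp1, mul_le_mul_of_nonneg_left h6 hp.1]
        · simp only [if_neg h1]
          have h5 := (hYq y j).mul_right hgn
          rw [Matrix.sub_mul, Matrix.smul_mul] at h5
          exact h5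
      · intro y j
        rw [hR']
        simp only [stq]
        have hs : ∀ y j, trace (((q y j * p) • (Q * exM x z) + R y j * g) * wd w * C) ≤
            B * q y j * p + B * (a y + c * j) * q y j := by
          intro y j
          rw [Matrix.add_mul, Matrix.add_mul, Matrix.trace_add, Matrix.smul_mul, Matrix.smul_mul,
            Matrix.trace_smul, smul_eq_mul]
          have h5 := mul_le_mul_of_nonneg_left hX (mul_nonneg (hq y j) hp.1)
          have h6 := hrg y j
          linarith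
        have hm : ∀ y j, trace (((q y j * (1 - p)) • (Q * neM x z) + R y j * g) * wd w * C) ≤
            B * q y j * (1 - p) + B * (a y + c * j) * q y j := by
          intro y j
          rw [Matrix.add_mul, Matrix.add_mul, Matrix.trace_add, Matrix.smul_mul, Matrix.smul_mul,
            Matrix.trace_smul, smul_eq_mul]
          have h5 := mul_le_mul_of_nonneg_left hN (mul_nonneg (hq y j) hp1)
          have h6 := hrg y j
          linarith
        by_cases h1 : y = x ∨ y = z
        · simp only [if_pos h1]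
          obtain ⟨hb1, hb2⟩ := ha1 y h1
          by_cases h2 : j = 0
          · simp only [if_pos h2, smul_zero, mul_zero, add_zero]
            rw [Matrix.smul_mul, Matrix.smul_mul, Matrix.trace_smul, smul_eq_mul]
            have h5 := mul_le_mul_of_nonneg_left (hs y j) hp1
            have h7 : 0 ≤ (1 - p) * (B * q y j) * (a1 y - (a y + p)) :=
              mul_nonneg (mul_nonneg hp1 (mul_nonneg hB (hq y j))) (by linarith)
            nlinarith
          · simp only [if_neg h2]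
            rw [Matrix.add_mul, Matrix.add_mul, Matrix.trace_add, Matrix.smul_mul,
              Matrix.smul_mul, Matrix.trace_smul, smul_eq_mul, Matrix.smul_mul,
              Matrix.smul_mul, Matrix.trace_smul, smul_eq_mul]
            have h5 := mul_le_mul_of_nonneg_left (hs y j) hp1
            have h6 := mul_le_mul_of_nonneg_left (hm (Equiv.swap x z y) (j - 1)) hp.1
            have hj : ((j - 1 : ℕ) : ℝ) = (j : ℝ) - 1 := by
              rw [Nat.cast_sub (Nat.one_le_iff_ne_zero.2 h2)]; simp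
            rw [hj] at h6
            have h7 : 0 ≤ (1 - p) * (B * q y j) * (a1 y - (a y + p)) :=
              mul_nonneg (mul_nonneg hp1 (mul_nonneg hB (hq y j))) (by linarith)
            have h8 : 0 ≤ p * (B * q (Equiv.swap x z y) (j - 1)) *
                (a1 y + c - (a (Equiv.swap x z y) + (1 - p))) :=
              mul_nonneg (mul_nonneg hp.1 (mul_nonneg hB (hq _ _))) (by linarith)
            nlinarith
        · simp only [if_neg h1]
          refine (hrg y j).trans ?_
          exact mul_le_mul_of_nonneg_right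
            (mul_le_mul_of_nonneg_left (by linarith [ha2 y]) hB) (hq y j)
    | node z t =>
      have hp := hl
      simp only [Ok] at hp
      have hpot' : Pot c w a a' := hpot
      have hHX' : HX C B w (Q * mt (.node z t)) := hHX
      set g : MM V := 1 + t • szM z with hg
      have hgn : Le 0 g := node_nonneg z hp.1 hp.2
      have ht1 : (0 : ℝ) < 1 + t := by linarith [hp.1]
      have hrho : 0 ≤ (1 - t) / (1 + t) := div_nonneg (by linarith [hp.2]) ht1.le
      have hrg : ∀ y j, trace (R y j * g * wd w * C) ≤ B * (a y + c * j) * q y j := by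
        intro y j
        have := hr y j
        rwa [wd_cons, ← Matrix.mul_assoc] at this
      set R' : V → ℕ → MM V := fun y j => if y = z then ((1 - t) / (1 + t)) • (R y j * g)
        else R y j * g with hR'
      refine ih hw' (stY (.node z t) Y) R' (stq (.node z t) q) (Q * g) a a'
        (fun y j => stY_nonneg hl hY y j) ?_ (fun y j => stq_nonneg hl hq y j)
        (hQ.zero_mul hgn) ?_ ?_ hHX' hpot' y j
      · intro y j
        rw [hR']
        simp only
        split_ifs with h1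
        · exact ((hR _ _).zero_mul hgn).zero_smul hrho
        · exact (hR _ _).zero_mul hgn
      · intro y j
        rw [hR']
        simp only [stY, stq]
        have h5 := (hYq y j).mul_right hgn
        rw [Matrix.sub_mul, Matrix.smul_mul] at h5
        split_ifs with h1
        · have h6 : Le (((1 - t) / (1 + t)) • (Y y j * g)) ((1 - t) • Y y j) := by
            have h7 : Le g ((1 + t) • (1 : MM V)) := by
              intro i k
              rw [hg]
              simp only [szM, Matrix.add_apply, Matrix.smul_apply, Matrix.one_apply,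
                Matrix.diagonal_apply, smul_eq_mul]
              split_ifs <;> linarith [hp.1]
            have h8 := (h7.mul_left (hY y j)).smul hrho
            rw [Matrix.mul_smul, Matrix.mul_one, smul_smul, div_mul_cancel₀ _ ht1.ne'] at h8
            exact h8
          refine Le.trans ?_ h6
          have h9 := h5.smul hrho
          rw [smul_sub, smul_smul] at h9
          exact h9
        · exact h5
      · intro y j
        rw [hR']
        simp only [stq]
        split_ifs with h1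
        · rw [Matrix.smul_mul, Matrix.smul_mul, Matrix.trace_smul, smul_eq_mul]
          have h5 := mul_le_mul_of_nonneg_left (hrg y j) hrho
          linarith
        · exact hrg y j

/-- Start of the walk. -/
def q0 (x : V) (y : V) (j : ℕ) : ℝ := if y = x ∧ j = 0 then 1 else 0

/-- **Long windows, trace form.** -/
theorem long_trace (A C : MM V) (hA : Le 0 A) (hC : Le 0 C) {c δ : ℝ} (hδ : 0 ≤ δ)
    (w : List (Lt V)) (hw : ∀ l ∈ w, Ok l) (x y : V) (J : ℕ) (a' : V → ℝ)
    (hpot : Pot c w (fun _ => 0) a')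
    (hX : HX C (δ * trace (A * wd w * C)) w A) :
    (∑ j ∈ range J, qq w (q0 x) y j * (1 - δ * (a' y + c * j))) * trace (A * wd w * C) ≤
      trace (A * sxM x * wd w * (sxM y * C)) := by
  have hZ : 0 ≤ trace (A * wd w * C) := by
    have := ((hA.zero_mul (wd_nonneg hw)).zero_mul hC).trace
    rwa [Matrix.trace_zero] at this
  have hB : 0 ≤ δ * trace (A * wd w * C) := mul_nonneg hδ hZ
  set Y : V → ℕ → MM V := fun v j => if v = x ∧ j = 0 then A else 0 with hY
  have hYn : ∀ v j, Le 0 (Y v j) := by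
    intro v j
    rw [hY]
    simp only
    split_ifs
    · exact hA
    · exact Le.refl 0
  rcases Nat.eq_zero_or_pos J with hJ | hJ
  · subst hJ
    simp only [Finset.range_zero, Finset.sum_empty, zero_mul]
    have := (((hA.zero_mul (sxM_nonneg x)).zero_mul (wd_nonneg hw)).zero_mul
      ((sxM_nonneg y).zero_mul hC)).trace
    rwa [Matrix.trace_zero] at this
  have hSS : SS J Y = A * sxM x := by
    unfold SS
    rw [Finset.sum_eq_single x]
    · rw [Finset.sum_eq_single 0]
      · rw [hY]; simp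
      · intro j _ hj
        rw [hY]; simp [hj]
      · intro h
        exact absurd (Finset.mem_range.2 hJ) h
    · intro v _ hv
      refine Finset.sum_eq_zero fun j _ => ?_
      rw [hY]; simp [hv]
    · intro h
      exact absurd (Finset.mem_univ _) h
  have hw2 := SS_word J hw hYn
  rw [hSS] at hw2
  have hsC : Le 0 ((sxM y : MM V) * C) := (sxM_nonneg y).zero_mul hC
  have h1 := (hw2.mul_right hsC).trace
  refine le_trans ?_ h1
  have hYYn : ∀ (w : List (Lt V)), (∀ l ∈ w, Ok l) → ∀ Y : V → ℕ → MM V,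
      (∀ v j, Le 0 (Y v j)) → ∀ v j, Le 0 (YY w Y v j) := by
    intro w
    induction w with
    | nil => intro _ Y hY; exact hY
    | cons l w ih =>
      intro hw Y hY
      simp only [YY]
      exact ih (fun l' hl' => hw l' (by simp [hl'])) _
        fun v j => stY_nonneg (hw l (by simp)) hY v j
  have hsx : (sxM y : MM V) * sxM y = 1 := by
    ext σ τ
    rw [Matrix.mul_apply, Finset.sum_eq_single (Function.update τ y (1 - τ y))]
    · have e : Function.update (Function.update τ y (1 - τ y)) y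
          (1 - (Function.update τ y (1 - τ y)) y) = τ := by
        funext v
        rcases eq_or_ne v y with rfl | hv
        · simp
        · simp [Function.update_of_ne hv]
      simp only [sxM, Matrix.of_apply, if_true, mul_one, e, Matrix.one_apply]
    · intro ρ _ hρ
      simp [sxM, hρ]
    · intro h
      exact absurd (Finset.mem_univ _) h
  have h2 : ∑ j ∈ range J, trace (YY w Y y j * C) ≤ trace (SS J (YY w Y) * (sxM y * C)) := by
    unfold SS
    rw [Finset.sum_mul, Matrix.trace_sum,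
      ← Finset.add_sum_erase Finset.univ _ (Finset.mem_univ y)]
    have h3 : trace ((∑ j ∈ range J, YY w Y y j * sxM y) * (sxM y * C)) =
        ∑ j ∈ range J, trace (YY w Y y j * C) := by
      rw [Finset.sum_mul, Matrix.trace_sum]
      refine Finset.sum_congr rfl fun j _ => ?_
      rw [Matrix.mul_assoc, ← Matrix.mul_assoc (sxM y) (sxM y) C, hsx, Matrix.one_mul]
    rw [h3]
    have h4 : 0 ≤ ∑ v ∈ Finset.univ.erase y,
        trace ((∑ j ∈ range J, YY w Y v j * sxM v) * (sxM y * C)) := by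
      refine Finset.sum_nonneg fun v _ => ?_
      have := ((Le.zero_sum fun j _ => (hYYn w hw Y hYn v j).zero_mul
        (sxM_nonneg v)).zero_mul hsC (A := ∑ j ∈ range J, YY w Y v j * sxM v)).trace
      rwa [Matrix.trace_zero] at this
    linarith
  refine le_trans ?_ h2
  rw [Finset.sum_mul]
  refine Finset.sum_le_sum fun j _ => ?_
  have h5 := YY_trace C hC (c := c) hB w hw Y (fun _ _ => 0) (q0 x) A (fun _ => 0) a' hYn
    (fun _ _ => Le.refl 0) (fun v j => by unfold q0; split_ifs <;> norm_num) hA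
    (fun v j => by
      rw [hY]
      unfold q0
      simp only [sub_zero]
      split_ifs
      · rw [one_smul]; exact Le.refl _
      · rw [zero_smul]; exact Le.refl _)
    (fun v j => by
      simp only [Matrix.zero_mul, Matrix.trace_zero, zero_add]
      unfold q0
      split_ifs with h
      · rw [h.2]; simp
      · simp)
    hX hpot y j
  refine le_trans (le_of_eq ?_) h5
  ring

end

end Vale.Agent.P361.LRO.Bloch
end

section

/-! P361 LRO, dictionary: thermal ratios with an extra slice, and the statement of the limit of the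
magnetisation at the nodes of the circuit. -/

namespace Vale.Agent.P361.LRO

open Finset Matrix

noncomputable section

variable {V : Type} [Fintype V] [DecidableEq V]

/-- The extra slice `∏ (1 + T_x σ³_x)`. -/
def layT (T : V → ℝ) : Matrix (V → Fin 2) (V → Fin 2) ℝ :=
  Matrix.diagonal fun σ => ∏ x, (1 + T x * (if σ x = 0 then 1 else -1))

/-- The magnetisation at `x` at time `t` (`s + t = β`) with the extra slice `T` at time `0`. -/
def mT (L : List (V × V)) (h T : V → ℝ) (s t : ℝ) (x : V) : ℝ :=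
  trace (layT T * NormedSpace.exp (-s • ham L h) * szM x * NormedSpace.exp (-t • ham L h)) /
    trace (layT T * NormedSpace.exp (-s • ham L h) * NormedSpace.exp (-t • ham L h))

/-- (D3) The limit of the magnetisation at the nodes, uniformly in the fields. -/
def MagLim (L : List (V × V)) (β : ℝ) : Prop :=
  ∃ (C : ℝ) (N0 : ℕ), ∀ N : ℕ, N0 ≤ N → ∀ h T : V → ℝ, (∀ x, 0 ≤ h x ∧ h x ≤ 1) →
    (∀ x, 0 ≤ T x ∧ T x ≤ 1) → ∀ z : Fin (N + 1) × V, z.1 ≠ 0 →
      |mag (phys L β N) (th β N h T) z -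
        mT L h T (β * (1 - ((z.1 : ℕ) : ℝ) / N)) (β * (((z.1 : ℕ) : ℝ) / N)) z.2| ≤ C / N

end

end Vale.Agent.P361.LRO
end

section

/-! P361 / LRO / LOC by loops.
`Zp π θ = ∑_{s ∘ π = s} ∏_v (1 + θ_v s_v)` (weight of a full ring configuration), GKS positivity,
comparison under composition with one transposition, and the flipped weight. -/

namespace Vale.Agent.P361.LRO.Loop

open Finset Equiv

variable {N : Type*} [Fintype N] [DecidableEq N]

/-- real value of a sign -/
noncomputable def sg (e : ℤˣ) : ℝ := ((e : ℤ) : ℝ)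

@[simp] lemma sg_one : sg 1 = 1 := by simp [sg]
@[simp] lemma sg_neg (e : ℤˣ) : sg (-e) = - sg e := by simp [sg]
@[simp] lemma sg_mul (e f : ℤˣ) : sg (e * f) = sg e * sg f := by simp [sg]
lemma sg_cases (e : ℤˣ) : sg e = 1 ∨ sg e = -1 := by
  rcases Int.units_eq_one_or e with h | h <;> simp [h]
lemma sg_prod {ι : Type*} (s : Finset ι) (f : ι → ℤˣ) : sg (∏ i ∈ s, f i) = ∏ i ∈ s, sg (f i) := by
  induction s using Finset.cons_induction with
  | empty => simp
  | cons a s ha ih => rw [prod_cons, prod_cons, sg_mul, ih]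

/-- the set of `π`-invariant spin configurations -/
def inv (π : Perm N) : Finset (N → ℤˣ) := univ.filter fun s => ∀ x, s (π x) = s x

lemma mem_inv {π : Perm N} {s : N → ℤˣ} : s ∈ inv π ↔ ∀ x, s (π x) = s x := by
  simp [inv]

/-- weight of a ring configuration -/
noncomputable def Zp (π : Perm N) (θ : N → ℝ) : ℝ := ∑ s ∈ inv π, ∏ v, (1 + θ v * sg (s v))

/-- character sums are nonnegative -/
lemma char_sum_nonneg (π : Perm N) (χ : (N → ℤˣ) → ℤˣ)
    (hχ : ∀ s t, χ (s * t) = χ s * χ t) : 0 ≤ ∑ s ∈ inv π, sg (χ s) := by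
  by_cases h : ∃ t ∈ inv π, χ t = -1
  · obtain ⟨t, ht, hχt⟩ := h
    have h1 : ∑ s ∈ inv π, sg (χ s) = ∑ s ∈ inv π, sg (χ (s * t)) := by
      refine (Finset.sum_bij' (fun s _ => s * t) (fun s _ => s * t) ?_ ?_ ?_ ?_ ?_).symm
      · intro s hs
        rw [mem_inv] at hs ht ⊢
        intro x; simp [hs x, ht x]
      · intro s hs
        rw [mem_inv] at hs ht ⊢
        intro x; simp [hs x, ht x]
      · intro s _
        funext x
        simp [mul_assoc]
      · intro s _
        funext x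
        simp [mul_assoc]
      · intro s _
        simp
    have h2 : ∑ s ∈ inv π, sg (χ (s * t)) = - ∑ s ∈ inv π, sg (χ s) := by
      rw [← Finset.sum_neg_distrib]
      refine Finset.sum_congr rfl fun s _ => ?_
      rw [hχ, hχt]; simp
    have : ∑ s ∈ inv π, sg (χ s) = 0 := by linarith
    rw [this]
  · push Not at h
    refine Finset.sum_nonneg fun s hs => ?_
    rcases Int.units_eq_one_or (χ s) with h1 | h1
    · simp [h1]
    · exact absurd h1 (h s hs)

/-- GKS -/
lemma gks (π : Perm N) (θ : N → ℝ) (hθ : ∀ v, 0 ≤ θ v) (B : Finset N) :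
    0 ≤ ∑ s ∈ inv π, (∏ v ∈ B, sg (s v)) * ∏ v, (1 + θ v * sg (s v)) := by
  have h : ∀ s : N → ℤˣ, (∏ v ∈ B, sg (s v)) * ∏ v, (1 + θ v * sg (s v)) =
      ∑ A ∈ (univ : Finset N).powerset, (∏ v ∈ A, θ v) * sg ((∏ v ∈ B, s v) * ∏ v ∈ A, s v) := by
    intro s
    rw [Finset.prod_one_add, Finset.mul_sum]
    refine Finset.sum_congr rfl fun A _ => ?_
    rw [Finset.prod_mul_distrib, sg_mul, sg_prod, sg_prod]
    ring
  simp_rw [h]
  rw [Finset.sum_comm]
  refine Finset.sum_nonneg fun A _ => ?_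
  rw [← Finset.mul_sum]
  refine mul_nonneg (Finset.prod_nonneg fun v _ => hθ v) ?_
  refine char_sum_nonneg π (fun s => (∏ v ∈ B, s v) * ∏ v ∈ A, s v) ?_
  intro s t
  simp only [Pi.mul_apply, Finset.prod_mul_distrib]
  rw [mul_mul_mul_comm]

lemma one_add_nonneg {t : ℝ} (h0 : 0 ≤ t) (h1 : t ≤ 1) (e : ℤˣ) : 0 ≤ 1 + t * sg e := by
  rcases sg_cases e with h | h <;> rw [h] <;> linarith

lemma Zp_pos (π : Perm N) (θ : N → ℝ) (h0 : ∀ v, 0 ≤ θ v) (h1 : ∀ v, θ v ≤ 1) : 0 < Zp π θ := by
  have h : (∏ v, (1 + θ v * sg ((1 : N → ℤˣ) v))) ≤ Zp π θ := by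
    refine Finset.single_le_sum (f := fun s : N → ℤˣ => ∏ v, (1 + θ v * sg (s v))) ?_ ?_
    · intro s _
      exact Finset.prod_nonneg fun v _ => one_add_nonneg (h0 v) (h1 v) _
    · rw [mem_inv]; intro x; rfl
  refine lt_of_lt_of_le (Finset.prod_pos fun v _ => ?_) h
  simp only [Pi.one_apply, sg_one, mul_one]
  linarith [h0 v]

/-- configurations invariant under `π` with `s a = s b` -/
noncomputable def Yp (π : Perm N) (θ : N → ℝ) (a b : N) : ℝ :=
  ∑ s ∈ (inv π).filter (fun s => s a = s b), ∏ v, (1 + θ v * sg (s v))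

lemma Yp_swap (π : Perm N) (θ : N → ℝ) (a b : N) : Yp (π * swap a b) θ a b = Yp π θ a b := by
  unfold Yp
  congr 1
  ext s
  simp only [Finset.mem_filter, mem_inv]
  constructor
  · rintro ⟨h, hab⟩
    refine ⟨fun x => ?_, hab⟩
    have h1 := h (swap a b x)
    rw [Perm.mul_apply, swap_apply_self] at h1
    rw [h1]
    by_cases hxa : x = a
    · subst hxa; rw [swap_apply_left]; exact hab.symm
    · by_cases hxb : x = b
      · subst hxb; rw [swap_apply_right]; exact hab
      · rw [swap_apply_of_ne_of_ne hxa hxb]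
  · rintro ⟨h, hab⟩
    refine ⟨fun x => ?_, hab⟩
    rw [Perm.mul_apply, h]
    by_cases hxa : x = a
    · subst hxa; rw [swap_apply_left]; exact hab.symm
    · by_cases hxb : x = b
      · subst hxb; rw [swap_apply_right]; exact hab
      · rw [swap_apply_of_ne_of_ne hxa hxb]

lemma Yp_le_Zp (π : Perm N) (θ : N → ℝ) (h0 : ∀ v, 0 ≤ θ v) (h1 : ∀ v, θ v ≤ 1) (a b : N) :
    Yp π θ a b ≤ Zp π θ := by
  refine Finset.sum_le_sum_of_subset_of_nonneg (Finset.filter_subset _ _) ?_
  intro s _ _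
  exact Finset.prod_nonneg fun v _ => one_add_nonneg (h0 v) (h1 v) _

lemma Zp_le_two_Yp (π : Perm N) (θ : N → ℝ) (h0 : ∀ v, 0 ≤ θ v) (a b : N) :
    Zp π θ ≤ 2 * Yp π θ a b := by
  have hg : 0 ≤ ∑ s ∈ inv π, (sg (s a) * sg (s b)) * ∏ v, (1 + θ v * sg (s v)) := by
    by_cases hab : a = b
    · subst hab
      have := gks π θ h0 ∅
      refine le_of_le_of_eq this (Finset.sum_congr rfl fun s _ => ?_)
      rcases sg_cases (s a) with h | h <;> rw [h] <;> simp
    · have := gks π θ h0 {a, b}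
      refine le_of_le_of_eq this (Finset.sum_congr rfl fun s _ => ?_)
      rw [Finset.prod_pair hab]
  have h2 : Zp π θ + ∑ s ∈ inv π, (sg (s a) * sg (s b)) * ∏ v, (1 + θ v * sg (s v)) =
      2 * Yp π θ a b := by
    unfold Zp Yp
    rw [← Finset.sum_add_distrib, Finset.sum_filter, Finset.mul_sum]
    refine Finset.sum_congr rfl fun s _ => ?_
    by_cases h : s a = s b
    · rw [if_pos h, h]
      rcases sg_cases (s b) with h' | h' <;> rw [h'] <;> ring
    · rw [if_neg h]
      have : sg (s a) * sg (s b) = -1 := by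
        rcases Int.units_eq_one_or (s a) with ha | ha <;>
          rcases Int.units_eq_one_or (s b) with hb | hb
        · exact absurd (ha.trans hb.symm) h
        · rw [ha, hb]; simp
        · rw [ha, hb]; simp
        · exact absurd (ha.trans hb.symm) h
      rw [this]; ring
  linarith

/-- opening (or closing) one gate changes the weight by a factor in `[1/2, 2]` -/
theorem Zp_mul_swap_le (π : Perm N) (θ : N → ℝ) (h0 : ∀ v, 0 ≤ θ v) (h1 : ∀ v, θ v ≤ 1) (a b : N) :
    Zp (π * swap a b) θ ≤ 2 * Zp π θ := by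
  have h2 := Zp_le_two_Yp (π * swap a b) θ h0 a b
  rw [Yp_swap] at h2
  linarith [Yp_le_Zp π θ h0 h1 a b]

theorem Zp_le_mul_swap (π : Perm N) (θ : N → ℝ) (h0 : ∀ v, 0 ≤ θ v) (h1 : ∀ v, θ v ≤ 1) (a b : N) :
    Zp π θ ≤ 2 * Zp (π * swap a b) θ := by
  have h2 := Zp_mul_swap_le (π * swap a b) θ h0 h1 a b
  rwa [mul_assoc, swap_mul_self, mul_one] at h2

end Vale.Agent.P361.LRO.Loop
end

section

/-! P361 / LRO / LOC by loops, part 2: the flipped weight (two `σ¹` insertions). -/

namespace Vale.Agent.P361.LRO.Loop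

open Finset Equiv

variable {N : Type*} [Fintype N] [DecidableEq N]

/-- spin (entering each node) is flipped when passing `u` and when passing `v` -/
def finv (π : Perm N) (u v : N) : Finset (N → ℤˣ) :=
  univ.filter fun s => ∀ x, s (π x) = if x = u ∨ x = v then - s x else s x

lemma mem_finv {π : Perm N} {u v : N} {s : N → ℤˣ} :
    s ∈ finv π u v ↔ ∀ x, s (π x) = if x = u ∨ x = v then - s x else s x := by
  simp [finv]

/-- weight of a ring configuration with `σ¹` in place of the slices at `u` and `v` -/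
noncomputable def Zf (π : Perm N) (θ : N → ℝ) (u v : N) : ℝ :=
  ∑ s ∈ finv π u v, ∏ x ∈ univ \ {u, v}, (1 + θ x * sg (s x))

lemma Zf_nonneg (π : Perm N) (θ : N → ℝ) (h0 : ∀ v, 0 ≤ θ v) (h1 : ∀ v, θ v ≤ 1) (u v : N) :
    0 ≤ Zf π θ u v :=
  Finset.sum_nonneg fun _ _ => Finset.prod_nonneg fun x _ => one_add_nonneg (h0 x) (h1 x) _

lemma Zf_comm (π : Perm N) (θ : N → ℝ) (u v : N) : Zf π θ u v = Zf π θ v u := by
  unfold Zf finv
  rw [Finset.pair_comm]
  simp_rw [or_comm]

/-- the short arc from `u` to `v = π^m u` -/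
def arc (π : Perm N) (u : N) (m : ℕ) : Finset N := (Finset.Icc 1 m).image fun i => (π ^ i) u

lemma mem_arc {π : Perm N} {u : N} {m : ℕ} {x : N} :
    x ∈ arc π u m ↔ ∃ i, 1 ≤ i ∧ i ≤ m ∧ (π ^ i) u = x := by
  simp [arc, and_assoc]

/-- flipping a configuration on a set -/
def flipOn (A : Finset N) (s : N → ℤˣ) : N → ℤˣ := fun x => if x ∈ A then - s x else s x

lemma flipOn_flipOn (A : Finset N) (s : N → ℤˣ) : flipOn A (flipOn A s) = s := by
  funext x
  unfold flipOn
  by_cases h : x ∈ A <;> simp [h]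

lemma arc_step {π : Perm N} {u : N} {m : ℕ} (hm : 1 ≤ m)
    (hu : ∀ i, 1 ≤ i → i ≤ m → (π ^ i) u ≠ u) (x : N) :
    (π x ∈ arc π u m) ↔ (x = u ∨ (x ∈ arc π u m ∧ x ≠ (π ^ m) u)) := by
  constructor
  · intro h
    obtain ⟨i, hi1, him, hi⟩ := mem_arc.1 h
    obtain ⟨j, rfl⟩ : ∃ j, i = j + 1 := ⟨i - 1, by omega⟩
    rw [pow_succ', Perm.mul_apply] at hi
    have hx : (π ^ j) u = x := π.injective hi
    rcases Nat.eq_zero_or_pos j with hj | hj
    · left; rw [hj] at hx; simpa using hx.symm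
    · right
      refine ⟨mem_arc.2 ⟨j, hj, by omega, hx⟩, ?_⟩
      intro hxm
      rw [← hx] at hxm
      -- π^j u = π^m u with j < m gives π^(m-j) u = u
      have : (π ^ (m - j)) u = u := by
        have h2 : (π ^ m) u = (π ^ j) ((π ^ (m - j)) u) := by
          rw [← Perm.mul_apply, ← pow_add]; congr 2; omega
        rw [h2] at hxm
        exact ((π ^ j).injective hxm).symm
      exact hu (m - j) (by omega) (by omega) this
  · rintro (h | ⟨h, hne⟩)
    · subst h
      exact mem_arc.2 ⟨1, le_refl _, hm, by simp⟩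
    · obtain ⟨i, hi1, him, hi⟩ := mem_arc.1 h
      have : i ≠ m := by
        rintro rfl
        exact hne hi.symm
      refine mem_arc.2 ⟨i + 1, by omega, by omega, ?_⟩
      rw [pow_succ', Perm.mul_apply, hi]

lemma u_not_mem_arc {π : Perm N} {u : N} {m : ℕ}
    (hu : ∀ i, 1 ≤ i → i ≤ m → (π ^ i) u ≠ u) : u ∉ arc π u m := by
  intro h
  obtain ⟨i, h1, h2, h3⟩ := mem_arc.1 h
  exact hu i h1 h2 h3

lemma flipOn_mem_finv {π : Perm N} {u : N} {m : ℕ} (hm : 1 ≤ m)
    (hu : ∀ i, 1 ≤ i → i ≤ m → (π ^ i) u ≠ u) {s : N → ℤˣ} (hs : s ∈ inv π) :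
    flipOn (arc π u m) s ∈ finv π u ((π ^ m) u) := by
  rw [mem_inv] at hs
  rw [mem_finv]
  intro x
  have hstep := arc_step hm hu x
  have huA := u_not_mem_arc hu
  have hvA : (π ^ m) u ∈ arc π u m := mem_arc.2 ⟨m, hm, le_refl _, rfl⟩
  unfold flipOn
  by_cases hxu : x = u
  · subst hxu
    rw [if_pos (hstep.2 (Or.inl rfl)), if_pos (Or.inl rfl), if_neg huA, hs]
  · by_cases hxv : x = (π ^ m) u
    · have h1 : π x ∉ arc π u m := by
        intro h
        rcases hstep.1 h with h | h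
        · exact hxu h
        · exact h.2 hxv
      rw [if_neg h1, if_pos (Or.inr hxv), if_pos (hxv ▸ hvA), hs, neg_neg]
    · rw [if_neg (by tauto : ¬ (x = u ∨ x = (π ^ m) u))]
      by_cases hxA : x ∈ arc π u m
      · rw [if_pos (hstep.2 (Or.inr ⟨hxA, hxv⟩)), if_pos hxA, hs]
      · have h1 : π x ∉ arc π u m := by
          intro h
          rcases hstep.1 h with h | h
          · exact hxu h
          · exact hxA h.1
        rw [if_neg h1, if_neg hxA, hs]

/-- **arc bound**: if `v = π^m u` is reached from `u` along a short arc, the flipped weight is at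
least `∏_{arc interior} (1-θ)/(1+θ)` times `Zp / ((1+θ u)(1+θ v))`. -/
theorem Zf_ge (π : Perm N) (θ : N → ℝ) (h0 : ∀ v, 0 ≤ θ v) (h1 : ∀ v, θ v ≤ 1) (u : N) {m : ℕ}
    (hm : 1 ≤ m) (hu : ∀ i, 1 ≤ i → i ≤ m → (π ^ i) u ≠ u) :
    (∏ x ∈ arc π u m \ {(π ^ m) u}, ((1 - θ x) / (1 + θ x))) * Zp π θ ≤
      (1 + θ u) * (1 + θ ((π ^ m) u)) * Zf π θ u ((π ^ m) u) := by
  set v := (π ^ m) u with hv
  set A := arc π u m with hA
  have huA : u ∉ A := u_not_mem_arc hu
  have hvA : v ∈ A := mem_arc.2 ⟨m, hm, le_refl _, rfl⟩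
  have huv : u ≠ v := fun h => huA (h ▸ hvA)
  -- reindex
  have hsub : ∑ s ∈ inv π, ∏ x ∈ univ \ {u, v}, (1 + θ x * sg (flipOn A s x)) ≤ Zf π θ u v := by
    have hinj : Set.InjOn (flipOn A) (inv π : Set (N → ℤˣ)) := by
      intro s _ t _ h
      have := congrArg (flipOn A) h
      rwa [flipOn_flipOn, flipOn_flipOn] at this
    rw [← Finset.sum_image (f := fun s : N → ℤˣ => ∏ x ∈ univ \ {u, v}, (1 + θ x * sg (s x)))
      (g := flipOn A) hinj]
    refine Finset.sum_le_sum_of_subset_of_nonneg ?_ ?_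
    · intro t ht
      obtain ⟨s, hs, rfl⟩ := Finset.mem_image.1 ht
      exact flipOn_mem_finv hm hu hs
    · intro s _ _
      exact Finset.prod_nonneg fun x _ => one_add_nonneg (h0 x) (h1 x) _
  have hpos : 0 ≤ (1 + θ u) * (1 + θ v) := by
    have := h0 u; have := h0 v; positivity
  refine le_trans ?_ (mul_le_mul_of_nonneg_left hsub hpos)
  unfold Zp
  rw [Finset.mul_sum, Finset.mul_sum]
  refine Finset.sum_le_sum fun s _ => ?_
  -- split the products
  have hsplit1 : ∏ x, (1 + θ x * sg (s x)) =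
      (∏ x ∈ A \ {v}, (1 + θ x * sg (s x))) * ((∏ x ∈ univ \ insert u A, (1 + θ x * sg (s x))) *
        ((1 + θ u * sg (s u)) * (1 + θ v * sg (s v)))) := by
    have e1 : (univ : Finset N) = insert u (insert v ((A \ {v}) ∪ (univ \ insert u A))) := by
      ext x
      simp only [mem_univ, mem_insert, mem_union, mem_sdiff, mem_singleton, true_iff, true_and]
      tauto
    have hd : Disjoint (A \ {v}) (univ \ insert u A) := by
      rw [Finset.disjoint_left]
      intro x hx hx'
      simp only [mem_sdiff, mem_insert, mem_univ, true_and] at hx hx'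
      tauto
    have hv' : v ∉ (A \ {v}) ∪ (univ \ insert u A) := by
      simp only [mem_union, mem_sdiff, mem_singleton, mem_insert, mem_univ, true_and]
      tauto
    have hu' : u ∉ insert v ((A \ {v}) ∪ (univ \ insert u A)) := by
      simp only [mem_union, mem_sdiff, mem_singleton, mem_insert, mem_univ, true_and]
      tauto
    conv_lhs => rw [e1]
    rw [Finset.prod_insert hu', Finset.prod_insert hv', Finset.prod_union hd]
    ring
  have hsplit2 : ∏ x ∈ univ \ {u, v}, (1 + θ x * sg (flipOn A s x)) =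
      (∏ x ∈ A \ {v}, (1 - θ x * sg (s x))) * (∏ x ∈ univ \ insert u A, (1 + θ x * sg (s x))) := by
    have e1 : (univ : Finset N) \ {u, v} = (A \ {v}) ∪ (univ \ insert u A) := by
      ext x
      simp only [mem_univ, mem_insert, mem_union, mem_sdiff, mem_singleton, true_and]
      constructor
      · intro h
        by_cases hx : x ∈ A <;> tauto
      · rintro (h | h)
        · refine fun h' => ?_
          rcases h' with h' | h'
          · exact huA (h' ▸ h.1)
          · exact h.2 h'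
        · refine fun h' => ?_
          rcases h' with h' | h'
          · exact h (Or.inl h')
          · exact h (Or.inr (h' ▸ hvA))
    have hd : Disjoint (A \ {v}) (univ \ insert u A) := by
      rw [Finset.disjoint_left]
      intro x hx hx'
      simp only [mem_sdiff, mem_insert, mem_univ, true_and] at hx hx'
      tauto
    rw [e1, Finset.prod_union hd]
    congr 1
    · refine Finset.prod_congr rfl fun x hx => ?_
      rw [mem_sdiff] at hx
      unfold flipOn
      rw [if_pos hx.1, sg_neg]; ring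
    · refine Finset.prod_congr rfl fun x hx => ?_
      simp only [mem_sdiff, mem_insert, mem_univ, true_and] at hx
      unfold flipOn
      rw [if_neg (by tauto)]
  rw [hsplit1, hsplit2]
  set P := ∏ x ∈ univ \ insert u A, (1 + θ x * sg (s x)) with hP
  have hP0 : 0 ≤ P := Finset.prod_nonneg fun x _ => one_add_nonneg (h0 x) (h1 x) _
  have hA1 : (∏ x ∈ A \ {v}, ((1 - θ x) / (1 + θ x))) * (∏ x ∈ A \ {v}, (1 + θ x * sg (s x))) ≤
      ∏ x ∈ A \ {v}, (1 - θ x * sg (s x)) := by
    rw [← Finset.prod_mul_distrib]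
    refine Finset.prod_le_prod ?_ ?_
    · intro x _
      refine mul_nonneg (div_nonneg ?_ ?_) (one_add_nonneg (h0 x) (h1 x) _)
      · linarith [h1 x]
      · linarith [h0 x]
    · intro x _
      have hx0 := h0 x
      have hx1 := h1 x
      rw [div_mul_eq_mul_div, div_le_iff₀ (by linarith)]
      rcases sg_cases (s x) with h | h <;> rw [h] <;> nlinarith
  have hu1 : (1 + θ u * sg (s u)) * (1 + θ v * sg (s v)) ≤ (1 + θ u) * (1 + θ v) := by
    have a1 : 1 + θ u * sg (s u) ≤ 1 + θ u := by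
      have := h0 u
      rcases sg_cases (s u) with h | h <;> rw [h] <;> linarith
    have a2 : 1 + θ v * sg (s v) ≤ 1 + θ v := by
      have := h0 v
      rcases sg_cases (s v) with h | h <;> rw [h] <;> linarith
    exact mul_le_mul a1 a2 (one_add_nonneg (h0 v) (h1 v) _) (by linarith [h0 u])
  have hA0 : 0 ≤ ∏ x ∈ A \ {v}, (1 - θ x * sg (s x)) := by
    refine Finset.prod_nonneg fun x _ => ?_
    have := one_add_nonneg (h0 x) (h1 x) (-(s x))
    rw [sg_neg] at this; linarith
  calc (∏ x ∈ A \ {v}, ((1 - θ x) / (1 + θ x))) * ((∏ x ∈ A \ {v}, (1 + θ x * sg (s x))) *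
        (P * ((1 + θ u * sg (s u)) * (1 + θ v * sg (s v)))))
      = ((∏ x ∈ A \ {v}, ((1 - θ x) / (1 + θ x))) * (∏ x ∈ A \ {v}, (1 + θ x * sg (s x)))) *
        (P * ((1 + θ u * sg (s u)) * (1 + θ v * sg (s v)))) := by ring
    _ ≤ (∏ x ∈ A \ {v}, (1 - θ x * sg (s x))) * (P * ((1 + θ u) * (1 + θ v))) := by
        refine mul_le_mul hA1 (mul_le_mul_of_nonneg_left hu1 hP0) ?_ hA0
        exact mul_nonneg hP0 (mul_nonneg (one_add_nonneg (h0 u) (h1 u) _)
          (one_add_nonneg (h0 v) (h1 v) _))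
    _ = (1 + θ u) * (1 + θ v) * ((∏ x ∈ A \ {v}, (1 - θ x * sg (s x))) * P) := by ring

end Vale.Agent.P361.LRO.Loop
end

section

/-! P361 / LRO / LOC by loops, part 3: change of basis (flips picture <-> `S³` picture). -/

namespace Vale.Agent.P361.LRO.Loop

open Finset Equiv Matrix

variable {X : Type} [Fintype X] [DecidableEq X]

/-- trace of a product of one-site matrices along the cycles of `π` -/
noncomputable def TT (π : Perm X) (A : X → Matrix (Fin 2) (Fin 2) ℝ) : ℝ :=
  ∑ s : X → Fin 2, ∏ x, A x (s x) (s (π x))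

omit [DecidableEq X] in
lemma prod_sum_sum [DecidableEq X] (f : X → Fin 2 → Fin 2 → ℝ) :
    ∏ x, ∑ a, ∑ b, f x a b = ∑ a : X → Fin 2, ∑ b : X → Fin 2, ∏ x, f x (a x) (b x) := by
  rw [Finset.prod_univ_sum, Fintype.piFinset_univ]
  refine Finset.sum_congr rfl fun a _ => ?_
  rw [Finset.prod_univ_sum, Fintype.piFinset_univ]

theorem TT_conj (π : Perm X) (A : X → Matrix (Fin 2) (Fin 2) ℝ) (U W : Matrix (Fin 2) (Fin 2) ℝ)
    (h : W * U = 1) : TT π (fun x => U * A x * W) = TT π A := by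
  unfold TT
  have h1 : ∀ s : X → Fin 2, ∏ x, (U * A x * W) (s x) (s (π x)) =
      ∑ a : X → Fin 2, ∑ b : X → Fin 2, (∏ x, A x (a x) (b x)) *
        ∏ y, (W (b (π.symm y)) (s y) * U (s y) (a y)) := by
    intro s
    have e1 : ∀ x, (U * A x * W) (s x) (s (π x)) =
        ∑ a, ∑ b, U (s x) a * A x a b * W b (s (π x)) := by
      intro x
      rw [Matrix.mul_apply]
      simp_rw [Matrix.mul_apply, Finset.sum_mul]
      exact Finset.sum_comm
    rw [Finset.prod_congr rfl fun x _ => e1 x,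
      prod_sum_sum (fun x a b => U (s x) a * A x a b * W b (s (π x)))]
    refine Finset.sum_congr rfl fun a _ => Finset.sum_congr rfl fun b _ => ?_
    have e2 : ∏ y, W (b (π.symm y)) (s y) = ∏ x, W (b x) (s (π x)) := by
      rw [← Equiv.prod_comp π (fun y => W (b (π.symm y)) (s y))]
      refine Finset.prod_congr rfl fun x _ => ?_
      rw [Equiv.symm_apply_apply]
    rw [Finset.prod_mul_distrib (f := fun y => W (b (π.symm y)) (s y)), e2,
      ← Finset.prod_mul_distrib, ← Finset.prod_mul_distrib]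
    refine Finset.prod_congr rfl fun x _ => ?_
    ring
  simp_rw [h1]
  rw [Finset.sum_comm]
  refine Finset.sum_congr rfl fun a _ => ?_
  rw [Finset.sum_comm]
  have h2 : ∀ b : X → Fin 2, ∑ s : X → Fin 2, (∏ x, A x (a x) (b x)) *
        ∏ y, (W (b (π.symm y)) (s y) * U (s y) (a y)) =
      if b = a ∘ π then ∏ x, A x (a x) (b x) else 0 := by
    intro b
    rw [← Finset.mul_sum]
    have e3 : ∑ s : X → Fin 2, ∏ y, (W (b (π.symm y)) (s y) * U (s y) (a y)) =
        ∏ y, (if b (π.symm y) = a y then (1:ℝ) else 0) := by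
      rw [← Fintype.piFinset_univ,
        ← Finset.prod_univ_sum (fun _ => univ) (fun y c => W (b (π.symm y)) c * U c (a y))]
      refine Finset.prod_congr rfl fun y _ => ?_
      have := congrFun (congrFun h (b (π.symm y))) (a y)
      rw [Matrix.mul_apply, Matrix.one_apply] at this
      exact this
    rw [e3]
    by_cases hb : b = a ∘ π
    · rw [if_pos hb]
      have : ∏ y, (if b (π.symm y) = a y then (1:ℝ) else 0) = 1 := by
        refine Finset.prod_eq_one fun y _ => ?_
        rw [if_pos]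
        rw [hb]; simp
      rw [this, mul_one]
    · rw [if_neg hb]
      have : ∃ y, b (π.symm y) ≠ a y := by
        by_contra hcon
        push Not at hcon
        apply hb
        funext x
        have := hcon (π x)
        rw [Equiv.symm_apply_apply] at this
        simpa using this
      obtain ⟨y, hy⟩ := this
      have h0 : ∏ y, (if b (π.symm y) = a y then (1:ℝ) else 0) = 0 :=
        Finset.prod_eq_zero (Finset.mem_univ y) (if_neg hy)
      rw [h0, mul_zero]
  rw [Finset.sum_congr rfl fun b _ => h2 b]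
  simp

/-- the Hadamard matrix and half of it -/
noncomputable def Hd : Matrix (Fin 2) (Fin 2) ℝ := !![1, 1; 1, -1]
noncomputable def Hh : Matrix (Fin 2) (Fin 2) ℝ := !![1/2, 1/2; 1/2, -1/2]

lemma Hh_Hd : Hh * Hd = 1 := by
  ext i j
  fin_cases i <;> fin_cases j <;> simp [Hh, Hd, Matrix.mul_apply, Fin.sum_univ_two] <;> norm_num

/-- `1 + t σ¹` -/
noncomputable def Fl (t : ℝ) : Matrix (Fin 2) (Fin 2) ℝ := !![1, t; t, 1]
/-- `1 + t σ³` -/
noncomputable def Dg (t : ℝ) : Matrix (Fin 2) (Fin 2) ℝ := !![1 + t, 0; 0, 1 - t]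
/-- jump matrix -/
noncomputable def Jm : Matrix (Fin 2) (Fin 2) ℝ := !![0, -1; 1, 0]
/-- `σ¹` and `σ³` -/
noncomputable def S1 : Matrix (Fin 2) (Fin 2) ℝ := !![0, 1; 1, 0]
noncomputable def S3 : Matrix (Fin 2) (Fin 2) ℝ := !![1, 0; 0, -1]

lemma conj_Dg (t : ℝ) : Hd * Dg t * Hh = Fl t := by
  ext i j
  fin_cases i <;> fin_cases j <;>
    simp [Hh, Hd, Dg, Fl, Matrix.mul_apply, Fin.sum_univ_two] <;> ring

lemma conj_Jm : Hd * Jm * Hh = -Jm := by
  ext i j
  fin_cases i <;> fin_cases j <;>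
    simp [Hh, Hd, Jm, Matrix.mul_apply, Fin.sum_univ_two] <;> norm_num

lemma conj_S3 : Hd * S3 * Hh = S1 := by
  ext i j
  fin_cases i <;> fin_cases j <;>
    simp [Hh, Hd, S3, S1, Matrix.mul_apply, Fin.sum_univ_two] <;> norm_num

/-- sign of a spin: `0 ↦ 1` (up), `1 ↦ -1` (down) -/
def sgn2 : Fin 2 ≃ ℤˣ where
  toFun i := if i = 0 then 1 else -1
  invFun e := if e = 1 then 0 else 1
  left_inv := by decide
  right_inv := by decide

lemma sgn2_zero : sgn2 0 = 1 := rfl
lemma sgn2_one : sgn2 1 = -1 := rfl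

/-- weights in the flips picture = weights in the `S³` picture -/
theorem sum_wt (π : Perm X) (θ : X → ℝ) : ∑ s, wt θ π s = Zp π θ := by
  have h1 : ∑ s, wt θ π s = TT π (fun x => Fl (θ x)) := by
    unfold wt TT
    refine Finset.sum_congr rfl fun s _ => Finset.prod_congr rfl fun x _ => ?_
    generalize s x = a
    generalize s (π x) = b
    fin_cases a <;> fin_cases b <;> simp [Fl]
  have h2 : TT π (fun x => Fl (θ x)) = TT π (fun x => Dg (θ x)) := by
    rw [← TT_conj π (fun x => Dg (θ x)) Hd Hh Hh_Hd]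
    simp_rw [conj_Dg]
  rw [h1, h2]
  unfold TT Zp inv
  rw [Finset.sum_filter]
  rw [← Equiv.sum_comp (Equiv.arrowCongr (Equiv.refl X) sgn2)]
  refine Finset.sum_congr rfl fun s _ => ?_
  by_cases h : ∀ x, s (π x) = s x
  · rw [if_pos (by intro x; simp [Equiv.arrowCongr, h x])]
    refine Finset.prod_congr rfl fun x _ => ?_
    rw [h x]
    have : (Equiv.arrowCongr (Equiv.refl X) sgn2) s x = sgn2 (s x) := by simp [Equiv.arrowCongr]
    rw [this]
    generalize s x = a
    fin_cases a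
    · simp [Dg, sgn2_zero]
    · simp [Dg, sgn2_one]; ring
  · rw [if_neg]
    · push Not at h
      obtain ⟨x, hx⟩ := h
      refine Finset.prod_eq_zero (Finset.mem_univ x) ?_
      generalize s x = a at hx
      generalize s (π x) = b at hx
      fin_cases a <;> fin_cases b <;> simp_all [Dg]
    · intro h'
      apply h
      intro x
      have := h' x
      simpa [Equiv.arrowCongr] using this

lemma finv_opp {N : Type*} [Fintype N] [DecidableEq N] (π : Perm N) {u v : N} (_huv : u ≠ v)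
    {s : N → ℤˣ} (hs : s ∈ finv π u v) :
    s v = - s u := by
  classical
  rw [mem_finv] at hs
  have hex : ∃ m, 1 ≤ m ∧ ((π ^ m) u = u ∨ (π ^ m) u = v) :=
    ⟨orderOf π, orderOf_pos π, Or.inl (by rw [pow_orderOf_eq_one]; rfl)⟩
  set m := Nat.find hex with hm
  obtain ⟨hm1, hmu⟩ := Nat.find_spec hex
  have hlt : ∀ i, 1 ≤ i → i < m → (π ^ i) u ≠ u ∧ (π ^ i) u ≠ v := by
    intro i hi him
    have := Nat.find_min hex him
    push Not at this
    exact this hi
  have hind : ∀ i, 1 ≤ i → i ≤ m → s ((π ^ i) u) = - s u := by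
    intro i hi
    induction i, hi using Nat.le_induction with
    | base =>
      intro _
      rw [pow_one, hs u, if_pos (Or.inl rfl)]
    | succ i hi ih =>
      intro him
      have hne := hlt i hi (by omega)
      rw [pow_succ', Perm.mul_apply, hs, if_neg (by tauto), ih (by omega)]
  have hm' := hind m hm1 le_rfl
  rcases hmu with h | h
  · rw [h] at hm'
    rcases Int.units_eq_one_or (s u) with h1 | h1 <;> rw [h1] at hm' <;>
      exact absurd hm' (by decide)
  · rw [h] at hm'; exact hm'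

/-- the numerator of the conductance in the `S³` picture -/
theorem sum_wt_jj (π : Perm X) (θ : X → ℝ) {u v : X} (huv : u ≠ v) :
    ∑ s, wt θ π s * (jj π s u * jj π s v) = - (θ u * θ v * Zf π θ u v) := by
  set B : X → Matrix (Fin 2) (Fin 2) ℝ := fun x => if x = u ∨ x = v then Jm else Fl (θ x) with hB
  set B' : X → Matrix (Fin 2) (Fin 2) ℝ := fun x => if x = u ∨ x = v then -Jm else Dg (θ x) with hB'
  have hsplit : ∀ f : X → ℝ, ∏ x, f x = f u * f v * ∏ x ∈ univ \ {u, v}, f x := by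
    intro f
    rw [← Finset.prod_sdiff (Finset.subset_univ {u, v}), Finset.prod_pair huv]
    ring
  have hne : ∀ x ∈ (univ : Finset X) \ {u, v}, ¬ (x = u ∨ x = v) := by
    intro x hx
    simpa using hx
  have h1 : ∑ s, wt θ π s * (jj π s u * jj π s v) = θ u * θ v * TT π B := by
    unfold wt TT
    rw [Finset.mul_sum]
    refine Finset.sum_congr rfl fun s _ => ?_
    rw [hsplit (fun x => if s x = s (π x) then 1 else θ x),
      hsplit (fun x => B x (s x) (s (π x)))]
    have e1 : ∏ x ∈ univ \ {u, v}, (if s x = s (π x) then (1:ℝ) else θ x) =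
        ∏ x ∈ univ \ {u, v}, B x (s x) (s (π x)) := by
      refine Finset.prod_congr rfl fun x hx => ?_
      simp only [hB, if_neg (hne x hx)]
      generalize s x = a
      generalize s (π x) = b
      fin_cases a <;> fin_cases b <;> simp [Fl]
    have e2 : (if s u = s (π u) then (1:ℝ) else θ u) * jj π s u = θ u * B u (s u) (s (π u)) := by
      simp only [hB, true_or, if_true, jj]
      generalize s u = a
      generalize s (π u) = b
      fin_cases a <;> fin_cases b <;> simp [Jm]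
    have e3 : (if s v = s (π v) then (1:ℝ) else θ v) * jj π s v = θ v * B v (s v) (s (π v)) := by
      simp only [hB, or_true, if_true, jj]
      generalize s v = a
      generalize s (π v) = b
      fin_cases a <;> fin_cases b <;> simp [Jm]
    rw [e1]
    calc (if s u = s (π u) then (1:ℝ) else θ u) * (if s v = s (π v) then (1:ℝ) else θ v) *
          (∏ x ∈ univ \ {u, v}, B x (s x) (s (π x))) * (jj π s u * jj π s v)
        = ((if s u = s (π u) then (1:ℝ) else θ u) * jj π s u) *
          ((if s v = s (π v) then (1:ℝ) else θ v) * jj π s v) *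
          (∏ x ∈ univ \ {u, v}, B x (s x) (s (π x))) := by ring
      _ = _ := by rw [e2, e3]; ring
  have h2 : TT π B = TT π B' := by
    rw [← TT_conj π B' Hd Hh Hh_Hd]
    congr 1
    funext x
    by_cases hx : x = u ∨ x = v
    · simp only [hB, hB', if_pos hx, mul_neg, neg_mul, conj_Jm, neg_neg]
    · simp only [hB, hB', if_neg hx, conj_Dg]
  have h3 : TT π B' = - Zf π θ u v := by
    unfold TT Zf finv
    rw [Finset.sum_filter, ← Finset.sum_neg_distrib]
    rw [← Equiv.sum_comp (Equiv.arrowCongr (Equiv.refl X) sgn2)]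
    refine Finset.sum_congr rfl fun s _ => ?_
    have hval : ∀ x, (Equiv.arrowCongr (Equiv.refl X) sgn2) s x = sgn2 (s x) := by
      intro x; simp [Equiv.arrowCongr]
    by_cases h : ∀ x, (Equiv.arrowCongr (Equiv.refl X) sgn2) s (π x) =
        if x = u ∨ x = v then - (Equiv.arrowCongr (Equiv.refl X) sgn2) s x
          else (Equiv.arrowCongr (Equiv.refl X) sgn2) s x
    · rw [if_pos h]
      rw [hsplit (fun x => B' x (s x) (s (π x)))]
      have hopp := finv_opp π huv (mem_finv.2 h)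
      rw [hval, hval] at hopp
      have hu := h u
      have hv := h v
      rw [if_pos (Or.inl rfl), hval, hval] at hu
      rw [if_pos (Or.inr rfl), hval, hval] at hv
      have e4 : ∏ x ∈ univ \ {u, v}, B' x (s x) (s (π x)) =
          ∏ x ∈ univ \ {u, v}, (1 + θ x * sg ((Equiv.arrowCongr (Equiv.refl X) sgn2) s x)) := by
        refine Finset.prod_congr rfl fun x hx => ?_
        have hx' := h x
        rw [if_neg (hne x hx), hval, hval] at hx'
        have hx'' : s (π x) = s x := sgn2.injective hx'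
        rw [hx'', hval]
        simp only [hB', if_neg (hne x hx)]
        generalize s x = a
        fin_cases a
        · simp [Dg, sgn2_zero]
        · simp [Dg, sgn2_one]; ring
      rw [e4]
      have e5 : B' u (s u) (s (π u)) * B' v (s v) (s (π v)) = -1 := by
        simp only [hB', true_or, or_true, if_true]
        generalize s u = a at hopp hu ⊢
        generalize s v = b at hopp hv ⊢
        generalize s (π u) = a' at hu ⊢
        generalize s (π v) = b' at hv ⊢
        fin_cases a <;> fin_cases b <;> fin_cases a' <;> fin_cases b' <;>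
          first
          | exact absurd hopp (by decide)
          | exact absurd hu (by decide)
          | exact absurd hv (by decide)
          | simp [Jm]
      rw [e5]; ring
    · rw [if_neg h, neg_zero]
      push Not at h
      obtain ⟨x, hx⟩ := h
      rw [hval, hval] at hx
      refine Finset.prod_eq_zero (Finset.mem_univ x) ?_
      by_cases hxuv : x = u ∨ x = v
      · rw [if_pos hxuv] at hx
        simp only [hB', if_pos hxuv]
        generalize s x = a at hx ⊢
        generalize s (π x) = b at hx ⊢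
        fin_cases a <;> fin_cases b <;>
          first
          | exact absurd rfl hx
          | exact absurd (by decide) hx
          | simp [Jm]
      · rw [if_neg hxuv] at hx
        simp only [hB', if_neg hxuv]
        generalize s x = a at hx ⊢
        generalize s (π x) = b at hx ⊢
        fin_cases a <;> fin_cases b <;>
          first
          | exact absurd rfl hx
          | simp [Dg]
  rw [h1, h2, h3]; ring

end Vale.Agent.P361.LRO.Loop
end

section

/-! P361 LRO LOC: bridge between `Loop` (spins in `ℤˣ`) and the interface `Loc` (spins in `Fin 2`). -/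

namespace Vale.Agent.P361.LRO.Loc

open Finset Vale.Agent.P361.LRO

variable {X : Type} [Fintype X] [DecidableEq X]

lemma sg_eq (a : Fin 2) : sg a = Loop.sg (Loop.sgn2 a) := by
  fin_cases a <;> simp [sg, Loop.sg, Loop.sgn2]

lemma arrow_apply (s : X → Fin 2) (x : X) :
    (Equiv.arrowCongr (Equiv.refl X) Loop.sgn2) s x = Loop.sgn2 (s x) := by
  simp [Equiv.arrowCongr]

lemma Zp_eq (π : Equiv.Perm X) (θ : X → ℝ) : Zp π θ = Loop.Zp π θ := by
  unfold Zp Loop.Zp Loop.inv
  rw [Finset.sum_filter, ← Equiv.sum_comp (Equiv.arrowCongr (Equiv.refl X) Loop.sgn2)]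
  refine Finset.sum_congr rfl fun t _ => ?_
  simp only [arrow_apply, Loop.sgn2.injective.eq_iff, sg_eq]

lemma sgn2_neg_iff (a b : Fin 2) : (¬ a = b) ↔ Loop.sgn2 a = - Loop.sgn2 b := by
  revert a b; decide

lemma Zf_eq (π : Equiv.Perm X) (θ : X → ℝ) (u v : X) : Zf π θ u v = Loop.Zf π θ u v := by
  unfold Zf Loop.Zf Loop.finv
  rw [Finset.sum_filter, ← Equiv.sum_comp (Equiv.arrowCongr (Equiv.refl X) Loop.sgn2)]
  refine Finset.sum_congr rfl fun t _ => ?_
  have hiff : (∀ x, (t (π x) = t x ↔ (x ≠ u ∧ x ≠ v))) ↔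
      (∀ x, (Equiv.arrowCongr (Equiv.refl X) Loop.sgn2) t (π x) =
        if x = u ∨ x = v then - (Equiv.arrowCongr (Equiv.refl X) Loop.sgn2) t x
        else (Equiv.arrowCongr (Equiv.refl X) Loop.sgn2) t x) := by
    refine forall_congr' fun x => ?_
    rw [arrow_apply, arrow_apply]
    by_cases hx : x = u ∨ x = v
    · rw [if_pos hx, ← sgn2_neg_iff]
      constructor
      · intro h h'
        have := h.1 h'
        tauto
      · intro h
        constructor
        · intro h'; exact absurd h' h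
        · intro h'; tauto
    · rw [if_neg hx, Loop.sgn2.injective.eq_iff]
      constructor
      · intro h; exact h.2 (by tauto)
      · intro h; exact ⟨fun _ => by tauto, fun _ => h⟩
  by_cases h : ∀ x, (t (π x) = t x ↔ (x ≠ u ∧ x ≠ v))
  · rw [if_pos h, if_pos (hiff.1 h)]
    rw [← Finset.prod_sdiff (Finset.subset_univ ({u, v} : Finset X))]
    have h1 : ∏ x ∈ ({u, v} : Finset X), (if x = u ∨ x = v then (1:ℝ) else 1 + θ x * sg (t x)) = 1 := by
      refine Finset.prod_eq_one fun x hx => ?_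
      rw [if_pos]; simpa using hx
    rw [h1, mul_one]
    refine Finset.prod_congr rfl fun x hx => ?_
    rw [if_neg (by simpa using hx), arrow_apply, sg_eq]
  · rw [if_neg h, if_neg (fun h' => h (hiff.2 h'))]

end Vale.Agent.P361.LRO.Loc
end

section

/-! P361 LRO LOC, leaf B: Griffiths on the cycles. -/

namespace Vale.Agent.P361.LRO.Loc

open Finset Vale.Agent.P361.LRO

theorem ringStmt : RingStmt := by
  intro X _ _ π θ hθ
  refine ⟨?_, ?_⟩
  · rw [Zp_eq]; exact Loop.Zp_pos π θ (fun v => (hθ v).1) (fun v => (hθ v).2)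
  · intro a b
    rw [Zp_eq, Zp_eq]
    have h : Equiv.swap a b * π = π * Equiv.swap (π.symm a) (π.symm b) := by
      ext x
      simp only [Equiv.Perm.mul_apply]
      rw [Equiv.swap_apply_def, Equiv.swap_apply_def]
      simp only [Equiv.eq_symm_apply]
      split_ifs <;> simp
    rw [h]
    exact Loop.Zp_mul_swap_le π θ (fun v => (hθ v).1) (fun v => (hθ v).2) _ _

end Vale.Agent.P361.LRO.Loc
end

section

/-! P361 LRO LOC, leaf D: the arc bound. -/

namespace Vale.Agent.P361.LRO.Loc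

open Finset Vale.Agent.P361.LRO

theorem arcStmt : ArcStmt := by
  intro X _ _ π θ hθ u v huv
  have h0 : ∀ v, 0 ≤ θ v := fun v => (hθ v).1
  have h1 : ∀ v, θ v ≤ 1 := fun v => (hθ v).2
  refine ⟨?_, ?_⟩
  · rw [Zf_eq]; exact Loop.Zf_nonneg π θ h0 h1 u v
  · intro m hm hne hinj
    rw [Zf_eq, Zp_eq]
    have hu : ∀ i, 1 ≤ i → i ≤ m + 1 → (π ^ i) u ≠ u := by
      intro i hi him h
      have := hinj i him 0 (Nat.zero_le _) (by simpa using h)
      omega
    have key := Loop.Zf_ge π θ h0 h1 u (m := m + 1) (by omega) hu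
    rw [hm] at key
    have hprod : ∏ x ∈ Loop.arc π u (m + 1) \ {v}, ((1 - θ x) / (1 + θ x)) =
        ∏ i ∈ Finset.range m, (1 - θ ((π ^ (i + 1)) u)) / (1 + θ ((π ^ (i + 1)) u)) := by
      have himg : Loop.arc π u (m + 1) \ {v} =
          (Finset.range m).image (fun i => (π ^ (i + 1)) u) := by
        ext x
        rw [Finset.mem_sdiff, Loop.mem_arc, Finset.mem_image, Finset.mem_singleton]
        constructor
        · rintro ⟨⟨i, hi1, him, hix⟩, hxv⟩
          have : i ≠ m + 1 := by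
            rintro rfl
            exact hxv (hix.symm.trans hm)
          refine ⟨i - 1, Finset.mem_range.2 (by omega), ?_⟩
          rw [show i - 1 + 1 = i by omega]
          exact hix
        · rintro ⟨i, hi, hix⟩
          rw [Finset.mem_range] at hi
          refine ⟨⟨i + 1, by omega, by omega, hix⟩, ?_⟩
          intro hxv
          have := (hne (i + 1) (by omega) (by omega)).2
          exact this (hix.trans hxv)
      rw [himg, Finset.prod_image]
      intro i hi j hj hij
      rw [Finset.coe_range, Set.mem_Iio] at hi hj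
      have := hinj (i + 1) (by omega) (j + 1) (by omega) hij
      omega
    rw [hprod] at key
    have hpos : 0 < (1 + θ u) * (1 + θ v) := by
      have := h0 u; have := h0 v; positivity
    rw [div_mul_eq_mul_div, div_le_iff₀ hpos]
    linarith

end Vale.Agent.P361.LRO.Loc
end

section

/-!
P361, LRO: Griffiths' first inequality for the spins of the charge network (helper169), and its
consequences `0 ≤ cc` off the diagonal, `mag ≤ 1`, for every law `μ ≥ 0` and `0 ≤ θ ≤ 1`.
-/

namespace Vale.Agent.P361.LRO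

open Finset

noncomputable section

variable {X : Type} [Fintype X] [DecidableEq X]

/-- `±1` spin. -/
def sgn2 (i : Fin 2) : ℝ := if i = 0 then 1 else -1

theorem sgn2_zero : sgn2 0 = 1 := by simp [sgn2]

theorem sgn2_one : sgn2 1 = -1 := by simp [sgn2]

theorem sgn2_sq (i : Fin 2) : sgn2 i * sgn2 i = 1 := by
  fin_cases i <;> simp [sgn2]

theorem sgn2_flip (i : Fin 2) : sgn2 (1 - i) = - sgn2 i := by
  fin_cases i <;> simp [sgn2]

/-- Monomials in the spins. -/
def mon (m : X → ℕ) (s : X → Fin 2) : ℝ := ∏ x, sgn2 (s x) ^ m x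

omit [DecidableEq X] in
theorem mon_add (m m' : X → ℕ) (s : X → Fin 2) : mon (m + m') s = mon m s * mon m' s := by
  simp only [mon, Pi.add_apply, pow_add, Finset.prod_mul_distrib]

theorem mon_single (p : X) (s : X → Fin 2) : mon (Pi.single p 1) s = sgn2 (s p) := by
  unfold mon
  rw [Finset.prod_eq_single p]
  · simp
  · intro x _ hx; simp [Pi.single_eq_of_ne hx]
  · intro h; exact absurd (Finset.mem_univ p) h

theorem sum_mon_nonneg (m : X → ℕ) : 0 ≤ ∑ s : X → Fin 2, mon m s := by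
  have h := Finset.prod_univ_sum (fun _ : X => (univ : Finset (Fin 2)))
    (fun x i => sgn2 i ^ m x)
  rw [Fintype.piFinset_univ] at h
  unfold mon
  rw [← h]
  refine Finset.prod_nonneg fun x _ => ?_
  rw [Fin.sum_univ_two, sgn2_zero, sgn2_one, one_pow]
  rcases neg_one_pow_eq_or ℝ (m x) with h | h <;> rw [h] <;> norm_num

/-- **Griffiths' first inequality.** -/
theorem griffiths (T : Finset X) (α β : X → ℝ) (hα : ∀ x, 0 ≤ α x) (hβ : ∀ x, 0 ≤ β x)
    (p q : X → X) (m : X → ℕ) :
    0 ≤ ∑ s : X → Fin 2, mon m s * ∏ x ∈ T, (α x + β x * (sgn2 (s (p x)) * sgn2 (s (q x)))) := by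
  induction T using Finset.induction generalizing m with
  | empty => simpa using sum_mon_nonneg m
  | insert a T ha ih =>
    have e : ∀ s : X → Fin 2,
        mon m s * ∏ x ∈ insert a T, (α x + β x * (sgn2 (s (p x)) * sgn2 (s (q x)))) =
        α a * (mon m s * ∏ x ∈ T, (α x + β x * (sgn2 (s (p x)) * sgn2 (s (q x))))) +
        β a * (mon (m + Pi.single (p a) 1 + Pi.single (q a) 1) s *
          ∏ x ∈ T, (α x + β x * (sgn2 (s (p x)) * sgn2 (s (q x))))) := by
      intro s
      rw [Finset.prod_insert ha, mon_add, mon_add, mon_single, mon_single]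
      ring
    rw [Finset.sum_congr rfl fun s _ => e s, Finset.sum_add_distrib, ← Finset.mul_sum,
      ← Finset.mul_sum]
    exact add_nonneg (mul_nonneg (hα a) (ih m)) (mul_nonneg (hβ a) (ih _))

/-- The bond weight. -/
theorem bond_eq (t : ℝ) (i j : Fin 2) :
    (if i = j then (1 : ℝ) else t) = (1 + t) / 2 + (1 - t) / 2 * (sgn2 i * sgn2 j) := by
  fin_cases i <;> fin_cases j <;> simp [sgn2] <;> ring

omit [Fintype X] [DecidableEq X] in
theorem jj_eq_sgn (π : Equiv.Perm X) (s : X → Fin 2) (x : X) :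
    jj π s x = (sgn2 (s (π x)) - sgn2 (s x)) / 2 := by
  unfold jj
  generalize s x = a
  generalize s (π x) = b
  fin_cases a <;> fin_cases b <;> simp [sgn2] <;> norm_num

/-- Two point function with the bonds in `T`. -/
theorem griffiths_two {θ : X → ℝ} (hθ : ∀ x, 0 ≤ θ x ∧ θ x ≤ 1) (π : Equiv.Perm X)
    (T : Finset X) (a b : X) :
    0 ≤ ∑ s : X → Fin 2, (sgn2 (s a) * sgn2 (s b)) *
      ∏ x ∈ T, (if s x = s (π x) then 1 else θ x) := by
  have h := griffiths T (fun x => (1 + θ x) / 2) (fun x => (1 - θ x) / 2)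
    (fun x => by have := (hθ x).1; positivity) (fun x => by have := (hθ x).2; linarith)
    (fun x => x) (fun x => π x) (Pi.single a 1 + Pi.single b 1)
  refine h.trans (le_of_eq ?_)
  refine Finset.sum_congr rfl fun s _ => ?_
  rw [mon_add, mon_single, mon_single]
  congr 1
  exact Finset.prod_congr rfl fun x _ => (bond_eq _ _ _).symm

/-! ### Flipping a set of spins -/

/-- Flip the spins in `P`. -/
def flipP (P : X → Prop) [DecidablePred P] (s : X → Fin 2) : X → Fin 2 :=
  fun x => if P x then 1 - s x else s x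

omit [Fintype X] [DecidableEq X] in
theorem flipP_invol (P : X → Prop) [DecidablePred P] : Function.Involutive (flipP P) := by
  intro s
  funext x
  unfold flipP
  by_cases h : P x
  · simp [h]
  · simp [h]

theorem sum_flipP (P : X → Prop) [DecidablePred P] (F : (X → Fin 2) → ℝ) :
    ∑ s, F (flipP P s) = ∑ s, F s :=
  Equiv.sum_comp (Function.Involutive.toPerm (flipP P) (flipP_invol P)) F

theorem sum_eq_zero_of_flip (P : X → Prop) [DecidablePred P] (F : (X → Fin 2) → ℝ)
    (h : ∀ s, F (flipP P s) = - F s) : ∑ s, F s = 0 := by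
  have h1 := sum_flipP P F
  rw [Finset.sum_congr rfl fun s _ => h s, Finset.sum_neg_distrib] at h1
  linarith

omit [Fintype X] [DecidableEq X] in
theorem sgn2_flipP (P : X → Prop) [DecidablePred P] (s : X → Fin 2) (x : X) :
    sgn2 (flipP P s x) = (if P x then -1 else 1) * sgn2 (s x) := by
  unfold flipP
  split_ifs with h
  · rw [sgn2_flip]; ring
  · ring

omit [Fintype X] [DecidableEq X] in
theorem flipP_eq_iff (P : X → Prop) [DecidablePred P] (s : X → Fin 2) {x y : X}
    (h : P x ↔ P y) : (flipP P s x = flipP P s y) ↔ (s x = s y) := by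
  unfold flipP
  by_cases hx : P x
  · have hy : P y := h.mp hx
    simp [hx, hy]
  · have hy : ¬ P y := fun h' => hx (h.mpr h')
    simp [hx, hy]

/-- The arc from `π u` to the first visit of `{u, v}`. -/
theorem exists_arc (π : Equiv.Perm X) {u v : X} (huv : u ≠ v) :
    ∃ P : X → Prop, (∀ x, x ≠ u → x ≠ v → (P x ↔ P (π x))) ∧ P (π u) ∧ ¬ P (π v) ∧
      (P u ↔ ¬ P v) := by
  classical
  have hex : ∃ n : ℕ, 1 ≤ n ∧ ((π ^ n) u = u ∨ (π ^ n) u = v) :=
    ⟨orderOf π, orderOf_pos π, Or.inl (by rw [pow_orderOf_eq_one]; rfl)⟩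
  set n := Nat.find hex with hn
  have hn1 : 1 ≤ n := (Nat.find_spec hex).1
  have hn2 : (π ^ n) u = u ∨ (π ^ n) u = v := (Nat.find_spec hex).2
  have hmin : ∀ i, 1 ≤ i → i < n → (π ^ i) u ≠ u ∧ (π ^ i) u ≠ v := by
    intro i hi1 hi2
    have := Nat.find_min hex hi2
    push Not at this
    exact this hi1
  have hsucc : ∀ i : ℕ, π ((π ^ i) u) = (π ^ (i + 1)) u := by
    intro i
    rw [pow_succ', Equiv.Perm.mul_apply]
  refine ⟨fun x => ∃ i, 1 ≤ i ∧ i ≤ n ∧ (π ^ i) u = x, ?_, ?_, ?_, ?_⟩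
  · intro x hxu hxv
    constructor
    · rintro ⟨i, hi1, hi2, rfl⟩
      have hin : i ≠ n := by
        rintro rfl
        rcases hn2 with h | h
        · exact hxu h
        · exact hxv h
      exact ⟨i + 1, by omega, by omega, (hsucc i).symm⟩
    · rintro ⟨i, hi1, hi2, hi⟩
      obtain ⟨k, rfl⟩ : ∃ k, i = k + 1 := ⟨i - 1, by omega⟩
      rw [← hsucc k] at hi
      have hk : (π ^ k) u = x := π.injective hi
      rcases Nat.eq_zero_or_pos k with h0 | h0
      · subst h0
        exact absurd hk.symm (by simpa using hxu)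
      · exact ⟨k, h0, by omega, hk⟩
  · exact ⟨1, le_rfl, hn1, by simp⟩
  · rintro ⟨i, hi1, hi2, hi⟩
    obtain ⟨k, rfl⟩ : ∃ k, i = k + 1 := ⟨i - 1, by omega⟩
    rw [← hsucc k] at hi
    have hk : (π ^ k) u = v := π.injective hi
    rcases Nat.eq_zero_or_pos k with h0 | h0
    · subst h0
      exact huv (by simpa using hk)
    · exact (hmin k h0 (by omega)).2 hk
  · have huP : (∃ i, 1 ≤ i ∧ i ≤ n ∧ (π ^ i) u = u) ↔ (π ^ n) u = u := by
      constructor
      · rintro ⟨i, hi1, hi2, hi⟩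
        rcases Nat.lt_or_ge i n with h | h
        · exact absurd hi (hmin i hi1 h).1
        · have : i = n := by omega
          rw [← this]; exact hi
      · intro h; exact ⟨n, hn1, le_rfl, h⟩
    have hvP : (∃ i, 1 ≤ i ∧ i ≤ n ∧ (π ^ i) u = v) ↔ (π ^ n) u = v := by
      constructor
      · rintro ⟨i, hi1, hi2, hi⟩
        rcases Nat.lt_or_ge i n with h | h
        · exact absurd hi (hmin i hi1 h).2
        · have : i = n := by omega
          rw [← this]; exact hi
      · intro h; exact ⟨n, hn1, le_rfl, h⟩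
    refine (show (∃ i, 1 ≤ i ∧ i ≤ n ∧ (π ^ i) u = u) ↔
      ¬ (∃ i, 1 ≤ i ∧ i ≤ n ∧ (π ^ i) u = v) from ?_)
    rw [huP, hvP]
    constructor
    · intro h h'
      exact huv (h.symm.trans h')
    · intro h
      exact hn2.resolve_right h

/-- At fixed permutation the charges at two nodes are negatively correlated. -/
theorem inner_nonpos {θ : X → ℝ} (hθ : ∀ x, 0 ≤ θ x ∧ θ x ≤ 1) (π : Equiv.Perm X) {u v : X}
    (huv : u ≠ v) : ∑ s, wt θ π s * (jj π s u * jj π s v) ≤ 0 := by
  classical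
  set R : (X → Fin 2) → ℝ := fun s =>
    ∏ x ∈ (univ.erase u).erase v, (if s x = s (π x) then 1 else θ x) with hR
  have hw : ∀ s, wt θ π s * (jj π s u * jj π s v) =
      (θ u * θ v / 4) * ((sgn2 (s (π u)) * sgn2 (s (π v))) * R s
        - (sgn2 (s (π u)) * sgn2 (s v)) * R s - (sgn2 (s u) * sgn2 (s (π v))) * R s
        + (sgn2 (s u) * sgn2 (s v)) * R s) := by
    intro s
    have h1 : wt θ π s = (if s u = s (π u) then 1 else θ u) *
        ((if s v = s (π v) then 1 else θ v) * R s) := by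
      rw [wt_eq_mul_erase θ π s u, hR]
      congr 1
      exact (Finset.mul_prod_erase (univ.erase u)
        (fun x => if s x = s (π x) then (1:ℝ) else θ x)
        (Finset.mem_erase.mpr ⟨huv.symm, Finset.mem_univ v⟩)).symm
    have h2 : ∀ x, (if s x = s (π x) then 1 else θ x) * jj π s x = θ x * jj π s x := by
      intro x
      split_ifs with h
      · rw [jj_eq_zero h]; ring
      · rfl
    have h3 : wt θ π s * (jj π s u * jj π s v) =
        ((if s u = s (π u) then 1 else θ u) * jj π s u) *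
        ((if s v = s (π v) then 1 else θ v) * jj π s v) * R s := by
      rw [h1]; ring
    rw [h3, h2, h2, jj_eq_sgn, jj_eq_sgn]
    ring
  obtain ⟨P, hP1, hP2, hP3, hP4⟩ := exists_arc π huv
  have hRflip : ∀ s, R (flipP P s) = R s := by
    intro s
    refine Finset.prod_congr rfl fun x hx => ?_
    have hxv : x ≠ v := Finset.ne_of_mem_erase hx
    have hxu : x ≠ u := Finset.ne_of_mem_erase (Finset.mem_of_mem_erase hx)
    simp only [flipP_eq_iff P s (hP1 x hxu hxv)]
  have z1 : ∑ s, (sgn2 (s (π u)) * sgn2 (s (π v))) * R s = 0 := by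
    refine sum_eq_zero_of_flip P _ fun s => ?_
    simp only [sgn2_flipP, hRflip, if_pos hP2, if_neg hP3]
    ring
  have z2 : ∑ s, (sgn2 (s u) * sgn2 (s v)) * R s = 0 := by
    refine sum_eq_zero_of_flip P _ fun s => ?_
    simp only [sgn2_flipP, hRflip]
    by_cases hu : P u
    · rw [if_pos hu, if_neg (hP4.mp hu)]; ring
    · have hv : P v := by
        by_contra hv
        exact hu (hP4.mpr hv)
      rw [if_neg hu, if_pos hv]; ring
  have g1 := griffiths_two hθ π ((univ.erase u).erase v) (π u) v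
  have g2 := griffiths_two hθ π ((univ.erase u).erase v) u (π v)
  rw [Finset.sum_congr rfl fun s _ => hw s, ← Finset.mul_sum, Finset.sum_add_distrib,
    Finset.sum_sub_distrib, Finset.sum_sub_distrib, z1, z2]
  have h4 : 0 ≤ θ u * θ v / 4 := by
    have := mul_nonneg (hθ u).1 (hθ v).1
    positivity
  have h5 : (0 : ℝ) - ∑ s, (sgn2 (s (π u)) * sgn2 (s v)) * R s
      - ∑ s, (sgn2 (s u) * sgn2 (s (π v))) * R s + 0 ≤ 0 := by
    have e1 : 0 ≤ ∑ s, (sgn2 (s (π u)) * sgn2 (s v)) * R s := g1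
    have e2 : 0 ≤ ∑ s, (sgn2 (s u) * sgn2 (s (π v))) * R s := g2
    linarith
  exact mul_nonpos_of_nonneg_of_nonpos h4 h5

/-- **The conductances are nonnegative.** -/
theorem cc_nonneg {μ : Equiv.Perm X → ℝ} (hμ : ∀ π, 0 ≤ μ π) {θ : X → ℝ}
    (hθ : ∀ x, 0 ≤ θ x ∧ θ x ≤ 1) {u v : X} (huv : u ≠ v) : 0 ≤ cc μ θ u v := by
  unfold cc
  rw [EE_eq, ← neg_div]
  refine div_nonneg ?_ (SS_nonneg hμ (fun x => (hθ x).1) fun _ _ => zero_le_one)
  have : SS μ θ (fun π s => jj π s u * jj π s v) =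
      ∑ π, μ π * ∑ s, wt θ π s * (jj π s u * jj π s v) := by
    unfold SS
    refine Finset.sum_congr rfl fun π _ => ?_
    rw [Finset.mul_sum]
    exact Finset.sum_congr rfl fun s _ => by ring
  rw [this, neg_nonneg]
  exact Finset.sum_nonpos fun π _ => mul_nonpos_of_nonneg_of_nonpos (hμ π) (inner_nonpos hθ π huv)

/-- `A ≤ B`. -/
theorem SA_le_SB {μ : Equiv.Perm X → ℝ} (hμ : ∀ π, 0 ≤ μ π) {θ : X → ℝ}
    (hθ : ∀ x, 0 ≤ θ x ∧ θ x ≤ 1) (z : X) : SA μ θ z one' ≤ SB μ θ z one' := by
  rw [← sub_nonneg]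
  have h : SB μ θ z one' - SA μ θ z one' =
      ∑ π, μ π * ∑ s : X → Fin 2, (sgn2 (s z) * sgn2 (s (π z))) *
        ∏ x ∈ univ.erase z, (if s x = s (π x) then 1 else θ x) := by
    unfold SB SA
    rw [← Finset.sum_sub_distrib]
    refine Finset.sum_congr rfl fun π _ => ?_
    rw [← Finset.sum_sub_distrib, Finset.mul_sum]
    refine Finset.sum_congr rfl fun s _ => ?_
    by_cases hz : s z = s (π z)
    · rw [if_pos hz, if_pos hz, wt_eq_mul_erase θ π s z, if_pos hz, ← hz, sgn2_sq]
      simp only [one']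
      ring
    · rw [if_neg hz, if_neg hz, wt_eq_mul_erase _ π s z, if_neg hz, Function.update_self]
      have h1 : sgn2 (s z) * sgn2 (s (π z)) = -1 := by
        revert hz
        generalize s z = a
        generalize s (π z) = b
        fin_cases a <;> fin_cases b <;> simp [sgn2]
      have h2 : ∏ x ∈ univ.erase z, (if s x = s (π x) then (1:ℝ) else Function.update θ z 1 x) =
          ∏ x ∈ univ.erase z, (if s x = s (π x) then 1 else θ x) :=
        Finset.prod_congr rfl fun x hx => by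
          rw [Function.update_of_ne (Finset.ne_of_mem_erase hx)]
      rw [h1, h2]
      simp only [one']
      ring
  rw [h]
  exact Finset.sum_nonneg fun π _ => mul_nonneg (hμ π) (griffiths_two hθ π _ _ _)

theorem mag_le_one {μ : Equiv.Perm X → ℝ} (h : IsLaw μ) {θ : X → ℝ}
    (hθ : ∀ x, 0 ≤ θ x ∧ θ x ≤ 1) (z : X) : mag μ θ z ≤ 1 := by
  rw [mag_eq]
  exact div_le_one_of_le₀ (SA_le_SB h.nonneg hθ z)
    (le_trans zero_le_one (SB_pos h.nonneg h.sum (fun x => (hθ x).1) z))

theorem vv_le {μ : Equiv.Perm X → ℝ} (h : IsLaw μ) {θ : X → ℝ}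
    (hθ : ∀ x, 0 ≤ θ x ∧ θ x ≤ 1) (z : X) : vv μ θ z ≤ θ z := by
  refine (vv_le_mul_mag h (fun x => (hθ x).1) z).trans ?_
  have := mul_le_mul_of_nonneg_left (mag_le_one h hθ z) (hθ z).1
  linarith

theorem le_vv {μ : Equiv.Perm X → ℝ} (h : IsLaw μ) {θ : X → ℝ}
    (hθ : ∀ x, 0 ≤ θ x ∧ θ x ≤ 1) (z : X) (hm : 1 / 2 ≤ mag μ θ z) : θ z / 4 ≤ vv μ θ z := by
  rw [vv_eq_mag h (fun x => (hθ x).1)]
  have h1 := mag_le_one h hθ z
  have h0 := hθ z
  have h2 : 0 ≤ θ z * mag μ θ z := mul_nonneg h0.1 (by linarith)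
  rw [le_div_iff₀ (by linarith)]
  have h3 : θ z * mag μ θ z ≤ 1 := by nlinarith
  have h4 : θ z * (1 / 2) ≤ θ z * mag μ θ z := mul_le_mul_of_nonneg_left hm h0.1
  nlinarith

end

end Vale.Agent.P361.LRO
end

section

/-!
P361, step (5): the extra slice `T` changes the density of down spins by a bounded factor only
(Jensen).
-/

namespace Vale.Agent.P361.LRO

open Finset Matrix

theorem tilt_gen {Ω : Type*} [Fintype Ω] (w f N : Ω → ℝ) (hw : ∀ ω, 0 ≤ w ω)
    (hf : ∀ ω, 0 ≤ f ω) (hN : ∀ ω, 0 ≤ N ω) {k : ℝ} (hk : 0 ≤ k) (hW : 0 < ∑ ω, w ω) :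
    (∑ ω, w ω * Real.exp (-(k * N ω)) * f ω) / (∑ ω, w ω * Real.exp (-(k * N ω))) ≤
      Real.exp (k * ((∑ ω, w ω * N ω) / ∑ ω, w ω)) * ((∑ ω, w ω * f ω) / ∑ ω, w ω) := by
  set W := ∑ ω, w ω with hWd
  set m := (∑ ω, w ω * N ω) / W with hm
  -- Jensen
  have hJ : W * Real.exp (-(k * m)) ≤ ∑ ω, w ω * Real.exp (-(k * N ω)) := by
    have h1 : ∀ ω, w ω * (Real.exp (-(k * m)) * (1 + (k * m - k * N ω))) ≤
        w ω * Real.exp (-(k * N ω)) := by
      intro ω
      refine mul_le_mul_of_nonneg_left ?_ (hw ω)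
      have h2 := Real.add_one_le_exp (k * m - k * N ω)
      have h3 : Real.exp (-(k * N ω)) = Real.exp (-(k * m)) * Real.exp (k * m - k * N ω) := by
        rw [← Real.exp_add]; congr 1; ring
      rw [h3]
      exact mul_le_mul_of_nonneg_left (by linarith) (Real.exp_pos _).le
    have h4 := Finset.sum_le_sum fun ω (_ : ω ∈ (univ : Finset Ω)) => h1 ω
    have h5 : ∑ ω, w ω * (Real.exp (-(k * m)) * (1 + (k * m - k * N ω))) =
        W * Real.exp (-(k * m)) := by
      have h6 : ∀ ω, w ω * (Real.exp (-(k * m)) * (1 + (k * m - k * N ω))) =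
          Real.exp (-(k * m)) * ((1 + k * m) * w ω - k * (w ω * N ω)) := fun ω => by ring
      rw [Finset.sum_congr rfl fun ω _ => h6 ω, ← Finset.mul_sum, Finset.sum_sub_distrib,
        ← Finset.mul_sum, ← Finset.mul_sum]
      have h7 : ∑ ω, w ω * N ω = m * W := by
        rw [hm, div_mul_cancel₀ _ hW.ne']
      rw [h7, ← hWd]; ring
    rwa [h5] at h4
  have hD : 0 < ∑ ω, w ω * Real.exp (-(k * N ω)) :=
    lt_of_lt_of_le (mul_pos hW (Real.exp_pos _)) hJ
  have hnum : ∑ ω, w ω * Real.exp (-(k * N ω)) * f ω ≤ ∑ ω, w ω * f ω := by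
    refine Finset.sum_le_sum fun ω _ => ?_
    refine mul_le_mul_of_nonneg_right ?_ (hf ω)
    have : Real.exp (-(k * N ω)) ≤ 1 := Real.exp_le_one_iff.2 (by
      have := mul_nonneg hk (hN ω); linarith)
    calc w ω * Real.exp (-(k * N ω)) ≤ w ω * 1 := mul_le_mul_of_nonneg_left this (hw ω)
      _ = w ω := mul_one _
  have hF : 0 ≤ ∑ ω, w ω * f ω := Finset.sum_nonneg fun ω _ => mul_nonneg (hw ω) (hf ω)
  rw [div_le_iff₀ hD]
  calc ∑ ω, w ω * Real.exp (-(k * N ω)) * f ω ≤ ∑ ω, w ω * f ω := hnum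
    _ = Real.exp (k * m) * ((∑ ω, w ω * f ω) / W) * (W * Real.exp (-(k * m))) := by
        rw [Real.exp_neg]
        field_simp
    _ ≤ _ := mul_le_mul_of_nonneg_left hJ
        (mul_nonneg (Real.exp_pos _).le (div_nonneg hF hW.le))

variable {ι : Type*} [Fintype ι] [DecidableEq ι]

theorem trace_diag4 (e d : ι → ℝ) (A B : Matrix ι ι ℝ) :
    trace (diagonal e * A * diagonal d * B) = ∑ p : ι × ι, (A p.1 p.2 * B p.2 p.1) * e p.1 * d p.2 := by
  rw [Fintype.sum_prod_type, Matrix.trace]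
  refine Finset.sum_congr rfl fun i _ => ?_
  rw [Matrix.diag_apply, Matrix.mul_apply]
  refine Finset.sum_congr rfl fun j _ => ?_
  rw [Matrix.mul_diagonal, Matrix.diagonal_mul]
  ring

/-- Matrix form of the tilt bound: `A`, `B` entrywise nonnegative, `N` the number of down spins of
the block at the extra slice, `d` the observable at any other slice. -/
theorem tilt_matrix (A B : Matrix ι ι ℝ) (hA : ∀ i j, 0 ≤ A i j) (hB : ∀ i j, 0 ≤ B i j)
    (N d : ι → ℝ) (hN : ∀ i, 0 ≤ N i) (hd : ∀ i, 0 ≤ d i) {k : ℝ} (hk : 0 ≤ k)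
    (hAB : 0 < trace (A * B)) :
    trace (diagonal (fun i => Real.exp (-(k * N i))) * A * diagonal d * B) /
        trace (diagonal (fun i => Real.exp (-(k * N i))) * A * B) ≤
      Real.exp (k * (trace (diagonal N * A * B) / trace (A * B))) *
        (trace (A * diagonal d * B) / trace (A * B)) := by
  have h1 : ∀ e : ι → ℝ, trace (diagonal e * A * B) = ∑ p : ι × ι, (A p.1 p.2 * B p.2 p.1) * e p.1 := by
    intro e
    have := trace_diag4 e (fun _ => 1) A B
    rw [Matrix.diagonal_one, Matrix.mul_one] at this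
    rw [this]
    exact Finset.sum_congr rfl fun p _ => by ring
  have h2 : trace (A * B) = ∑ p : ι × ι, (A p.1 p.2 * B p.2 p.1) := by
    have := h1 (fun _ => 1)
    rw [Matrix.diagonal_one, Matrix.one_mul] at this
    rw [this]
    exact Finset.sum_congr rfl fun p _ => by ring
  have h3 : trace (A * diagonal d * B) = ∑ p : ι × ι, (A p.1 p.2 * B p.2 p.1) * d p.2 := by
    have := trace_diag4 (fun _ => 1) d A B
    rw [Matrix.diagonal_one, Matrix.one_mul] at this
    rw [this]
    exact Finset.sum_congr rfl fun p _ => by ring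
  rw [trace_diag4, h1, h1, h2, h3]
  have := tilt_gen (fun p : ι × ι => A p.1 p.2 * B p.2 p.1) (fun p => d p.2) (fun p => N p.1)
    (fun p => mul_nonneg (hA _ _) (hB _ _)) (fun p => hd _) (fun p => hN _) hk (by rwa [← h2])
  exact this

end Vale.Agent.P361.LRO
end

section

/-!
P361, step (5): lower bound for the magnetization in the presence of the extra slice `T`, in the
limit `N → ∞` and for the circuit (from the Trotter limit `D3`).
-/

namespace Vale.Agent.P361.LRO

open Finset Matrix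

noncomputable section

section Exp

variable {α : Type*} [Fintype α] [DecidableEq α]

theorem exp_entry_hasSum (A : Matrix α α ℝ) (a a' : α) :
    HasSum (fun m : ℕ => ((m.factorial : ℝ)⁻¹) * (A ^ m) a a') ((NormedSpace.exp A) a a') := by
  have h : HasSum (fun m : ℕ => ((m.factorial : ℝ)⁻¹) • A ^ m) (NormedSpace.exp A) := by
    open scoped Norms.Operator in exact NormedSpace.exp_series_hasSum_exp' A
  have h1 := Pi.hasSum.1 h a
  have h2 := Pi.hasSum.1 h1 a'
  exact h2

theorem pow_entry_nonneg {A : Matrix α α ℝ} (h : ∀ a a', 0 ≤ A a a') (m : ℕ) (a a' : α) :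
    0 ≤ (A ^ m) a a' := by
  induction m generalizing a a' with
  | zero => rw [pow_zero, Matrix.one_apply]; split_ifs <;> norm_num
  | succ m ih =>
    rw [pow_succ, Matrix.mul_apply]
    exact sum_nonneg fun b _ => mul_nonneg (ih _ _) (h _ _)

theorem exp_entry_ge_one {A : Matrix α α ℝ} (h : ∀ a a', 0 ≤ A a a') (a a' : α) :
    (1 : Matrix α α ℝ) a a' ≤ (NormedSpace.exp A) a a' := by
  have h1 := exp_entry_hasSum A a a'
  have h2 := le_hasSum h1 0 fun m _ => mul_nonneg (by positivity) (pow_entry_nonneg h m a a')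
  simpa using h2

theorem exp_add_const (A : Matrix α α ℝ) (s : ℝ) :
    NormedSpace.exp (s • (1 : Matrix α α ℝ) + A) = Real.exp s • NormedSpace.exp A := by
  have hc : Commute (s • (1 : Matrix α α ℝ)) A := (Commute.one_left A).smul_left s
  rw [Matrix.exp_add_of_commute _ _ hc]
  have h1 : (s • (1 : Matrix α α ℝ)) = diagonal fun _ => s := by
    rw [Matrix.smul_one_eq_diagonal]
  have h2 : NormedSpace.exp (fun _ : α => s) = fun _ => Real.exp s := by
    rw [Pi.exp_def]; funext i; rw [Real.exp_eq_exp_ℝ]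
  rw [h1, Matrix.exp_diagonal, h2, ← Matrix.smul_one_eq_diagonal, Matrix.smul_mul, Matrix.one_mul]

/-- Exponentials of matrices with nonnegative off-diagonal entries. -/
theorem exp_offdiag {A : Matrix α α ℝ} (h : ∀ a a', a ≠ a' → 0 ≤ A a a') :
    (∀ a a', 0 ≤ NormedSpace.exp A a a') ∧ ∀ a, 0 < NormedSpace.exp A a a := by
  set c : ℝ := ∑ a, |A a a| with hc
  have h1 : ∀ a a', 0 ≤ (c • (1 : Matrix α α ℝ) + A) a a' := by
    intro a a'
    rw [Matrix.add_apply, Matrix.smul_apply]
    by_cases e : a = a'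
    · subst e
      rw [Matrix.one_apply_eq, smul_eq_mul, mul_one]
      have h4 : |A a a| ≤ c := Finset.single_le_sum (f := fun a => |A a a|)
        (fun a _ => abs_nonneg _) (Finset.mem_univ a)
      have h3 := neg_abs_le (A a a)
      linarith
    · rw [Matrix.one_apply_ne e, smul_zero, zero_add]
      exact h a a' e
  have h2 : NormedSpace.exp A = Real.exp (-c) • NormedSpace.exp (c • (1 : Matrix α α ℝ) + A) := by
    rw [exp_add_const, smul_smul, ← Real.exp_add, neg_add_cancel, Real.exp_zero, one_smul]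
  have h3 := exp_entry_ge_one h1
  constructor
  · intro a a'
    rw [h2, Matrix.smul_apply]
    refine mul_nonneg (Real.exp_pos _).le (le_trans ?_ (h3 a a'))
    rw [Matrix.one_apply]; split_ifs <;> norm_num
  · intro a
    rw [h2, Matrix.smul_apply]
    refine mul_pos (Real.exp_pos _) (lt_of_lt_of_le ?_ (h3 a a))
    rw [Matrix.one_apply_eq]; norm_num

end Exp

variable {V : Type} [Fintype V] [DecidableEq V]

theorem hM_offdiag (x y : V) {σ τ : V → Fin 2} (hne : σ ≠ τ) : hM x y σ τ ≤ 0 := by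
  unfold hM swapM
  rw [Matrix.smul_apply, Matrix.sub_apply, Matrix.one_apply_ne hne, Matrix.of_apply, smul_eq_mul]
  split_ifs <;> norm_num

theorem ham_offdiag (L : List (V × V)) (h : V → ℝ) {σ τ : V → Fin 2} (hne : σ ≠ τ) :
    ham L h σ τ ≤ 0 := by
  unfold ham
  rw [Matrix.sub_apply]
  have h1 : ∀ L : List (V × V), (L.map fun e => hM e.1 e.2).sum σ τ ≤ 0 := by
    intro L
    induction L with
    | nil => simp
    | cons e L ih =>
      rw [List.map_cons, List.sum_cons, Matrix.add_apply]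
      have := hM_offdiag e.1 e.2 hne
      linarith
  have h2 : (∑ x, (h x / 2) • szM x) σ τ = 0 := by
    rw [Matrix.sum_apply]
    refine Finset.sum_eq_zero fun x _ => ?_
    rw [Matrix.smul_apply, szM, Matrix.diagonal_apply_ne _ hne, smul_zero]
  rw [h2, sub_zero]
  exact h1 L

theorem exp_ham (L : List (V × V)) (h : V → ℝ) {s : ℝ} (hs : 0 ≤ s) :
    (∀ σ τ, 0 ≤ NormedSpace.exp (-s • ham L h) σ τ) ∧
      ∀ σ, 0 < NormedSpace.exp (-s • ham L h) σ σ := by
  refine exp_offdiag fun σ τ hne => ?_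
  rw [Matrix.smul_apply, smul_eq_mul]
  have := ham_offdiag L h hne
  nlinarith

/-- Number of down spins in `b`. -/
def nb (b : Finset V) (σ : V → Fin 2) : ℝ := ∑ x ∈ b, if σ x = 0 then 0 else 1

omit [Fintype V] [DecidableEq V] in
theorem nb_nonneg (b : Finset V) (σ : V → Fin 2) : 0 ≤ nb b σ :=
  Finset.sum_nonneg fun x _ => by split_ifs <;> norm_num

theorem one_sub_tanh (u : ℝ) : 1 - Real.tanh u = (1 + Real.tanh u) * Real.exp (-(2 * u)) := by
  rw [Real.tanh_eq_sinh_div_cosh]
  have hc : Real.cosh u ≠ 0 := (Real.cosh_pos u).ne'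
  have h1 : (1 + Real.sinh u / Real.cosh u) = Real.exp u / Real.cosh u := by
    rw [← Real.cosh_add_sinh]; field_simp
  have h2 : (1 - Real.sinh u / Real.cosh u) = Real.exp (-u) / Real.cosh u := by
    rw [← Real.cosh_sub_sinh]; field_simp
  rw [h1, h2, div_mul_eq_mul_div, ← Real.exp_add]
  congr 2
  ring

theorem layT_blk (K : ℝ) (b : Finset V) (hb : b.Nonempty) :
    layT (blk K b) = (1 + Real.tanh (K / (2 * b.card))) ^ b.card •
      diagonal fun σ => Real.exp (-(K / b.card * nb b σ)) := by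
  have hb0 : (b.card : ℝ) ≠ 0 := by exact_mod_cast hb.card_pos.ne'
  set θ := Real.tanh (K / (2 * b.card)) with hθ
  have h1 : 1 - θ = (1 + θ) * Real.exp (-(K / b.card)) := by
    rw [hθ, one_sub_tanh]
    congr 2
    field_simp
  unfold layT
  rw [← Matrix.diagonal_smul]
  congr 1
  funext σ
  rw [Pi.smul_apply, smul_eq_mul]
  have h2 : ∀ x, (1 + blk K b x * (if σ x = 0 then (1 : ℝ) else -1)) =
      if x ∈ b then (1 + θ) * Real.exp (-(K / b.card * if σ x = 0 then 0 else 1)) else 1 := by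
    intro x
    unfold blk
    by_cases hx : x ∈ b
    · rw [if_pos hx, if_pos hx]
      by_cases h3 : σ x = 0
      · rw [if_pos h3, if_pos h3, mul_one, mul_zero, neg_zero, Real.exp_zero, mul_one]
      · rw [if_neg h3, if_neg h3, mul_one, ← h1]; ring
    · rw [if_neg hx, if_neg hx]; ring
  rw [Finset.prod_congr rfl fun x _ => h2 x, Finset.prod_ite_mem, Finset.univ_inter,
    Finset.prod_mul_distrib, Finset.prod_const, ← Real.exp_sum]
  congr 2
  unfold nb
  rw [Finset.mul_sum, ← Finset.sum_neg_distrib]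

/-- projection on down at `x` -/
def dn (x : V) (σ : V → Fin 2) : ℝ := if σ x = 0 then 0 else 1

omit [DecidableEq V] in
theorem szM_eq (x : V) : szM x = 1 - (2 : ℝ) • diagonal (dn x) := by
  unfold szM dn
  rw [← Matrix.diagonal_one, ← Matrix.diagonal_smul, Matrix.diagonal_sub]
  congr 1
  funext σ
  rw [Pi.smul_apply, smul_eq_mul]
  split_ifs <;> norm_num

omit [DecidableEq V] in
theorem half_eq (x : V) : (1 / 2 : ℝ) • (1 - szM x) = diagonal (dn x) := by
  rw [szM_eq, sub_sub_cancel, smul_smul]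
  norm_num

theorem rho_eq (L : List (V × V)) (β : ℝ) (h : V → ℝ) (x : V) :
    rho L β h x = trace (NormedSpace.exp (-β • ham L h) * diagonal (dn x)) /
      trace (NormedSpace.exp (-β • ham L h)) := by
  unfold rho gib
  rw [half_eq]

theorem exp_split (L : List (V × V)) (h : V → ℝ) {s t β : ℝ} (e : s + t = β) :
    NormedSpace.exp (-s • ham L h) * NormedSpace.exp (-t • ham L h) =
      NormedSpace.exp (-β • ham L h) := by
  rw [← Matrix.exp_add_of_commute, ← add_smul]
  · congr 2; linarith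
  · exact ((Commute.refl (ham L h)).smul_left _).smul_right _

/-- Main bound in the limit `N = ∞`. -/
theorem mT_ge (L : List (V × V)) {β K η : ℝ} (h : V → ℝ) (b : Finset V) (hb : b.Nonempty)
    (hK : 0 ≤ K) {s t : ℝ} (hs : 0 ≤ s) (ht : 0 ≤ t) (e : s + t = β)
    (hr : ∀ x, rho L β h x ≤ η) (x : V) :
    1 - 2 * (Real.exp (K * η) * η) ≤ mT L h (blk K b) s t x := by
  have hb0 : (0 : ℝ) < b.card := by exact_mod_cast hb.card_pos
  set A := NormedSpace.exp (-s • ham L h) with hA
  set B := NormedSpace.exp (-t • ham L h) with hB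
  set k := K / (b.card : ℝ) with hk
  have hk0 : 0 ≤ k := div_nonneg hK hb0.le
  have hA0 := exp_ham L h hs
  have hB0 := exp_ham L h ht
  rw [← hA] at hA0
  rw [← hB] at hB0
  have hβ : 0 ≤ β := by linarith
  have hE0 := exp_ham L h hβ
  set c := (1 + Real.tanh (K / (2 * b.card))) ^ b.card with hc
  have hc0 : 0 < c := pow_pos (by have := Real.neg_one_lt_tanh (K / (2 * b.card)); linarith) _
  set D := diagonal fun σ : V → Fin 2 => Real.exp (-(k * nb b σ)) with hD
  have hlay : layT (blk K b) = c • D := layT_blk K b hb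
  -- positivity
  have hpos : 0 < trace (D * A * B) := by
    have := trace_diag4 (fun σ : V → Fin 2 => Real.exp (-(k * nb b σ))) (fun _ => 1) A B
    rw [Matrix.diagonal_one, Matrix.mul_one] at this
    rw [hD, this]
    refine Finset.sum_pos' (fun p _ => ?_) ⟨(fun _ => 0, fun _ => 0), Finset.mem_univ _, ?_⟩
    · exact mul_nonneg (mul_nonneg (mul_nonneg (hA0.1 _ _) (hB0.1 _ _)) (Real.exp_pos _).le)
        zero_le_one
    · exact mul_pos (mul_pos (mul_pos (hA0.2 _) (hB0.2 _)) (Real.exp_pos _)) zero_lt_one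
  have hAB : A * B = NormedSpace.exp (-β • ham L h) := exp_split L h e
  have hABpos : 0 < trace (A * B) := by
    rw [hAB]
    exact Finset.sum_pos (fun σ _ => hE0.2 σ) Finset.univ_nonempty
  -- the ratio
  have h1 : mT L h (blk K b) s t x =
      1 - 2 * (trace (D * A * diagonal (dn x) * B) / trace (D * A * B)) := by
    unfold mT
    rw [← hA, ← hB, hlay, szM_eq]
    have e1 : c • D * A * (1 - (2 : ℝ) • diagonal (dn x)) * B =
        c • (D * A * B) - (2 * c) • (D * A * diagonal (dn x) * B) := by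
      rw [Matrix.mul_sub, Matrix.sub_mul, Matrix.mul_one]
      simp only [Matrix.smul_mul, Matrix.mul_smul, smul_smul]
    have e2 : c • D * A * B = c • (D * A * B) := by simp only [Matrix.smul_mul]
    rw [e1, e2, Matrix.trace_sub, Matrix.trace_smul, Matrix.trace_smul, smul_eq_mul, smul_eq_mul]
    field_simp
  have h2 := tilt_matrix A B hA0.1 hB0.1 (nb b) (dn x) (nb_nonneg b)
    (fun σ => by unfold dn; split_ifs <;> norm_num) hk0 hABpos
  have h3 : trace (A * diagonal (dn x) * B) / trace (A * B) = rho L β h x := by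
    have e1 : B * A = A * B := by
      rw [hAB, hA, hB, exp_split L h (β := β) (by linarith)]
    rw [rho_eq, ← hAB, Matrix.trace_mul_comm (A * diagonal (dn x)) B, ← Matrix.mul_assoc, e1]
  have h4 : trace (diagonal (nb b) * A * B) / trace (A * B) ≤ b.card * η := by
    have e1 : diagonal (nb b) = ∑ y ∈ b, diagonal (dn y) := by
      ext σ τ
      rw [Matrix.sum_apply]
      by_cases hst : σ = τ
      · subst hst
        simp only [Matrix.diagonal_apply_eq]
        rfl
      · simp only [Matrix.diagonal_apply_ne _ hst, Finset.sum_const_zero]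
    have e2 : trace (diagonal (nb b) * A * B) = ∑ y ∈ b, trace (A * B * diagonal (dn y)) := by
      rw [Matrix.mul_assoc, e1, Finset.sum_mul, Matrix.trace_sum]
      exact Finset.sum_congr rfl fun y _ => Matrix.trace_mul_comm _ _
    rw [e2, Finset.sum_div]
    calc ∑ y ∈ b, trace (A * B * diagonal (dn y)) / trace (A * B) = ∑ y ∈ b, rho L β h y := by
          refine Finset.sum_congr rfl fun y _ => ?_
          rw [rho_eq, hAB]
      _ ≤ ∑ _y ∈ b, η := Finset.sum_le_sum fun y _ => hr y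
      _ = b.card * η := by rw [Finset.sum_const, nsmul_eq_mul]
  have h5 : 0 ≤ rho L β h x := by
    rw [← h3]
    refine div_nonneg ?_ hABpos.le
    have := trace_diag4 (fun _ : V → Fin 2 => 1) (dn x) A B
    rw [Matrix.diagonal_one, Matrix.one_mul] at this
    rw [this]
    refine Finset.sum_nonneg fun p _ => ?_
    refine mul_nonneg (mul_nonneg (mul_nonneg (hA0.1 _ _) (hB0.1 _ _)) zero_le_one) ?_
    unfold dn; split_ifs <;> norm_num
  have h6 : k * (trace (diagonal (nb b) * A * B) / trace (A * B)) ≤ K * η := by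
    calc k * (trace (diagonal (nb b) * A * B) / trace (A * B)) ≤ k * (b.card * η) :=
          mul_le_mul_of_nonneg_left h4 hk0
      _ = K * η := by rw [hk]; field_simp
  have h7 : trace (D * A * diagonal (dn x) * B) / trace (D * A * B) ≤ Real.exp (K * η) * η := by
    refine h2.trans ?_
    rw [h3]
    exact mul_le_mul (Real.exp_le_exp.2 h6) (hr x) h5 (Real.exp_pos _).le
  rw [h1]
  linarith

omit [Fintype V] in
theorem blk_mem {K : ℝ} (hK : 0 ≤ K) (b : Finset V) (x : V) : 0 ≤ blk K b x ∧ blk K b x ≤ 1 := by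
  unfold blk
  split_ifs
  · refine ⟨?_, (Real.tanh_lt_one _).le⟩
    rw [Real.tanh_eq_sinh_div_cosh]
    exact div_nonneg (Real.sinh_nonneg_iff.2 (by positivity)) (Real.cosh_pos _).le
  · norm_num

theorem trMag_of {L : List (V × V)} {β K : ℝ} {b : Finset V} (hD : MagLim L β) (hβ : 0 < β)
    (hb : b.Nonempty) (hK : 0 ≤ K) {η : ℝ} (hη : 0 < η) :
    ∃ N0 : ℕ, ∀ N : ℕ, N0 ≤ N → ∀ h : V → ℝ, (∀ x, 0 ≤ h x ∧ h x ≤ 1) →
      (∀ x, rho L β h x ≤ η) → ∀ z : Fin (N + 1) × V, z.1 ≠ 0 →
        1 - 4 * Real.exp (K * η) * η ≤ mag (phys L β N) (th β N h (blk K b)) z := by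
  obtain ⟨C, N1, hC⟩ := hD
  have hδ : 0 < 2 * (Real.exp (K * η) * η) := by positivity
  obtain ⟨N0, hN0⟩ := exists_nat_gt (C / (2 * (Real.exp (K * η) * η)))
  refine ⟨N1 + N0 + 1, fun N hN h hh hr z hz => ?_⟩
  have hNpos : (0 : ℝ) < N := by exact_mod_cast (by omega : 0 < N)
  have h1 := hC N (by omega) h (blk K b) hh (blk_mem hK b) z hz
  have hs : 0 ≤ β * (((z.1 : ℕ) : ℝ) / N) := by positivity
  have hz1 : ((z.1 : ℕ) : ℝ) / N ≤ 1 := by
    rw [div_le_one hNpos]
    exact_mod_cast Nat.lt_succ_iff.1 z.1.2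
  have ht : 0 ≤ β * (1 - ((z.1 : ℕ) : ℝ) / N) := mul_nonneg hβ.le (by linarith)
  have e : β * (1 - ((z.1 : ℕ) : ℝ) / N) + β * (((z.1 : ℕ) : ℝ) / N) = β := by ring
  have h2 := mT_ge L h b hb hK ht hs e hr z.2
  have h3 : C / N ≤ 2 * (Real.exp (K * η) * η) := by
    rw [div_le_iff₀ hNpos]
    rw [div_lt_iff₀ hδ] at hN0
    have h4 : (N0 : ℝ) ≤ N := by exact_mod_cast (by omega : N0 ≤ N)
    nlinarith
  have h5 := (abs_le.1 h1).1
  nlinarith

end

end Vale.Agent.P361.LRO
end
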