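import Mathlib
import Vale.Agent.P361.Model

set_option linter.all false

section

/-!
Trace inequalities for exponentials of Hermitian matrices.
-/

namespace Vale.Agent.P361

open Matrix Finset
open scoped ComplexOrder

variable {ι : Type*} [Fintype ι] [DecidableEq ι]

theorem exp_eq_conj {X : Matrix ι ι ℂ} (hX : X.IsHermitian) :
    NormedSpace.exp X = (hX.eigenvectorUnitary : Matrix ι ι ℂ) *
      diagonal (fun i => ((Real.exp (hX.eigenvalues i) : ℝ) : ℂ)) *
      star (hX.eigenvectorUnitary : Matrix ι ι ℂ) := by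
  have hU : star (hX.eigenvectorUnitary : Matrix ι ι ℂ) =
      (hX.eigenvectorUnitary : Matrix ι ι ℂ)⁻¹ := by
    symm
    apply Matrix.inv_eq_left_inv
    exact Unitary.coe_star_mul_self _
  have hunit : IsUnit (hX.eigenvectorUnitary : Matrix ι ι ℂ) := by
    refine ⟨Unitary.toUnits hX.eigenvectorUnitary, rfl⟩
  have h1 := hX.spectral_theorem
  rw [Unitary.conjStarAlgAut_apply] at h1
  conv_lhs => rw [h1, hU]
  rw [Matrix.exp_conj _ _ hunit, Matrix.exp_diagonal, ← hU]
  congr 3
  ext i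
  rw [Pi.exp_def]
  simp [Complex.exp_eq_exp_ℂ]

/-- Expansion of `tr (e^X B)` in the eigenbasis of `X`. -/
theorem trace_exp_mul {X : Matrix ι ι ℂ} (hX : X.IsHermitian) (B : Matrix ι ι ℂ) :
    trace (NormedSpace.exp X * B) = ∑ i, ((Real.exp (hX.eigenvalues i) : ℝ) : ℂ) *
      (star (hX.eigenvectorUnitary : Matrix ι ι ℂ) * B *
        (hX.eigenvectorUnitary : Matrix ι ι ℂ)) i i := by
  rw [exp_eq_conj hX, Matrix.mul_assoc, Matrix.mul_assoc, Matrix.trace_mul_comm, Matrix.mul_assoc]
  simp only [Matrix.trace, Matrix.diag_apply, Matrix.diagonal_mul, Matrix.mul_assoc]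

theorem trace_exp {X : Matrix ι ι ℂ} (hX : X.IsHermitian) :
    trace (NormedSpace.exp X) = ((∑ i, Real.exp (hX.eigenvalues i) : ℝ) : ℂ) := by
  have := trace_exp_mul hX 1
  rw [Matrix.mul_one, Matrix.mul_one] at this
  rw [this]
  push_cast
  refine Finset.sum_congr rfl fun i _ => ?_
  rw [Unitary.coe_star_mul_self]
  simp

theorem trace_exp_re {X : Matrix ι ι ℂ} (hX : X.IsHermitian) :
    (trace (NormedSpace.exp X)).re = ∑ i, Real.exp (hX.eigenvalues i) := by
  rw [trace_exp hX, Complex.ofReal_re]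

theorem trace_exp_pos [Nonempty ι] {X : Matrix ι ι ℂ} (hX : X.IsHermitian) :
    0 < (trace (NormedSpace.exp X)).re := by
  rw [trace_exp_re hX]
  exact Finset.sum_pos (fun i _ => Real.exp_pos _) Finset.univ_nonempty

/-- Diagonal entries of `V* W V` in terms of eigenvalues of `W`. -/
theorem conj_diag_eq {W : Matrix ι ι ℂ} (hW : W.IsHermitian) (V : Matrix ι ι ℂ) (i : ι) :
    ((star V * W * V) i i).re = ∑ j, ‖(star V * (hW.eigenvectorUnitary : Matrix ι ι ℂ)) i j‖ ^ 2 *
      hW.eigenvalues j := by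
  set U := (hW.eigenvectorUnitary : Matrix ι ι ℂ) with hU
  have h1 : W = U * diagonal (RCLike.ofReal ∘ hW.eigenvalues) * star U := by
    have := hW.spectral_theorem
    rwa [Unitary.conjStarAlgAut_apply] at this
  have h2 : star V * W * V = (star V * U) * diagonal (RCLike.ofReal ∘ hW.eigenvalues) *
      star (star V * U) := by
    conv_lhs => rw [h1]
    simp only [star_mul, star_star, Matrix.mul_assoc]
  rw [h2, Matrix.mul_apply, Complex.re_sum]
  refine Finset.sum_congr rfl fun j _ => ?_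
  rw [Matrix.mul_diagonal, Matrix.star_apply]
  have : (star V * U) i j * (RCLike.ofReal ∘ hW.eigenvalues) j * star ((star V * U) i j) =
     (((‖(star V * U) i j‖ ^ 2 * hW.eigenvalues j : ℝ)) : ℂ) := by
    have h3 : (star V * U) i j * star ((star V * U) i j) = ((‖(star V * U) i j‖ ^ 2 : ℝ) : ℂ) := by
      rw [Complex.star_def, Complex.mul_conj, Complex.normSq_eq_norm_sq]
    calc _ = ((star V * U) i j * star ((star V * U) i j)) * (hW.eigenvalues j : ℂ) := by
          simp only [Function.comp]; ring_nf; simp; ring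
      _ = _ := by rw [h3]; push_cast; ring
  rw [this, Complex.ofReal_re]

theorem row_sum_one {V : Matrix ι ι ℂ} (hV : V * star V = 1) (i : ι) :
    ∑ j, ‖V i j‖ ^ 2 = 1 := by
  have h := congrFun (congrFun hV i) i
  rw [Matrix.mul_apply, Matrix.one_apply_eq] at h
  have h2 : ((∑ j, ‖V i j‖ ^ 2 : ℝ) : ℂ) = 1 := by
    rw [← h]
    push_cast
    refine Finset.sum_congr rfl fun j _ => ?_
    rw [Matrix.star_apply, Complex.star_def, Complex.mul_conj, Complex.normSq_eq_norm_sq]
    push_cast; rfl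
  exact_mod_cast h2

/-- Peierls' inequality. -/
theorem peierls {W : Matrix ι ι ℂ} (hW : W.IsHermitian) {V : Matrix ι ι ℂ} (hV : star V * V = 1) :
    ∑ i, Real.exp (((star V * W * V) i i).re) ≤ (trace (NormedSpace.exp W)).re := by
  have hV' : V * star V = 1 := mul_eq_one_comm.mp hV
  set U := (hW.eigenvectorUnitary : Matrix ι ι ℂ) with hU
  have hUU : U * star U = 1 := Unitary.coe_mul_star_self _
  have hUU' : star U * U = 1 := Unitary.coe_star_mul_self _
  set Q := star V * U with hQ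
  have hQ1 : Q * star Q = 1 := by
    rw [hQ, star_mul, star_star, Matrix.mul_assoc, ← Matrix.mul_assoc U, hUU, Matrix.one_mul, hV]
  have hQ2 : star Q * Q = 1 := mul_eq_one_comm.mp hQ1
  have hcol : ∀ j, ∑ i, ‖Q i j‖ ^ 2 = 1 := by
    intro j
    have := row_sum_one (V := star Q) (by rw [star_star]; exact hQ2) j
    simpa [Matrix.star_apply] using this
  rw [trace_exp_re hW]
  calc ∑ i, Real.exp (((star V * W * V) i i).re)
      = ∑ i, Real.exp (∑ j, ‖Q i j‖ ^ 2 * hW.eigenvalues j) := by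
        refine Finset.sum_congr rfl fun i _ => ?_
        rw [conj_diag_eq hW V i]
    _ ≤ ∑ i, ∑ j, ‖Q i j‖ ^ 2 * Real.exp (hW.eigenvalues j) := by
        refine Finset.sum_le_sum fun i _ => ?_
        have := convexOn_exp.map_sum_le (t := Finset.univ) (w := fun j => ‖Q i j‖ ^ 2)
          (p := fun j => hW.eigenvalues j) (fun j _ => by positivity)
          (row_sum_one hQ1 i) (fun j _ => Set.mem_univ _)
        simpa [smul_eq_mul] using this
    _ = ∑ j, Real.exp (hW.eigenvalues j) := by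
        rw [Finset.sum_comm]
        refine Finset.sum_congr rfl fun j _ => ?_
        rw [← Finset.sum_mul, hcol j, one_mul]

/-- Peierls–Bogoliubov inequality (multiplicative form). -/
theorem peierls_bogoliubov_mul [Nonempty ι] {X Y : Matrix ι ι ℂ} (hX : X.IsHermitian)
    (hY : Y.IsHermitian) :
    (trace (NormedSpace.exp X)).re *
      Real.exp ((trace (NormedSpace.exp X * Y)).re / (trace (NormedSpace.exp X)).re) ≤
      (trace (NormedSpace.exp (X + Y))).re := by
  set U := (hX.eigenvectorUnitary : Matrix ι ι ℂ) with hU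
  have hUU : U * star U = 1 := Unitary.coe_mul_star_self _
  have hUU' : star U * U = 1 := Unitary.coe_star_mul_self _
  have hZ := trace_exp_pos hX
  have hP := peierls (hX.add hY) hUU'
  refine le_trans ?_ hP
  have hx : ∀ i, ((star U * X * U) i i).re = hX.eigenvalues i := by
    intro i
    have h1 : X = U * diagonal (RCLike.ofReal ∘ hX.eigenvalues) * star U := by
      have := hX.spectral_theorem
      rwa [Unitary.conjStarAlgAut_apply] at this
    have h2 : star U * X * U = diagonal (RCLike.ofReal ∘ hX.eigenvalues) := by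
      calc star U * X * U = star U * (U * diagonal (RCLike.ofReal ∘ hX.eigenvalues) * star U) * U := by
            rw [← h1]
        _ = (star U * U) * diagonal (RCLike.ofReal ∘ hX.eigenvalues) * (star U * U) := by
            simp only [Matrix.mul_assoc]
        _ = _ := by rw [hUU', Matrix.one_mul, Matrix.mul_one]
    rw [h2, Matrix.diagonal_apply_eq]
    simp
  have hsum : ∀ i, ((star U * (X + Y) * U) i i).re =
      hX.eigenvalues i + ((star U * Y * U) i i).re := by
    intro i
    rw [Matrix.mul_add, Matrix.add_mul, Matrix.add_apply, Complex.add_re, hx i]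
  simp_rw [hsum, Real.exp_add]
  rw [trace_exp_mul hX Y, trace_exp_re hX]
  rw [trace_exp_re hX] at hZ
  set Z := ∑ i, Real.exp (hX.eigenvalues i) with hZdef
  have hJ := convexOn_exp.map_sum_le (t := Finset.univ)
    (w := fun i => Real.exp (hX.eigenvalues i) / Z)
    (p := fun i => ((star U * Y * U) i i).re) (fun j _ => by positivity)
    (by rw [← Finset.sum_div]; exact div_self hZ.ne') (fun j _ => Set.mem_univ _)
  simp only [smul_eq_mul] at hJ
  have h3 : (∑ i, ((Real.exp (hX.eigenvalues i) : ℝ) : ℂ) * (star U * Y * U) i i).re / Z =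
      ∑ i, Real.exp (hX.eigenvalues i) / Z * ((star U * Y * U) i i).re := by
    rw [Complex.re_sum, Finset.sum_div]
    refine Finset.sum_congr rfl fun i _ => ?_
    rw [Complex.re_ofReal_mul]
    ring
  rw [h3]
  calc Z * Real.exp (∑ i, Real.exp (hX.eigenvalues i) / Z * ((star U * Y * U) i i).re)
      ≤ Z * ∑ i, Real.exp (hX.eigenvalues i) / Z * Real.exp ((star U * Y * U) i i).re := by
        exact mul_le_mul_of_nonneg_left hJ hZ.le
    _ = _ := by
        rw [Finset.mul_sum]
        refine Finset.sum_congr rfl fun i _ => ?_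
        field_simp

/-- Peierls–Bogoliubov inequality (logarithmic form). -/
theorem peierls_bogoliubov [Nonempty ι] {X Y : Matrix ι ι ℂ} (hX : X.IsHermitian)
    (hY : Y.IsHermitian) :
    Real.log (trace (NormedSpace.exp X)).re +
      (trace (NormedSpace.exp X * Y)).re / (trace (NormedSpace.exp X)).re ≤
      Real.log (trace (NormedSpace.exp (X + Y))).re := by
  have h := peierls_bogoliubov_mul hX hY
  have hZ := trace_exp_pos hX
  have := Real.log_le_log (by positivity) h
  rwa [Real.log_mul hZ.ne' (Real.exp_pos _).ne', Real.log_exp] at this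

/-- `tr (e^X Y) ≥ 0` when `Y` is positive semidefinite. -/
theorem trace_exp_mul_nonneg {X Y : Matrix ι ι ℂ} (hX : X.IsHermitian) (hY : Y.PosSemidef) :
    0 ≤ (trace (NormedSpace.exp X * Y)).re := by
  rw [trace_exp_mul hX Y, Complex.re_sum]
  refine Finset.sum_nonneg fun i _ => ?_
  rw [Complex.re_ofReal_mul]
  refine mul_nonneg (Real.exp_pos _).le ?_
  have : (star (hX.eigenvectorUnitary : Matrix ι ι ℂ) * Y *
        (hX.eigenvectorUnitary : Matrix ι ι ℂ)).PosSemidef := by
    have := hY.conjTranspose_mul_mul_same (hX.eigenvectorUnitary : Matrix ι ι ℂ)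
    simpa [Matrix.star_eq_conjTranspose] using this
  have h2 := this.diag_nonneg (i := i)
  exact (Complex.le_def.mp h2).1

/-- Monotonicity of `X ↦ tr e^X`. -/
theorem trace_exp_mono [Nonempty ι] {X Y : Matrix ι ι ℂ} (hX : X.IsHermitian)
    (hY : Y.IsHermitian) (hXY : (Y - X).PosSemidef) :
    (trace (NormedSpace.exp X)).re ≤ (trace (NormedSpace.exp Y)).re := by
  have h := peierls_bogoliubov_mul hX (hY.sub hX)
  rw [add_sub_cancel] at h
  refine le_trans ?_ h
  have h0 := trace_exp_mul_nonneg hX hXY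
  have hZ := trace_exp_pos hX
  have : 1 ≤ Real.exp ((trace (NormedSpace.exp X * (Y - X))).re / (trace (NormedSpace.exp X)).re) := by
    rw [Real.one_le_exp_iff]
    positivity
  nlinarith

end Vale.Agent.P361
end

section

/-!
Quantum Heisenberg ferromagnet of spin `S = n / 2` on finite subsets of `ℤ³`.
-/

namespace Vale.Agent.P361

open Matrix Filter Topology

noncomputable section

/-- Local spin-`n/2` matrices. Basis vector `j : Fin (n+1)` has `S³ = n/2 - j`. -/
def spinZ (n : ℕ) : Matrix (Fin (n + 1)) (Fin (n + 1)) ℂ :=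
  Matrix.diagonal fun j => (n : ℂ) / 2 - ((j : ℕ) : ℂ)

/-- The lowering matrix `S⁻ |j⟩ = √((j+1)(n-j)) |j+1⟩`. -/
def spinLower (n : ℕ) : Matrix (Fin (n + 1)) (Fin (n + 1)) ℂ :=
  Matrix.of fun i j =>
    if (i : ℕ) = (j : ℕ) + 1 then ((Real.sqrt (((i : ℕ) : ℝ) * ((n : ℝ) + 1 - (i : ℕ))) : ℝ) : ℂ)
    else 0

/-- The spin matrices `S¹, S², S³` (indices `0, 1, 2`):
`S¹ = (S⁺ + S⁻)/2`, `S² = (S⁺ - S⁻)/(2i)`, with `S⁺ = (S⁻)ᴴ`. -/
def spin (n : ℕ) : Fin 3 → Matrix (Fin (n + 1)) (Fin (n + 1)) ℂ :=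
  ![(1 / 2 : ℂ) • ((spinLower n)ᴴ + spinLower n),
    (1 / (2 * Complex.I) : ℂ) • ((spinLower n)ᴴ - spinLower n),
    spinZ n]

/-- Lattice sites. -/
abbrev Site : Type := Fin 3 → ℤ

/-- The operator `A` acting at site `x` of the finite set `Λ`, identity elsewhere:
the matrix of `A_x ⊗ (⊗_{y ≠ x} 1)` in the product basis. -/
def siteOp {n : ℕ} {Λ : Finset Site} (x : Λ) (A : Matrix (Fin (n + 1)) (Fin (n + 1)) ℂ) :
    Matrix (Λ → Fin (n + 1)) (Λ → Fin (n + 1)) ℂ :=
  Matrix.of fun σ τ =>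
    ∏ y : Λ, (if y = x then A else (1 : Matrix (Fin (n + 1)) (Fin (n + 1)) ℂ)) (σ y) (τ y)

/-- Nearest neighbours: `|x - y|₁ = 1`. -/
def IsNN (x y : Site) : Prop := ∑ i, |x i - y i| = 1

instance (x y : Site) : Decidable (IsNN x y) := by unfold IsNN; infer_instance

/-- `H_Λ = - ∑_{edges {x,y}} S_x · S_y` (free boundary conditions; the sum over ordered pairs
counts each edge twice, hence the factor `1/2`). -/
def hamiltonian (n : ℕ) (Λ : Finset Site) : Matrix (Λ → Fin (n + 1)) (Λ → Fin (n + 1)) ℂ :=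
  -((1 / 2 : ℂ) • ∑ x : Λ, ∑ y : Λ,
      if IsNN x.1 y.1 then ∑ a : Fin 3, siteOp x (spin n a) * siteOp y (spin n a) else 0)

/-- `M_Λ = ∑_x S³_x`. -/
def magnetization (n : ℕ) (Λ : Finset Site) : Matrix (Λ → Fin (n + 1)) (Λ → Fin (n + 1)) ℂ :=
  ∑ x : Λ, siteOp x (spin n 2)

/-- Finite-volume pressure `(β |Λ|)⁻¹ log Tr exp(-β (H_Λ - h M_Λ))`. -/
def finPressure (n : ℕ) (Λ : Finset Site) (β h : ℝ) : ℝ :=
  (β * Λ.card)⁻¹ * Real.log
    (Matrix.trace (NormedSpace.exp
      (-(β : ℂ) • (hamiltonian n Λ - (h : ℂ) • magnetization n Λ)))).re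

/-- `Λ_N = {-N, …, N}³`. -/
def box (N : ℕ) : Finset Site := Finset.Icc (fun _ => -(N : ℤ)) (fun _ => (N : ℤ))

/-- Infinite-volume pressure `p_β(h)`. -/
def pressure (n : ℕ) (β h : ℝ) : ℝ := limUnder atTop fun N : ℕ => finPressure n (box N) β h

/-- Spontaneous magnetization `m_S(β)`, the right derivative of `p_β` at `0`. -/
def spontMag (n : ℕ) (β : ℝ) : ℝ := derivWithin (pressure n β) (Set.Ioi 0) 0

end

end Vale.Agent.P361
end

section

/-!
Algebra of one-site operators in a finite tensor product.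
-/

namespace Vale.Agent.P361

open Matrix Finset

set_option linter.unusedSectionVars false
open scoped ComplexOrder Kronecker

open scoped MatrixOrder in
theorem exists_factor {m : Type*} [Fintype m] [DecidableEq m] {A : Matrix m m ℂ}
    (hA : A.PosSemidef) : ∃ B : Matrix m m ℂ, A = Bᴴ * B := by
  obtain ⟨b, hb⟩ := CStarAlgebra.nonneg_iff_eq_star_mul_self.mp hA.nonneg
  exact ⟨b, hb⟩

section General

variable {d : Type*} [Fintype d] [DecidableEq d] {V : Type*} [Fintype V] [DecidableEq V]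

/-- Product operator. -/
def prodOp (B : V → Matrix d d ℂ) : Matrix (V → d) (V → d) ℂ :=
  Matrix.of fun σ τ => ∏ y, B y (σ y) (τ y)

theorem prodOp_mul (B C : V → Matrix d d ℂ) :
    prodOp B * prodOp C = prodOp (fun y => B y * C y) := by
  ext σ τ
  simp only [prodOp, Matrix.mul_apply, Matrix.of_apply]
  rw [Finset.prod_univ_sum, Fintype.piFinset_univ]
  refine Finset.sum_congr rfl fun ρ _ => ?_
  rw [← Finset.prod_mul_distrib]

theorem prodOp_one : prodOp (fun _ : V => (1 : Matrix d d ℂ)) = 1 := by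
  ext σ τ
  simp only [prodOp, Matrix.of_apply, Matrix.one_apply]
  by_cases h : σ = τ
  · subst h; simp
  · rw [if_neg h]
    obtain ⟨y, hy⟩ := Function.ne_iff.mp h
    exact Finset.prod_eq_zero (Finset.mem_univ y) (by simp [hy])

theorem prodOp_conjTranspose (B : V → Matrix d d ℂ) :
    (prodOp B)ᴴ = prodOp (fun y => (B y)ᴴ) := by
  ext σ τ
  simp [prodOp, Matrix.conjTranspose_apply]

/-- One-site operator on a general finite set of sites. -/
def siteOpV (x : V) (A : Matrix d d ℂ) : Matrix (V → d) (V → d) ℂ :=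
  prodOp fun y => if y = x then A else 1

theorem siteOpV_apply (x : V) (A : Matrix d d ℂ) (σ τ : V → d) :
    siteOpV x A σ τ = A (σ x) (τ x) * ∏ y ∈ Finset.univ.erase x, (1 : Matrix d d ℂ) (σ y) (τ y) := by
  simp only [siteOpV, prodOp, Matrix.of_apply]
  rw [← Finset.mul_prod_erase _ _ (Finset.mem_univ x)]
  congr 1
  · simp
  · refine Finset.prod_congr rfl fun y hy => ?_
    rw [if_neg (Finset.ne_of_mem_erase hy)]

theorem siteOpV_mul (x : V) (A B : Matrix d d ℂ) :
    siteOpV x A * siteOpV x B = siteOpV x (A * B) := by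
  simp only [siteOpV, prodOp_mul]
  congr 1
  ext1 y
  split_ifs <;> simp

theorem siteOpV_one (x : V) : siteOpV x (1 : Matrix d d ℂ) = 1 := by
  simp only [siteOpV, ite_self]
  exact prodOp_one

theorem siteOpV_add (x : V) (A B : Matrix d d ℂ) :
    siteOpV x (A + B) = siteOpV x A + siteOpV x B := by
  ext σ τ
  simp only [siteOpV_apply, Matrix.add_apply]
  ring

theorem siteOpV_smul (x : V) (c : ℂ) (A : Matrix d d ℂ) :
    siteOpV x (c • A) = c • siteOpV x A := by
  ext σ τ
  simp only [siteOpV_apply, Matrix.smul_apply, smul_eq_mul]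
  ring

theorem siteOpV_zero (x : V) : siteOpV x (0 : Matrix d d ℂ) = 0 := by
  ext σ τ
  simp [siteOpV_apply]

theorem siteOpV_neg (x : V) (A : Matrix d d ℂ) : siteOpV x (-A) = -siteOpV x A := by
  ext σ τ
  simp [siteOpV_apply]

theorem siteOpV_sub (x : V) (A B : Matrix d d ℂ) :
    siteOpV x (A - B) = siteOpV x A - siteOpV x B := by
  rw [sub_eq_add_neg, siteOpV_add, siteOpV_neg, sub_eq_add_neg]

theorem siteOpV_sum (x : V) {κ : Type*} (s : Finset κ) (A : κ → Matrix d d ℂ) :
    siteOpV x (∑ k ∈ s, A k) = ∑ k ∈ s, siteOpV x (A k) := by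
  classical
  induction s using Finset.induction_on with
  | empty => simp [siteOpV_zero]
  | insert a s ha ih => rw [Finset.sum_insert ha, Finset.sum_insert ha, siteOpV_add, ih]

theorem siteOpV_conjTranspose (x : V) (A : Matrix d d ℂ) :
    (siteOpV x A)ᴴ = siteOpV x Aᴴ := by
  simp only [siteOpV, prodOp_conjTranspose]
  congr 1
  ext1 y
  split_ifs <;> simp

theorem siteOpV_commute {x y : V} (hxy : x ≠ y) (A B : Matrix d d ℂ) :
    siteOpV x A * siteOpV y B = siteOpV y B * siteOpV x A := by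
  simp only [siteOpV, prodOp_mul]
  congr 1
  ext1 z
  by_cases h1 : z = x
  · subst h1; simp [hxy]
  · simp [h1]

theorem siteOpV_isHermitian (x : V) {A : Matrix d d ℂ} (hA : A.IsHermitian) :
    (siteOpV x A).IsHermitian := by
  rw [Matrix.IsHermitian, siteOpV_conjTranspose, hA]

theorem siteOpV_posSemidef (x : V) {A : Matrix d d ℂ} (hA : A.PosSemidef) :
    (siteOpV x A).PosSemidef := by
  obtain ⟨B, rfl⟩ := exists_factor hA
  rw [← siteOpV_mul, ← siteOpV_conjTranspose]
  exact Matrix.posSemidef_conjTranspose_mul_self _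

end General

section Concrete

variable {n : ℕ} {Λ : Finset Site}

theorem siteOp_eq_siteOpV (x : Λ) (A : Matrix (Fin (n + 1)) (Fin (n + 1)) ℂ) :
    siteOp x A = siteOpV x A := rfl

theorem siteOp_mul (x : Λ) (A B : Matrix (Fin (n + 1)) (Fin (n + 1)) ℂ) :
    siteOp x A * siteOp x B = siteOp x (A * B) := siteOpV_mul x A B

theorem siteOp_one (x : Λ) : siteOp x (1 : Matrix (Fin (n + 1)) (Fin (n + 1)) ℂ) = 1 :=
  siteOpV_one x

theorem siteOp_add (x : Λ) (A B : Matrix (Fin (n + 1)) (Fin (n + 1)) ℂ) :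
    siteOp x (A + B) = siteOp x A + siteOp x B := siteOpV_add x A B

theorem siteOp_sub (x : Λ) (A B : Matrix (Fin (n + 1)) (Fin (n + 1)) ℂ) :
    siteOp x (A - B) = siteOp x A - siteOp x B := siteOpV_sub x A B

theorem siteOp_neg (x : Λ) (A : Matrix (Fin (n + 1)) (Fin (n + 1)) ℂ) :
    siteOp x (-A) = -siteOp x A := siteOpV_neg x A

theorem siteOp_zero (x : Λ) : siteOp x (0 : Matrix (Fin (n + 1)) (Fin (n + 1)) ℂ) = 0 :=
  siteOpV_zero x

theorem siteOp_smul (x : Λ) (c : ℂ) (A : Matrix (Fin (n + 1)) (Fin (n + 1)) ℂ) :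
    siteOp x (c • A) = c • siteOp x A := siteOpV_smul x c A

theorem siteOp_conjTranspose (x : Λ) (A : Matrix (Fin (n + 1)) (Fin (n + 1)) ℂ) :
    (siteOp x A)ᴴ = siteOp x Aᴴ := siteOpV_conjTranspose x A

theorem siteOp_commute {x y : Λ} (hxy : x ≠ y) (A B : Matrix (Fin (n + 1)) (Fin (n + 1)) ℂ) :
    siteOp x A * siteOp y B = siteOp y B * siteOp x A := siteOpV_commute hxy A B

theorem siteOp_isHermitian (x : Λ) {A : Matrix (Fin (n + 1)) (Fin (n + 1)) ℂ}
    (hA : A.IsHermitian) : (siteOp x A).IsHermitian := siteOpV_isHermitian x hA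

theorem siteOp_posSemidef (x : Λ) {A : Matrix (Fin (n + 1)) (Fin (n + 1)) ℂ}
    (hA : A.PosSemidef) : (siteOp x A).PosSemidef := siteOpV_posSemidef x hA

end Concrete

end Vale.Agent.P361
end

section

/-!
Trace-exponential comparison for tensor products and relabelled indices.
-/

namespace Vale.Agent.P361

open Matrix Finset

set_option linter.unusedSectionVars false

open scoped ComplexOrder Kronecker

variable {α β γ : Type*} [Fintype α] [DecidableEq α] [Fintype β] [DecidableEq β]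
  [Fintype γ] [DecidableEq γ]

theorem exp_submatrix_equiv (e : α ≃ β) (Y : Matrix β β ℂ) :
    NormedSpace.exp (Y.submatrix e e) = (NormedSpace.exp Y).submatrix e e := by
  have h1 : ∀ k : ℕ, (Y.submatrix e e) ^ k = (Y ^ k).submatrix e e := by
    intro k
    induction k with
    | zero => simp
    | succ k ih => rw [pow_succ, pow_succ, ih, Matrix.submatrix_mul_equiv]
  have hcont : Continuous fun M : Matrix β β ℂ => M.submatrix e e :=
    Continuous.matrix_submatrix continuous_id e e
  have hs : HasSum (fun k : ℕ => ((k.factorial : ℚ)⁻¹) • Y ^ k) (NormedSpace.exp Y) := by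
    open scoped Matrix.Norms.Operator in
    exact NormedSpace.exp_series_hasSum_exp' (𝕂 := ℚ) Y
  have hs2 : HasSum (fun k : ℕ => ((k.factorial : ℚ)⁻¹) • (Y.submatrix e e) ^ k)
      (NormedSpace.exp (Y.submatrix e e)) := by
    open scoped Matrix.Norms.Operator in
    exact NormedSpace.exp_series_hasSum_exp' (𝕂 := ℚ) (Y.submatrix e e)
  have hs3 := hs.map (AddMonoidHom.mk' (fun M : Matrix β β ℂ => M.submatrix e e)
    (fun A B => by ext i j; rfl)) hcont
  refine hs2.unique ?_
  have h4 : ((AddMonoidHom.mk' (fun M : Matrix β β ℂ => M.submatrix e e)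
      (fun A B => by ext i j; rfl)) ∘ fun k : ℕ => ((k.factorial : ℚ)⁻¹) • Y ^ k) =
      fun k : ℕ => ((k.factorial : ℚ)⁻¹) • (Y.submatrix e e) ^ k := by
    ext1 k
    simp only [Function.comp, AddMonoidHom.mk'_apply, h1 k]
    rfl
  rw [h4] at hs3
  exact hs3

theorem diag_conj_eigen {X : Matrix α α ℂ} (hX : X.IsHermitian) :
    star (hX.eigenvectorUnitary : Matrix α α ℂ) * X * (hX.eigenvectorUnitary : Matrix α α ℂ) =
      diagonal (fun i => (hX.eigenvalues i : ℂ)) := by
  set U := (hX.eigenvectorUnitary : Matrix α α ℂ) with hU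
  have hUU' : star U * U = 1 := Unitary.coe_star_mul_self _
  have h1 : X = U * diagonal (RCLike.ofReal ∘ hX.eigenvalues) * star U := by
    have := hX.spectral_theorem
    rwa [Unitary.conjStarAlgAut_apply] at this
  calc star U * X * U = star U * (U * diagonal (RCLike.ofReal ∘ hX.eigenvalues) * star U) * U := by
        rw [← h1]
    _ = (star U * U) * diagonal (RCLike.ofReal ∘ hX.eigenvalues) * (star U * U) := by
        simp only [Matrix.mul_assoc]
    _ = _ := by rw [hUU', Matrix.one_mul, Matrix.mul_one]; rfl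

/-- Superadditivity tool: if `Y ≥ X₁ ⊗ 1 + 1 ⊗ X₂` then `tr e^{X₁} tr e^{X₂} ≤ tr e^Y`. -/
theorem trace_exp_prod_le (e : α × β ≃ γ) {X₁ : Matrix α α ℂ} {X₂ : Matrix β β ℂ}
    {Y : Matrix γ γ ℂ} (h₁ : X₁.IsHermitian) (h₂ : X₂.IsHermitian) (hY : Y.IsHermitian)
    (hP : (Y.submatrix e e - (X₁ ⊗ₖ (1 : Matrix β β ℂ) + (1 : Matrix α α ℂ) ⊗ₖ X₂)).PosSemidef) :
    (trace (NormedSpace.exp X₁)).re * (trace (NormedSpace.exp X₂)).re ≤
      (trace (NormedSpace.exp Y)).re := by
  set U₁ := (h₁.eigenvectorUnitary : Matrix α α ℂ) with hU₁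
  set U₂ := (h₂.eigenvectorUnitary : Matrix β β ℂ) with hU₂
  have hUU₁ : star U₁ * U₁ = 1 := Unitary.coe_star_mul_self _
  have hUU₂ : star U₂ * U₂ = 1 := Unitary.coe_star_mul_self _
  set W := U₁ ⊗ₖ U₂ with hW
  have hstarW : star W = star U₁ ⊗ₖ star U₂ := by
    rw [hW, Matrix.star_eq_conjTranspose, Matrix.conjTranspose_kronecker]; rfl
  have hWW : star W * W = 1 := by
    rw [hstarW, hW, ← Matrix.mul_kronecker_mul, hUU₁, hUU₂, Matrix.one_kronecker_one]
  set V := W.submatrix e.symm e.symm with hV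
  have hVV : star V * V = 1 := by
    rw [hV, Matrix.star_eq_conjTranspose, Matrix.conjTranspose_submatrix,
      Matrix.submatrix_mul_equiv, ← Matrix.star_eq_conjTranspose, hWW, Matrix.submatrix_one_equiv]
  have hp := peierls hY hVV
  refine le_trans ?_ hp
  rw [← Equiv.sum_comp e (fun g => Real.exp (((star V * Y * V) g g).re))]
  have key : ∀ p : α × β, h₁.eigenvalues p.1 + h₂.eigenvalues p.2 ≤
      ((star V * Y * V) (e p) (e p)).re := by
    intro p
    have e1 : (star V * Y * V) (e p) (e p) = (star W * Y.submatrix e e * W) p p := by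
      have : (star V * Y * V).submatrix e e = star W * Y.submatrix e e * W := by
        rw [← Matrix.submatrix_mul_equiv (star V * Y) V e e e,
          ← Matrix.submatrix_mul_equiv (star V) Y e e e]
        congr 2
        · ext i j; simp [hV]
        · ext i j; simp [hV]
      rw [← this]; rfl
    rw [e1]
    have e2 : star W * Y.submatrix e e * W =
        star W * (Y.submatrix e e - (X₁ ⊗ₖ (1 : Matrix β β ℂ) + (1 : Matrix α α ℂ) ⊗ₖ X₂)) * W +
          (diagonal (fun i => (h₁.eigenvalues i : ℂ)) ⊗ₖ (1 : Matrix β β ℂ) +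
            (1 : Matrix α α ℂ) ⊗ₖ diagonal (fun i => (h₂.eigenvalues i : ℂ))) := by
      have e3 : star W * (X₁ ⊗ₖ (1 : Matrix β β ℂ) + (1 : Matrix α α ℂ) ⊗ₖ X₂) * W =
          diagonal (fun i => (h₁.eigenvalues i : ℂ)) ⊗ₖ (1 : Matrix β β ℂ) +
            (1 : Matrix α α ℂ) ⊗ₖ diagonal (fun i => (h₂.eigenvalues i : ℂ)) := by
        rw [Matrix.mul_add, Matrix.add_mul, hstarW, hW, ← Matrix.mul_kronecker_mul,
          ← Matrix.mul_kronecker_mul, ← Matrix.mul_kronecker_mul, ← Matrix.mul_kronecker_mul,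
          Matrix.mul_one, Matrix.mul_one, hUU₁, hUU₂, diag_conj_eigen h₁, diag_conj_eigen h₂]
      rw [← e3, ← Matrix.add_mul, ← Matrix.mul_add, sub_add_cancel]
    rw [e2]
    have e4 : 0 ≤ ((star W * (Y.submatrix e e -
        (X₁ ⊗ₖ (1 : Matrix β β ℂ) + (1 : Matrix α α ℂ) ⊗ₖ X₂)) * W) p p).re := by
      have h5 := hP.conjTranspose_mul_mul_same W
      have h6 := h5.diag_nonneg (i := p)
      exact (Complex.le_def.mp h6).1
    rw [Matrix.add_apply, Complex.add_re]
    have e5 : (((diagonal (fun i => (h₁.eigenvalues i : ℂ)) ⊗ₖ (1 : Matrix β β ℂ) +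
            (1 : Matrix α α ℂ) ⊗ₖ diagonal (fun i => (h₂.eigenvalues i : ℂ)))) p p).re =
            h₁.eigenvalues p.1 + h₂.eigenvalues p.2 := by
      simp [Matrix.add_apply, Matrix.kroneckerMap_apply]
    rw [e5]
    linarith
  calc (trace (NormedSpace.exp X₁)).re * (trace (NormedSpace.exp X₂)).re
      = ∑ p : α × β, Real.exp (h₁.eigenvalues p.1 + h₂.eigenvalues p.2) := by
        rw [trace_exp_re h₁, trace_exp_re h₂, Finset.sum_mul_sum, Fintype.sum_prod_type]
        simp_rw [Real.exp_add]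
    _ ≤ _ := Finset.sum_le_sum fun p _ => Real.exp_le_exp.mpr (key p)

/-- Invariance of `tr e^X` under relabelling. -/
theorem trace_exp_submatrix (e : α ≃ β) (Y : Matrix β β ℂ) :
    trace (NormedSpace.exp (Y.submatrix e e)) = trace (NormedSpace.exp Y) := by
  rw [exp_submatrix_equiv]
  simp only [Matrix.trace, Matrix.diag_apply, Matrix.submatrix_apply]
  exact Equiv.sum_comp e (fun i => NormedSpace.exp Y i i)

/-- A Hermitian matrix is bounded above by a multiple of the identity. -/
theorem exists_upper_bound {X : Matrix α α ℂ} (hX : X.IsHermitian) :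
    ∃ c : ℝ, 0 ≤ c ∧ ((c : ℂ) • (1 : Matrix α α ℂ) - X).PosSemidef := by
  refine ⟨∑ i, |hX.eigenvalues i|, Finset.sum_nonneg fun i _ => abs_nonneg _, ?_⟩
  set c := ∑ i, |hX.eigenvalues i| with hc
  set U := (hX.eigenvectorUnitary : Matrix α α ℂ) with hU
  have hUU : U * star U = 1 := Unitary.coe_mul_star_self _
  have h1 : X = U * diagonal (RCLike.ofReal ∘ hX.eigenvalues) * star U := by
    have := hX.spectral_theorem
    rwa [Unitary.conjStarAlgAut_apply] at this
  have h2 : (c : ℂ) • (1 : Matrix α α ℂ) - X =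
      U * diagonal (fun i => ((c - hX.eigenvalues i : ℝ) : ℂ)) * Uᴴ := by
    have h3 : diagonal (fun i => ((c - hX.eigenvalues i : ℝ) : ℂ)) =
        (c : ℂ) • (1 : Matrix α α ℂ) - diagonal (RCLike.ofReal ∘ hX.eigenvalues) := by
      ext i j
      by_cases hij : i = j
      · subst hij; simp
      · simp [hij]
    rw [h3, Matrix.mul_sub, Matrix.sub_mul, ← Matrix.star_eq_conjTranspose, ← h1,
      Matrix.mul_smul, Matrix.smul_mul, Matrix.mul_one, hUU]
  rw [h2]
  refine Matrix.PosSemidef.mul_mul_conjTranspose_same ?_ U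
  refine Matrix.PosSemidef.diagonal ?_
  intro i
  simp only [Pi.zero_apply]
  rw [Complex.zero_le_real]
  have : |hX.eigenvalues i| ≤ c := Finset.single_le_sum (f := fun i => |hX.eigenvalues i|)
    (fun i _ => abs_nonneg _) (Finset.mem_univ i)
  linarith [le_abs_self (hX.eigenvalues i)]

end Vale.Agent.P361
end

section

/-!
Superadditivity of the logarithm of the (shifted) partition function.
-/

namespace Vale.Agent.P361

open Matrix Finset

set_option linter.unusedSectionVars false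

open scoped ComplexOrder Kronecker

section

variable {d κ : Type*} [Fintype d] [DecidableEq d] [Fintype κ]
  {V : Type*} [Fintype V] [DecidableEq V]
  {V₁ : Type*} [Fintype V₁] [DecidableEq V₁] {V₂ : Type*} [Fintype V₂] [DecidableEq V₂]

/-- Shifted pair interaction `c + ∑ S^a_x S^a_y`. -/
def pairOp (c : ℝ) (S : κ → Matrix d d ℂ) (x y : V) : Matrix (V → d) (V → d) ℂ :=
  (c : ℂ) • (1 : Matrix (V → d) (V → d) ℂ) + ∑ a, siteOpV x (S a) * siteOpV y (S a)

theorem pairOp_posSemidef {c : ℝ} {S : κ → Matrix d d ℂ} (hS : ∀ a, (S a).IsHermitian)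
    (hc : ((c : ℂ) • (1 : Matrix d d ℂ) - ∑ a, S a * S a).PosSemidef) {x y : V} (hxy : x ≠ y) :
    (pairOp c S x y).PosSemidef := by
  have h1 : pairOp c S x y = (1 / 2 : ℂ) • (∑ a, (siteOpV x (S a) + siteOpV y (S a))ᴴ *
      (siteOpV x (S a) + siteOpV y (S a)) +
      (siteOpV x ((c : ℂ) • (1 : Matrix d d ℂ) - ∑ a, S a * S a) +
       siteOpV y ((c : ℂ) • (1 : Matrix d d ℂ) - ∑ a, S a * S a))) := by
    have h2 : ∀ a, (siteOpV x (S a) + siteOpV y (S a))ᴴ *
        (siteOpV x (S a) + siteOpV y (S a)) =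
        siteOpV x (S a * S a) + siteOpV y (S a * S a) +
          (2 : ℂ) • (siteOpV x (S a) * siteOpV y (S a)) := by
      intro a
      rw [Matrix.conjTranspose_add, siteOpV_conjTranspose, siteOpV_conjTranspose, hS a,
        Matrix.add_mul, Matrix.mul_add, Matrix.mul_add, siteOpV_mul, siteOpV_mul,
        siteOpV_commute hxy.symm, two_smul]
      abel
    simp only [h2, Finset.sum_add_distrib, siteOpV_sub, siteOpV_smul, siteOpV_one, siteOpV_sum,
      pairOp, ← Finset.smul_sum]
    module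
  rw [h1]
  refine Matrix.PosSemidef.smul ?_ (by norm_num [Complex.le_def])
  refine Matrix.PosSemidef.add ?_ ((siteOpV_posSemidef x hc).add (siteOpV_posSemidef y hc))
  exact Matrix.posSemidef_sum _ fun a _ => Matrix.posSemidef_conjTranspose_mul_self _

/-- Total shifted exponent. -/
def totOp (b c : ℝ) (S : κ → Matrix d d ℂ) (F : Matrix d d ℂ) (adj : V → V → Prop)
    [DecidableRel adj] : Matrix (V → d) (V → d) ℂ :=
  (b : ℂ) • (∑ x, ∑ y, if adj x y then pairOp c S x y else 0) + ∑ x, siteOpV x F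

theorem totOp_posSemidef {b c : ℝ} (hb : 0 ≤ b) {S : κ → Matrix d d ℂ}
    (hS : ∀ a, (S a).IsHermitian)
    (hc : ((c : ℂ) • (1 : Matrix d d ℂ) - ∑ a, S a * S a).PosSemidef)
    {F : Matrix d d ℂ} (hF : F.PosSemidef) (adj : V → V → Prop) [DecidableRel adj]
    (hadj : ∀ x, ¬ adj x x) : (totOp b c S F adj).PosSemidef := by
  refine Matrix.PosSemidef.add ?_ (Matrix.posSemidef_sum _ fun x _ => siteOpV_posSemidef x hF)
  refine Matrix.PosSemidef.smul ?_ (by simpa using hb)
  refine Matrix.posSemidef_sum _ fun x _ => Matrix.posSemidef_sum _ fun y _ => ?_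
  split_ifs with h
  · refine pairOp_posSemidef hS hc ?_
    rintro rfl
    exact hadj _ h
  · exact Matrix.PosSemidef.zero

/-- Configuration equivalence for a disjoint decomposition of the sites. -/
def confEquiv (f : V₁ ⊕ V₂ ≃ V) : (V₁ → d) × (V₂ → d) ≃ (V → d) :=
  (Equiv.sumArrowEquivProdArrow V₁ V₂ d).symm.trans (Equiv.arrowCongr f (Equiv.refl d))

theorem confEquiv_apply (f : V₁ ⊕ V₂ ≃ V) (p : (V₁ → d) × (V₂ → d)) (w : V₁ ⊕ V₂) :
    confEquiv f p (f w) = Sum.elim p.1 p.2 w := by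
  simp [confEquiv, Equiv.arrowCongr, Equiv.sumArrowEquivProdArrow]

theorem siteOpV_inl (f : V₁ ⊕ V₂ ≃ V) (x : V₁) (A : Matrix d d ℂ) :
    (siteOpV (f (Sum.inl x)) A).submatrix (confEquiv f) (confEquiv f) =
      siteOpV x A ⊗ₖ (1 : Matrix (V₂ → d) (V₂ → d) ℂ) := by
  ext p q
  simp only [Matrix.submatrix_apply, siteOpV, prodOp, Matrix.of_apply, Matrix.kroneckerMap_apply]
  rw [← Equiv.prod_comp f, Fintype.prod_sum_type]
  simp only [confEquiv_apply, Sum.elim_inl, Sum.elim_inr]
  congr 1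
  · refine Finset.prod_congr rfl fun y _ => ?_
    by_cases h : y = x
    · subst h; simp
    · simp [h]
  · rw [← prodOp_one]
    simp [prodOp]

theorem siteOpV_inr (f : V₁ ⊕ V₂ ≃ V) (x : V₂) (A : Matrix d d ℂ) :
    (siteOpV (f (Sum.inr x)) A).submatrix (confEquiv f) (confEquiv f) =
      (1 : Matrix (V₁ → d) (V₁ → d) ℂ) ⊗ₖ siteOpV x A := by
  ext p q
  simp only [Matrix.submatrix_apply, siteOpV, prodOp, Matrix.of_apply, Matrix.kroneckerMap_apply]
  rw [← Equiv.prod_comp f, Fintype.prod_sum_type]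
  simp only [confEquiv_apply, Sum.elim_inl, Sum.elim_inr]
  congr 1
  · rw [← prodOp_one]
    simp [prodOp]
  · refine Finset.prod_congr rfl fun y _ => ?_
    by_cases h : y = x
    · subst h; simp
    · simp [h]

theorem submatrix_sum_eq {m l : Type*} {ω : Type*} (s : Finset ω) (M : ω → Matrix m m ℂ)
    (e : l → m) : (∑ k ∈ s, M k).submatrix e e = ∑ k ∈ s, (M k).submatrix e e := by
  ext i j
  simp [Matrix.sum_apply]

theorem sum_kron {m l : Type*} {ω : Type*} (s : Finset ω) (M : ω → Matrix m m ℂ)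
    (N : Matrix l l ℂ) : (∑ k ∈ s, M k) ⊗ₖ N = ∑ k ∈ s, (M k) ⊗ₖ N := by
  ext i j
  simp [Matrix.sum_apply, Finset.sum_mul]

theorem kron_sum {m l : Type*} {ω : Type*} (s : Finset ω) (M : ω → Matrix m m ℂ)
    (N : Matrix l l ℂ) : N ⊗ₖ (∑ k ∈ s, M k) = ∑ k ∈ s, N ⊗ₖ (M k) := by
  ext i j
  simp [Matrix.sum_apply, Finset.mul_sum]

theorem pairOp_inl (c : ℝ) (S : κ → Matrix d d ℂ) (f : V₁ ⊕ V₂ ≃ V) (x y : V₁) :
    (pairOp c S (f (Sum.inl x)) (f (Sum.inl y))).submatrix (confEquiv f) (confEquiv f) =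
      pairOp c S x y ⊗ₖ (1 : Matrix (V₂ → d) (V₂ → d) ℂ) := by
  simp only [pairOp, Matrix.submatrix_add, Pi.add_apply, Matrix.submatrix_smul, Pi.smul_apply,
    submatrix_sum_eq, Matrix.add_kronecker, Matrix.smul_kronecker, sum_kron,
    Matrix.submatrix_one_equiv, Matrix.one_kronecker_one]
  congr 1
  refine Finset.sum_congr rfl fun a _ => ?_
  rw [← Matrix.submatrix_mul_equiv _ _ _ (confEquiv f) _, siteOpV_inl, siteOpV_inl,
    ← Matrix.mul_kronecker_mul, Matrix.mul_one]

theorem pairOp_inr (c : ℝ) (S : κ → Matrix d d ℂ) (f : V₁ ⊕ V₂ ≃ V) (x y : V₂) :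
    (pairOp c S (f (Sum.inr x)) (f (Sum.inr y))).submatrix (confEquiv f) (confEquiv f) =
      (1 : Matrix (V₁ → d) (V₁ → d) ℂ) ⊗ₖ pairOp c S x y := by
  simp only [pairOp, Matrix.submatrix_add, Pi.add_apply, Matrix.submatrix_smul, Pi.smul_apply,
    submatrix_sum_eq, Matrix.kronecker_add, Matrix.kronecker_smul, kron_sum,
    Matrix.submatrix_one_equiv, Matrix.one_kronecker_one]
  congr 1
  refine Finset.sum_congr rfl fun a _ => ?_
  rw [← Matrix.submatrix_mul_equiv _ _ _ (confEquiv f) _, siteOpV_inr, siteOpV_inr,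
    ← Matrix.mul_kronecker_mul, Matrix.mul_one]

/-- Splitting of the total exponent. -/
theorem totOp_split {b c : ℝ} (hb : 0 ≤ b) {S : κ → Matrix d d ℂ}
    (hS : ∀ a, (S a).IsHermitian)
    (hc : ((c : ℂ) • (1 : Matrix d d ℂ) - ∑ a, S a * S a).PosSemidef)
    (F : Matrix d d ℂ) (adj : V → V → Prop) [DecidableRel adj] (f : V₁ ⊕ V₂ ≃ V) :
    ((totOp b c S F adj).submatrix (confEquiv f) (confEquiv f) -
      (totOp b c S F (fun x y : V₁ => adj (f (Sum.inl x)) (f (Sum.inl y))) ⊗ₖ
          (1 : Matrix (V₂ → d) (V₂ → d) ℂ) +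
        (1 : Matrix (V₁ → d) (V₁ → d) ℂ) ⊗ₖ
          totOp b c S F (fun x y : V₂ => adj (f (Sum.inr x)) (f (Sum.inr y))))).PosSemidef := by
  have h1 : (totOp b c S F adj).submatrix (confEquiv f) (confEquiv f) -
      (totOp b c S F (fun x y : V₁ => adj (f (Sum.inl x)) (f (Sum.inl y))) ⊗ₖ
          (1 : Matrix (V₂ → d) (V₂ → d) ℂ) +
        (1 : Matrix (V₁ → d) (V₁ → d) ℂ) ⊗ₖ
          totOp b c S F (fun x y : V₂ => adj (f (Sum.inr x)) (f (Sum.inr y)))) =
      (b : ℂ) • ((∑ x : V₁, ∑ y : V₂, if adj (f (Sum.inl x)) (f (Sum.inr y)) then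
          (pairOp c S (f (Sum.inl x)) (f (Sum.inr y))).submatrix (confEquiv f) (confEquiv f)
          else 0) +
        (∑ x : V₂, ∑ y : V₁, if adj (f (Sum.inr x)) (f (Sum.inl y)) then
          (pairOp c S (f (Sum.inr x)) (f (Sum.inl y))).submatrix (confEquiv f) (confEquiv f)
          else 0)) := by
    have h2 : ∀ x y : V, (if adj x y then pairOp c S x y else 0).submatrix
        (confEquiv f) (confEquiv f) = if adj x y then (pairOp c S x y).submatrix
        (confEquiv f) (confEquiv f) else 0 := by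
      intro x y
      split_ifs
      · rfl
      · ext i j; rfl
    have h3 : ∀ x y : V₁, (if adj (f (Sum.inl x)) (f (Sum.inl y)) then pairOp c S x y
        else 0) ⊗ₖ (1 : Matrix (V₂ → d) (V₂ → d) ℂ) =
        if adj (f (Sum.inl x)) (f (Sum.inl y)) then
          pairOp c S x y ⊗ₖ (1 : Matrix (V₂ → d) (V₂ → d) ℂ) else 0 := by
      intro x y
      split_ifs
      · rfl
      · exact Matrix.zero_kronecker _
    have h4 : ∀ x y : V₂, (1 : Matrix (V₁ → d) (V₁ → d) ℂ) ⊗ₖ
        (if adj (f (Sum.inr x)) (f (Sum.inr y)) then pairOp c S x y else 0) =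
        if adj (f (Sum.inr x)) (f (Sum.inr y)) then
          (1 : Matrix (V₁ → d) (V₁ → d) ℂ) ⊗ₖ pairOp c S x y else 0 := by
      intro x y
      split_ifs
      · rfl
      · exact Matrix.kronecker_zero _
    simp only [totOp, Matrix.submatrix_add, Pi.add_apply, Matrix.submatrix_smul, Pi.smul_apply,
      submatrix_sum_eq, h2, Matrix.add_kronecker, Matrix.smul_kronecker, sum_kron,
      Matrix.kronecker_add, Matrix.kronecker_smul, kron_sum, h3, h4]
    simp only [← Equiv.sum_comp f, Fintype.sum_sum_type, pairOp_inl, pairOp_inr, siteOpV_inl,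
      siteOpV_inr, Finset.sum_add_distrib, smul_add]
    abel
  rw [h1]
  refine Matrix.PosSemidef.smul ?_ (by simpa using hb)
  refine Matrix.PosSemidef.add ?_ ?_
  · refine Matrix.posSemidef_sum _ fun x _ => Matrix.posSemidef_sum _ fun y _ => ?_
    split_ifs
    · refine Matrix.PosSemidef.submatrix (pairOp_posSemidef hS hc ?_) _
      intro h
      simpa using f.injective h
    · exact Matrix.PosSemidef.zero
  · refine Matrix.posSemidef_sum _ fun x _ => Matrix.posSemidef_sum _ fun y _ => ?_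
    split_ifs
    · refine Matrix.PosSemidef.submatrix (pairOp_posSemidef hS hc ?_) _
      intro h
      simpa using f.injective h
    · exact Matrix.PosSemidef.zero

/-- Logarithm of the shifted partition function. -/
noncomputable def logZ (b c : ℝ) (S : κ → Matrix d d ℂ) (F : Matrix d d ℂ) (adj : V → V → Prop)
    [DecidableRel adj] : ℝ :=
  Real.log (trace (NormedSpace.exp (totOp b c S F adj))).re

theorem totOp_isHermitian (b c : ℝ) {S : κ → Matrix d d ℂ} (hS : ∀ a, (S a).IsHermitian)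
    {F : Matrix d d ℂ} (hF : F.IsHermitian) (adj : V → V → Prop) [DecidableRel adj]
    (hadj : ∀ x, ¬ adj x x) : (totOp b c S F adj).IsHermitian := by
  have h1 : ∀ x y : V, x ≠ y → (pairOp c S x y).IsHermitian := by
    intro x y hxy
    rw [Matrix.IsHermitian, pairOp, Matrix.conjTranspose_add, Matrix.conjTranspose_smul,
      Matrix.conjTranspose_one, Matrix.conjTranspose_sum]
    congr 1
    · simp
    · refine Finset.sum_congr rfl fun a _ => ?_
      rw [Matrix.conjTranspose_mul, siteOpV_conjTranspose, siteOpV_conjTranspose, hS a,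
        siteOpV_commute hxy.symm]
  rw [Matrix.IsHermitian, totOp, Matrix.conjTranspose_add, Matrix.conjTranspose_smul,
    Matrix.conjTranspose_sum, Matrix.conjTranspose_sum]
  congr 1
  · congr 1
    · simp
    · refine Finset.sum_congr rfl fun x _ => ?_
      rw [Matrix.conjTranspose_sum]
      refine Finset.sum_congr rfl fun y _ => ?_
      split_ifs with h
      · exact h1 x y (by rintro rfl; exact hadj _ h)
      · simp
  · refine Finset.sum_congr rfl fun x _ => ?_
    exact siteOpV_isHermitian x hF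

section props

variable {b c : ℝ} (hb : 0 ≤ b) {S : κ → Matrix d d ℂ} (hS : ∀ a, (S a).IsHermitian)
  (hc : ((c : ℂ) • (1 : Matrix d d ℂ) - ∑ a, S a * S a).PosSemidef)
  {F : Matrix d d ℂ} (hF : F.PosSemidef)

include hb hS hc hF

theorem logZ_superadd [Nonempty d] (adj : V → V → Prop) [DecidableRel adj]
    (hadj : ∀ x, ¬ adj x x) (f : V₁ ⊕ V₂ ≃ V) :
    logZ b c S F (fun x y : V₁ => adj (f (Sum.inl x)) (f (Sum.inl y))) +
      logZ b c S F (fun x y : V₂ => adj (f (Sum.inr x)) (f (Sum.inr y))) ≤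
      logZ b c S F adj := by
  have h1 := totOp_isHermitian b c hS hF.1 (fun x y : V₁ => adj (f (Sum.inl x)) (f (Sum.inl y)))
    (fun x => hadj _)
  have h2 := totOp_isHermitian b c hS hF.1 (fun x y : V₂ => adj (f (Sum.inr x)) (f (Sum.inr y)))
    (fun x => hadj _)
  have h3 := totOp_isHermitian b c hS hF.1 adj hadj
  have h := trace_exp_prod_le (confEquiv f) h1 h2 h3 (totOp_split hb hS hc F adj f)
  have p1 := trace_exp_pos h1
  have p2 := trace_exp_pos h2
  unfold logZ
  rw [← Real.log_mul p1.ne' p2.ne']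
  exact Real.log_le_log (mul_pos p1 p2) h

theorem logZ_nonneg [Nonempty d] (adj : V → V → Prop) [DecidableRel adj]
    (hadj : ∀ x, ¬ adj x x) : 0 ≤ logZ b c S F adj := by
  have h1 := totOp_isHermitian b c hS hF.1 adj hadj
  have h2 := totOp_posSemidef hb hS hc hF adj hadj
  have h3 := trace_exp_mono (X := (0 : Matrix (V → d) (V → d) ℂ)) Matrix.isHermitian_zero h1
    (by simpa using h2)
  unfold logZ
  refine Real.log_nonneg (le_trans ?_ h3)
  rw [NormedSpace.exp_zero, Matrix.trace_one, Complex.natCast_re]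
  exact_mod_cast Fintype.card_pos

end props

theorem siteOpV_relabel {W : Type*} [Fintype W] [DecidableEq W] (g : V ≃ W) (x : V)
    (A : Matrix d d ℂ) :
    (siteOpV (g x) A).submatrix (Equiv.arrowCongr g (Equiv.refl d))
      (Equiv.arrowCongr g (Equiv.refl d)) = siteOpV x A := by
  ext p q
  simp only [Matrix.submatrix_apply, siteOpV, prodOp, Matrix.of_apply]
  rw [← Equiv.prod_comp g]
  refine Finset.prod_congr rfl fun y _ => ?_
  have hp : ∀ r : V → d, (g.arrowCongr (Equiv.refl d)) r (g y) = r y := by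
    intro r; simp [Equiv.arrowCongr]
  rw [hp, hp]
  by_cases h : y = x
  · subst h; simp
  · simp [h]

theorem logZ_relabel {W : Type*} [Fintype W] [DecidableEq W] (g : V ≃ W) (b c : ℝ)
    (S : κ → Matrix d d ℂ) (F : Matrix d d ℂ) (adj : W → W → Prop) [DecidableRel adj] :
    logZ b c S F (fun x y : V => adj (g x) (g y)) = logZ b c S F adj := by
  have h : (totOp b c S F adj).submatrix (Equiv.arrowCongr g (Equiv.refl d))
      (Equiv.arrowCongr g (Equiv.refl d)) = totOp b c S F (fun x y : V => adj (g x) (g y)) := by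
    have h2 : ∀ x y : W, (if adj x y then pairOp c S x y else 0).submatrix
        (Equiv.arrowCongr g (Equiv.refl d)) (Equiv.arrowCongr g (Equiv.refl d)) =
        if adj x y then (pairOp c S x y).submatrix
        (Equiv.arrowCongr g (Equiv.refl d)) (Equiv.arrowCongr g (Equiv.refl d)) else 0 := by
      intro x y
      split_ifs
      · rfl
      · ext i j; rfl
    have h5 : ∀ x y : V, (pairOp c S (g x) (g y)).submatrix
        (Equiv.arrowCongr g (Equiv.refl d)) (Equiv.arrowCongr g (Equiv.refl d)) =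
        pairOp c S x y := by
      intro x y
      simp only [pairOp, Matrix.submatrix_add, Pi.add_apply, Matrix.submatrix_smul, Pi.smul_apply,
        submatrix_sum_eq, Matrix.submatrix_one_equiv]
      congr 1
      refine Finset.sum_congr rfl fun a _ => ?_
      rw [← Matrix.submatrix_mul_equiv _ _ _ (Equiv.arrowCongr g (Equiv.refl d)) _,
        siteOpV_relabel, siteOpV_relabel]
    simp only [totOp, Matrix.submatrix_add, Pi.add_apply, Matrix.submatrix_smul, Pi.smul_apply,
      submatrix_sum_eq, h2]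
    simp only [← Equiv.sum_comp g, h5, siteOpV_relabel]
  unfold logZ
  rw [← h, trace_exp_submatrix]

theorem pairOp_upper {c : ℝ} {S : κ → Matrix d d ℂ} (hS : ∀ a, (S a).IsHermitian)
    (hc : ((c : ℂ) • (1 : Matrix d d ℂ) - ∑ a, S a * S a).PosSemidef) {x y : V} (hxy : x ≠ y) :
    (((2 * c : ℝ) : ℂ) • (1 : Matrix (V → d) (V → d) ℂ) - pairOp c S x y).PosSemidef := by
  have h1 : ((2 * c : ℝ) : ℂ) • (1 : Matrix (V → d) (V → d) ℂ) - pairOp c S x y =
      (1 / 2 : ℂ) • (∑ a, (siteOpV x (S a) - siteOpV y (S a))ᴴ *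
      (siteOpV x (S a) - siteOpV y (S a)) +
      (siteOpV x ((c : ℂ) • (1 : Matrix d d ℂ) - ∑ a, S a * S a) +
       siteOpV y ((c : ℂ) • (1 : Matrix d d ℂ) - ∑ a, S a * S a))) := by
    have h2 : ∀ a, (siteOpV x (S a) - siteOpV y (S a))ᴴ *
        (siteOpV x (S a) - siteOpV y (S a)) =
        siteOpV x (S a * S a) + siteOpV y (S a * S a) -
          (2 : ℂ) • (siteOpV x (S a) * siteOpV y (S a)) := by
      intro a
      rw [Matrix.conjTranspose_sub, siteOpV_conjTranspose, siteOpV_conjTranspose, hS a,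
        Matrix.sub_mul, Matrix.mul_sub, Matrix.mul_sub, siteOpV_mul, siteOpV_mul,
        siteOpV_commute hxy.symm, two_smul]
      abel
    simp only [h2, Finset.sum_add_distrib, Finset.sum_sub_distrib, siteOpV_sub, siteOpV_smul,
      siteOpV_one, siteOpV_sum, pairOp, ← Finset.smul_sum]
    push_cast
    module
  rw [h1]
  refine Matrix.PosSemidef.smul ?_ (by norm_num [Complex.le_def])
  refine Matrix.PosSemidef.add ?_ ((siteOpV_posSemidef x hc).add (siteOpV_posSemidef y hc))
  exact Matrix.posSemidef_sum _ fun a _ => Matrix.posSemidef_conjTranspose_mul_self _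

theorem trace_exp_real_smul_one (k : ℝ) :
    (trace (NormedSpace.exp ((k : ℂ) • (1 : Matrix V V ℂ)))).re = Fintype.card V * Real.exp k := by
  have h : (k : ℂ) • (1 : Matrix V V ℂ) = diagonal (fun _ => (k : ℂ)) := by
    ext i j
    by_cases hij : i = j
    · subst hij; simp
    · simp [hij]
  rw [h, Matrix.exp_diagonal, Matrix.trace_diagonal]
  simp [← Complex.exp_eq_exp_ℂ, ← Complex.ofReal_exp]

/-- Adding a real multiple of the identity to the exponent. -/
theorem trace_exp_add_smul_one {X : Matrix V V ℂ} (k : ℝ) :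
    (trace (NormedSpace.exp (X + (k : ℂ) • (1 : Matrix V V ℂ)))).re =
      Real.exp k * (trace (NormedSpace.exp X)).re := by
  have hcomm : Commute X ((k : ℂ) • (1 : Matrix V V ℂ)) :=
    (Commute.one_right X).smul_right (k : ℂ)
  have h : (k : ℂ) • (1 : Matrix V V ℂ) = diagonal (fun _ => (k : ℂ)) := by
    ext i j
    by_cases hij : i = j
    · subst hij; simp
    · simp [hij]
  rw [Matrix.exp_add_of_commute _ _ hcomm, h, Matrix.exp_diagonal]
  have h2 : diagonal (NormedSpace.exp fun _ : V => (k : ℂ)) =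
      ((Real.exp k : ℝ) : ℂ) • (1 : Matrix V V ℂ) := by
    ext i j
    by_cases hij : i = j
    · subst hij; simp [Pi.exp_def, ← Complex.exp_eq_exp_ℂ]
    · simp [hij]
  rw [h2, Matrix.mul_smul, Matrix.mul_one, Matrix.trace_smul, smul_eq_mul, Complex.re_ofReal_mul]

theorem logZ_upper [Nonempty d] {b c φ : ℝ} (hb : 0 ≤ b) {S : κ → Matrix d d ℂ}
    (hS : ∀ a, (S a).IsHermitian)
    (hc : ((c : ℂ) • (1 : Matrix d d ℂ) - ∑ a, S a * S a).PosSemidef) (hc0 : 0 ≤ c)
    {F : Matrix d d ℂ} (hF : F.IsHermitian)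
    (hφ : ((φ : ℂ) • (1 : Matrix d d ℂ) - F).PosSemidef)
    (adj : V → V → Prop) [DecidableRel adj] (hadj : ∀ x, ¬ adj x x) (K : ℝ)
    (hK : ∀ x, ((Finset.univ.filter fun y => adj x y).card : ℝ) ≤ K) :
    logZ b c S F adj ≤ (Real.log (Fintype.card d) + 2 * b * c * K + φ) * Fintype.card V := by
  have hH := totOp_isHermitian b c hS hF adj hadj
  set T : ℝ := (2 * b * c * K + φ) * Fintype.card V with hT
  have key : ((T : ℂ) • (1 : Matrix (V → d) (V → d) ℂ) - totOp b c S F adj).PosSemidef := by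
    have e1 : (T : ℂ) • (1 : Matrix (V → d) (V → d) ℂ) - totOp b c S F adj =
        (∑ x : V, siteOpV x ((φ : ℂ) • (1 : Matrix d d ℂ) - F)) +
        (b : ℂ) • ((∑ x : V, ∑ y : V, if adj x y then
          (((2 * c : ℝ) : ℂ) • (1 : Matrix (V → d) (V → d) ℂ) - pairOp c S x y) else 0) +
        ∑ x : V, ((2 * c * (K - (Finset.univ.filter fun y => adj x y).card) : ℝ) : ℂ) •
          (1 : Matrix (V → d) (V → d) ℂ)) := by
      have e2 : ∀ x : V, (∑ y : V, if adj x y then
          (((2 * c : ℝ) : ℂ) • (1 : Matrix (V → d) (V → d) ℂ) - pairOp c S x y) else 0) =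
          (((Finset.univ.filter fun y => adj x y).card : ℝ) : ℂ) • (((2 * c : ℝ) : ℂ) •
            (1 : Matrix (V → d) (V → d) ℂ)) - ∑ y : V, if adj x y then pairOp c S x y else 0 := by
        intro x
        rw [← Finset.sum_filter, ← Finset.sum_filter, Finset.sum_sub_distrib, Finset.sum_const]
        congr 1
        ext i j
        simp
      simp only [e2, Finset.sum_sub_distrib, siteOpV_sub, siteOpV_smul, siteOpV_one, totOp, hT]
      ext i j
      simp only [Matrix.add_apply, Matrix.sub_apply, Matrix.smul_apply, smul_eq_mul,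
        Matrix.sum_apply]
      push_cast
      simp only [mul_sub, Finset.sum_sub_distrib, Finset.sum_const, Finset.card_univ, nsmul_eq_mul,
        ← Finset.mul_sum, ← Finset.sum_mul]
      ring
    rw [e1]
    refine (Matrix.posSemidef_sum _ fun x _ => siteOpV_posSemidef x hφ).add ?_
    refine Matrix.PosSemidef.smul ?_ (by simpa using hb)
    refine Matrix.PosSemidef.add ?_ ?_
    · refine Matrix.posSemidef_sum _ fun x _ => Matrix.posSemidef_sum _ fun y _ => ?_
      split_ifs with h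
      · exact pairOp_upper hS hc (by rintro rfl; exact hadj _ h)
      · exact Matrix.PosSemidef.zero
    · refine Matrix.posSemidef_sum _ fun x _ => ?_
      refine Matrix.PosSemidef.one.smul ?_
      rw [Complex.zero_le_real]
      have := hK x
      have : 0 ≤ K - ((Finset.univ.filter fun y => adj x y).card : ℝ) := by linarith
      positivity
  have h1 : ((T : ℂ) • (1 : Matrix (V → d) (V → d) ℂ)).IsHermitian := by
    rw [Matrix.IsHermitian, Matrix.conjTranspose_smul, Matrix.conjTranspose_one]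
    simp
  have h2 := trace_exp_mono hH h1 key
  rw [trace_exp_real_smul_one] at h2
  have h3 := Real.log_le_log (trace_exp_pos hH) h2
  unfold logZ
  refine h3.trans ?_
  have hd : (0 : ℝ) < Fintype.card d := by exact_mod_cast Fintype.card_pos
  rw [Fintype.card_fun, Nat.cast_pow, Real.log_mul (by positivity) (Real.exp_pos _).ne',
    Real.log_pow, Real.log_exp, hT]
  apply le_of_eq
  ring

end

end Vale.Agent.P361
end

section

/-!
Limit along cubes of a superadditive, translation invariant set function.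
-/

namespace Vale.Agent.P361

open Filter Topology Finset

/-- The cube `{0, …, L-1}³`. -/
noncomputable def cube (L : ℕ) : Finset Site := Fintype.piFinset fun _ => Finset.Ico (0 : ℤ) (L : ℤ)

theorem mem_cube {L : ℕ} {x : Site} : x ∈ cube L ↔ ∀ i, 0 ≤ x i ∧ x i < L := by
  simp [cube, Fintype.mem_piFinset]

theorem card_cube (L : ℕ) : (cube L).card = L ^ 3 := by
  simp [cube]

theorem box_eq_map (N : ℕ) :
    box N = (cube (2 * N + 1)).map (addRightEmbedding (fun _ => -(N : ℤ))) := by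
  ext x
  simp only [box, Finset.mem_Icc, Finset.mem_map, addRightEmbedding_apply, mem_cube, Pi.le_def]
  constructor
  · rintro ⟨h1, h2⟩
    refine ⟨fun i => x i + N, fun i => ⟨by linarith [h1 i], ?_⟩, ?_⟩
    · push_cast
      linarith [h2 i]
    · ext i; simp
  · rintro ⟨y, hy, rfl⟩
    refine ⟨fun i => ?_, fun i => ?_⟩
    · simp only [Pi.add_apply]
      linarith [(hy i).1]
    · simp only [Pi.add_apply]
      have := (hy i).2
      push_cast at this
      linarith

theorem card_box (N : ℕ) : (box N).card = (2 * N + 1) ^ 3 := by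
  rw [box_eq_map, Finset.card_map, card_cube]

section

variable {G : Finset Site → ℝ}
  (hsup : ∀ Λ₁ Λ₂ : Finset Site, Disjoint Λ₁ Λ₂ → G Λ₁ + G Λ₂ ≤ G (Λ₁ ∪ Λ₂))
  (htr : ∀ (v : Site) (Λ : Finset Site), G (Λ.map (addRightEmbedding v)) = G Λ)
  (h0 : ∀ Λ : Finset Site, 0 ≤ G Λ)

include hsup h0

theorem G_mono {Λ₁ Λ₂ : Finset Site} (h : Λ₁ ⊆ Λ₂) : G Λ₁ ≤ G Λ₂ := by
  have h1 := hsup Λ₁ (Λ₂ \ Λ₁) Finset.disjoint_sdiff
  rw [Finset.union_sdiff_of_subset h] at h1
  linarith [h0 (Λ₂ \ Λ₁)]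

theorem G_biUnion {ω : Type*} [DecidableEq ω] (J : Finset ω) (Λ : ω → Finset Site)
    (hd : (J : Set ω).PairwiseDisjoint Λ) : ∑ j ∈ J, G (Λ j) ≤ G (J.biUnion Λ) := by
  induction J using Finset.induction_on with
  | empty => simpa using h0 ∅
  | insert a J ha ih =>
    rw [Finset.sum_insert ha, Finset.biUnion_insert]
    have h1 : Disjoint (Λ a) (J.biUnion Λ) := by
      rw [Finset.disjoint_biUnion_right]
      intro j hj
      exact hd (by simp) (by simp [hj]) (by rintro rfl; exact ha hj)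
    have h2 := ih (hd.subset (by simp))
    linarith [hsup _ _ h1]

include htr

theorem G_cube_mul (m q L : ℕ) (hm : 0 < m) (hL : q * m ≤ L) :
    (q : ℝ) ^ 3 * G (cube m) ≤ G (cube L) := by
  set Λ : Site → Finset Site := fun j => (cube m).map (addRightEmbedding ((m : ℤ) • j)) with hΛ
  have hmem : ∀ j x : Site, x ∈ Λ j ↔ ∀ i, (m : ℤ) * j i ≤ x i ∧ x i < (m : ℤ) * j i + m := by
    intro j x
    simp only [hΛ, Finset.mem_map, addRightEmbedding_apply, mem_cube]
    constructor
    · rintro ⟨y, hy, rfl⟩ i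
      have := hy i
      simp only [Pi.add_apply, Pi.smul_apply, smul_eq_mul]
      constructor <;> linarith
    · intro h
      refine ⟨x - (m : ℤ) • j, fun i => ?_, by simp⟩
      have := h i
      simp only [Pi.sub_apply, Pi.smul_apply, smul_eq_mul]
      constructor <;> linarith
  have hdisj : ((cube q : Finset Site) : Set Site).PairwiseDisjoint Λ := by
    intro j _ k _ hjk
    rw [Function.onFun, Finset.disjoint_left]
    intro x hx hx'
    apply hjk
    ext i
    have h1 := (hmem j x).1 hx i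
    have h2 := (hmem k x).1 hx' i
    have hm' : (0 : ℤ) < m := by exact_mod_cast hm
    have e1 : x i / m = j i := by
      rw [Int.ediv_eq_iff_of_pos hm']
      constructor <;> linarith
    have e2 : x i / m = k i := by
      rw [Int.ediv_eq_iff_of_pos hm']
      constructor <;> linarith
    rw [← e1, e2]
  have hsub : (cube q).biUnion Λ ⊆ cube L := by
    intro x hx
    rw [Finset.mem_biUnion] at hx
    obtain ⟨j, hj, hx⟩ := hx
    rw [mem_cube] at hj ⊢
    intro i
    have h1 := (hmem j x).1 hx i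
    have h2 := hj i
    have hm' : (0 : ℤ) < m := by exact_mod_cast hm
    have hL' : (q : ℤ) * m ≤ L := by exact_mod_cast hL
    constructor
    · nlinarith [mul_nonneg hm'.le h2.1]
    · have h3 : j i + 1 ≤ q := h2.2
      nlinarith [mul_le_mul_of_nonneg_left h3 hm'.le]
  have h1 := G_biUnion hsup h0 (cube q) Λ hdisj
  have h2 := G_mono hsup h0 hsub
  have h3 : ∑ j ∈ cube q, G (Λ j) = (q : ℝ) ^ 3 * G (cube m) := by
    simp only [hΛ, htr, Finset.sum_const, card_cube, nsmul_eq_mul, Nat.cast_pow]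
  linarith

theorem tendsto_cube {C : ℝ} (hC : ∀ Λ : Finset Site, G Λ ≤ C * Λ.card) :
    ∃ p : ℝ, Tendsto (fun L : ℕ => G (cube L) / (L : ℝ) ^ 3) atTop (𝓝 p) := by
  set a : ℕ → ℝ := fun L => G (cube L) / (L : ℝ) ^ 3 with ha
  have hub : ∀ L : ℕ, 0 < L → a L ≤ C := by
    intro L hL
    have : (0 : ℝ) < L := by exact_mod_cast hL
    simp only [ha]
    rw [div_le_iff₀ (by positivity)]
    have := hC (cube L)
    rw [card_cube] at this
    exact_mod_cast this
  set s : ℝ := ⨆ m : ℕ, a (m + 1) with hs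
  have hbdd : BddAbove (Set.range fun m : ℕ => a (m + 1)) := by
    refine ⟨C, ?_⟩
    rintro _ ⟨m, rfl⟩
    exact hub _ (Nat.succ_pos m)
  refine ⟨s, ?_⟩
  rw [tendsto_order]
  constructor
  · intro u hu
    obtain ⟨m', hm'⟩ := exists_lt_of_lt_ciSup hu
    set m := m' + 1 with hmdef
    have hm : 0 < m := Nat.succ_pos _
    have hmR : (0 : ℝ) < m := by exact_mod_cast hm
    have hlow : ∀ L : ℕ, 0 < L → (((L / m : ℕ) : ℝ) / L) ^ 3 * G (cube m) ≤ a L := by
      intro L hL
      have hLR : (0 : ℝ) < L := by exact_mod_cast hL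
      have h1 := G_cube_mul hsup htr h0 m (L / m) L hm (Nat.div_mul_le_self L m)
      simp only [ha]
      rw [le_div_iff₀ (by positivity), div_pow]
      have : ((L / m : ℕ) : ℝ) ^ 3 / (L : ℝ) ^ 3 * G (cube m) * (L : ℝ) ^ 3 =
          ((L / m : ℕ) : ℝ) ^ 3 * G (cube m) := by
        field_simp
      rw [this]
      exact h1
    have hlim : Tendsto (fun L : ℕ => (((L / m : ℕ) : ℝ) / L) ^ 3 * G (cube m)) atTop
        (𝓝 ((1 / (m : ℝ)) ^ 3 * G (cube m))) := by
      refine Tendsto.mul_const _ (Tendsto.pow ?_ 3)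
      have h2 := (tendsto_nat_floor_mul_div_atTop (R := ℝ) (a := 1 / (m : ℝ))
        (by positivity)).comp tendsto_natCast_atTop_atTop
      refine h2.congr' ?_
      filter_upwards with L
      simp only [Function.comp]
      congr 2
      rw [one_div, inv_mul_eq_div, Nat.floor_div_eq_div]
    have hval : (1 / (m : ℝ)) ^ 3 * G (cube m) = a m := by
      simp only [ha]
      field_simp
    rw [hval] at hlim
    filter_upwards [(tendsto_order.1 hlim).1 u hm', eventually_gt_atTop 0] with L h1 h2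
    exact lt_of_lt_of_le h1 (hlow L h2)
  · intro u hu
    filter_upwards [eventually_gt_atTop 0] with L hL
    obtain ⟨k, rfl⟩ : ∃ k, L = k + 1 := ⟨L - 1, by omega⟩
    exact lt_of_le_of_lt (le_ciSup hbdd k) hu

theorem tendsto_box {C : ℝ} (hC : ∀ Λ : Finset Site, G Λ ≤ C * Λ.card) :
    ∃ p : ℝ, Tendsto (fun N : ℕ => G (box N) / ((box N).card : ℝ)) atTop (𝓝 p) := by
  obtain ⟨p, hp⟩ := tendsto_cube hsup htr h0 hC
  refine ⟨p, ?_⟩
  have h1 : Tendsto (fun N : ℕ => 2 * N + 1) atTop atTop := by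
    refine tendsto_atTop_mono (fun n => ?_) tendsto_id
    simp only [id]; omega
  refine (hp.comp h1).congr fun N => ?_
  simp only [Function.comp]
  rw [box_eq_map, htr, Finset.card_map, card_cube]
  push_cast
  rfl

end

end Vale.Agent.P361
end

section

/-!
Existence of the thermodynamic limit of the pressure.
-/

namespace Vale.Agent.P361

open Matrix Filter Topology Finset
open scoped ComplexOrder Kronecker

theorem spin_isHermitian (n : ℕ) (a : Fin 3) : (spin n a).IsHermitian := by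
  fin_cases a
  · simp only [spin, Matrix.IsHermitian]
    simp [Matrix.conjTranspose_smul, Matrix.conjTranspose_add, add_comm]
  · simp only [spin, Matrix.IsHermitian]
    simp only [Fin.mk_one, Fin.isValue, Matrix.cons_val_one, Matrix.cons_val_zero]
    rw [Matrix.conjTranspose_smul, Matrix.conjTranspose_sub, Matrix.conjTranspose_conjTranspose]
    have : star (1 / (2 * Complex.I) : ℂ) = -(1 / (2 * Complex.I)) := by
      simp
    rw [this, neg_smul, ← smul_neg, neg_sub]
  · simp only [spin, spinZ, Matrix.IsHermitian]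
    simp only [Fin.reduceFinMk, Matrix.cons_val]
    rw [Matrix.diagonal_conjTranspose]
    congr 1
    ext1 j
    simp

theorem isNN_irrefl (x : Site) : ¬ IsNN x x := by
  simp [IsNN]

theorem isNN_mem_Icc {x y : Site} (h : IsNN x y) : y ∈ Finset.Icc (x - 1) (x + 1) := by
  rw [Finset.mem_Icc, Pi.le_def, Pi.le_def]
  have key : ∀ i, |x i - y i| ≤ 1 := by
    intro i
    have h1 : |x i - y i| ≤ ∑ j, |x j - y j| :=
      Finset.single_le_sum (f := fun j => |x j - y j|) (fun _ _ => abs_nonneg _)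
        (Finset.mem_univ i)
    exact h1.trans_eq h
  refine ⟨fun i => ?_, fun i => ?_⟩
  · have := abs_le.1 (key i)
    simp only [Pi.sub_apply, Pi.one_apply]
    linarith
  · have := abs_le.1 (key i)
    simp only [Pi.add_apply, Pi.one_apply]
    linarith

theorem degree_bound (Λ : Finset Site) (x : Λ) :
    (Finset.univ.filter fun y : Λ => IsNN x.1 y.1).card ≤ 27 := by
  have h1 : (Finset.univ.filter fun y : Λ => IsNN x.1 y.1).card ≤
      (Finset.Icc (x.1 - 1) (x.1 + 1)).card := by
    refine Finset.card_le_card_of_injOn (fun y => y.1) ?_ (Subtype.val_injective.injOn)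
    intro y hy
    simp only [Finset.coe_filter, Finset.mem_univ, true_and, Set.mem_ofPred_eq] at hy
    exact Finset.mem_coe.2 (isNN_mem_Icc hy)
  refine h1.trans ?_
  rw [Pi.card_Icc]
  simp only [Int.card_Icc, Pi.add_apply, Pi.sub_apply, Pi.one_apply]
  have : ∀ i : Fin 3, (x.1 i + 1 + 1 - (x.1 i - 1)).toNat = 3 := by
    intro i
    have : x.1 i + 1 + 1 - (x.1 i - 1) = 3 := by ring
    rw [this]; rfl
  simp [this]

/-- Number of ordered nearest-neighbour pairs. -/
noncomputable def edgeCount (Λ : Finset Site) : ℝ :=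
  ∑ x : Λ, ∑ y : Λ, if IsNN x.1 y.1 then (1 : ℝ) else 0

theorem edgeCount_eq (Λ : Finset Site) :
    edgeCount Λ = ∑ x ∈ Λ, ∑ y ∈ Λ, if IsNN x y then (1 : ℝ) else 0 := by
  unfold edgeCount
  rw [Finset.sum_coe_sort Λ (fun x => ∑ y : Λ, if IsNN x y.1 then (1 : ℝ) else 0)]
  refine Finset.sum_congr rfl fun x _ => ?_
  rw [Finset.sum_coe_sort Λ (fun y => if IsNN x y then (1 : ℝ) else 0)]

theorem edgeCount_superadd (Λ₁ Λ₂ : Finset Site) (h : Disjoint Λ₁ Λ₂) :
    edgeCount Λ₁ + edgeCount Λ₂ ≤ edgeCount (Λ₁ ∪ Λ₂) := by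
  simp only [edgeCount_eq]
  rw [Finset.sum_union h]
  refine add_le_add ?_ ?_
  · refine Finset.sum_le_sum fun x _ => ?_
    exact Finset.sum_le_sum_of_subset_of_nonneg Finset.subset_union_left
      (fun _ _ _ => by split_ifs <;> norm_num)
  · refine Finset.sum_le_sum fun x _ => ?_
    exact Finset.sum_le_sum_of_subset_of_nonneg Finset.subset_union_right
      (fun _ _ _ => by split_ifs <;> norm_num)

theorem isNN_add (x y v : Site) : IsNN (x + v) (y + v) ↔ IsNN x y := by
  simp [IsNN]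

theorem edgeCount_translate (v : Site) (Λ : Finset Site) :
    edgeCount (Λ.map (addRightEmbedding v)) = edgeCount Λ := by
  simp only [edgeCount_eq, Finset.sum_map, addRightEmbedding_apply, isNN_add]

theorem edgeCount_nonneg (Λ : Finset Site) : 0 ≤ edgeCount Λ := by
  unfold edgeCount
  exact Finset.sum_nonneg fun _ _ => Finset.sum_nonneg fun _ _ => by split_ifs <;> norm_num

theorem edgeCount_le (Λ : Finset Site) : edgeCount Λ ≤ 27 * Λ.card := by
  unfold edgeCount
  calc ∑ x : Λ, ∑ y : Λ, (if IsNN x.1 y.1 then (1 : ℝ) else 0) ≤ ∑ _x : Λ, (27 : ℝ) := by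
        refine Finset.sum_le_sum fun x _ => ?_
        rw [Finset.sum_ite, Finset.sum_const_zero, add_zero, Finset.sum_const, nsmul_eq_mul,
          mul_one]
        exact_mod_cast degree_bound Λ x
    _ = 27 * Λ.card := by
        rw [Finset.sum_const, Finset.card_univ, Fintype.card_coe, nsmul_eq_mul]
        ring

section

variable {b c φ : ℝ} (hb : 0 ≤ b) {n : ℕ}
  (hc : ((c : ℂ) • (1 : Matrix (Fin (n + 1)) (Fin (n + 1)) ℂ) -
    ∑ a, spin n a * spin n a).PosSemidef) (hc0 : 0 ≤ c)
  {F : Matrix (Fin (n + 1)) (Fin (n + 1)) ℂ} (hF : F.PosSemidef)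
  (hφ : ((φ : ℂ) • (1 : Matrix (Fin (n + 1)) (Fin (n + 1)) ℂ) - F).PosSemidef)

/-- Log partition function of a finite subset of the lattice. -/
noncomputable def lz (b c : ℝ) (n : ℕ) (F : Matrix (Fin (n + 1)) (Fin (n + 1)) ℂ)
    (Λ : Finset Site) : ℝ :=
  logZ (V := Λ) b c (spin n) F (fun x y => IsNN x.1 y.1)

theorem lz_translate (v : Site) (Λ : Finset Site) :
    lz b c n F (Λ.map (addRightEmbedding v)) = lz b c n F Λ := by
  unfold lz
  let g : Λ ≃ (Λ.map (addRightEmbedding v) : Finset Site) :=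
    Equiv.ofBijective (fun x => ⟨x.1 + v, Finset.mem_map.2 ⟨x.1, x.2, rfl⟩⟩)
      ⟨fun x y h => by
        have := congrArg Subtype.val h
        exact Subtype.ext (add_right_cancel this), fun y => by
        obtain ⟨x, hx, hy⟩ := Finset.mem_map.1 y.2
        exact ⟨⟨x, hx⟩, Subtype.ext hy⟩⟩
  have h := logZ_relabel g b c (spin n) F
    (fun x y : (Λ.map (addRightEmbedding v) : Finset Site) => IsNN x.1 y.1)
  rw [← h]
  have h2 : ∀ x y : Λ, IsNN (g x).1 (g y).1 ↔ IsNN x.1 y.1 := fun x y => isNN_add _ _ _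
  unfold logZ totOp
  simp only [h2]

include hb hc hF

theorem lz_superadd (Λ₁ Λ₂ : Finset Site) (h : Disjoint Λ₁ Λ₂) :
    lz b c n F Λ₁ + lz b c n F Λ₂ ≤ lz b c n F (Λ₁ ∪ Λ₂) := by
  unfold lz
  have := logZ_superadd hb (spin_isHermitian n) hc hF
    (fun x y : (Λ₁ ∪ Λ₂ : Finset Site) => IsNN x.1 y.1) (fun x => isNN_irrefl x.1)
    (Equiv.Finset.union Λ₁ Λ₂ h)
  exact this

theorem lz_nonneg (Λ : Finset Site) : 0 ≤ lz b c n F Λ :=
  logZ_nonneg hb (spin_isHermitian n) hc hF _ (fun x => isNN_irrefl x.1)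

include hc0 hφ in
theorem lz_le (Λ : Finset Site) :
    lz b c n F Λ ≤ (Real.log (Fintype.card (Fin (n + 1))) + 2 * b * c * 27 + φ) * Λ.card := by
  have := logZ_upper (V := Λ) hb (spin_isHermitian n) hc hc0 hF.1 hφ
    (fun x y => IsNN x.1 y.1) (fun x => isNN_irrefl x.1) 27
    (fun x => by exact_mod_cast degree_bound Λ x)
  rwa [Fintype.card_coe] at this

end

/-- The exponent `-β (H - h M)`. -/
noncomputable def expo (n : ℕ) (Λ : Finset Site) (β h : ℝ) :
    Matrix (Λ → Fin (n + 1)) (Λ → Fin (n + 1)) ℂ :=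
  -(β : ℂ) • (hamiltonian n Λ - (h : ℂ) • magnetization n Λ)

theorem totOp_eq (n : ℕ) (Λ : Finset Site) (β h c φ₀ : ℝ) :
    totOp (V := Λ) (β / 2) c (spin n)
      ((φ₀ : ℂ) • (1 : Matrix (Fin (n + 1)) (Fin (n + 1)) ℂ) + ((β * h : ℝ) : ℂ) • spin n 2)
      (fun x y => IsNN x.1 y.1) =
      expo n Λ β h + (((β / 2) * c * edgeCount Λ + φ₀ * Λ.card : ℝ) : ℂ) •
        (1 : Matrix (Λ → Fin (n + 1)) (Λ → Fin (n + 1)) ℂ) := by
  unfold totOp expo hamiltonian magnetization edgeCount pairOp
  simp only [siteOp_eq_siteOpV, siteOpV_add, siteOpV_smul, siteOpV_one]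
  have e1 : (∑ x : Λ, ∑ y : Λ, if IsNN x.1 y.1 then
      ((c : ℂ) • (1 : Matrix (Λ → Fin (n + 1)) (Λ → Fin (n + 1)) ℂ) +
        ∑ a, siteOpV x (spin n a) * siteOpV y (spin n a)) else 0) =
      ((c * ∑ x : Λ, ∑ y : Λ, (if IsNN x.1 y.1 then (1 : ℝ) else 0) : ℝ) : ℂ) •
        (1 : Matrix (Λ → Fin (n + 1)) (Λ → Fin (n + 1)) ℂ) +
      ∑ x : Λ, ∑ y : Λ, if IsNN x.1 y.1 then
        ∑ a, siteOpV x (spin n a) * siteOpV y (spin n a) else 0 := by
    push_cast
    rw [Finset.mul_sum, Finset.sum_smul, ← Finset.sum_add_distrib]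
    refine Finset.sum_congr rfl fun x _ => ?_
    rw [Finset.mul_sum, Finset.sum_smul, ← Finset.sum_add_distrib]
    refine Finset.sum_congr rfl fun y _ => ?_
    split_ifs <;> simp
  rw [e1, Finset.sum_add_distrib, Finset.sum_const, Finset.card_univ, Fintype.card_coe,
    ← Finset.smul_sum]
  push_cast
  module

theorem expo_isHermitian (n : ℕ) (Λ : Finset Site) (β h : ℝ) : (expo n Λ β h).IsHermitian := by
  have h1 := totOp_eq n Λ β h 0 0
  have h2 := totOp_isHermitian (V := Λ) (β / 2) 0 (spin_isHermitian n)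
    (F := ((0 : ℝ) : ℂ) • (1 : Matrix (Fin (n + 1)) (Fin (n + 1)) ℂ) +
      ((β * h : ℝ) : ℂ) • spin n 2) ?_ (fun x y => IsNN x.1 y.1) (fun x => isNN_irrefl x.1)
  · rw [h1] at h2
    simpa using h2
  · have h3 := spin_isHermitian n 2
    rw [Matrix.IsHermitian, Matrix.conjTranspose_add, Matrix.conjTranspose_smul,
      Matrix.conjTranspose_smul, h3]
    simp

theorem finPressure_eq (n : ℕ) (Λ : Finset Site) (β h c φ₀ : ℝ) :
    finPressure n Λ β h = (β * Λ.card)⁻¹ * (lz (β / 2) c n
      ((φ₀ : ℂ) • (1 : Matrix (Fin (n + 1)) (Fin (n + 1)) ℂ) + ((β * h : ℝ) : ℂ) • spin n 2) Λ -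
        ((β / 2) * c * edgeCount Λ + φ₀ * Λ.card)) := by
  unfold finPressure lz logZ
  rw [totOp_eq, trace_exp_add_smul_one, Real.log_mul (Real.exp_pos _).ne'
    (trace_exp_pos (expo_isHermitian n Λ β h)).ne', Real.log_exp]
  congr 1
  unfold expo
  ring

/-- Existence of the thermodynamic limit of the pressure. -/
theorem finPressure_tendsto (n : ℕ) {β : ℝ} (hβ : 0 < β) (h : ℝ) :
    ∃ p : ℝ, Tendsto (fun N => finPressure n (box N) β h) atTop (𝓝 p) := by
  -- constants
  obtain ⟨c, hc0, hc⟩ := exists_upper_bound (X := ∑ a, spin n a * spin n a) (by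
    rw [Matrix.IsHermitian, Matrix.conjTranspose_sum]
    refine Finset.sum_congr rfl fun a _ => ?_
    rw [Matrix.conjTranspose_mul, spin_isHermitian n a])
  have hherm : ∀ r : ℝ, ((r : ℂ) • spin n 2).IsHermitian := by
    intro r
    rw [Matrix.IsHermitian, Matrix.conjTranspose_smul, spin_isHermitian n 2]
    simp
  obtain ⟨φ₀, _, hφ₀⟩ := exists_upper_bound (hherm (-(β * h)))
  set F : Matrix (Fin (n + 1)) (Fin (n + 1)) ℂ :=
    (φ₀ : ℂ) • (1 : Matrix (Fin (n + 1)) (Fin (n + 1)) ℂ) + ((β * h : ℝ) : ℂ) • spin n 2 with hFdef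
  have hF : F.PosSemidef := by
    have : F = (φ₀ : ℂ) • (1 : Matrix (Fin (n + 1)) (Fin (n + 1)) ℂ) -
        ((-(β * h) : ℝ) : ℂ) • spin n 2 := by
      rw [hFdef, Complex.ofReal_neg, neg_smul, sub_neg_eq_add]
    rw [this]
    exact hφ₀
  obtain ⟨φ, _, hφ⟩ := exists_upper_bound hF.1
  have hb : 0 ≤ β / 2 := by positivity
  obtain ⟨p₁, hp₁⟩ := tendsto_box (G := lz (β / 2) c n F)
    (lz_superadd hb hc hF) lz_translate (lz_nonneg hb hc hF) (lz_le hb hc hc0 hF hφ)
  obtain ⟨p₂, hp₂⟩ := tendsto_box (G := edgeCount)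
    edgeCount_superadd edgeCount_translate edgeCount_nonneg edgeCount_le
  refine ⟨β⁻¹ * (p₁ - (β / 2 * c * p₂ + φ₀)), ?_⟩
  have hlim := ((hp₁.sub ((hp₂.const_mul (β / 2 * c)).add_const φ₀)).const_mul β⁻¹)
  refine hlim.congr fun N => ?_
  rw [finPressure_eq n (box N) β h c φ₀, ← hFdef]
  have hcard : ((box N).card : ℝ) ≠ 0 := by
    rw [card_box]; positivity
  field_simp

/-- The pressure is the limit of the finite-volume pressures. -/
theorem pressure_tendsto (n : ℕ) {β : ℝ} (hβ : 0 < β) (h : ℝ) :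
    Tendsto (fun N => finPressure n (box N) β h) atTop (𝓝 (pressure n β h)) :=
  tendsto_nhds_limUnder (finPressure_tendsto n hβ h)

end Vale.Agent.P361
end

section

/-!
Finite-volume magnetization, convexity of the pressure, and the right derivative.
-/

namespace Vale.Agent.P361

open Matrix Filter Topology Finset
open scoped ComplexOrder Kronecker

/-- Total finite-volume magnetization `⟨M⟩`. -/
noncomputable def gibbsMag (n : ℕ) (Λ : Finset Site) (β h : ℝ) : ℝ :=
  (trace (NormedSpace.exp (expo n Λ β h) * magnetization n Λ)).re /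
    (trace (NormedSpace.exp (expo n Λ β h))).re

theorem magnetization_isHermitian (n : ℕ) (Λ : Finset Site) :
    (magnetization n Λ).IsHermitian := by
  rw [Matrix.IsHermitian, magnetization, Matrix.conjTranspose_sum]
  refine Finset.sum_congr rfl fun x _ => ?_
  exact siteOp_isHermitian x (spin_isHermitian n 2)

theorem expo_shift (n : ℕ) (Λ : Finset Site) (β h h' : ℝ) :
    expo n Λ β h' = expo n Λ β h + ((β * (h' - h) : ℝ) : ℂ) • magnetization n Λ := by
  unfold expo
  push_cast
  module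

/-- Supporting line inequality for the logarithm of the partition function. -/
theorem log_trace_support (n : ℕ) (Λ : Finset Site) (β h h' : ℝ) :
    Real.log (trace (NormedSpace.exp (expo n Λ β h))).re + β * (h' - h) * gibbsMag n Λ β h ≤
      Real.log (trace (NormedSpace.exp (expo n Λ β h'))).re := by
  have hY : (((β * (h' - h) : ℝ) : ℂ) • magnetization n Λ).IsHermitian := by
    rw [Matrix.IsHermitian, Matrix.conjTranspose_smul, magnetization_isHermitian n Λ]
    simp
  have h1 := peierls_bogoliubov (expo_isHermitian n Λ β h) hY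
  rw [← expo_shift] at h1
  refine le_trans (le_of_eq ?_) h1
  congr 1
  rw [Matrix.mul_smul, Matrix.trace_smul, smul_eq_mul, Complex.re_ofReal_mul]
  unfold gibbsMag
  ring

theorem finPressure_def (n : ℕ) (Λ : Finset Site) (β h : ℝ) :
    finPressure n Λ β h = (β * Λ.card)⁻¹ * Real.log
      (trace (NormedSpace.exp (expo n Λ β h))).re := rfl

theorem finPressure_support (n : ℕ) {Λ : Finset Site} (hΛ : Λ.Nonempty) {β : ℝ} (hβ : 0 < β)
    (h h' : ℝ) :
    finPressure n Λ β h + (h' - h) * (gibbsMag n Λ β h / Λ.card) ≤ finPressure n Λ β h' := by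
  have h1 := log_trace_support n Λ β h h'
  have hc : (0 : ℝ) < Λ.card := by exact_mod_cast hΛ.card_pos
  rw [finPressure_def, finPressure_def]
  have h2 := mul_le_mul_of_nonneg_left h1 (a := (β * Λ.card)⁻¹) (by positivity)
  refine le_trans (le_of_eq ?_) h2
  field_simp

theorem convexOn_of_support {f g : ℝ → ℝ} (hfg : ∀ x y, f x + (y - x) * g x ≤ f y) :
    ConvexOn ℝ Set.univ f := by
  refine ⟨convex_univ, ?_⟩
  intro x _ y _ a b ha hb hab
  simp only [smul_eq_mul]
  set z := a * x + b * y with hz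
  have h1 := hfg z x
  have h2 := hfg z y
  have h3 : a * (x - z) + b * (y - z) = 0 := by
    have : a * (x - z) + b * (y - z) = (a * x + b * y) - (a + b) * z := by ring
    rw [this, hab, hz]; ring
  calc f z = a * (f z + (x - z) * g z) + b * (f z + (y - z) * g z) := by
        have : a * (f z + (x - z) * g z) + b * (f z + (y - z) * g z) =
          (a + b) * f z + (a * (x - z) + b * (y - z)) * g z := by ring
        rw [this, hab, h3]; ring
    _ ≤ a * f x + b * f y := by
        exact add_le_add (mul_le_mul_of_nonneg_left h1 ha) (mul_le_mul_of_nonneg_left h2 hb)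

theorem finPressure_convex (n : ℕ) {Λ : Finset Site} (hΛ : Λ.Nonempty) {β : ℝ} (hβ : 0 < β) :
    ConvexOn ℝ Set.univ (finPressure n Λ β) :=
  convexOn_of_support (finPressure_support n hΛ hβ)

theorem box_nonempty (N : ℕ) : (box N).Nonempty := by
  rw [← Finset.card_pos, card_box]; positivity

theorem pressure_convex (n : ℕ) {β : ℝ} (hβ : 0 < β) :
    ConvexOn ℝ Set.univ (pressure n β) := by
  refine ⟨convex_univ, ?_⟩
  intro x _ y _ a b ha hb hab
  refine le_of_tendsto_of_tendsto' (pressure_tendsto n hβ (a • x + b • y))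
    (((pressure_tendsto n hβ x).const_smul a).add ((pressure_tendsto n hβ y).const_smul b))
    fun N => ?_
  exact (finPressure_convex n (box_nonempty N) hβ).2 (Set.mem_univ x) (Set.mem_univ y) ha hb hab

/-- The right derivative of the pressure exists at every field. -/
theorem pressure_hasRightDeriv (n : ℕ) {β : ℝ} (hβ : 0 < β) (h : ℝ) :
    HasDerivWithinAt (pressure n β) (derivWithin (pressure n β) (Set.Ioi h) h) (Set.Ioi h) h :=
  (pressure_convex n hβ).hasDerivWithinAt_rightDeriv_of_mem_interior (by simp)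

theorem spontMag_hasDeriv (n : ℕ) {β : ℝ} (hβ : 0 < β) :
    HasDerivWithinAt (pressure n β) (spontMag n β) (Set.Ioi 0) 0 :=
  pressure_hasRightDeriv n hβ 0

theorem rightDeriv_le_slope' (n : ℕ) {β : ℝ} (hβ : 0 < β) {h₀ h : ℝ} (hh : h₀ < h) :
    derivWithin (pressure n β) (Set.Ioi h₀) h₀ ≤ (pressure n β h - pressure n β h₀) / (h - h₀) := by
  have := (pressure_convex n hβ).rightDeriv_le_slope_of_mem_interior (x := h₀) (y := h)
    (by simp) (Set.mem_univ _) hh
  rwa [slope_def_field] at this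

theorem gibbsMag_ge_slope (n : ℕ) {Λ : Finset Site} (hΛ : Λ.Nonempty) {β : ℝ} (hβ : 0 < β)
    {h₀ h : ℝ} (hh : h₀ < h) :
    (finPressure n Λ β h - finPressure n Λ β h₀) / (h - h₀) ≤ gibbsMag n Λ β h / Λ.card := by
  have h1 := finPressure_support n hΛ hβ h h₀
  rw [div_le_iff₀ (by linarith)]
  linarith

/-- Eventually the finite-volume magnetization at field `h > h₀` exceeds any number below the
right derivative of the pressure at `h₀`. -/
theorem eventually_lt_gibbsMag (n : ℕ) {β : ℝ} (hβ : 0 < β) {h₀ h : ℝ} (hh : h₀ < h) {m : ℝ}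
    (hm : m < derivWithin (pressure n β) (Set.Ioi h₀) h₀) :
    ∀ᶠ N : ℕ in atTop, m < gibbsMag n (box N) β h / (box N).card := by
  have h1 := lt_of_lt_of_le hm (rightDeriv_le_slope' n hβ hh)
  have h2 : Tendsto (fun N => (finPressure n (box N) β h - finPressure n (box N) β h₀) / (h - h₀))
      atTop (𝓝 ((pressure n β h - pressure n β h₀) / (h - h₀))) :=
    ((pressure_tendsto n hβ h).sub (pressure_tendsto n hβ h₀)).div_const _
  filter_upwards [(tendsto_order.1 h2).1 m h1] with N hN
  exact lt_of_lt_of_le hN (gibbsMag_ge_slope n (box_nonempty N) hβ hh)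

theorem eventually_lt_gibbsMag_zero (n : ℕ) {β : ℝ} (hβ : 0 < β) {h : ℝ} (hh : 0 < h) {m : ℝ}
    (hm : m < spontMag n β) :
    ∀ᶠ N : ℕ in atTop, m < gibbsMag n (box N) β h / (box N).card :=
  eventually_lt_gibbsMag n hβ hh hm

end Vale.Agent.P361
end

section

namespace Vale.Agent.P361.H

open Matrix

variable {n : ℕ} {Λ : Finset Site}

/-- Product operator. -/
noncomputable def prodOp (A : Λ → Matrix (Fin (n + 1)) (Fin (n + 1)) ℂ) :
    Matrix (Λ → Fin (n + 1)) (Λ → Fin (n + 1)) ℂ :=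
  Matrix.of fun σ τ => ∏ y : Λ, A y (σ y) (τ y)

lemma prodOp_mul (A B : Λ → Matrix (Fin (n + 1)) (Fin (n + 1)) ℂ) :
    prodOp A * prodOp B = prodOp (fun y => A y * B y) := by
  ext σ τ
  simp only [prodOp, Matrix.mul_apply, Matrix.of_apply]
  rw [Finset.prod_univ_sum]
  simp only [Fintype.piFinset_univ, Finset.prod_mul_distrib]

lemma siteOp_eq_prodOp (x : Λ) (A : Matrix (Fin (n + 1)) (Fin (n + 1)) ℂ) :
    siteOp x A = prodOp (fun y => if y = x then A else 1) := rfl

lemma siteOp_mul (x : Λ) (A B : Matrix (Fin (n + 1)) (Fin (n + 1)) ℂ) :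
    siteOp x A * siteOp x B = siteOp x (A * B) := by
  rw [siteOp_eq_prodOp, siteOp_eq_prodOp, siteOp_eq_prodOp, prodOp_mul]
  congr 1
  ext1 y
  split_ifs <;> simp

lemma siteOp_comm {x y : Λ} (hxy : x ≠ y) (A B : Matrix (Fin (n + 1)) (Fin (n + 1)) ℂ) :
    siteOp x A * siteOp y B = siteOp y B * siteOp x A := by
  rw [siteOp_eq_prodOp, siteOp_eq_prodOp, prodOp_mul, prodOp_mul]
  congr 1
  ext1 z
  by_cases h1 : z = x
  · have h2 : z ≠ y := fun h => hxy (h1.symm.trans h)
    simp [h1, hxy]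
  · simp [h1]

lemma siteOp_apply (x : Λ) (A : Matrix (Fin (n + 1)) (Fin (n + 1)) ℂ) (σ τ : Λ → Fin (n + 1)) :
    siteOp x A σ τ = A (σ x) (τ x) *
      ∏ y ∈ Finset.univ.erase x, (1 : Matrix (Fin (n + 1)) (Fin (n + 1)) ℂ) (σ y) (τ y) := by
  simp only [siteOp, Matrix.of_apply]
  rw [← Finset.mul_prod_erase Finset.univ _ (Finset.mem_univ x)]
  congr 1
  · simp
  · refine Finset.prod_congr rfl fun y hy => ?_
    rw [if_neg (Finset.ne_of_mem_erase hy)]

lemma siteOp_add (x : Λ) (A B : Matrix (Fin (n + 1)) (Fin (n + 1)) ℂ) :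
    siteOp x (A + B) = siteOp x A + siteOp x B := by
  ext σ τ
  rw [Matrix.add_apply, siteOp_apply, siteOp_apply, siteOp_apply, Matrix.add_apply, add_mul]

lemma siteOp_smul (x : Λ) (c : ℂ) (A : Matrix (Fin (n + 1)) (Fin (n + 1)) ℂ) :
    siteOp x (c • A) = c • siteOp x A := by
  ext σ τ
  rw [Matrix.smul_apply, siteOp_apply, siteOp_apply, Matrix.smul_apply, smul_eq_mul, smul_eq_mul,
    mul_assoc]

lemma siteOp_neg (x : Λ) (A : Matrix (Fin (n + 1)) (Fin (n + 1)) ℂ) :
    siteOp x (-A) = - siteOp x A := by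
  have := siteOp_smul x (-1) A
  simpa using this

lemma siteOp_sub (x : Λ) (A B : Matrix (Fin (n + 1)) (Fin (n + 1)) ℂ) :
    siteOp x (A - B) = siteOp x A - siteOp x B := by
  rw [sub_eq_add_neg, siteOp_add, siteOp_neg, ← sub_eq_add_neg]

lemma siteOp_one (x : Λ) :
    siteOp x (1 : Matrix (Fin (n + 1)) (Fin (n + 1)) ℂ) = 1 := by
  ext σ τ
  simp only [siteOp, Matrix.of_apply, ite_self]
  by_cases h : σ = τ
  · subst h; simp
  · rw [Matrix.one_apply_ne h]
    obtain ⟨y, hy⟩ := Function.ne_iff.1 h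
    exact Finset.prod_eq_zero (Finset.mem_univ y) (Matrix.one_apply_ne hy)

lemma siteOp_conjTranspose (x : Λ) (A : Matrix (Fin (n + 1)) (Fin (n + 1)) ℂ) :
    (siteOp x A)ᴴ = siteOp x Aᴴ := by
  ext σ τ
  rw [Matrix.conjTranspose_apply]
  simp only [siteOp, Matrix.of_apply]
  rw [star_prod]
  refine Finset.prod_congr rfl fun y _ => ?_
  split_ifs
  · rw [Matrix.conjTranspose_apply]
  · rw [← Matrix.conjTranspose_apply, Matrix.conjTranspose_one]

lemma siteOp_transpose (x : Λ) (A : Matrix (Fin (n + 1)) (Fin (n + 1)) ℂ) :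
    (siteOp x A)ᵀ = siteOp x Aᵀ := by
  ext σ τ
  rw [Matrix.transpose_apply]
  simp only [siteOp, Matrix.of_apply]
  refine Finset.prod_congr rfl fun y _ => ?_
  split_ifs
  · rw [Matrix.transpose_apply]
  · change (1 : Matrix (Fin (n + 1)) (Fin (n + 1)) ℂ)ᵀ (σ y) (τ y) = _
    rw [Matrix.transpose_one]

/-! Local spin algebra. -/

/-- Schwinger factors: `a = diag √(n-j)`, `b |j⟩ = √j |j-1⟩`. -/
noncomputable def schwA (n : ℕ) : Matrix (Fin (n + 1)) (Fin (n + 1)) ℂ :=
  Matrix.diagonal fun j => ((Real.sqrt ((n : ℝ) - (j : ℕ)) : ℝ) : ℂ)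

noncomputable def schwB (n : ℕ) : Matrix (Fin (n + 1)) (Fin (n + 1)) ℂ :=
  Matrix.of fun i j => if (j : ℕ) = (i : ℕ) + 1 then ((Real.sqrt ((j : ℕ) : ℝ) : ℝ) : ℂ) else 0

lemma fin_le (j : Fin (n + 1)) : ((j : ℕ) : ℝ) ≤ n := by
  exact_mod_cast Nat.lt_succ_iff.1 j.2

lemma spinLower_apply (i j : Fin (n + 1)) : spinLower n i j =
    if (i : ℕ) = (j : ℕ) + 1 then ((Real.sqrt (((i : ℕ) : ℝ) * ((n : ℝ) + 1 - (i : ℕ))) : ℝ) : ℂ)
    else 0 := rfl

lemma spinLower_conj_apply (i j : Fin (n + 1)) : (spinLower n)ᴴ i j =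
    if (j : ℕ) = (i : ℕ) + 1 then ((Real.sqrt (((j : ℕ) : ℝ) * ((n : ℝ) + 1 - (j : ℕ))) : ℝ) : ℂ)
    else 0 := by
  rw [Matrix.conjTranspose_apply, spinLower_apply]
  split_ifs <;> simp

lemma spinLower_transpose : (spinLower n)ᵀ = (spinLower n)ᴴ := by
  ext i j
  rw [spinLower_conj_apply, Matrix.transpose_apply, spinLower_apply]

lemma spinZ_conj : (spinZ n)ᴴ = spinZ n := by
  rw [spinZ, Matrix.diagonal_conjTranspose]
  congr 1
  ext j
  simp

lemma spinZ_transpose : (spinZ n)ᵀ = spinZ n := Matrix.diagonal_transpose _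

/-- `a† b = S⁺`. -/
lemma schwA_schwB : (schwA n)ᴴ * schwB n = (spinLower n)ᴴ := by
  ext i j
  rw [spinLower_conj_apply, schwA, Matrix.diagonal_conjTranspose, Matrix.diagonal_mul]
  simp only [schwB, Matrix.of_apply, Pi.star_apply]
  split_ifs with h
  · rw [RCLike.star_def, Complex.conj_ofReal, ← Complex.ofReal_mul, mul_comm, ← Real.sqrt_mul (by positivity)]
    congr 3
    rw [h]; push_cast; ring
  · simp

lemma schwB_schwA : (schwB n)ᴴ * schwA n = spinLower n := by
  have := congrArg Matrix.conjTranspose (schwA_schwB (n := n))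
  rw [Matrix.conjTranspose_mul] at this
  simpa using this

lemma schwA_schwA : (schwA n)ᴴ * schwA n = ((n : ℂ) / 2) • (1 : Matrix _ _ ℂ) + spinZ n := by
  rw [schwA, Matrix.diagonal_conjTranspose, Matrix.diagonal_mul_diagonal, spinZ,
    ← Matrix.diagonal_one, ← Matrix.diagonal_smul, Matrix.diagonal_add]
  congr 1
  ext j
  have h : 0 ≤ (n : ℝ) - (j : ℕ) := by have := fin_le j; linarith
  simp only [Pi.star_apply, RCLike.star_def, Complex.conj_ofReal, Pi.smul_apply, smul_eq_mul, mul_one]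
  rw [← Complex.ofReal_mul, Real.mul_self_sqrt h]
  push_cast; ring

lemma schwB_schwB : (schwB n)ᴴ * schwB n = ((n : ℂ) / 2) • (1 : Matrix _ _ ℂ) - spinZ n := by
  rw [spinZ, ← Matrix.diagonal_one, ← Matrix.diagonal_smul, Matrix.diagonal_sub]
  ext i j
  rw [Matrix.mul_apply]
  simp only [Matrix.conjTranspose_apply, schwB, Matrix.of_apply]
  rw [Matrix.diagonal_apply]
  split_ifs with hij
  · subst hij
    simp only [Pi.smul_apply, smul_eq_mul, mul_one]
    rcases Nat.eq_zero_or_pos (i : ℕ) with h0 | hpos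
    · rw [Finset.sum_eq_zero]
      · simp [h0]
      · intro k _
        rw [if_neg (by omega)]; simp
    · rw [Finset.sum_eq_single (⟨(i : ℕ) - 1, by omega⟩ : Fin (n + 1))]
      · rw [if_pos (by simp; omega)]
        rw [RCLike.star_def, Complex.conj_ofReal, ← Complex.ofReal_mul,
          Real.mul_self_sqrt (by positivity)]
        push_cast; ring
      · intro k _ hk
        rw [if_neg]
        · simp
        · intro h
          apply hk
          ext; simp; omega
      · simp
  · apply Finset.sum_eq_zero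
    intro k _
    by_cases h1 : (i : ℕ) = (k : ℕ) + 1
    · rw [if_neg (c := (j : ℕ) = (k : ℕ) + 1)]
      · simp
      · intro h2; exact hij (Fin.ext (h1.trans h2.symm))
    · rw [if_neg h1]; simp

/-- `S⁻ S⁺ = diag (j (n+1-j))`. -/
lemma lower_raise : spinLower n * (spinLower n)ᴴ =
    Matrix.diagonal fun j : Fin (n + 1) => (((j : ℕ) : ℂ) * ((n : ℂ) + 1 - ((j : ℕ) : ℂ))) := by
  ext i j
  rw [Matrix.mul_apply, Matrix.diagonal_apply]
  simp only [Matrix.conjTranspose_apply, spinLower_apply]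
  split_ifs with hij
  · subst hij
    rcases Nat.eq_zero_or_pos (i : ℕ) with h0 | hpos
    · rw [Finset.sum_eq_zero]
      · simp [h0]
      · intro k _
        rw [if_neg (by omega)]; simp
    · rw [Finset.sum_eq_single (⟨(i : ℕ) - 1, by omega⟩ : Fin (n + 1))]
      · rw [if_pos (by simp; omega)]
        have h : 0 ≤ ((i : ℕ) : ℝ) * ((n : ℝ) + 1 - (i : ℕ)) := by
          have := fin_le i
          exact mul_nonneg (by positivity) (by linarith)
        rw [RCLike.star_def, Complex.conj_ofReal, ← Complex.ofReal_mul, Real.mul_self_sqrt h]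
        push_cast; ring
      · intro k _ hk
        rw [if_neg]
        · simp
        · intro h
          apply hk
          ext; simp; omega
      · simp
  · apply Finset.sum_eq_zero
    intro k _
    by_cases h1 : (i : ℕ) = (k : ℕ) + 1
    · rw [if_neg (c := (j : ℕ) = (k : ℕ) + 1)]
      · simp
      · intro h2; exact hij (Fin.ext (h1.trans h2.symm))
    · rw [if_neg h1]; simp

/-- `S⁺ S⁻ = diag ((j+1) (n-j))`. -/
lemma raise_lower : (spinLower n)ᴴ * spinLower n =
    Matrix.diagonal fun j : Fin (n + 1) => ((((j : ℕ) : ℂ) + 1) * ((n : ℂ) - ((j : ℕ) : ℂ))) := by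
  ext i j
  rw [Matrix.mul_apply, Matrix.diagonal_apply]
  simp only [Matrix.conjTranspose_apply, spinLower_apply]
  split_ifs with hij
  · subst hij
    rcases Nat.lt_or_ge (i : ℕ) n with hlt | hge
    · rw [Finset.sum_eq_single (⟨(i : ℕ) + 1, by omega⟩ : Fin (n + 1))]
      · rw [if_pos (by simp)]
        have h : 0 ≤ (((i : ℕ) + 1 : ℕ) : ℝ) * ((n : ℝ) + 1 - ((i : ℕ) + 1 : ℕ)) := by
          have := fin_le i
          refine mul_nonneg (by positivity) ?_
          push_cast; linarith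
        rw [RCLike.star_def, Complex.conj_ofReal, ← Complex.ofReal_mul, Real.mul_self_sqrt h]
        push_cast; ring
      · intro k _ hk
        rw [if_neg]
        · simp
        · intro h
          apply hk
          ext; simp; omega
      · simp
    · have hi : (i : ℕ) = n := by have := i.2; omega
      rw [Finset.sum_eq_zero]
      · rw [hi]; simp
      · intro k _
        rw [if_neg (by have := k.2; omega)]; simp
  · apply Finset.sum_eq_zero
    intro k _
    by_cases h1 : (k : ℕ) = (i : ℕ) + 1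
    · rw [if_neg (c := (k : ℕ) = (j : ℕ) + 1)]
      · simp
      · intro h2; exact hij (Fin.ext (by omega))
    · rw [if_neg h1]; simp

/-- `[S⁺, S⁻] = 2 S³`. -/
lemma comm_raise_lower : (spinLower n)ᴴ * spinLower n - spinLower n * (spinLower n)ᴴ =
    (2 : ℂ) • spinZ n := by
  rw [raise_lower, lower_raise, Matrix.diagonal_sub, spinZ, ← Matrix.diagonal_smul]
  congr 1
  ext j
  simp only [Pi.smul_apply, smul_eq_mul]
  ring

/-- `[S³, S⁻] = - S⁻`. -/
lemma comm_z_lower : spinZ n * spinLower n - spinLower n * spinZ n = - spinLower n := by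
  ext i j
  rw [Matrix.sub_apply, Matrix.neg_apply, spinZ, Matrix.diagonal_mul, Matrix.mul_diagonal,
    spinLower_apply]
  split_ifs with h
  · rw [h]; push_cast; ring
  · simp

end Vale.Agent.P361.H
end

section

namespace Vale.Agent.P361.H

open Matrix

variable {ι : Type*} [Fintype ι] [DecidableEq ι]

lemma exists_diag (K : Matrix ι ι ℂ) (hK : K.IsHermitian) :
    ∃ (U : Matrix ι ι ℂ) (E : ι → ℝ), Uᴴ * U = 1 ∧ U * Uᴴ = 1 ∧
      K = U * diagonal (fun i => (E i : ℂ)) * Uᴴ ∧
      NormedSpace.exp K = U * diagonal (fun i => ((Real.exp (E i) : ℝ) : ℂ)) * Uᴴ := by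
  refine ⟨hK.eigenvectorUnitary, hK.eigenvalues, ?_, ?_, ?_, ?_⟩
  · exact Unitary.coe_star_mul_self _
  · exact Unitary.coe_mul_star_self _
  · have h := hK.spectral_theorem
    rw [Unitary.conjStarAlgAut_apply] at h
    exact h
  · have h := hK.spectral_theorem
    rw [Unitary.conjStarAlgAut_apply] at h
    have hU : (hK.eigenvectorUnitary : Matrix ι ι ℂ) * (star hK.eigenvectorUnitary : Matrix ι ι ℂ) = 1 :=
      Unitary.coe_mul_star_self _
    have hinv : (hK.eigenvectorUnitary : Matrix ι ι ℂ)⁻¹ =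
        (star (hK.eigenvectorUnitary : Matrix ι ι ℂ)) := Matrix.inv_eq_right_inv hU
    have hunit : IsUnit (hK.eigenvectorUnitary : Matrix ι ι ℂ) :=
      IsUnit.of_mul_eq_one _ hU
    have h2 := Matrix.exp_conj (hK.eigenvectorUnitary : Matrix ι ι ℂ)
      (diagonal (RCLike.ofReal ∘ hK.eigenvalues)) hunit
    rw [hinv] at h2
    rw [← h] at h2
    rw [h2, Matrix.exp_diagonal]
    have h3 : (NormedSpace.exp (RCLike.ofReal ∘ hK.eigenvalues) : ι → ℂ) =
        fun i => ((Real.exp (hK.eigenvalues i) : ℝ) : ℂ) := by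
      ext i
      rw [Pi.coe_exp]
      simp [Complex.exp_eq_exp_ℂ]
    rw [h3]
    rfl

/-- Trace of `X * exp K` in the eigenbasis. -/
lemma trace_mul_conj (U X : Matrix ι ι ℂ) (d : ι → ℂ) :
    trace (X * (U * diagonal d * Uᴴ)) = ∑ i, (Uᴴ * X * U) i i * d i := by
  rw [Matrix.mul_assoc U _ Uᴴ, ← Matrix.mul_assoc X U, ← Matrix.mul_assoc (X * U) _,
    Matrix.trace_mul_comm (X * U * _) Uᴴ, ← Matrix.mul_assoc, ← Matrix.mul_assoc]
  simp only [Matrix.trace, Matrix.diag_apply, Matrix.mul_diagonal]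

lemma mul_star_self' (z : ℂ) : z * star z = ((Complex.normSq z : ℝ) : ℂ) := by
  rw [Complex.star_def, Complex.mul_conj]

lemma star_mul_self'' (z : ℂ) : star z * z = ((Complex.normSq z : ℝ) : ℂ) := by
  rw [mul_comm, mul_star_self']

/-- Termwise log-sum bound. -/
lemma term_bound (a b r : ℝ) (ha : 0 < a) (hb : 0 < b) (hr : 0 < r) :
    (a - b) * Real.log r + (a - b * r) + (b - a / r) ≤ (a - b) * Real.log (a / b) := by
  have h1 : 1 - (b * r) / a ≤ Real.log (a / (b * r)) := by
    have := Real.one_sub_inv_le_log_of_pos (show 0 < a / (b * r) by positivity)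
    rwa [inv_div] at this
  have h2 : Real.log (a / (b * r)) ≤ a / (b * r) - 1 :=
    Real.log_le_sub_one_of_pos (by positivity)
  have h3 : Real.log (a / (b * r)) = Real.log (a / b) - Real.log r := by
    rw [← div_div, Real.log_div (by positivity) (by positivity)]
  rw [h3] at h1 h2
  have h4 : a * (1 - b * r / a) ≤ a * (Real.log (a / b) - Real.log r) :=
    mul_le_mul_of_nonneg_left h1 ha.le
  have h5 : b * (Real.log (a / b) - Real.log r) ≤ b * (a / (b * r) - 1) :=
    mul_le_mul_of_nonneg_left h2 hb.le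
  have h6 : a * (1 - b * r / a) = a - b * r := by field_simp
  have h7 : b * (a / (b * r) - 1) = a / r - b := by field_simp
  nlinarith

/-- Log-sum inequality in the form used below. -/
lemma logsum_diag (N : ι → ι → ℝ) (hN : ∀ i j, 0 ≤ N i j) (E : ι → ℝ) :
    ((∑ i, ∑ j, N i j * Real.exp (E i)) - (∑ i, ∑ j, N i j * Real.exp (E j))) *
      Real.log ((∑ i, ∑ j, N i j * Real.exp (E i)) / (∑ i, ∑ j, N i j * Real.exp (E j))) ≤
    ∑ i, ∑ j, N i j * ((E i - E j) * (Real.exp (E i) - Real.exp (E j))) := by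
  set P := ∑ i, ∑ j, N i j * Real.exp (E i) with hP
  set Q := ∑ i, ∑ j, N i j * Real.exp (E j) with hQ
  have hRHS : ∀ i j, 0 ≤ N i j * ((E i - E j) * (Real.exp (E i) - Real.exp (E j))) := by
    intro i j
    refine mul_nonneg (hN i j) ?_
    rcases le_total (E i) (E j) with h | h
    · exact mul_nonneg_of_nonpos_of_nonpos (by linarith) (by have := Real.exp_le_exp.2 h; linarith)
    · exact mul_nonneg (by linarith) (by have := Real.exp_le_exp.2 h; linarith)
  have hP0 : 0 ≤ P := Finset.sum_nonneg fun i _ => Finset.sum_nonneg fun j _ =>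
    mul_nonneg (hN i j) (Real.exp_pos _).le
  have hQ0 : 0 ≤ Q := Finset.sum_nonneg fun i _ => Finset.sum_nonneg fun j _ =>
    mul_nonneg (hN i j) (Real.exp_pos _).le
  rcases hP0.eq_or_lt with h | hPpos
  · have : P / Q = 0 := by rw [← h]; simp
    rw [this]
    simp only [Real.log_zero, mul_zero]
    exact Finset.sum_nonneg fun i _ => Finset.sum_nonneg fun j _ => hRHS i j
  rcases hQ0.eq_or_lt with h | hQpos
  · have : P / Q = 0 := by rw [← h]; simp
    rw [this]
    simp only [Real.log_zero, mul_zero]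
    exact Finset.sum_nonneg fun i _ => Finset.sum_nonneg fun j _ => hRHS i j
  have hr : 0 < P / Q := by positivity
  have key : ∀ i j, (N i j * Real.exp (E i) - N i j * Real.exp (E j)) * Real.log (P / Q)
      + (N i j * Real.exp (E i) - N i j * Real.exp (E j) * (P / Q))
      + (N i j * Real.exp (E j) - N i j * Real.exp (E i) / (P / Q)) ≤
      N i j * ((E i - E j) * (Real.exp (E i) - Real.exp (E j))) := by
    intro i j
    have := term_bound (Real.exp (E i)) (Real.exp (E j)) (P / Q) (Real.exp_pos _)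
      (Real.exp_pos _) hr
    rw [← Real.exp_sub, Real.log_exp] at this
    have h2 := mul_le_mul_of_nonneg_left this (hN i j)
    refine le_trans (le_of_eq ?_) (h2.trans (le_of_eq ?_)) <;> ring
  have hsum := Finset.sum_le_sum fun i (_ : i ∈ Finset.univ) =>
    Finset.sum_le_sum fun j (_ : j ∈ Finset.univ) => key i j
  refine le_trans (le_of_eq ?_) hsum
  have e1 : ∑ i, ∑ j, ((N i j * Real.exp (E i) - N i j * Real.exp (E j)) * Real.log (P / Q)
      + (N i j * Real.exp (E i) - N i j * Real.exp (E j) * (P / Q))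
      + (N i j * Real.exp (E j) - N i j * Real.exp (E i) / (P / Q))) =
      (P - Q) * Real.log (P / Q) + (P - Q * (P / Q)) + (Q - P / (P / Q)) := by
    have r : ∀ c₁ c₂ : ℝ, ∑ i, ∑ j, (N i j * Real.exp (E i) * c₁ + N i j * Real.exp (E j) * c₂) =
        P * c₁ + Q * c₂ := by
      intro c₁ c₂
      rw [hP, hQ, Finset.sum_mul, Finset.sum_mul, ← Finset.sum_add_distrib]
      refine Finset.sum_congr rfl fun i _ => ?_
      rw [Finset.sum_mul, Finset.sum_mul, ← Finset.sum_add_distrib]
    have r' := r (Real.log (P / Q) + 1 - (P / Q)⁻¹) (- Real.log (P / Q) - (P / Q) + 1)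
    calc _ = ∑ i, ∑ j, (N i j * Real.exp (E i) * (Real.log (P / Q) + 1 - (P / Q)⁻¹) +
          N i j * Real.exp (E j) * (- Real.log (P / Q) - (P / Q) + 1)) := by
          refine Finset.sum_congr rfl fun i _ => Finset.sum_congr rfl fun j _ => ?_
          rw [div_eq_mul_inv _ (P / Q)]; ring
      _ = _ := by rw [r', div_eq_mul_inv _ (P / Q)]; ring
  rw [e1]
  have h1 : Q * (P / Q) = P := by field_simp
  have h2 : P / (P / Q) = Q := by field_simp
  rw [h1, h2]; ring

/-- The key inequality: with `W = exp K`, `P = Tr (A Aᴴ W)`, `Q = Tr (Aᴴ A W)` and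
`C = Tr ([A, [-K, Aᴴ]] W)`, one has `(P - Q) log (P / Q) ≤ C`. -/
theorem logsum_trace (K : Matrix ι ι ℂ) (hK : K.IsHermitian) (A : Matrix ι ι ℂ) :
    ((trace (A * Aᴴ * NormedSpace.exp K)).re - (trace (Aᴴ * A * NormedSpace.exp K)).re) *
      Real.log ((trace (A * Aᴴ * NormedSpace.exp K)).re /
        (trace (Aᴴ * A * NormedSpace.exp K)).re) ≤
    (trace ((A * (Aᴴ * K - K * Aᴴ) - (Aᴴ * K - K * Aᴴ) * A) * NormedSpace.exp K)).re := by
  obtain ⟨U, E, hU1, hU2, hKd, hexp⟩ := exists_diag K hK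
  set B : Matrix ι ι ℂ := Uᴴ * A * U with hB
  have hBH : Bᴴ = Uᴴ * Aᴴ * U := by
    simp [hB, Matrix.conjTranspose_mul, Matrix.mul_assoc]
  have ins : ∀ X Y : Matrix ι ι ℂ, Uᴴ * (X * Y) * U = (Uᴴ * X * U) * (Uᴴ * Y * U) := by
    intro X Y
    calc Uᴴ * (X * Y) * U = Uᴴ * X * 1 * Y * U := by simp [Matrix.mul_assoc]
      _ = _ := by rw [← hU2]; simp only [Matrix.mul_assoc]
  have hKU : Uᴴ * K * U = diagonal (fun i => (E i : ℂ)) := by
    rw [hKd]
    calc Uᴴ * (U * diagonal (fun i => (E i : ℂ)) * Uᴴ) * U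
        = (Uᴴ * U) * diagonal (fun i => (E i : ℂ)) * (Uᴴ * U) := by
          simp only [Matrix.mul_assoc]
      _ = _ := by rw [hU1]; simp
  have hP : (trace (A * Aᴴ * NormedSpace.exp K)).re =
      ∑ i, ∑ j, Complex.normSq (B i j) * Real.exp (E i) := by
    rw [hexp, trace_mul_conj, ins, ← hB, ← hBH, Complex.re_sum]
    refine Finset.sum_congr rfl fun i _ => ?_
    have : (B * Bᴴ) i i = ∑ j, ((Complex.normSq (B i j) : ℝ) : ℂ) := by
      rw [Matrix.mul_apply]
      refine Finset.sum_congr rfl fun j _ => ?_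
      rw [Matrix.conjTranspose_apply, mul_star_self']
    rw [this, ← Complex.ofReal_sum, ← Complex.ofReal_mul, Complex.ofReal_re, Finset.sum_mul]
  have hQ : (trace (Aᴴ * A * NormedSpace.exp K)).re =
      ∑ i, ∑ j, Complex.normSq (B i j) * Real.exp (E j) := by
    rw [hexp, trace_mul_conj, ins, ← hB, ← hBH, Complex.re_sum, Finset.sum_comm]
    refine Finset.sum_congr rfl fun i _ => ?_
    have : (Bᴴ * B) i i = ∑ j, ((Complex.normSq (B j i) : ℝ) : ℂ) := by
      rw [Matrix.mul_apply]
      refine Finset.sum_congr rfl fun j _ => ?_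
      rw [Matrix.conjTranspose_apply, star_mul_self'']
    rw [this, ← Complex.ofReal_sum, ← Complex.ofReal_mul, Complex.ofReal_re, Finset.sum_mul]
  have hC : (trace ((A * (Aᴴ * K - K * Aᴴ) - (Aᴴ * K - K * Aᴴ) * A) * NormedSpace.exp K)).re =
      ∑ i, ∑ j, Complex.normSq (B i j) * ((E i - E j) * (Real.exp (E i) - Real.exp (E j))) := by
    have e1 : Uᴴ * (A * (Aᴴ * K - K * Aᴴ) - (Aᴴ * K - K * Aᴴ) * A) * U =
        B * (Bᴴ * diagonal (fun i => (E i : ℂ)) - diagonal (fun i => (E i : ℂ)) * Bᴴ) -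
        (Bᴴ * diagonal (fun i => (E i : ℂ)) - diagonal (fun i => (E i : ℂ)) * Bᴴ) * B := by
      rw [Matrix.mul_sub, Matrix.sub_mul, ins, ins, Matrix.mul_sub, Matrix.sub_mul, ins, ins,
        ← hB, ← hBH, hKU]
    have e2 : ∀ i j, (Bᴴ * diagonal (fun i => (E i : ℂ)) - diagonal (fun i => (E i : ℂ)) * Bᴴ) i j
        = star (B j i) * ((E j - E i : ℝ) : ℂ) := by
      intro i j
      rw [Matrix.sub_apply, Matrix.mul_diagonal, Matrix.diagonal_mul, Matrix.conjTranspose_apply]
      push_cast; ring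
    have e3 : ∀ i, (B * (Bᴴ * diagonal (fun i => (E i : ℂ)) -
        diagonal (fun i => (E i : ℂ)) * Bᴴ)) i i =
        ∑ j, ((Complex.normSq (B i j) * (E i - E j) : ℝ) : ℂ) := by
      intro i
      rw [Matrix.mul_apply]
      refine Finset.sum_congr rfl fun j _ => ?_
      rw [e2, ← mul_assoc, mul_star_self']; push_cast; ring
    have e4 : ∀ i, ((Bᴴ * diagonal (fun i => (E i : ℂ)) -
        diagonal (fun i => (E i : ℂ)) * Bᴴ) * B) i i =
        ∑ j, ((Complex.normSq (B j i) * (E j - E i) : ℝ) : ℂ) := by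
      intro i
      rw [Matrix.mul_apply]
      refine Finset.sum_congr rfl fun j _ => ?_
      rw [e2, mul_right_comm, star_mul_self'']; push_cast; ring
    have e5 : (trace ((A * (Aᴴ * K - K * Aᴴ) - (Aᴴ * K - K * Aᴴ) * A) * NormedSpace.exp K)).re =
        (∑ i, ∑ j, Complex.normSq (B i j) * (E i - E j) * Real.exp (E i)) -
        ∑ i, ∑ j, Complex.normSq (B j i) * (E j - E i) * Real.exp (E i) := by
      rw [hexp, trace_mul_conj, e1, Complex.re_sum, ← Finset.sum_sub_distrib]
      refine Finset.sum_congr rfl fun i _ => ?_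
      rw [Matrix.sub_apply, e3, e4, ← Complex.ofReal_sum, ← Complex.ofReal_sum,
        ← Complex.ofReal_sub, ← Complex.ofReal_mul, Complex.ofReal_re, sub_mul, Finset.sum_mul,
        Finset.sum_mul]
    rw [e5, Finset.sum_comm (f := fun x i =>
      Complex.normSq (B i x) * (E i - E x) * Real.exp (E x)), ← Finset.sum_sub_distrib]
    refine Finset.sum_congr rfl fun i _ => ?_
    rw [← Finset.sum_sub_distrib]
    refine Finset.sum_congr rfl fun j _ => ?_
    ring
  rw [hP, hQ, hC]
  exact logsum_diag _ (fun i j => Complex.normSq_nonneg _) E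

/-- Consequence of `(P - Q) log (P/Q) ≤ C`. -/
lemma lower_of_logsum (P Q C : ℝ) (hQ : 0 ≤ Q) (hb : 0 < P - Q)
    (h : (P - Q) * Real.log (P / Q) ≤ C) (hQ' : 0 < Q) :
    (P - Q) / (Real.exp (C / (P - Q)) - 1) ≤ Q := by
  have hP : 0 < P := by linarith
  have h1 : Real.log (P / Q) ≤ C / (P - Q) := by
    rw [le_div_iff₀ hb, mul_comm]; exact h
  have h2 : P / Q ≤ Real.exp (C / (P - Q)) := by
    rw [← Real.log_le_iff_le_exp (by positivity)]; exact h1
  have h3 : (P - Q) / Q ≤ Real.exp (C / (P - Q)) - 1 := by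
    rw [sub_div, div_self hQ'.ne']; linarith
  have h4 : 0 < (P - Q) / Q := by positivity
  rw [div_le_iff₀ (by linarith)]
  rw [div_le_iff₀ hQ'] at h3
  linarith

/-- `Tr (Tᴴ T e^K) ≥ 0`. -/
lemma trace_star_mul_exp_nonneg (K : Matrix ι ι ℂ) (hK : K.IsHermitian) (T : Matrix ι ι ℂ) :
    0 ≤ (trace (Tᴴ * T * NormedSpace.exp K)).re := by
  obtain ⟨U, E, hU1, hU2, hKd, hexp⟩ := exists_diag K hK
  have e : Uᴴ * (Tᴴ * T) * U = (T * U)ᴴ * (T * U) := by
    simp only [Matrix.conjTranspose_mul, Matrix.mul_assoc]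
  rw [hexp, trace_mul_conj, e, Complex.re_sum]
  refine Finset.sum_nonneg fun i _ => ?_
  have : ((T * U)ᴴ * (T * U)) i i = ∑ j, ((Complex.normSq ((T * U) j i) : ℝ) : ℂ) := by
    rw [Matrix.mul_apply]
    refine Finset.sum_congr rfl fun j _ => ?_
    rw [Matrix.conjTranspose_apply, star_mul_self'']
  rw [this, ← Complex.ofReal_sum, ← Complex.ofReal_mul, Complex.ofReal_re]
  exact mul_nonneg (Finset.sum_nonneg fun j _ => Complex.normSq_nonneg _) (Real.exp_pos _).le

/-- `Tr (Tᴴ T e^K) > 0` unless `T = 0`. -/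
lemma trace_star_mul_exp_pos (K : Matrix ι ι ℂ) (hK : K.IsHermitian) (T : Matrix ι ι ℂ)
    (hT : T ≠ 0) :
    0 < (trace (Tᴴ * T * NormedSpace.exp K)).re := by
  obtain ⟨U, E, hU1, hU2, hKd, hexp⟩ := exists_diag K hK
  have e : Uᴴ * (Tᴴ * T) * U = (T * U)ᴴ * (T * U) := by
    simp only [Matrix.conjTranspose_mul, Matrix.mul_assoc]
  have hTU : T * U ≠ 0 := by
    intro h
    apply hT
    calc T = T * (U * Uᴴ) := by rw [hU2, Matrix.mul_one]
      _ = 0 := by rw [← Matrix.mul_assoc, h, Matrix.zero_mul]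
  rw [hexp, trace_mul_conj, e, Complex.re_sum]
  have hdiag : ∀ i, (((T * U)ᴴ * (T * U)) i i * ((Real.exp (E i) : ℝ) : ℂ)).re =
      (∑ j, Complex.normSq ((T * U) j i)) * Real.exp (E i) := by
    intro i
    have : ((T * U)ᴴ * (T * U)) i i = ∑ j, ((Complex.normSq ((T * U) j i) : ℝ) : ℂ) := by
      rw [Matrix.mul_apply]
      refine Finset.sum_congr rfl fun j _ => ?_
      rw [Matrix.conjTranspose_apply, star_mul_self'']
    rw [this, ← Complex.ofReal_sum, ← Complex.ofReal_mul, Complex.ofReal_re]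
  simp only [hdiag]
  have hex : ∃ j i, (T * U) j i ≠ 0 := by
    by_contra hcon
    push Not at hcon
    exact hTU (Matrix.ext fun j i => hcon j i)
  obtain ⟨j, i, hji⟩ := hex
  refine Finset.sum_pos' (fun i _ => mul_nonneg
    (Finset.sum_nonneg fun j _ => Complex.normSq_nonneg _) (Real.exp_pos _).le)
    ⟨i, Finset.mem_univ _, mul_pos ?_ (Real.exp_pos _)⟩
  exact Finset.sum_pos' (fun j _ => Complex.normSq_nonneg _)
    ⟨j, Finset.mem_univ _, Complex.normSq_pos.2 hji⟩

lemma trace_exp_pos [Nonempty ι] (K : Matrix ι ι ℂ) (hK : K.IsHermitian) :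
    0 < (trace (NormedSpace.exp K)).re := by
  have := trace_star_mul_exp_pos K hK 1 one_ne_zero
  simpa using this

/-- Peierls–Bogoliubov inequality. -/
theorem peierls_bogoliubov [Nonempty ι] (A B : Matrix ι ι ℂ) (hA : A.IsHermitian)
    (hB : B.IsHermitian) :
    Real.log (trace (NormedSpace.exp A)).re +
      (trace ((B - A) * NormedSpace.exp A)).re / (trace (NormedSpace.exp A)).re ≤
      Real.log (trace (NormedSpace.exp B)).re := by
  obtain ⟨U, a, hU1, hU2, hAd, hexpA⟩ := exists_diag A hA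
  obtain ⟨V, b, hV1, hV2, hBd, hexpB⟩ := exists_diag B hB
  have hZA := trace_exp_pos A hA
  have hZB := trace_exp_pos B hB
  set G : Matrix ι ι ℂ := Uᴴ * V with hG
  have hG1 : G * Gᴴ = 1 := by
    rw [hG, Matrix.conjTranspose_mul, Matrix.conjTranspose_conjTranspose]
    calc Uᴴ * V * (Vᴴ * U) = Uᴴ * (V * Vᴴ) * U := by simp only [Matrix.mul_assoc]
      _ = 1 := by rw [hV2, Matrix.mul_one, hU1]
  have hG2 : Gᴴ * G = 1 := by
    rw [hG, Matrix.conjTranspose_mul, Matrix.conjTranspose_conjTranspose]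
    calc Vᴴ * U * (Uᴴ * V) = Vᴴ * (U * Uᴴ) * V := by simp only [Matrix.mul_assoc]
      _ = 1 := by rw [hU2, Matrix.mul_one, hV1]
  set s : ι → ι → ℝ := fun i j => Complex.normSq (G i j) with hs
  have hs0 : ∀ i j, 0 ≤ s i j := fun i j => Complex.normSq_nonneg _
  have hrow : ∀ i, ∑ j, s i j = 1 := by
    intro i
    have h := congrFun (congrFun hG1 i) i
    rw [Matrix.mul_apply, Matrix.one_apply_eq] at h
    have h2 : ∑ j, G i j * Gᴴ j i = ((∑ j, s i j : ℝ) : ℂ) := by
      rw [Complex.ofReal_sum]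
      refine Finset.sum_congr rfl fun j _ => ?_
      rw [Matrix.conjTranspose_apply, mul_star_self']
    rw [h2] at h
    exact_mod_cast h
  have hcol : ∀ j, ∑ i, s i j = 1 := by
    intro j
    have h := congrFun (congrFun hG2 j) j
    rw [Matrix.mul_apply, Matrix.one_apply_eq] at h
    have h2 : ∑ i, Gᴴ j i * G i j = ((∑ i, s i j : ℝ) : ℂ) := by
      rw [Complex.ofReal_sum]
      refine Finset.sum_congr rfl fun i _ => ?_
      rw [Matrix.conjTranspose_apply, star_mul_self'']
    rw [h2] at h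
    exact_mod_cast h
  have hUXU : ∀ X : Matrix ι ι ℂ, (trace (X * NormedSpace.exp A)).re =
      ∑ i, ((Uᴴ * X * U) i i * ((Real.exp (a i) : ℝ) : ℂ)).re := by
    intro X
    rw [hexpA, trace_mul_conj, Complex.re_sum]
  have hAA : Uᴴ * A * U = diagonal (fun i => (a i : ℂ)) := by
    rw [hAd]
    calc Uᴴ * (U * diagonal (fun i => (a i : ℂ)) * Uᴴ) * U
        = (Uᴴ * U) * diagonal (fun i => (a i : ℂ)) * (Uᴴ * U) := by
          simp only [Matrix.mul_assoc]
      _ = _ := by rw [hU1]; simp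
  have hBB : Uᴴ * B * U = G * diagonal (fun i => (b i : ℂ)) * Gᴴ := by
    rw [hBd, hG, Matrix.conjTranspose_mul, Matrix.conjTranspose_conjTranspose]
    simp only [Matrix.mul_assoc]
  have hZAs : (trace (NormedSpace.exp A)).re = ∑ i, ∑ j, s i j * Real.exp (a i) := by
    have h := hUXU 1
    rw [Matrix.one_mul, Matrix.mul_one, hU1] at h
    rw [h]
    refine Finset.sum_congr rfl fun i _ => ?_
    rw [Matrix.one_apply_eq, one_mul, Complex.ofReal_re, ← Finset.sum_mul, hrow, one_mul]
  have hZBs : (trace (NormedSpace.exp B)).re = ∑ i, ∑ j, s i j * Real.exp (b j) := by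
    have h1 : (trace (NormedSpace.exp B)).re = ∑ j, Real.exp (b j) := by
      have := trace_mul_conj V 1 (fun i => ((Real.exp (b i) : ℝ) : ℂ))
      rw [Matrix.one_mul, Matrix.mul_one, hV1] at this
      rw [hexpB, this, Complex.re_sum]
      refine Finset.sum_congr rfl fun i _ => ?_
      rw [Matrix.one_apply_eq, one_mul, Complex.ofReal_re]
    rw [h1, Finset.sum_comm]
    refine Finset.sum_congr rfl fun j _ => ?_
    rw [← Finset.sum_mul, hcol, one_mul]
  have hD : (trace ((B - A) * NormedSpace.exp A)).re =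
      ∑ i, ∑ j, s i j * Real.exp (a i) * (b j - a i) := by
    rw [hUXU]
    refine Finset.sum_congr rfl fun i _ => ?_
    rw [Matrix.mul_sub, Matrix.sub_mul, Matrix.sub_apply, hAA, hBB, Matrix.diagonal_apply_eq]
    have h1 : (G * diagonal (fun i => (b i : ℂ)) * Gᴴ) i i = ((∑ j, s i j * b j : ℝ) : ℂ) := by
      rw [Matrix.mul_apply, Complex.ofReal_sum]
      refine Finset.sum_congr rfl fun j _ => ?_
      rw [Matrix.mul_diagonal, Matrix.conjTranspose_apply, mul_right_comm, mul_star_self']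
      push_cast; rfl
    rw [h1, ← Complex.ofReal_sub, ← Complex.ofReal_mul, Complex.ofReal_re]
    have h2 : (∑ j, s i j * b j - a i) = ∑ j, s i j * (b j - a i) := by
      simp only [mul_sub, Finset.sum_sub_distrib, ← Finset.sum_mul, hrow, one_mul]
    rw [h2, Finset.sum_mul]
    refine Finset.sum_congr rfl fun j _ => ?_
    ring
  set ZA := (trace (NormedSpace.exp A)).re with hZAdef
  set ZB := (trace (NormedSpace.exp B)).re with hZBdef
  set D := (trace ((B - A) * NormedSpace.exp A)).re with hDdef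
  have hmain : ZA * Real.exp (D / ZA) ≤ ZB := by
    have hterm : ∀ i j, s i j * Real.exp (a i) * (Real.exp (D / ZA) * (1 + ((b j - a i) - D / ZA)))
        ≤ s i j * Real.exp (b j) := by
      intro i j
      have h1 : 1 + ((b j - a i) - D / ZA) ≤ Real.exp ((b j - a i) - D / ZA) := by
        have := Real.add_one_le_exp ((b j - a i) - D / ZA)
        linarith
      calc s i j * Real.exp (a i) * (Real.exp (D / ZA) * (1 + ((b j - a i) - D / ZA)))
          ≤ s i j * Real.exp (a i) * (Real.exp (D / ZA) * Real.exp ((b j - a i) - D / ZA)) := by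
            refine mul_le_mul_of_nonneg_left ?_ (mul_nonneg (hs0 i j) (Real.exp_pos _).le)
            exact mul_le_mul_of_nonneg_left h1 (Real.exp_pos _).le
        _ = s i j * Real.exp (b j) := by
            rw [mul_assoc, ← Real.exp_add, ← Real.exp_add]
            congr 2; ring
    have hsum := Finset.sum_le_sum fun i (_ : i ∈ Finset.univ) =>
      Finset.sum_le_sum fun j (_ : j ∈ Finset.univ) => hterm i j
    rw [← hZBs] at hsum
    refine le_trans (le_of_eq ?_) hsum
    have r : ∀ c₁ c₂ : ℝ, ∑ i, ∑ j, (s i j * Real.exp (a i) * c₁ +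
        s i j * Real.exp (a i) * (b j - a i) * c₂) = ZA * c₁ + D * c₂ := by
      intro c₁ c₂
      rw [hZAs, hD, Finset.sum_mul, Finset.sum_mul, ← Finset.sum_add_distrib]
      refine Finset.sum_congr rfl fun i _ => ?_
      rw [Finset.sum_mul, Finset.sum_mul, ← Finset.sum_add_distrib]
    calc ZA * Real.exp (D / ZA)
        = ZA * (Real.exp (D / ZA) * (1 - D / ZA)) + D * Real.exp (D / ZA) := by
          field_simp; ring
      _ = _ := by
          rw [← r]
          refine Finset.sum_congr rfl fun i _ => Finset.sum_congr rfl fun j _ => ?_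
          ring
  have h1 : 0 < ZA * Real.exp (D / ZA) := mul_pos hZA (Real.exp_pos _)
  have h2 := Real.log_le_log h1 hmain
  rwa [Real.log_mul hZA.ne' (Real.exp_pos _).ne', Real.log_exp] at h2

end Vale.Agent.P361.H
end

section

namespace Vale.Agent.P361.H

open Matrix

variable {n : ℕ} {Λ : Finset Site}

/-- Site spin operators. -/
noncomputable abbrev oZ (n : ℕ) {Λ : Finset Site} (x : Λ) :
    Matrix (Λ → Fin (n + 1)) (Λ → Fin (n + 1)) ℂ := siteOp x (spinZ n)
noncomputable abbrev oM (n : ℕ) {Λ : Finset Site} (x : Λ) :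
    Matrix (Λ → Fin (n + 1)) (Λ → Fin (n + 1)) ℂ := siteOp x (spinLower n)
noncomputable abbrev oP (n : ℕ) {Λ : Finset Site} (x : Λ) :
    Matrix (Λ → Fin (n + 1)) (Λ → Fin (n + 1)) ℂ := siteOp x (spinLower n)ᴴ
noncomputable abbrev oA (n : ℕ) {Λ : Finset Site} (x : Λ) :
    Matrix (Λ → Fin (n + 1)) (Λ → Fin (n + 1)) ℂ := siteOp x (schwA n)
noncomputable abbrev oB (n : ℕ) {Λ : Finset Site} (x : Λ) :
    Matrix (Λ → Fin (n + 1)) (Λ → Fin (n + 1)) ℂ := siteOp x (schwB n)

lemma oM_conj (x : Λ) : (oM n x)ᴴ = oP n x := siteOp_conjTranspose x _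

lemma oP_conj (x : Λ) : (oP n x)ᴴ = oM n x := by
  rw [siteOp_conjTranspose, Matrix.conjTranspose_conjTranspose]

lemma oZ_conj (x : Λ) : (oZ n x)ᴴ = oZ n x := by
  rw [siteOp_conjTranspose, spinZ_conj]

lemma oM_transpose (x : Λ) : (oM n x)ᵀ = oP n x := by
  rw [siteOp_transpose, spinLower_transpose]

lemma oP_transpose (x : Λ) : (oP n x)ᵀ = oM n x := by
  rw [← oM_transpose, Matrix.transpose_transpose]

lemma oZ_transpose (x : Λ) : (oZ n x)ᵀ = oZ n x := by
  rw [siteOp_transpose, spinZ_transpose]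

lemma comm_PM_same (x : Λ) : oP n x * oM n x = oM n x * oP n x + (2 : ℂ) • oZ n x := by
  rw [siteOp_mul, siteOp_mul, ← siteOp_smul, ← siteOp_add, ← comm_raise_lower]
  congr 1; abel

lemma comm_ZM_same (x : Λ) : oZ n x * oM n x = oM n x * oZ n x - oM n x := by
  rw [siteOp_mul, siteOp_mul, ← siteOp_sub]
  congr 1
  have := comm_z_lower (n := n)
  rw [sub_eq_iff_eq_add] at this
  rw [this]; abel

lemma comm_ZP_same (x : Λ) : oZ n x * oP n x = oP n x * oZ n x + oP n x := by
  have := congrArg Matrix.conjTranspose (comm_ZM_same (n := n) x)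
  simp only [Matrix.conjTranspose_mul, Matrix.conjTranspose_sub, oM_conj, oZ_conj] at this
  rw [this]; abel

/-- The interaction `S_x · S_y`. -/
noncomputable def dotOp (n : ℕ) {Λ : Finset Site} (x y : Λ) :
    Matrix (Λ → Fin (n + 1)) (Λ → Fin (n + 1)) ℂ :=
  ∑ a : Fin 3, siteOp x (spin n a) * siteOp y (spin n a)

lemma dotOp_eq (x y : Λ) :
    dotOp n x y = oZ n x * oZ n y + (1 / 2 : ℂ) • (oP n x * oM n y + oM n x * oP n y) := by
  have hI : (1 / (2 * Complex.I)) * (1 / (2 * Complex.I)) = (-(1 / 4) : ℂ) := by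
    field_simp
    rw [Complex.I_sq]; norm_num
  rw [dotOp, Fin.sum_univ_three]
  have h0 : spin n 0 = (1 / 2 : ℂ) • ((spinLower n)ᴴ + spinLower n) := rfl
  have h1 : spin n 1 = (1 / (2 * Complex.I) : ℂ) • ((spinLower n)ᴴ - spinLower n) := rfl
  have h2 : spin n 2 = spinZ n := rfl
  rw [h0, h1, h2]
  simp only [siteOp_smul, siteOp_add, siteOp_sub, smul_mul_smul_comm, hI]
  simp only [mul_add, add_mul, mul_sub, sub_mul, smul_add, smul_sub]
  module

lemma dotOp_comm {x y : Λ} (hxy : x ≠ y) : dotOp n x y = dotOp n y x := by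
  rw [dotOp, dotOp]
  exact Finset.sum_congr rfl fun a _ => siteOp_comm hxy _ _

/-- `∑ x, f x S⁻_x`. -/
noncomputable def modeOp (n : ℕ) {Λ : Finset Site} (f : Λ → ℂ) :
    Matrix (Λ → Fin (n + 1)) (Λ → Fin (n + 1)) ℂ := ∑ x, f x • oM n x

lemma modeOp_conj (f : Λ → ℂ) : (modeOp n f)ᴴ = ∑ x, star (f x) • oP n x := by
  rw [modeOp, Matrix.conjTranspose_sum]
  exact Finset.sum_congr rfl fun x _ => by rw [Matrix.conjTranspose_smul, oM_conj]

/-- `G_{xy} = S³_x S⁻_y - S⁻_x S³_y`. -/
noncomputable def gOp (n : ℕ) {Λ : Finset Site} (x y : Λ) :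
    Matrix (Λ → Fin (n + 1)) (Λ → Fin (n + 1)) ℂ := oZ n x * oM n y - oM n x * oZ n y

lemma comm_dot_third {x y z : Λ} (hzx : z ≠ x) (hzy : z ≠ y)
    (A : Matrix (Fin (n + 1)) (Fin (n + 1)) ℂ) :
    dotOp n x y * siteOp z A - siteOp z A * dotOp n x y = 0 := by
  rw [dotOp, Finset.sum_mul, Finset.mul_sum, ← Finset.sum_sub_distrib]
  refine Finset.sum_eq_zero fun a _ => ?_
  rw [mul_assoc, siteOp_comm hzy.symm, ← mul_assoc, siteOp_comm hzx.symm, mul_assoc, sub_self]

lemma comm_dot_first {x y : Λ} (hxy : x ≠ y) :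
    dotOp n x y * oM n x - oM n x * dotOp n x y = gOp n x y := by
  rw [dotOp_eq, gOp]
  have e1 : oZ n x * oZ n y * oM n x = (oM n x * oZ n x - oM n x) * oZ n y := by
    rw [mul_assoc, siteOp_comm hxy.symm, ← mul_assoc, comm_ZM_same]
  have e2 : oP n x * oM n y * oM n x = (oM n x * oP n x + (2 : ℂ) • oZ n x) * oM n y := by
    rw [mul_assoc, siteOp_comm hxy.symm, ← mul_assoc, comm_PM_same]
  have e3 : oM n x * oP n y * oM n x = oM n x * (oM n x * oP n y) := by
    rw [mul_assoc, siteOp_comm hxy.symm]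
  simp only [add_mul, mul_add, smul_mul_assoc, mul_smul_comm, smul_add, e1, e2, e3, sub_mul]
  simp only [mul_assoc]
  module

lemma gOp_swap {x y : Λ} (hxy : x ≠ y) : gOp n y x = - gOp n x y := by
  rw [gOp, gOp, siteOp_comm hxy.symm, siteOp_comm hxy.symm]
  abel

lemma comm_dot_second {x y : Λ} (hxy : x ≠ y) :
    dotOp n x y * oM n y - oM n y * dotOp n x y = - gOp n x y := by
  rw [dotOp_comm hxy, comm_dot_first hxy.symm, gOp_swap hxy]

lemma comm_dot_mode {x y : Λ} (hxy : x ≠ y) (f : Λ → ℂ) :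
    dotOp n x y * modeOp n f - modeOp n f * dotOp n x y = (f x - f y) • gOp n x y := by
  rw [modeOp, Finset.mul_sum, Finset.sum_mul, ← Finset.sum_sub_distrib]
  have hterm : ∀ z, dotOp n x y * f z • oM n z - f z • oM n z * dotOp n x y =
      f z • (dotOp n x y * oM n z - oM n z * dotOp n x y) := by
    intro z; rw [mul_smul_comm, smul_mul_assoc, smul_sub]
  simp only [hterm]
  rw [← Finset.add_sum_erase _ _ (Finset.mem_univ x), ← Finset.add_sum_erase _ _
    (show y ∈ Finset.univ.erase x from Finset.mem_erase.2 ⟨hxy.symm, Finset.mem_univ _⟩),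
    Finset.sum_eq_zero, comm_dot_first hxy, comm_dot_second hxy]
  · module
  · intro z hz
    have hzy : z ≠ y := (Finset.mem_erase.1 hz).1
    have hzx : z ≠ x := (Finset.mem_erase.1 (Finset.mem_erase.1 hz).2).1
    rw [comm_dot_third hzx hzy, smul_zero]

lemma comm_P_g_first {x y : Λ} (hxy : x ≠ y) :
    oP n x * gOp n x y - gOp n x y * oP n x =
      -(oP n x * oM n y) - (2 : ℂ) • (oZ n x * oZ n y) := by
  rw [gOp]
  have e1 : oZ n x * oM n y * oP n x = (oP n x * oZ n x + oP n x) * oM n y := by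
    rw [mul_assoc, siteOp_comm hxy.symm, ← mul_assoc, comm_ZP_same]
  have e2 : oM n x * oZ n y * oP n x = (oP n x * oM n x - (2 : ℂ) • oZ n x) * oZ n y := by
    rw [mul_assoc, siteOp_comm hxy.symm, ← mul_assoc, comm_PM_same, add_sub_cancel_right]
  simp only [mul_sub, sub_mul, e1, e2, add_mul, smul_mul_assoc]
  simp only [mul_assoc]
  module

lemma comm_P_g_second {x y : Λ} (hxy : x ≠ y) :
    oP n y * gOp n x y - gOp n x y * oP n y =
      (oM n x * oP n y) + (2 : ℂ) • (oZ n x * oZ n y) := by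
  rw [gOp]
  have e1 : oP n y * (oZ n x * oM n y) = oZ n x * (oM n y * oP n y + (2 : ℂ) • oZ n y) := by
    rw [← mul_assoc, siteOp_comm hxy.symm, mul_assoc, comm_PM_same]
  have e2 : oP n y * (oM n x * oZ n y) = oM n x * (oZ n y * oP n y - oP n y) := by
    rw [← mul_assoc, siteOp_comm hxy.symm, mul_assoc, comm_ZP_same, add_sub_cancel_right]
  simp only [mul_sub, sub_mul, e1, e2, mul_add, mul_smul_comm]
  simp only [mul_assoc]
  module

lemma comm_P_g_third {x y z : Λ} (hzx : z ≠ x) (hzy : z ≠ y) :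
    oP n z * gOp n x y - gOp n x y * oP n z = 0 := by
  rw [gOp]
  have e1 : oP n z * (oZ n x * oM n y) = oZ n x * oM n y * oP n z := by
    rw [← mul_assoc, siteOp_comm hzx, mul_assoc, siteOp_comm hzy, mul_assoc]
  have e2 : oP n z * (oM n x * oZ n y) = oM n x * oZ n y * oP n z := by
    rw [← mul_assoc, siteOp_comm hzx, mul_assoc, siteOp_comm hzy, mul_assoc]
  rw [mul_sub, sub_mul, e1, e2, sub_self]

lemma comm_mode_g {x y : Λ} (hxy : x ≠ y) (f : Λ → ℂ) :
    (modeOp n f)ᴴ * gOp n x y - gOp n x y * (modeOp n f)ᴴ =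
      star (f x) • (-(oP n x * oM n y) - (2 : ℂ) • (oZ n x * oZ n y)) +
      star (f y) • ((oM n x * oP n y) + (2 : ℂ) • (oZ n x * oZ n y)) := by
  rw [modeOp_conj, Finset.mul_sum, Finset.sum_mul, ← Finset.sum_sub_distrib]
  have hterm : ∀ z, star (f z) • oP n z * gOp n x y - gOp n x y * star (f z) • oP n z =
      star (f z) • (oP n z * gOp n x y - gOp n x y * oP n z) := by
    intro z; rw [mul_smul_comm, smul_mul_assoc, smul_sub]
  simp only [hterm]
  rw [← Finset.add_sum_erase _ _ (Finset.mem_univ x), ← Finset.add_sum_erase _ _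
    (show y ∈ Finset.univ.erase x from Finset.mem_erase.2 ⟨hxy.symm, Finset.mem_univ _⟩),
    Finset.sum_eq_zero, comm_P_g_first hxy, comm_P_g_second hxy, add_zero]
  intro z hz
  have hzy : z ≠ y := (Finset.mem_erase.1 hz).1
  have hzx : z ≠ x := (Finset.mem_erase.1 (Finset.mem_erase.1 hz).2).1
  rw [comm_P_g_third hzx hzy, smul_zero]

/-- `[T*, [S_x·S_y, T]]`. -/
lemma double_comm_dot {x y : Λ} (hxy : x ≠ y) (f : Λ → ℂ) :
    (modeOp n f)ᴴ * (dotOp n x y * modeOp n f - modeOp n f * dotOp n x y) -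
      (dotOp n x y * modeOp n f - modeOp n f * dotOp n x y) * (modeOp n f)ᴴ =
      (f x - f y) • (star (f x) • (-(oP n x * oM n y) - (2 : ℂ) • (oZ n x * oZ n y)) +
      star (f y) • ((oM n x * oP n y) + (2 : ℂ) • (oZ n x * oZ n y))) := by
  rw [comm_dot_mode hxy, ← comm_mode_g hxy, mul_smul_comm, smul_mul_assoc, smul_sub]

/-- `S² - S_x·S_y = ½ T† T`. -/
lemma dot_sos {x y : Λ} (hxy : x ≠ y) :
    (oA n x * oB n y - oB n x * oA n y)ᴴ * (oA n x * oB n y - oB n x * oA n y) =
      (2 * ((n : ℂ) / 2) ^ 2) • (1 : Matrix (Λ → Fin (n + 1)) (Λ → Fin (n + 1)) ℂ)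
        - (2 : ℂ) • dotOp n x y := by
  have hAA : ∀ z : Λ, (oA n z)ᴴ * oA n z = ((n : ℂ) / 2) • (1 : Matrix _ _ ℂ) + oZ n z := by
    intro z
    rw [siteOp_conjTranspose, siteOp_mul, schwA_schwA, siteOp_add, siteOp_smul, siteOp_one]
  have hBB : ∀ z : Λ, (oB n z)ᴴ * oB n z = ((n : ℂ) / 2) • (1 : Matrix _ _ ℂ) - oZ n z := by
    intro z
    rw [siteOp_conjTranspose, siteOp_mul, schwB_schwB, siteOp_sub, siteOp_smul, siteOp_one]
  have hAB : ∀ z : Λ, (oA n z)ᴴ * oB n z = oP n z := by
    intro z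
    rw [siteOp_conjTranspose, siteOp_mul, schwA_schwB]
  have hBA : ∀ z : Λ, (oB n z)ᴴ * oA n z = oM n z := by
    intro z
    rw [siteOp_conjTranspose, siteOp_mul, schwB_schwA]
  have sw : ∀ (P Q R T : Matrix (Fin (n + 1)) (Fin (n + 1)) ℂ),
      (siteOp x P * siteOp y Q)ᴴ * (siteOp x R * siteOp y T) =
      ((siteOp x P)ᴴ * siteOp x R) * ((siteOp y Q)ᴴ * siteOp y T) := by
    intro P Q R T
    rw [Matrix.conjTranspose_mul, siteOp_conjTranspose, siteOp_conjTranspose,
      siteOp_comm hxy.symm, mul_assoc, ← mul_assoc (siteOp y Qᴴ), siteOp_comm hxy.symm]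
    simp only [mul_assoc]
  rw [Matrix.conjTranspose_sub, sub_mul, mul_sub, mul_sub, sw, sw, sw, sw, hAA, hBB, hAB, hBA,
    hAA, hBB, hAB, hBA, dotOp_eq]
  simp only [add_mul, mul_add, sub_mul, mul_sub, smul_mul_assoc, mul_smul_comm, Matrix.mul_one,
    Matrix.one_mul, smul_add, smul_sub, smul_smul]
  module

lemma zz_sos {x y : Λ} (hxy : x ≠ y) :
    (oA n x * oB n y)ᴴ * (oA n x * oB n y) + (oB n x * oA n y)ᴴ * (oB n x * oA n y) =
      (2 * ((n : ℂ) / 2) ^ 2) • (1 : Matrix (Λ → Fin (n + 1)) (Λ → Fin (n + 1)) ℂ)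
        - (2 : ℂ) • (oZ n x * oZ n y) := by
  have hAA : ∀ z : Λ, (oA n z)ᴴ * oA n z = ((n : ℂ) / 2) • (1 : Matrix _ _ ℂ) + oZ n z := by
    intro z
    rw [siteOp_conjTranspose, siteOp_mul, schwA_schwA, siteOp_add, siteOp_smul, siteOp_one]
  have hBB : ∀ z : Λ, (oB n z)ᴴ * oB n z = ((n : ℂ) / 2) • (1 : Matrix _ _ ℂ) - oZ n z := by
    intro z
    rw [siteOp_conjTranspose, siteOp_mul, schwB_schwB, siteOp_sub, siteOp_smul, siteOp_one]
  have sw : ∀ (P Q R T : Matrix (Fin (n + 1)) (Fin (n + 1)) ℂ),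
      (siteOp x P * siteOp y Q)ᴴ * (siteOp x R * siteOp y T) =
      ((siteOp x P)ᴴ * siteOp x R) * ((siteOp y Q)ᴴ * siteOp y T) := by
    intro P Q R T
    rw [Matrix.conjTranspose_mul, siteOp_conjTranspose, siteOp_conjTranspose,
      siteOp_comm hxy.symm, mul_assoc, ← mul_assoc (siteOp y Qᴴ), siteOp_comm hxy.symm]
    simp only [mul_assoc]
  rw [sw, sw, hAA, hBB, hAA, hBB]
  simp only [add_mul, mul_add, sub_mul, mul_sub, smul_mul_assoc, mul_smul_comm, Matrix.mul_one,
    Matrix.one_mul, smul_add, smul_sub, smul_smul]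
  module

end Vale.Agent.P361.H
end

section

namespace Vale.Agent.P361.H

open Matrix

variable {n : ℕ} {Λ : Finset Site}

lemma isNN_ne {x y : Λ} (h : IsNN x.1 y.1) : x ≠ y := by
  rintro rfl
  simp [IsNN] at h

lemma isNN_symm {x y : Site} (h : IsNN x y) : IsNN y x := by
  unfold IsNN at *
  rw [← h]
  exact Finset.sum_congr rfl fun i _ => abs_sub_comm _ _

lemma hamiltonian_eq : hamiltonian n Λ =
    -((1 / 2 : ℂ) • ∑ x : Λ, ∑ y : Λ, if IsNN x.1 y.1 then dotOp n x y else 0) := rfl

lemma magnetization_eq : magnetization n Λ = ∑ x : Λ, oZ n x := rfl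

lemma dotOp_conj {x y : Λ} (hxy : x ≠ y) : (dotOp n x y)ᴴ = dotOp n x y := by
  rw [dotOp_eq, Matrix.conjTranspose_add, Matrix.conjTranspose_smul, Matrix.conjTranspose_add,
    Matrix.conjTranspose_mul, Matrix.conjTranspose_mul, Matrix.conjTranspose_mul, oZ_conj, oZ_conj,
    oM_conj, oM_conj, oP_conj, oP_conj, siteOp_comm hxy.symm, siteOp_comm hxy.symm,
    siteOp_comm hxy.symm]
  have : star (1 / 2 : ℂ) = 1 / 2 := by simp
  rw [this, add_comm (oM n x * oP n y)]

lemma dotOp_transpose {x y : Λ} (hxy : x ≠ y) : (dotOp n x y)ᵀ = dotOp n x y := by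
  rw [dotOp_eq, Matrix.transpose_add, Matrix.transpose_smul, Matrix.transpose_add,
    Matrix.transpose_mul, Matrix.transpose_mul, Matrix.transpose_mul, oZ_transpose, oZ_transpose,
    oM_transpose, oM_transpose, oP_transpose, oP_transpose, siteOp_comm hxy.symm,
    siteOp_comm hxy.symm, siteOp_comm hxy.symm]
  rw [add_comm (oM n x * oP n y)]

lemma hamiltonian_conj : (hamiltonian n Λ)ᴴ = hamiltonian n Λ := by
  rw [hamiltonian_eq, Matrix.conjTranspose_neg, Matrix.conjTranspose_smul,
    Matrix.conjTranspose_sum]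
  have : star (1 / 2 : ℂ) = 1 / 2 := by simp
  rw [this]
  congr 2
  refine Finset.sum_congr rfl fun x _ => ?_
  rw [Matrix.conjTranspose_sum]
  refine Finset.sum_congr rfl fun y _ => ?_
  split_ifs with h
  · exact dotOp_conj (isNN_ne h)
  · exact Matrix.conjTranspose_zero

lemma hamiltonian_transpose : (hamiltonian n Λ)ᵀ = hamiltonian n Λ := by
  rw [hamiltonian_eq, Matrix.transpose_neg, Matrix.transpose_smul,
    Matrix.transpose_sum]
  congr 2
  refine Finset.sum_congr rfl fun x _ => ?_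
  rw [Matrix.transpose_sum]
  refine Finset.sum_congr rfl fun y _ => ?_
  split_ifs with h
  · exact dotOp_transpose (isNN_ne h)
  · exact Matrix.transpose_zero

lemma magnetization_conj : (magnetization n Λ)ᴴ = magnetization n Λ := by
  rw [magnetization_eq, Matrix.conjTranspose_sum]
  exact Finset.sum_congr rfl fun x _ => oZ_conj x

lemma magnetization_transpose : (magnetization n Λ)ᵀ = magnetization n Λ := by
  rw [magnetization_eq, Matrix.transpose_sum]
  exact Finset.sum_congr rfl fun x _ => oZ_transpose x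

/-- The exponent `-β (H - h M)`. -/
noncomputable def expo (n : ℕ) (Λ : Finset Site) (β h : ℝ) :
    Matrix (Λ → Fin (n + 1)) (Λ → Fin (n + 1)) ℂ :=
  -(β : ℂ) • (hamiltonian n Λ - (h : ℂ) • magnetization n Λ)

lemma expo_isHermitian (β h : ℝ) : (expo n Λ β h).IsHermitian := by
  unfold Matrix.IsHermitian expo
  rw [Matrix.conjTranspose_smul, Matrix.conjTranspose_sub, Matrix.conjTranspose_smul,
    hamiltonian_conj, magnetization_conj]
  simp

lemma expo_transpose (β h : ℝ) : (expo n Λ β h)ᵀ = expo n Λ β h := by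
  unfold expo
  rw [Matrix.transpose_smul, Matrix.transpose_sub, Matrix.transpose_smul,
    hamiltonian_transpose, magnetization_transpose]

/-- Partition function. -/
noncomputable def partZ (n : ℕ) (Λ : Finset Site) (β h : ℝ) : ℝ :=
  (trace (NormedSpace.exp (expo n Λ β h))).re

/-- Unnormalized expectation `Re Tr (X e^{-β(H-hM)})`. -/
noncomputable def tr (n : ℕ) (Λ : Finset Site) (β h : ℝ)
    (X : Matrix (Λ → Fin (n + 1)) (Λ → Fin (n + 1)) ℂ) : ℝ :=
  (trace (X * NormedSpace.exp (expo n Λ β h))).re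

lemma partZ_pos (β h : ℝ) : 0 < partZ n Λ β h := trace_exp_pos _ (expo_isHermitian β h)

lemma tr_add (β h : ℝ) (X Y : Matrix (Λ → Fin (n + 1)) (Λ → Fin (n + 1)) ℂ) :
    tr n Λ β h (X + Y) = tr n Λ β h X + tr n Λ β h Y := by
  simp [tr, Matrix.add_mul]

lemma tr_sub (β h : ℝ) (X Y : Matrix (Λ → Fin (n + 1)) (Λ → Fin (n + 1)) ℂ) :
    tr n Λ β h (X - Y) = tr n Λ β h X - tr n Λ β h Y := by
  simp [tr, Matrix.sub_mul]

lemma tr_neg (β h : ℝ) (X : Matrix (Λ → Fin (n + 1)) (Λ → Fin (n + 1)) ℂ) :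
    tr n Λ β h (-X) = - tr n Λ β h X := by
  simp [tr]

lemma tr_smul (β h : ℝ) (c : ℝ) (X : Matrix (Λ → Fin (n + 1)) (Λ → Fin (n + 1)) ℂ) :
    tr n Λ β h ((c : ℂ) • X) = c * tr n Λ β h X := by
  simp [tr]

lemma tr_sum {ι : Type*} (s : Finset ι) (β h : ℝ)
    (X : ι → Matrix (Λ → Fin (n + 1)) (Λ → Fin (n + 1)) ℂ) :
    tr n Λ β h (∑ i ∈ s, X i) = ∑ i ∈ s, tr n Λ β h (X i) := by
  simp [tr, Finset.sum_mul, Matrix.trace_sum, Complex.re_sum]

lemma tr_one (β h : ℝ) : tr n Λ β h 1 = partZ n Λ β h := by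
  simp [tr, partZ]

lemma tr_zero (β h : ℝ) : tr n Λ β h 0 = 0 := by
  simp [tr]

lemma tr_star_mul_nonneg (β h : ℝ) (X : Matrix (Λ → Fin (n + 1)) (Λ → Fin (n + 1)) ℂ) :
    0 ≤ tr n Λ β h (Xᴴ * X) := trace_star_mul_exp_nonneg _ (expo_isHermitian β h) X

/-- Invariance of traces under transposition. -/
lemma trace_transpose_exp (β h : ℝ) (X : Matrix (Λ → Fin (n + 1)) (Λ → Fin (n + 1)) ℂ) :
    trace (Xᵀ * NormedSpace.exp (expo n Λ β h)) = trace (X * NormedSpace.exp (expo n Λ β h)) := by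
  conv_rhs => rw [← Matrix.trace_transpose, Matrix.transpose_mul, ← Matrix.exp_transpose,
    expo_transpose, Matrix.trace_mul_comm]

lemma trace_conjTranspose_exp (β h : ℝ) (X : Matrix (Λ → Fin (n + 1)) (Λ → Fin (n + 1)) ℂ) :
    trace (Xᴴ * NormedSpace.exp (expo n Λ β h)) =
      star (trace (X * NormedSpace.exp (expo n Λ β h))) := by
  rw [← Matrix.trace_conjTranspose, Matrix.conjTranspose_mul, ← Matrix.exp_conjTranspose,
    (expo_isHermitian β h).eq, Matrix.trace_mul_comm]

lemma trace_PM_comm {x y : Λ} (hxy : x ≠ y) (β h : ℝ) :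
    trace (oP n x * oM n y * NormedSpace.exp (expo n Λ β h)) =
    trace (oM n x * oP n y * NormedSpace.exp (expo n Λ β h)) := by
  rw [← trace_transpose_exp, Matrix.transpose_mul, oM_transpose, oP_transpose,
    siteOp_comm hxy.symm]

lemma trace_PM_real {x y : Λ} (hxy : x ≠ y) (β h : ℝ) :
    trace (oP n x * oM n y * NormedSpace.exp (expo n Λ β h)) =
    ((tr n Λ β h (oP n x * oM n y) : ℝ) : ℂ) := by
  have h1 : star (trace (oP n x * oM n y * NormedSpace.exp (expo n Λ β h))) =
      trace (oP n x * oM n y * NormedSpace.exp (expo n Λ β h)) := by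
    rw [← trace_conjTranspose_exp, Matrix.conjTranspose_mul, oM_conj, oP_conj,
      siteOp_comm hxy.symm, ← trace_PM_comm hxy]
  exact (Complex.conj_eq_iff_re.1 h1).symm

lemma trace_ZZ_real {x y : Λ} (hxy : x ≠ y) (β h : ℝ) :
    trace (oZ n x * oZ n y * NormedSpace.exp (expo n Λ β h)) =
    ((tr n Λ β h (oZ n x * oZ n y) : ℝ) : ℂ) := by
  have h1 : star (trace (oZ n x * oZ n y * NormedSpace.exp (expo n Λ β h))) =
      trace (oZ n x * oZ n y * NormedSpace.exp (expo n Λ β h)) := by
    rw [← trace_conjTranspose_exp, Matrix.conjTranspose_mul, oZ_conj, oZ_conj,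
      siteOp_comm hxy.symm]
  exact (Complex.conj_eq_iff_re.1 h1).symm

/-- Expectation of the double commutator with `S_x·S_y`. -/
lemma tr_double_comm_dot {x y : Λ} (hxy : x ≠ y) (f : Λ → ℂ) (β h : ℝ) :
    tr n Λ β h ((modeOp n f)ᴴ * (dotOp n x y * modeOp n f - modeOp n f * dotOp n x y) -
      (dotOp n x y * modeOp n f - modeOp n f * dotOp n x y) * (modeOp n f)ᴴ) =
    - Complex.normSq (f x - f y) * (tr n Λ β h (dotOp n x y) + tr n Λ β h (oZ n x * oZ n y)) := by
  have hdot : tr n Λ β h (dotOp n x y) = tr n Λ β h (oZ n x * oZ n y) +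
      tr n Λ β h (oP n x * oM n y) := by
    rw [dotOp_eq, tr_add]
    congr 1
    have : ((1 / 2 : ℂ)) = (((1 / 2 : ℝ)) : ℂ) := by push_cast; rfl
    rw [this, tr_smul, tr_add]
    have h2 : tr n Λ β h (oM n x * oP n y) = tr n Λ β h (oP n x * oM n y) := by
      unfold tr; rw [trace_PM_comm hxy]
    rw [h2]; ring
  rw [double_comm_dot hxy, hdot]
  unfold tr
  rw [smul_mul_assoc, Matrix.trace_smul, Matrix.add_mul, Matrix.trace_add, smul_mul_assoc,
    smul_mul_assoc, Matrix.trace_smul, Matrix.trace_smul, Matrix.sub_mul, Matrix.add_mul,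
    Matrix.trace_sub, Matrix.trace_add, Matrix.neg_mul, Matrix.trace_neg, smul_mul_assoc,
    Matrix.trace_smul, ← trace_PM_comm hxy, trace_PM_real hxy, trace_ZZ_real hxy]
  set p := tr n Λ β h (oP n x * oM n y) with hp
  set q := tr n Λ β h (oZ n x * oZ n y) with hq
  have e : (f x - f y) • (star (f x) • (-(p : ℂ) - (2 : ℂ) • (q : ℂ)) +
      star (f y) • ((p : ℂ) + (2 : ℂ) • (q : ℂ))) =
      ((- Complex.normSq (f x - f y) * (p + 2 * q) : ℝ) : ℂ) := by
    have h3 := mul_star_self' (f x - f y)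
    push_cast
    rw [← h3]
    simp only [smul_eq_mul, star_sub]
    ring
  rw [e, Complex.ofReal_re, Complex.ofReal_re, Complex.ofReal_re]
  ring

lemma tr_dot_le {x y : Λ} (hxy : x ≠ y) (β h : ℝ) :
    tr n Λ β h (dotOp n x y) ≤ ((n : ℝ) / 2) ^ 2 * partZ n Λ β h := by
  have h1 := tr_star_mul_nonneg β h (oA n x * oB n y - oB n x * oA n y)
  rw [dot_sos hxy] at h1
  have e1 : (2 * ((n : ℂ) / 2) ^ 2) = (((2 * ((n : ℝ) / 2) ^ 2 : ℝ)) : ℂ) := by push_cast; rfl
  have e2 : (2 : ℂ) = ((2 : ℝ) : ℂ) := by push_cast; rfl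
  rw [e1, e2, tr_sub, tr_smul, tr_smul, tr_one] at h1
  linarith

lemma tr_zz_le {x y : Λ} (hxy : x ≠ y) (β h : ℝ) :
    tr n Λ β h (oZ n x * oZ n y) ≤ ((n : ℝ) / 2) ^ 2 * partZ n Λ β h := by
  have h1 := tr_star_mul_nonneg β h (oA n x * oB n y)
  have h2 := tr_star_mul_nonneg β h (oB n x * oA n y)
  have h3 := add_nonneg h1 h2
  rw [← tr_add, zz_sos hxy] at h3
  have e1 : (2 * ((n : ℂ) / 2) ^ 2) = (((2 * ((n : ℝ) / 2) ^ 2 : ℝ)) : ℂ) := by push_cast; rfl
  have e2 : (2 : ℂ) = ((2 : ℝ) : ℂ) := by push_cast; rfl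
  rw [e1, e2, tr_sub, tr_smul, tr_smul, tr_one] at h3
  linarith

/-- `[T*, T] = 2 ∑ |f|² S³`. -/
lemma comm_mode_mode (f : Λ → ℂ) :
    (modeOp n f)ᴴ * modeOp n f - modeOp n f * (modeOp n f)ᴴ =
      ∑ x, ((2 * Complex.normSq (f x) : ℝ) : ℂ) • oZ n x := by
  rw [modeOp_conj, modeOp, Finset.sum_mul_sum, Finset.sum_mul_sum]
  have hsw : ∑ i : Λ, ∑ j : Λ, f i • oM n i * star (f j) • oP n j =
      ∑ i : Λ, ∑ j : Λ, f j • oM n j * star (f i) • oP n i := Finset.sum_comm
  rw [hsw, ← Finset.sum_sub_distrib]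
  refine Finset.sum_congr rfl fun x _ => ?_
  rw [← Finset.sum_sub_distrib, Finset.sum_eq_single x]
  · rw [smul_mul_smul_comm, smul_mul_smul_comm, comm_PM_same, smul_add, smul_smul,
      mul_comm (f x), add_sub_cancel_left, star_mul_self'']
    congr 1
    push_cast; ring
  · intro y _ hyx
    rw [smul_mul_smul_comm, smul_mul_smul_comm, siteOp_comm hyx, mul_comm (f y), sub_self]
  · simp

/-- `[M, T] = -T`. -/
lemma comm_mag_mode (f : Λ → ℂ) :
    magnetization n Λ * modeOp n f - modeOp n f * magnetization n Λ = - modeOp n f := by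
  rw [magnetization_eq, modeOp, Finset.sum_mul_sum, Finset.sum_mul_sum]
  have hsw : ∑ i : Λ, ∑ j : Λ, f i • oM n i * oZ n j =
      ∑ i : Λ, ∑ j : Λ, f j • oM n j * oZ n i := Finset.sum_comm
  rw [hsw, ← Finset.sum_sub_distrib, ← Finset.sum_neg_distrib]
  refine Finset.sum_congr rfl fun x _ => ?_
  rw [← Finset.sum_sub_distrib, Finset.sum_eq_single x]
  · rw [mul_smul_comm, smul_mul_assoc, comm_ZM_same, smul_sub]
    abel
  · intro y _ hyx
    rw [mul_smul_comm, smul_mul_assoc, siteOp_comm hyx, sub_self]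
  · simp

/-- The double commutator bound for a mode `f`. -/
lemma tr_double_comm_le (f : Λ → ℂ) {β : ℝ} (hβ : 0 ≤ β) (h : ℝ) :
    tr n Λ β h ((modeOp n f)ᴴ * (modeOp n f * expo n Λ β h - expo n Λ β h * modeOp n f) -
      (modeOp n f * expo n Λ β h - expo n Λ β h * modeOp n f) * (modeOp n f)ᴴ) ≤
    β * (((n : ℝ) / 2) ^ 2 * (∑ x : Λ, ∑ y : Λ, if IsNN x.1 y.1 then
      Complex.normSq (f x - f y) else 0) * partZ n Λ β h +
      h * tr n Λ β h ((modeOp n f)ᴴ * modeOp n f - modeOp n f * (modeOp n f)ᴴ)) := by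
  set T := modeOp n f with hT
  have e1 : T * expo n Λ β h - expo n Λ β h * T =
      (β : ℂ) • ((hamiltonian n Λ * T - T * hamiltonian n Λ) + (h : ℂ) • T) := by
    have := comm_mag_mode (n := n) f
    rw [← hT] at this
    rw [expo]
    have h2 : magnetization n Λ * T = T * magnetization n Λ - T := by
      rw [sub_eq_iff_eq_add] at this; rw [this]; abel
    simp only [mul_smul_comm, smul_mul_assoc, mul_sub, sub_mul, h2]
    module
  have e2 : hamiltonian n Λ * T - T * hamiltonian n Λ =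
      ∑ x : Λ, ∑ y : Λ, if IsNN x.1 y.1 then
        (-(1 / 2) : ℂ) • (dotOp n x y * T - T * dotOp n x y) else 0 := by
    rw [hamiltonian_eq]
    simp only [neg_mul, mul_neg, smul_mul_assoc, mul_smul_comm, Finset.sum_mul, Finset.mul_sum,
      Finset.smul_sum]
    rw [← neg_sub_neg, neg_neg, neg_neg, ← Finset.sum_sub_distrib]
    refine Finset.sum_congr rfl fun x _ => ?_
    rw [← Finset.sum_sub_distrib]
    refine Finset.sum_congr rfl fun y _ => ?_
    split_ifs
    · module
    · simp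
  have e3 : Tᴴ * (T * expo n Λ β h - expo n Λ β h * T) -
      (T * expo n Λ β h - expo n Λ β h * T) * Tᴴ =
      (β : ℂ) • ((∑ x : Λ, ∑ y : Λ, if IsNN x.1 y.1 then
        (((-(1 / 2) : ℝ)) : ℂ) • (Tᴴ * (dotOp n x y * T - T * dotOp n x y) -
          (dotOp n x y * T - T * dotOp n x y) * Tᴴ) else 0) +
        (h : ℂ) • (Tᴴ * T - T * Tᴴ)) := by
    rw [e1, mul_smul_comm, smul_mul_assoc, ← smul_sub]
    congr 1
    rw [mul_add, add_mul, mul_smul_comm, smul_mul_assoc, add_sub_add_comm, ← smul_sub, e2]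
    congr 1
    rw [Finset.mul_sum, Finset.sum_mul, ← Finset.sum_sub_distrib]
    refine Finset.sum_congr rfl fun x _ => ?_
    rw [Finset.mul_sum, Finset.sum_mul, ← Finset.sum_sub_distrib]
    refine Finset.sum_congr rfl fun y _ => ?_
    split_ifs
    · rw [mul_smul_comm, smul_mul_assoc, ← smul_sub]
      push_cast; rfl
    · simp
  rw [e3, tr_smul, tr_add, tr_smul, tr_sum]
  refine mul_le_mul_of_nonneg_left ?_ hβ
  refine add_le_add_left ?_ _
  rw [Finset.mul_sum, Finset.sum_mul]
  refine Finset.sum_le_sum fun x _ => ?_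
  rw [tr_sum, Finset.mul_sum, Finset.sum_mul]
  refine Finset.sum_le_sum fun y _ => ?_
  split_ifs with hnn
  · rw [tr_smul, tr_double_comm_dot (isNN_ne hnn)]
    have h1 := tr_dot_le (n := n) (isNN_ne hnn) β h
    have h2 := tr_zz_le (n := n) (isNN_ne hnn) β h
    have h3 := Complex.normSq_nonneg (f x - f y)
    have h4 := mul_le_mul_of_nonneg_left (add_le_add h1 h2) h3
    linarith
  · rw [tr_zero]; simp

end Vale.Agent.P361.H
end

section

namespace Vale.Agent.P361.H

open Matrix

lemma box_eq (N : ℕ) : box N = Fintype.piFinset fun _ : Fin 3 => Finset.Icc (-(N : ℤ)) N := rfl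

lemma card_box (N : ℕ) : (box N).card = (2 * N + 1) ^ 3 := by
  rw [box_eq, Fintype.card_piFinset]
  simp only [Int.card_Icc, Finset.prod_const, Finset.card_univ, Fintype.card_fin]
  congr 1
  omega

lemma mem_box {N : ℕ} {x : Site} : x ∈ box N ↔ ∀ i, -(N : ℤ) ≤ x i ∧ x i ≤ N := by
  rw [box_eq, Fintype.mem_piFinset]
  simp

/-- Wave number factor. -/
noncomputable def theta (N : ℕ) : ℝ := 2 * Real.pi / (2 * N + 1)

/-- Plane wave `exp(i k·x)`, `k = 2π l / (2N+1)`. -/
noncomputable def wave (N : ℕ) (l x : Site) : ℂ :=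
  Complex.exp (((theta N * ∑ j, (l j : ℝ) * (x j : ℝ) : ℝ) : ℂ) * Complex.I)

lemma wave_normSq (N : ℕ) (l x : Site) : Complex.normSq (wave N l x) = 1 := by
  rw [Complex.normSq_eq_norm_sq, wave, Complex.norm_exp_ofReal_mul_I]; norm_num

lemma wave_star (N : ℕ) (l x : Site) : star (wave N l x) =
    Complex.exp (((-(theta N * ∑ j, (l j : ℝ) * (x j : ℝ)) : ℝ) : ℂ) * Complex.I) := by
  rw [wave, Complex.star_def, ← Complex.exp_conj]
  congr 1
  simp

lemma normSq_one_sub_exp (a : ℝ) :
    Complex.normSq (1 - Complex.exp ((a : ℂ) * Complex.I)) = 2 * (1 - Real.cos a) := by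
  rw [Complex.exp_mul_I, ← Complex.ofReal_cos, ← Complex.ofReal_sin, Complex.normSq_apply]
  simp only [Complex.sub_re, Complex.one_re, Complex.add_re, Complex.ofReal_re, Complex.mul_re,
    Complex.I_re, mul_zero, Complex.ofReal_im, Complex.I_im, mul_one, sub_self, add_zero,
    Complex.sub_im, Complex.one_im, Complex.add_im, Complex.mul_im, zero_add]
  nlinarith [Real.sin_sq_add_cos_sq a]

lemma wave_sub (N : ℕ) (l x v : Site) :
    Complex.normSq (wave N l x - wave N l (x + v)) =
      2 * (1 - Real.cos (theta N * ∑ j, (l j : ℝ) * (v j : ℝ))) := by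
  have : wave N l x - wave N l (x + v) = wave N l x *
      (1 - Complex.exp (((theta N * ∑ j, (l j : ℝ) * (v j : ℝ) : ℝ) : ℂ) * Complex.I)) := by
    rw [mul_sub, mul_one, wave, wave, ← Complex.exp_add]
    congr 2
    rw [← add_mul, ← Complex.ofReal_add, ← mul_add, ← Finset.sum_add_distrib]
    simp only [Pi.add_apply]
    push_cast
    simp only [mul_add]
  rw [this, Complex.normSq_mul, wave_normSq, one_mul, normSq_one_sub_exp]

/-- The six unit vectors. -/
def dir (p : Fin 3 × Bool) : Site := Pi.single p.1 (if p.2 then 1 else -1)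

lemma dir_injective : Function.Injective dir := by decide +revert

lemma isNN_iff (x y : Site) : IsNN x y ↔ ∃ p, y = x + dir p := by
  constructor
  · intro h
    unfold IsNN at h
    rw [Fin.sum_univ_three] at h
    have key : ∀ a b c : ℤ, |a| + |b| + |c| = 1 →
        (a = 1 ∧ b = 0 ∧ c = 0) ∨ (a = -1 ∧ b = 0 ∧ c = 0) ∨ (a = 0 ∧ b = 1 ∧ c = 0) ∨
        (a = 0 ∧ b = -1 ∧ c = 0) ∨ (a = 0 ∧ b = 0 ∧ c = 1) ∨ (a = 0 ∧ b = 0 ∧ c = -1) := by
      intro a b c h
      rcases abs_cases a with ha | ha <;> rcases abs_cases b with hb | hb <;>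
        rcases abs_cases c with hc | hc <;> omega
    have hx : ∀ p : Fin 3 × Bool, (y 0 = x 0 + dir p 0 ∧ y 1 = x 1 + dir p 1 ∧
        y 2 = x 2 + dir p 2) → y = x + dir p := by
      intro p hp
      ext i
      fin_cases i
      · exact hp.1
      · exact hp.2.1
      · exact hp.2.2
    rcases key _ _ _ h with h | h | h | h | h | h
    · refine ⟨(0, false), hx _ ?_⟩
      simp [dir]; omega
    · refine ⟨(0, true), hx _ ?_⟩
      simp [dir]; omega
    · refine ⟨(1, false), hx _ ?_⟩
      simp [dir]; omega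
    · refine ⟨(1, true), hx _ ?_⟩
      simp [dir]; omega
    · refine ⟨(2, false), hx _ ?_⟩
      simp [dir]; omega
    · refine ⟨(2, true), hx _ ?_⟩
      simp [dir]; omega
  · rintro ⟨p, rfl⟩
    unfold IsNN
    have : ∀ p, ∑ i, |dir p i| = 1 := by decide
    rw [← this p]
    refine Finset.sum_congr rfl fun i _ => ?_
    rw [Pi.add_apply, sub_add_cancel_left, abs_neg]

lemma sum_nn_le (Λ : Finset Site) (x : Site) (g : Site → ℝ) (hg : ∀ y, 0 ≤ g y) :
    (∑ y : Λ, if IsNN x y.1 then g y.1 else 0) ≤ ∑ p, g (x + dir p) := by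
  rw [Finset.sum_coe_sort Λ (fun y => if IsNN x y then g y else 0), ← Finset.sum_filter]
  have hinj : Function.Injective fun p => x + dir p := fun p q h => dir_injective (by simpa using h)
  rw [← Finset.sum_image (f := g) (g := fun p => x + dir p) (s := Finset.univ)
    (fun p _ q _ h => hinj h)]
  refine Finset.sum_le_sum_of_subset_of_nonneg ?_ (fun y _ _ => hg y)
  intro y hy
  rw [Finset.mem_filter] at hy
  obtain ⟨p, hp⟩ := (isNN_iff x y).1 hy.2
  exact Finset.mem_image.2 ⟨p, Finset.mem_univ _, hp.symm⟩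

/-- Dispersion `∑_j (1 - cos k_j)`. -/
noncomputable def disp (N : ℕ) (l : Site) : ℝ := ∑ j, (1 - Real.cos (theta N * (l j : ℝ)))

lemma disp_nonneg (N : ℕ) (l : Site) : 0 ≤ disp N l :=
  Finset.sum_nonneg fun j _ => by have := Real.cos_le_one (theta N * (l j : ℝ)); linarith

lemma sum_wave_nn_le (Λ : Finset Site) (N : ℕ) (l : Site) :
    (∑ x : Λ, ∑ y : Λ, if IsNN x.1 y.1 then
      Complex.normSq (wave N l x.1 - wave N l y.1) else 0) ≤ Λ.card * (4 * disp N l) := by
  have h1 : ∀ x : Λ, (∑ y : Λ, if IsNN x.1 y.1 then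
      Complex.normSq (wave N l x.1 - wave N l y.1) else 0) ≤ 4 * disp N l := by
    intro x
    refine (sum_nn_le Λ x.1 (fun y => Complex.normSq (wave N l x.1 - wave N l y))
      (fun y => Complex.normSq_nonneg _)).trans (le_of_eq ?_)
    simp only [wave_sub]
    rw [Fintype.sum_prod_type, disp, Finset.mul_sum]
    refine Finset.sum_congr rfl fun j _ => ?_
    have e : ∀ b : Bool, ∑ i, (l i : ℝ) * ((dir (j, b) i : ℤ) : ℝ) =
        (l j : ℝ) * (if b then 1 else -1) := by
      intro b
      rw [Finset.sum_eq_single j]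
      · cases b <;> simp [dir]
      · intro i _ hij
        simp [dir, Pi.single_eq_of_ne hij]
      · simp
    rw [Fintype.sum_bool, e, e]
    simp only [if_true, Bool.false_eq_true, if_false, mul_one, mul_neg, Real.cos_neg]
    ring
  calc _ ≤ ∑ x : Λ, 4 * disp N l := Finset.sum_le_sum fun x _ => h1 x
    _ = _ := by simp

/-- One-dimensional orthogonality. -/
lemma sum_exp_Icc (N : ℕ) (d : ℤ) (hd : |d| ≤ 2 * N) :
    ∑ l ∈ Finset.Icc (-(N : ℤ)) N, Complex.exp (((theta N * ((l : ℝ) * (d : ℝ)) : ℝ) : ℂ) * Complex.I)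
      = if d = 0 then (2 * N + 1 : ℂ) else 0 := by
  split_ifs with h0
  · subst h0
    simp
    push_cast [Int.card_Icc]
    have : ((N : ℤ) + 1 + N).toNat = 2 * N + 1 := by omega
    rw [this]; push_cast; rfl
  · set ζ : ℂ := Complex.exp (((theta N * (d : ℝ) : ℝ) : ℂ) * Complex.I) with hζ
    have hL : (0 : ℝ) < 2 * N + 1 := by positivity
    have hζpow : ζ ^ (2 * N + 1) = 1 := by
      rw [hζ, ← Complex.exp_nat_mul, Complex.exp_eq_one_iff]
      refine ⟨d, ?_⟩
      rw [theta]
      push_cast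
      have : (2 * (N : ℂ) + 1) ≠ 0 := by
        exact_mod_cast (Nat.succ_ne_zero (2 * N))
      field_simp
    have hζ1 : ζ ≠ 1 := by
      intro h
      rw [hζ, Complex.exp_eq_one_iff] at h
      obtain ⟨m, hm⟩ := h
      have h2 : theta N * (d : ℝ) = m * (2 * Real.pi) := by
        have h3 : (((theta N * (d : ℝ) : ℝ) : ℂ)) * Complex.I = ((m * (2 * Real.pi) : ℝ) : ℂ) * Complex.I := by
          rw [hm]; push_cast; ring
        have h4 := mul_right_cancel₀ Complex.I_ne_zero h3
        exact_mod_cast h4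
      rw [theta] at h2
      have h5 : (d : ℝ) = m * (2 * N + 1) := by
        have hpi := Real.pi_pos
        field_simp at h2
        linarith
      have h6 : d = m * (2 * N + 1) := by exact_mod_cast h5
      have hm0 : m ≠ 0 := by rintro rfl; simp at h6; exact h0 h6
      have h7 : (2 * (N : ℤ) + 1) ≤ |d| := by
        rw [h6, abs_mul, abs_of_pos (show (0 : ℤ) < 2 * N + 1 by positivity)]
        have : 1 ≤ |m| := Int.one_le_abs hm0
        nlinarith
      omega
    have hterm : ∀ l : ℤ, Complex.exp (((theta N * ((l : ℝ) * (d : ℝ)) : ℝ) : ℂ) * Complex.I) =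
        ζ ^ l := by
      intro l
      rw [hζ, ← Complex.exp_int_mul]
      congr 1
      push_cast; ring
    simp only [hterm]
    have hζ0 : ζ ≠ 0 := Complex.exp_ne_zero _
    have hsum : ∑ l ∈ Finset.Icc (-(N : ℤ)) N, ζ ^ l =
        ζ ^ (-(N : ℤ)) * ∑ i ∈ Finset.range (2 * N + 1), ζ ^ i := by
      rw [Finset.mul_sum]
      refine Finset.sum_bij' (fun l _ => (l + N).toNat) (fun i _ => (i : ℤ) - N) ?_ ?_ ?_ ?_ ?_
      · intro l hl; rw [Finset.mem_Icc] at hl; rw [Finset.mem_range]; omega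
      · intro i hi; rw [Finset.mem_range] at hi; rw [Finset.mem_Icc]; omega
      · intro l hl; rw [Finset.mem_Icc] at hl; omega
      · intro i hi; omega
      · intro l hl
        rw [Finset.mem_Icc] at hl
        rw [← zpow_natCast, ← zpow_add₀ hζ0]
        congr 1
        omega
    rw [hsum, geom_sum_eq hζ1, hζpow, sub_self, zero_div, mul_zero]

/-- Orthogonality of plane waves on the box. -/
lemma wave_orthog (N : ℕ) {x y : Site} (hx : x ∈ box N) (hy : y ∈ box N) :
    ∑ l ∈ box N, wave N l x * star (wave N l y) =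
      if x = y then ((2 * N + 1 : ℂ)) ^ 3 else 0 := by
  have hterm : ∀ l : Site, wave N l x * star (wave N l y) =
      ∏ j, Complex.exp (((theta N * ((l j : ℝ) * (((x j - y j : ℤ)) : ℝ)) : ℝ) : ℂ) *
        Complex.I) := by
    intro l
    rw [wave_star, wave, ← Complex.exp_add, ← Complex.exp_sum]
    congr 1
    rw [← Finset.sum_mul, ← add_mul, ← Complex.ofReal_add, ← Complex.ofReal_sum]
    congr 2
    rw [← sub_eq_add_neg, ← mul_sub, ← Finset.mul_sum, ← Finset.sum_sub_distrib]
    congr 1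
    refine Finset.sum_congr rfl fun j _ => ?_
    push_cast; ring
  simp only [hterm]
  rw [box_eq, ← Finset.prod_univ_sum (fun _ : Fin 3 => Finset.Icc (-(N : ℤ)) N)
    (fun j l => Complex.exp (((theta N * ((l : ℝ) * (((x j - y j : ℤ)) : ℝ)) : ℝ) : ℂ) *
        Complex.I))]
  rw [mem_box] at hx hy
  have h1 : ∀ j, ∑ l ∈ Finset.Icc (-(N : ℤ)) N,
      Complex.exp (((theta N * ((l : ℝ) * (((x j - y j : ℤ)) : ℝ)) : ℝ) : ℂ) * Complex.I) =
      if x j - y j = 0 then (2 * N + 1 : ℂ) else 0 := by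
    intro j
    refine sum_exp_Icc N (x j - y j) ?_
    have := hx j
    have := hy j
    rw [abs_le]; omega
  simp only [h1]
  split_ifs with hxy
  · subst hxy; simp
  · obtain ⟨j, hj⟩ := Function.ne_iff.1 hxy
    refine Finset.prod_eq_zero (Finset.mem_univ j) ?_
    rw [if_neg (sub_ne_zero.2 hj)]

end Vale.Agent.P361.H
end

section

namespace Vale.Agent.P361.H

open Matrix

variable {n : ℕ}

/-- Local inequality `S⁻S⁺ ≤ n (n/2 - S³)`. -/
lemma local_raise_le (Λ : Finset Site) (x : Λ) (β h : ℝ) :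
    tr n Λ β h (oM n x * oP n x) ≤
      (n : ℝ) * ((n : ℝ) / 2 * partZ n Λ β h - tr n Λ β h (oZ n x)) := by
  set X : Matrix (Fin (n + 1)) (Fin (n + 1)) ℂ :=
    Matrix.diagonal fun j => ((Real.sqrt (((j : ℕ) : ℝ) * (((j : ℕ) : ℝ) - 1)) : ℝ) : ℂ) with hX
  have hXX : Xᴴ * X = ((n : ℂ) * ((n : ℂ) / 2)) • (1 : Matrix _ _ ℂ) - (n : ℂ) • spinZ n
      - spinLower n * (spinLower n)ᴴ := by
    rw [lower_raise, hX, Matrix.diagonal_conjTranspose, Matrix.diagonal_mul_diagonal, spinZ,
      ← Matrix.diagonal_one, ← Matrix.diagonal_smul, ← Matrix.diagonal_smul, Matrix.diagonal_sub,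
      Matrix.diagonal_sub]
    congr 1
    ext j
    have h : 0 ≤ ((j : ℕ) : ℝ) * (((j : ℕ) : ℝ) - 1) := by
      rcases Nat.eq_zero_or_pos (j : ℕ) with h | h
      · rw [h]; simp
      · have : (1 : ℝ) ≤ ((j : ℕ) : ℝ) := by exact_mod_cast h
        exact mul_nonneg (by positivity) (by linarith)
    simp only [Pi.star_apply, RCLike.star_def, Complex.conj_ofReal, Pi.smul_apply, smul_eq_mul,
      mul_one]
    rw [← Complex.ofReal_mul, Real.mul_self_sqrt h]
    push_cast; ring
  have h1 := tr_star_mul_nonneg (n := n) (Λ := Λ) β h (siteOp x X)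
  rw [siteOp_conjTranspose, siteOp_mul, hXX, siteOp_sub, siteOp_sub, siteOp_smul, siteOp_smul,
    siteOp_one, ← siteOp_mul] at h1
  have e1 : ((n : ℂ) * ((n : ℂ) / 2)) = (((n : ℝ) * ((n : ℝ) / 2) : ℝ) : ℂ) := by push_cast; rfl
  have e2 : (n : ℂ) = ((n : ℝ) : ℂ) := by push_cast; rfl
  rw [e1, e2, tr_sub, tr_sub, tr_smul, tr_smul, tr_one] at h1
  linarith

/-- Parseval. -/
lemma sum_mode (N : ℕ) :
    ∑ l ∈ box N, modeOp n (fun x : box N => wave N l x.1) *
      (modeOp n (fun x : box N => wave N l x.1))ᴴ =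
      ((((2 * N + 1 : ℝ)) ^ 3 : ℝ) : ℂ) • ∑ x : box N, oM n x * oP n x := by
  have h1 : ∀ l, modeOp n (fun x : box N => wave N l x.1) *
      (modeOp n (fun x : box N => wave N l x.1))ᴴ =
      ∑ x : box N, ∑ y : box N, (wave N l x.1 * star (wave N l y.1)) • (oM n x * oP n y) := by
    intro l
    rw [modeOp_conj, modeOp, Finset.sum_mul_sum]
    refine Finset.sum_congr rfl fun x _ => Finset.sum_congr rfl fun y _ => ?_
    rw [smul_mul_smul_comm]
  simp only [h1]
  rw [Finset.sum_comm, Finset.smul_sum]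
  refine Finset.sum_congr rfl fun x _ => ?_
  rw [Finset.sum_comm]
  simp only [← Finset.sum_smul]
  rw [Finset.sum_eq_single x]
  · rw [wave_orthog N x.2 x.2, if_pos rfl]
    congr 1
    push_cast; rfl
  · intro y _ hyx
    rw [wave_orthog N x.2 y.2, if_neg (fun h => hyx (Subtype.ext h.symm)), zero_smul]
  · simp

/-- Mean magnetization per site `⟨M⟩ / |Λ|`. -/
noncomputable def mag (n : ℕ) (Λ : Finset Site) (β h : ℝ) : ℝ :=
  tr n Λ β h (magnetization n Λ) / (Λ.card * partZ n Λ β h)

lemma tr_mag (n N : ℕ) (β h : ℝ) : tr n (box N) β h (magnetization n (box N)) =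
    mag n (box N) β h * ((box N).card * partZ n (box N) β h) := by
  rw [mag, div_mul_cancel₀]
  have h1 := partZ_pos (n := n) (Λ := box N) β h
  have h2 : 0 < ((box N).card : ℝ) := by rw [card_box]; positivity
  positivity

lemma exp_arith (β S D V Z μ h : ℝ) (hV : 0 < V) (hZ : 0 < Z) (hμ : 0 < μ) :
    β * (S * (V * (4 * D)) * Z + h * (2 * μ * (V * Z))) / (2 * μ * (V * Z)) =
      β * (2 * S * D / μ + h) := by
  field_simp; ring

lemma mode_bound_aux (β h S V Z μ D P Q C X : ℝ) (hV : 0 < V) (hZ : 0 < Z)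
    (hμ : 0 < μ) (hβ : 0 < β) (hS : 0 ≤ S)
    (hPQ : P - Q = 2 * μ * (V * Z)) (hQ : 0 < Q) (hls : (P - Q) * Real.log (P / Q) ≤ C)
    (hC : C ≤ β * (S * X * Z + h * (2 * μ * (V * Z)))) (hX : X ≤ V * (4 * D)) :
    2 * μ * (V * Z) / (Real.exp (β * (2 * S * D / μ + h)) - 1) ≤ Q := by
  have hbpos : 0 < 2 * μ * (V * Z) := by positivity
  have hC2 : C ≤ β * (S * (V * (4 * D)) * Z + h * (2 * μ * (V * Z))) := by
    refine hC.trans ?_
    refine mul_le_mul_of_nonneg_left ?_ hβ.le
    refine add_le_add_left ?_ _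
    refine mul_le_mul_of_nonneg_right ?_ hZ.le
    exact mul_le_mul_of_nonneg_left hX hS
  have hlow := lower_of_logsum P Q _ hQ.le (by rw [hPQ]; exact hbpos) (hls.trans hC2) hQ
  rw [hPQ, exp_arith β S D V Z μ h hV hZ hμ] at hlow
  exact hlow

lemma mode_bound (N : ℕ) {β h : ℝ} (hβ : 0 < β) (hμ : 0 < mag n (box N) β h) (l : Site) :
    2 * mag n (box N) β h * ((box N).card * partZ n (box N) β h) /
      (Real.exp (β * (2 * ((n : ℝ) / 2) ^ 2 * disp N l / mag n (box N) β h + h)) - 1) ≤
    tr n (box N) β h (modeOp n (fun x : box N => wave N l x.1) *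
      (modeOp n (fun x : box N => wave N l x.1))ᴴ) := by
  have hZ : 0 < partZ n (box N) β h := partZ_pos β h
  have hV : 0 < ((box N).card : ℝ) := by rw [card_box]; positivity
  obtain ⟨T, hT⟩ : ∃ T, T = modeOp n (fun x : box N => wave N l x.1) := ⟨_, rfl⟩
  have hb : tr n (box N) β h (Tᴴ * T - T * Tᴴ) =
      2 * mag n (box N) β h * ((box N).card * partZ n (box N) β h) := by
    rw [hT, comm_mode_mode]
    simp only [wave_normSq, mul_one]
    rw [← Finset.smul_sum, ← magnetization_eq, tr_smul, tr_mag]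
    ring
  have hC := tr_double_comm_le (n := n) (fun x : box N => wave N l x.1) hβ.le h
  rw [← hT, hb] at hC
  have hsum := sum_wave_nn_le (box N) N l
  have hls := logsum_trace (expo n (box N) β h) (expo_isHermitian β h) Tᴴ
  simp only [Matrix.conjTranspose_conjTranspose] at hls
  have hPQ : tr n (box N) β h (Tᴴ * T) - tr n (box N) β h (T * Tᴴ) =
      2 * mag n (box N) β h * ((box N).card * partZ n (box N) β h) := by
    rw [← tr_sub, hb]
  have hbpos : 0 < 2 * mag n (box N) β h * ((box N).card * partZ n (box N) β h) :=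
    mul_pos (mul_pos two_pos hμ) (mul_pos hV hZ)
  have hTne : Tᴴ ≠ 0 := by
    intro h0
    have hT0 : T = 0 := by
      have := congrArg Matrix.conjTranspose h0
      rwa [Matrix.conjTranspose_conjTranspose, Matrix.conjTranspose_zero] at this
    rw [hT0] at hPQ
    simp only [Matrix.zero_mul, Matrix.mul_zero, tr_zero, sub_zero] at hPQ
    exact absurd hPQ hbpos.ne
  have hQpos : 0 < tr n (box N) β h (T * Tᴴ) := by
    have := trace_star_mul_exp_pos (expo n (box N) β h) (expo_isHermitian β h) Tᴴ hTne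
    rwa [Matrix.conjTranspose_conjTranspose] at this
  have hS : (0 : ℝ) ≤ ((n : ℝ) / 2) ^ 2 := sq_nonneg _
  rw [← hT]
  exact mode_bound_aux β h (((n : ℝ) / 2) ^ 2) ((box N).card : ℝ) (partZ n (box N) β h)
    (mag n (box N) β h) (disp N l) (tr n (box N) β h (Tᴴ * T)) (tr n (box N) β h (T * Tᴴ)) _ _
    hV hZ hμ hβ hS hPQ hQpos hls hC hsum

lemma sum_raise_le (n N : ℕ) (β h : ℝ) :
    ∑ x : box N, tr n (box N) β h (oM n x * oP n x) ≤
      (n : ℝ) * ((n : ℝ) / 2 - mag n (box N) β h) *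
        (((2 * N + 1 : ℝ)) ^ 3 * partZ n (box N) β h) := by
  have hcard : ((box N).card : ℝ) = (2 * N + 1 : ℝ) ^ 3 := by rw [card_box]; push_cast; rfl
  have h0 : ∑ x : box N, tr n (box N) β h (oM n x * oP n x) ≤
      ∑ x : box N, (n : ℝ) * ((n : ℝ) / 2 * partZ n (box N) β h - tr n (box N) β h (oZ n x)) :=
    Finset.sum_le_sum fun x _ => local_raise_le (box N) x β h
  refine h0.trans (le_of_eq ?_)
  have h1 := tr_mag n N β h
  rw [magnetization_eq, tr_sum, hcard] at h1
  rw [← Finset.mul_sum, Finset.sum_sub_distrib, h1, Finset.sum_const,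
    Finset.card_univ, Fintype.card_coe, nsmul_eq_mul, hcard]
  ring

lemma arith_aux (V Z S0 μ c : ℝ) (hV : 0 < V) (hZ : 0 < Z)
    (h : 2 * μ * (V * Z) * S0 ≤ V * (2 * c * (c - μ) * (V * Z))) :
    μ * (V⁻¹ * S0) ≤ c * (c - μ) := by
  have h5 : 2 * (V * Z) * (μ * S0) ≤ 2 * (V * Z) * (V * (c * (c - μ))) := by linarith
  have h6 := le_of_mul_le_mul_left h5 (by positivity)
  have h7 : V⁻¹ * (μ * S0) ≤ V⁻¹ * (V * (c * (c - μ))) :=
    mul_le_mul_of_nonneg_left h6 (by positivity)
  rw [← mul_assoc V⁻¹ V, inv_mul_cancel₀ hV.ne', one_mul] at h7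
  linarith

/-- Finite-volume bound. -/
theorem finite_bound (n N : ℕ) {β h : ℝ} (hβ : 0 < β) 
    (hμ : 0 < mag n (box N) β h) :
    mag n (box N) β h * ((((2 * N + 1 : ℝ)) ^ 3)⁻¹ * ∑ l ∈ box N,
      1 / (Real.exp (β * (2 * ((n : ℝ) / 2) ^ 2 * disp N l / mag n (box N) β h + h)) - 1)) ≤
    (n : ℝ) / 2 * ((n : ℝ) / 2 - mag n (box N) β h) := by
  have hZ : 0 < partZ n (box N) β h := partZ_pos β h
  have hcard : ((box N).card : ℝ) = (2 * N + 1 : ℝ) ^ 3 := by rw [card_box]; push_cast; rfl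
  have hV : 0 < (2 * N + 1 : ℝ) ^ 3 := by positivity
  have h1 := Finset.sum_le_sum fun l (_ : l ∈ box N) => mode_bound (n := n) N hβ hμ l
  rw [← tr_sum, sum_mode, tr_smul, tr_sum] at h1
  have h2 := sum_raise_le n N β h
  have h3 := h1.trans (mul_le_mul_of_nonneg_left h2 hV.le)
  refine arith_aux _ (partZ n (box N) β h) _ _ _ hV hZ ?_
  rw [Finset.mul_sum]
  refine le_trans (le_of_eq ?_) (h3.trans (le_of_eq ?_))
  · refine Finset.sum_congr rfl fun l _ => ?_
    rw [hcard]; ring
  · ring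

end Vale.Agent.P361.H
end

section

/-!
Part B: definitions. `hT = H + S²|E| ≥ 0`, `numOp = S|Λ| - M ≥ 0`.
-/

namespace Vale.Agent.P361.B

open Matrix

/-- The cube `{0,…,L-1}³`. -/
noncomputable def cube (L : ℕ) : Finset Site := Fintype.piFinset fun _ : Fin 3 => Finset.Ico (0 : ℤ) L

/-- `H̃_Λ = ∑_{edges} (S² - S_x·S_y)`. -/
noncomputable def hT (n : ℕ) (Λ : Finset Site) : Matrix (Λ → Fin (n + 1)) (Λ → Fin (n + 1)) ℂ :=
  (1 / 2 : ℂ) • ∑ x : Λ, ∑ y : Λ,
    if IsNN x.1 y.1 then (((n : ℂ) / 2) ^ 2) • (1 : Matrix _ _ ℂ) - H.dotOp n x y else 0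

/-- Number of lowered spins `∑_x (S - S³_x)`. -/
noncomputable def numOp (n : ℕ) (Λ : Finset Site) : Matrix (Λ → Fin (n + 1)) (Λ → Fin (n + 1)) ℂ :=
  ∑ x : Λ, (((n : ℂ) / 2) • (1 : Matrix _ _ ℂ) - H.oZ n x)

/-- `Tr exp(-β H̃ - t N)`. -/
noncomputable def Zt (n : ℕ) (Λ : Finset Site) (β t : ℝ) : ℝ :=
  (trace (NormedSpace.exp (-((β : ℂ) • hT n Λ + (t : ℂ) • numOp n Λ)))).re

end Vale.Agent.P361.B
end

section

set_option linter.unusedSectionVars false

/-!
Part B: pair functions of eigenvectors. Occupation numbers are functions `V → ℕ`.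
-/

namespace Vale.Agent.P361.B

open Finset

variable {V : Type*} [Fintype V] [DecidableEq V]

/-- Occupation numbers at most `n`. -/
def occBox (V : Type*) [Fintype V] [DecidableEq V] (n : ℕ) : Finset (V → ℕ) :=
  Fintype.piFinset fun _ => Finset.range (n + 1)

lemma mem_occBox {n : ℕ} {ζ : V → ℕ} : ζ ∈ occBox V n ↔ ∀ x, ζ x ≤ n := by
  simp [occBox]

lemma add_single_apply (σ : V → ℕ) (x y : V) :
    ((σ + Pi.single y 1 : V → ℕ) x : ℝ) = (σ x : ℝ) + if x = y then 1 else 0 := by
  rw [Pi.add_apply]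
  by_cases h : x = y
  · subst h; simp
  · simp [h]

lemma sub_single_apply (η : V → ℕ) (x y : V) (hy : 0 < η y) :
    ((η - Pi.single y 1 : V → ℕ) x : ℝ) = (η x : ℝ) - if x = y then 1 else 0 := by
  rw [Pi.sub_apply]
  by_cases h : x = y
  · subst h
    simp only [Pi.single_eq_same, if_true]
    rw [Nat.cast_sub hy]; simp
  · simp [h]

lemma sub_add_single (η : V → ℕ) (y : V) (hy : 0 < η y) :
    (η - Pi.single y 1 : V → ℕ) + Pi.single y 1 = η := by
  ext x
  rw [Pi.add_apply, Pi.sub_apply]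
  by_cases h : x = y
  · subst h; simp; omega
  · simp [h]

lemma add_sub_single (σ : V → ℕ) (y : V) :
    (σ + Pi.single y 1 : V → ℕ) - Pi.single y 1 = σ := by
  ext x
  rw [Pi.sub_apply, Pi.add_apply]; omega

lemma sum_shift (n : ℕ) (y : V) (F g : (V → ℕ) → ℝ) (hF : ∀ ζ, ζ ∉ occBox V n → F ζ = 0) :
    ∑ σ ∈ occBox V n, ((σ y : ℝ) + 1) * F (σ + Pi.single y 1) * g σ =
      ∑ η ∈ occBox V n, (η y : ℝ) * F η * g (η - Pi.single y 1) := by
  have h1 : ∑ σ ∈ occBox V n, ((σ y : ℝ) + 1) * F (σ + Pi.single y 1) * g σ =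
      ∑ σ ∈ (occBox V n).filter (fun σ => σ y < n),
        ((σ y : ℝ) + 1) * F (σ + Pi.single y 1) * g σ := by
    rw [Finset.sum_filter]
    refine Finset.sum_congr rfl fun σ hσ => ?_
    split_ifs with h
    · rfl
    · rw [hF]
      · ring
      · rw [mem_occBox]
        push Not
        refine ⟨y, ?_⟩
        simp; omega
  have h2 : ∑ η ∈ occBox V n, (η y : ℝ) * F η * g (η - Pi.single y 1) =
      ∑ η ∈ (occBox V n).filter (fun η => 0 < η y),
        (η y : ℝ) * F η * g (η - Pi.single y 1) := by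
    rw [Finset.sum_filter]
    refine Finset.sum_congr rfl fun η hη => ?_
    split_ifs with h
    · rfl
    · have : η y = 0 := by omega
      rw [this]; simp
  rw [h1, h2]
  refine Finset.sum_nbij' (fun σ => σ + Pi.single y 1) (fun η => η - Pi.single y 1) ?_ ?_ ?_ ?_ ?_
  · intro σ hσ
    rw [Finset.mem_filter, mem_occBox] at hσ ⊢
    refine ⟨fun x => ?_, by simp⟩
    rw [Pi.add_apply]
    by_cases h : x = y
    · subst h; simp; omega
    · simp [h, hσ.1 x]
  · intro η hη
    rw [Finset.mem_filter, mem_occBox] at hη ⊢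
    refine ⟨fun x => ?_, ?_⟩
    · rw [Pi.sub_apply]; exact (Nat.sub_le _ _).trans (hη.1 x)
    · have := hη.1 y
      have h0 := hη.2
      simp; omega
  · intro σ _
    exact add_sub_single σ y
  · intro η hη
    exact sub_add_single η y (Finset.mem_filter.1 hη).2
  · intro σ hσ
    rw [add_sub_single, add_single_apply, if_pos rfl]

/-- The edge operator `a_x b_y - b_x a_y` on functions of occupation numbers. -/
noncomputable def edgeT (n : ℕ) (x y : V) (f : (V → ℕ) → ℝ) (σ : V → ℕ) : ℝ :=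
  Real.sqrt ((n : ℝ) - σ x) * (Real.sqrt ((σ y : ℝ) + 1) * f (σ + Pi.single y 1)) -
    Real.sqrt ((n : ℝ) - σ y) * (Real.sqrt ((σ x : ℝ) + 1) * f (σ + Pi.single x 1))

/-- `ψ` is a normalized eigenvector with `N` magnons and energy `E` (weak form). -/
structure IsEig (n : ℕ) (adj : V → V → Prop) [DecidableRel adj] (N : ℕ) (E : ℝ)
    (ψ : (V → ℕ) → ℝ) : Prop where
  supp : ∀ ζ, ζ ∉ occBox V n → ψ ζ = 0
  sect : ∀ ζ, ∑ x, ζ x ≠ N → ψ ζ = 0
  norm : ∑ ζ ∈ occBox V n, ψ ζ ^ 2 = 1
  weak : ∀ X : (V → ℕ) → ℝ, E * ∑ ζ ∈ occBox V n, X ζ * ψ ζ ^ 2 =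
    1 / 4 * ∑ x, ∑ y, if adj x y then
      ∑ σ ∈ occBox V n, edgeT n x y (fun ζ => X ζ * ψ ζ) σ * edgeT n x y ψ σ else 0

section

variable {n N : ℕ} {adj : V → V → Prop} [DecidableRel adj] {E : ℝ} {ψ : (V → ℕ) → ℝ}

lemma edge_pointwise (x y : V) (X : (V → ℕ) → ℝ) (hX : ∀ ζ, 0 ≤ X ζ) (σ : V → ℕ)
    (hσ : σ ∈ occBox V n) :
    1 / 2 * ((((n : ℝ) - σ x) * ((σ y : ℝ) + 1) * ψ (σ + Pi.single y 1) ^ 2 *
        (X (σ + Pi.single y 1) - X (σ + Pi.single x 1))) +
      (((n : ℝ) - σ y) * ((σ x : ℝ) + 1) * ψ (σ + Pi.single x 1) ^ 2 *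
        (X (σ + Pi.single x 1) - X (σ + Pi.single y 1)))) ≤
      edgeT n x y (fun ζ => X ζ * ψ ζ) σ * edgeT n x y ψ σ := by
  rw [mem_occBox] at hσ
  have hx : 0 ≤ (n : ℝ) - σ x := by have := hσ x; rw [sub_nonneg]; exact_mod_cast this
  have hy : 0 ≤ (n : ℝ) - σ y := by have := hσ y; rw [sub_nonneg]; exact_mod_cast this
  have hx1 : (0 : ℝ) ≤ (σ x : ℝ) + 1 := by positivity
  have hy1 : (0 : ℝ) ≤ (σ y : ℝ) + 1 := by positivity
  simp only [edgeT]
  set Xy := X (σ + Pi.single y 1) with hXy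
  set Xx := X (σ + Pi.single x 1) with hXx
  set A := Real.sqrt ((n : ℝ) - σ x) * (Real.sqrt ((σ y : ℝ) + 1) * ψ (σ + Pi.single y 1)) with hA
  set B := Real.sqrt ((n : ℝ) - σ y) * (Real.sqrt ((σ x : ℝ) + 1) * ψ (σ + Pi.single x 1)) with hB
  have eA : A ^ 2 = ((n : ℝ) - σ x) * ((σ y : ℝ) + 1) * ψ (σ + Pi.single y 1) ^ 2 := by
    rw [hA, mul_pow, mul_pow, Real.sq_sqrt hx, Real.sq_sqrt hy1]; ring
  have eB : B ^ 2 = ((n : ℝ) - σ y) * ((σ x : ℝ) + 1) * ψ (σ + Pi.single x 1) ^ 2 := by
    rw [hB, mul_pow, mul_pow, Real.sq_sqrt hy, Real.sq_sqrt hx1]; ring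
  rw [← eA, ← eB]
  have e1 : Real.sqrt ((n : ℝ) - σ x) * (Real.sqrt ((σ y : ℝ) + 1) *
      (Xy * ψ (σ + Pi.single y 1))) = Xy * A := by rw [hA]; ring
  have e2 : Real.sqrt ((n : ℝ) - σ y) * (Real.sqrt ((σ x : ℝ) + 1) *
      (Xx * ψ (σ + Pi.single x 1))) = Xx * B := by rw [hB]; ring
  rw [e1, e2]
  have h1 : 0 ≤ Xx := hX _
  have h2 : 0 ≤ Xy := hX _
  nlinarith [mul_nonneg (add_nonneg h1 h2) (sq_nonneg (A - B))]

lemma IsEig.dirichlet (h : IsEig n adj N E ψ) (hadj : ∀ x y, adj x y → adj y x)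
    (X : (V → ℕ) → ℝ) (hX : ∀ ζ, 0 ≤ X ζ) :
    1 / 4 * ∑ x, ∑ y, (if adj x y then ∑ σ ∈ occBox V n,
      ((n : ℝ) - σ x) * ((σ y : ℝ) + 1) * ψ (σ + Pi.single y 1) ^ 2 *
        (X (σ + Pi.single y 1) - X (σ + Pi.single x 1)) else 0) ≤
      E * ∑ ζ ∈ occBox V n, X ζ * ψ ζ ^ 2 := by
  rw [h.weak X]
  refine mul_le_mul_of_nonneg_left ?_ (by norm_num)
  set t : V → V → ℝ := fun x y => ∑ σ ∈ occBox V n,
      ((n : ℝ) - σ x) * ((σ y : ℝ) + 1) * ψ (σ + Pi.single y 1) ^ 2 *
        (X (σ + Pi.single y 1) - X (σ + Pi.single x 1)) with ht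
  have hsymm : ∑ x, ∑ y, (if adj x y then t x y else 0) =
      ∑ x, ∑ y, (if adj x y then t y x else 0) := by
    rw [Finset.sum_comm]
    refine Finset.sum_congr rfl fun y _ => Finset.sum_congr rfl fun x _ => ?_
    by_cases hxy : adj x y
    · rw [if_pos hxy, if_pos (hadj _ _ hxy)]
    · rw [if_neg hxy, if_neg fun h' => hxy (hadj _ _ h')]
  have hhalf : ∑ x, ∑ y, (if adj x y then t x y else 0) =
      ∑ x, ∑ y, (if adj x y then 1 / 2 * (t x y + t y x) else 0) := by
    have : ∑ x, ∑ y, (if adj x y then 1 / 2 * (t x y + t y x) else 0) =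
        1 / 2 * (∑ x, ∑ y, (if adj x y then t x y else 0) +
          ∑ x, ∑ y, (if adj x y then t y x else 0)) := by
      rw [← Finset.sum_add_distrib, Finset.mul_sum]
      refine Finset.sum_congr rfl fun x _ => ?_
      rw [← Finset.sum_add_distrib, Finset.mul_sum]
      refine Finset.sum_congr rfl fun y _ => ?_
      split_ifs <;> ring
    rw [this, ← hsymm]; ring
  rw [hhalf]
  refine Finset.sum_le_sum fun x _ => Finset.sum_le_sum fun y _ => ?_
  split_ifs with hxy
  · rw [ht, ← Finset.sum_add_distrib, Finset.mul_sum]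
    exact Finset.sum_le_sum fun σ hσ => edge_pointwise x y X hX σ hσ
  · exact le_rfl

/-- `φ(u,v) = ⟨η_u (η_v - δ_uv)⟩`. -/
noncomputable def pairFn (n : ℕ) (ψ : (V → ℕ) → ℝ) (u v : V) : ℝ :=
  ∑ η ∈ occBox V n, ((η u : ℝ) * ((η v : ℝ) - if u = v then 1 else 0)) * ψ η ^ 2

lemma pair_nonneg_aux (η : V → ℕ) (u v : V) :
    0 ≤ (η u : ℝ) * ((η v : ℝ) - if u = v then 1 else 0) := by
  split_ifs with h
  · subst h
    rcases Nat.eq_zero_or_pos (η u) with h0 | h0
    · rw [h0]; simp
    · have : (1 : ℝ) ≤ η u := by exact_mod_cast h0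
      exact mul_nonneg (by linarith) (by linarith)
  · rw [sub_zero]; positivity

lemma pair_symm_aux (η : V → ℕ) (u v : V) :
    (η u : ℝ) * ((η v : ℝ) - if u = v then 1 else 0) =
      (η v : ℝ) * ((η u : ℝ) - if v = u then 1 else 0) := by
  by_cases h : u = v
  · subst h; ring
  · rw [if_neg h, if_neg (Ne.symm h)]; ring

lemma pairFn_nonneg (u v : V) : 0 ≤ pairFn n ψ u v :=
  Finset.sum_nonneg fun η _ => mul_nonneg (pair_nonneg_aux η u v) (sq_nonneg _)

lemma pairFn_symm (u v : V) : pairFn n ψ u v = pairFn n ψ v u :=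
  Finset.sum_congr rfl fun η _ => by rw [pair_symm_aux]

lemma pair_diff (σ : V → ℕ) (u v x y : V) :
    ((σ + Pi.single y 1 : V → ℕ) u : ℝ) *
        (((σ + Pi.single y 1 : V → ℕ) v : ℝ) - if u = v then 1 else 0) -
      ((σ + Pi.single x 1 : V → ℕ) u : ℝ) *
        (((σ + Pi.single x 1 : V → ℕ) v : ℝ) - if u = v then 1 else 0) =
    ((if u = y then 1 else 0) - if u = x then 1 else 0) * (σ v : ℝ) +
      ((if v = y then 1 else 0) - if v = x then 1 else 0) * (σ u : ℝ) := by
  simp only [add_single_apply]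
  by_cases huv : u = v
  · subst huv
    rw [if_pos rfl]
    by_cases h1 : u = y
    · by_cases h2 : u = x
      · simp only [if_pos h1, if_pos h2]; ring
      · simp only [if_pos h1, if_neg h2]; ring
    · by_cases h2 : u = x
      · simp only [if_neg h1, if_pos h2]; ring
      · simp only [if_neg h1, if_neg h2]; ring
  · by_cases h1 : u = y
    · have h3 : v ≠ y := fun h => huv (h1.trans h.symm)
      by_cases h2 : u = x
      · have h4 : v ≠ x := fun h => huv (h2.trans h.symm)
        simp only [if_neg huv, if_pos h1, if_pos h2, if_neg h3, if_neg h4]; ring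
      · by_cases h4 : v = x
        · simp only [if_neg huv, if_pos h1, if_neg h2, if_neg h3, if_pos h4]; ring
        · simp only [if_neg huv, if_pos h1, if_neg h2, if_neg h3, if_neg h4]; ring
    · by_cases h3 : v = y
      · by_cases h2 : u = x
        · have h4 : v ≠ x := fun h => huv (h2.trans h.symm)
          simp only [if_neg huv, if_neg h1, if_pos h2, if_pos h3, if_neg h4]; ring
        · by_cases h4 : v = x
          · simp only [if_neg huv, if_neg h1, if_neg h2, if_pos h3, if_pos h4]; ring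
          · simp only [if_neg huv, if_neg h1, if_neg h2, if_pos h3, if_neg h4]; ring
      · by_cases h2 : u = x
        · have h4 : v ≠ x := fun h => huv (h2.trans h.symm)
          simp only [if_neg huv, if_neg h1, if_pos h2, if_neg h3, if_neg h4]; ring
        · by_cases h4 : v = x
          · simp only [if_neg huv, if_neg h1, if_neg h2, if_neg h3, if_pos h4]; ring
          · simp only [if_neg huv, if_neg h1, if_neg h2, if_neg h3, if_neg h4]; ring

lemma IsEig.term_eq (h : IsEig n adj N E ψ) (u v x y : V) (hxy : x ≠ y) :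
    ∑ σ ∈ occBox V n, ((n : ℝ) - σ x) * ((σ y : ℝ) + 1) * ψ (σ + Pi.single y 1) ^ 2 *
        (((σ + Pi.single y 1 : V → ℕ) u : ℝ) *
            (((σ + Pi.single y 1 : V → ℕ) v : ℝ) - if u = v then 1 else 0) -
          ((σ + Pi.single x 1 : V → ℕ) u : ℝ) *
            (((σ + Pi.single x 1 : V → ℕ) v : ℝ) - if u = v then 1 else 0)) =
      ∑ η ∈ occBox V n, ψ η ^ 2 * ((η y : ℝ) * ((n : ℝ) - η x) *
        (((if u = y then 1 else 0) - if u = x then 1 else 0) *
            ((η v : ℝ) - if v = y then 1 else 0) +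
          ((if v = y then 1 else 0) - if v = x then 1 else 0) *
            ((η u : ℝ) - if u = y then 1 else 0))) := by
  have hF : ∀ ζ, ζ ∉ occBox V n → (fun ζ => ψ ζ ^ 2) ζ = 0 := by
    intro ζ hζ
    simp only [h.supp ζ hζ]; norm_num
  have key := sum_shift n y (fun ζ => ψ ζ ^ 2) (fun σ => ((n : ℝ) - σ x) *
    (((if u = y then 1 else 0) - if u = x then 1 else 0) * (σ v : ℝ) +
      ((if v = y then 1 else 0) - if v = x then 1 else 0) * (σ u : ℝ))) hF
  calc _ = ∑ σ ∈ occBox V n, ((σ y : ℝ) + 1) * ψ (σ + Pi.single y 1) ^ 2 *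
        (((n : ℝ) - σ x) * (((if u = y then 1 else 0) - if u = x then 1 else 0) * (σ v : ℝ) +
      ((if v = y then 1 else 0) - if v = x then 1 else 0) * (σ u : ℝ))) := by
        refine Finset.sum_congr rfl fun σ _ => ?_
        rw [pair_diff]; ring
    _ = _ := key
    _ = _ := by
        refine Finset.sum_congr rfl fun η _ => ?_
        rcases Nat.eq_zero_or_pos (η y) with h0 | h0
        · rw [h0]; simp
        · rw [sub_single_apply η x y h0, sub_single_apply η v y h0, sub_single_apply η u y h0,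
            if_neg hxy]
          ring

lemma sum_delta_right (adj : V → V → Prop) [DecidableRel adj] (u : V) (g : V → V → ℝ) :
    ∑ x, ∑ y, (if adj x y then (if u = y then 1 else 0) * g x y else 0) =
      ∑ x, if adj x u then g x u else 0 := by
  refine Finset.sum_congr rfl fun x _ => ?_
  rw [Finset.sum_eq_single u]
  · simp
  · intro y _ hy
    rw [if_neg (Ne.symm hy)]; simp
  · simp

lemma sum_delta_left (adj : V → V → Prop) [DecidableRel adj] (u : V) (g : V → V → ℝ) :
    ∑ x, ∑ y, (if adj x y then (if u = x then 1 else 0) * g x y else 0) =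
      ∑ y, if adj u y then g u y else 0 := by
  rw [Finset.sum_comm]
  refine Finset.sum_congr rfl fun y _ => ?_
  rw [Finset.sum_eq_single u]
  · simp
  · intro x _ hx
    rw [if_neg (Ne.symm hx)]; simp
  · simp

lemma pair_combine (hadj : ∀ x y, adj x y → adj y x) (hirr : ∀ x, ¬ adj x x)
    (η : V → ℕ) (u v : V) :
    ∑ x, ∑ y, (if adj x y then (η y : ℝ) * ((n : ℝ) - η x) *
        (((if u = y then 1 else 0) - if u = x then 1 else 0) *
            ((η v : ℝ) - if v = y then 1 else 0) +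
          ((if v = y then 1 else 0) - if v = x then 1 else 0) *
            ((η u : ℝ) - if u = y then 1 else 0)) else 0) =
    ∑ z, (if adj u z then
        (n : ℝ) * ((η u : ℝ) * ((η v : ℝ) - if u = v then 1 else 0)) -
        n * ((η z : ℝ) * ((η v : ℝ) - if z = v then 1 else 0)) +
        ((if u = v then 1 else 0) - if v = z then 1 else 0) *
          ((η z : ℝ) * ((η u : ℝ) - if z = u then 1 else 0)) else 0) +
    ∑ z, (if adj v z then
        (n : ℝ) * ((η u : ℝ) * ((η v : ℝ) - if u = v then 1 else 0)) -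
        n * ((η z : ℝ) * ((η u : ℝ) - if z = u then 1 else 0)) +
        ((if u = v then 1 else 0) - if u = z then 1 else 0) *
          ((η z : ℝ) * ((η v : ℝ) - if z = v then 1 else 0)) else 0) := by
  have hsym : ∀ x y, adj x y ↔ adj y x := fun x y => ⟨hadj x y, hadj y x⟩
  have expand : ∑ x, ∑ y, (if adj x y then (η y : ℝ) * ((n : ℝ) - η x) *
        (((if u = y then 1 else 0) - if u = x then 1 else 0) *
            ((η v : ℝ) - if v = y then 1 else 0) +
          ((if v = y then 1 else 0) - if v = x then 1 else 0) *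
            ((η u : ℝ) - if u = y then 1 else 0)) else 0) =
      (∑ x, ∑ y, (if adj x y then (if u = y then 1 else 0) *
          ((η y : ℝ) * ((n : ℝ) - η x) * ((η v : ℝ) - if v = y then 1 else 0)) else 0) -
       ∑ x, ∑ y, (if adj x y then (if u = x then 1 else 0) *
          ((η y : ℝ) * ((n : ℝ) - η x) * ((η v : ℝ) - if v = y then 1 else 0)) else 0)) +
      (∑ x, ∑ y, (if adj x y then (if v = y then 1 else 0) *
          ((η y : ℝ) * ((n : ℝ) - η x) * ((η u : ℝ) - if u = y then 1 else 0)) else 0) -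
       ∑ x, ∑ y, (if adj x y then (if v = x then 1 else 0) *
          ((η y : ℝ) * ((n : ℝ) - η x) * ((η u : ℝ) - if u = y then 1 else 0)) else 0)) := by
    rw [← Finset.sum_sub_distrib, ← Finset.sum_sub_distrib, ← Finset.sum_add_distrib]
    refine Finset.sum_congr rfl fun x _ => ?_
    rw [← Finset.sum_sub_distrib, ← Finset.sum_sub_distrib, ← Finset.sum_add_distrib]
    refine Finset.sum_congr rfl fun y _ => ?_
    by_cases hxy : adj x y
    · simp only [if_pos hxy]; ring
    · simp only [if_neg hxy]; ring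
  rw [expand, sum_delta_right, sum_delta_left, sum_delta_right, sum_delta_left,
    ← Finset.sum_sub_distrib, ← Finset.sum_sub_distrib]
  congr 1
  · refine Finset.sum_congr rfl fun z _ => ?_
    by_cases hz : adj u z
    · have hz' : adj z u := hadj _ _ hz
      have hne : z ≠ u := fun h' => hirr u (h' ▸ hz)
      rw [if_pos hz, if_pos hz', if_pos hz, if_neg hne]
      by_cases h1 : u = v
      · have h2 : v ≠ z := fun h' => hne (h1.trans h').symm
        rw [if_pos h1, if_pos h1.symm, if_neg h2, if_neg (Ne.symm h2)]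
        ring
      · rw [if_neg h1, if_neg (Ne.symm h1)]
        by_cases h2 : v = z
        · rw [if_pos h2, if_pos h2.symm]; ring
        · rw [if_neg h2, if_neg (Ne.symm h2)]; ring
    · have hz' : ¬ adj z u := fun h' => hz (hadj _ _ h')
      rw [if_neg hz, if_neg hz', if_neg hz]; ring
  · refine Finset.sum_congr rfl fun z _ => ?_
    by_cases hz : adj v z
    · have hz' : adj z v := hadj _ _ hz
      have hne : z ≠ v := fun h' => hirr v (h' ▸ hz)
      rw [if_pos hz, if_pos hz', if_pos hz, if_neg hne]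
      by_cases h1 : u = v
      · have h2 : u ≠ z := fun h' => hne (h1.symm.trans h').symm
        rw [if_pos h1, if_neg h2, if_neg (Ne.symm h2)]
        rw [h1]
        ring
      · rw [if_neg h1]
        by_cases h2 : u = z
        · rw [if_pos h2, if_pos h2.symm]; ring
        · rw [if_neg h2, if_neg (Ne.symm h2)]; ring
    · have hz' : ¬ adj z v := fun h' => hz (hadj _ _ h')
      rw [if_neg hz, if_neg hz', if_neg hz]; ring

lemma sum_swap3 {ι : Type*} (s : Finset ι) (w : ι → ℝ) (c : V → V → ι → ℝ) :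
    ∑ x, ∑ y, ∑ i ∈ s, w i * c x y i = ∑ i ∈ s, w i * ∑ x, ∑ y, c x y i := by
  simp only [Finset.mul_sum]
  calc ∑ x, ∑ y, ∑ i ∈ s, w i * c x y i = ∑ x, ∑ i ∈ s, ∑ y, w i * c x y i :=
        Finset.sum_congr rfl fun x _ => Finset.sum_comm
    _ = ∑ i ∈ s, ∑ x, ∑ y, w i * c x y i := Finset.sum_comm

/-- The two-particle operator. -/
noncomputable def pairOpM (n : ℕ) (adj : V → V → Prop) [DecidableRel adj] (g : V → V → ℝ)
    (u v : V) : ℝ :=
  ∑ z, (if adj u z then (n : ℝ) * (g z v - g u v) +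
      ((if v = z then 1 else 0) - if u = v then 1 else 0) * g z u else 0) +
  ∑ z, (if adj v z then (n : ℝ) * (g u z - g u v) +
      ((if u = z then 1 else 0) - if u = v then 1 else 0) * g v z else 0)

lemma IsEig.pair_ineq (h : IsEig n adj N E ψ) (hadj : ∀ x y, adj x y → adj y x)
    (hirr : ∀ x, ¬ adj x x) (u v : V) :
    0 ≤ pairOpM n adj (pairFn n ψ) u v + 4 * E * pairFn n ψ u v := by
  have h1 := h.dirichlet hadj
    (fun η => (η u : ℝ) * ((η v : ℝ) - if u = v then 1 else 0)) (fun η => pair_nonneg_aux η u v)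
  have h2 : ∑ x, ∑ y, (if adj x y then ∑ σ ∈ occBox V n,
      ((n : ℝ) - σ x) * ((σ y : ℝ) + 1) * ψ (σ + Pi.single y 1) ^ 2 *
        (((σ + Pi.single y 1 : V → ℕ) u : ℝ) *
            (((σ + Pi.single y 1 : V → ℕ) v : ℝ) - if u = v then 1 else 0) -
          ((σ + Pi.single x 1 : V → ℕ) u : ℝ) *
            (((σ + Pi.single x 1 : V → ℕ) v : ℝ) - if u = v then 1 else 0)) else 0) =
      - pairOpM n adj (pairFn n ψ) u v := by
    have e1 : ∀ x y, (if adj x y then ∑ σ ∈ occBox V n,
      ((n : ℝ) - σ x) * ((σ y : ℝ) + 1) * ψ (σ + Pi.single y 1) ^ 2 *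
        (((σ + Pi.single y 1 : V → ℕ) u : ℝ) *
            (((σ + Pi.single y 1 : V → ℕ) v : ℝ) - if u = v then 1 else 0) -
          ((σ + Pi.single x 1 : V → ℕ) u : ℝ) *
            (((σ + Pi.single x 1 : V → ℕ) v : ℝ) - if u = v then 1 else 0)) else 0) =
      ∑ η ∈ occBox V n, ψ η ^ 2 * (if adj x y then (η y : ℝ) * ((n : ℝ) - η x) *
        (((if u = y then 1 else 0) - if u = x then 1 else 0) *
            ((η v : ℝ) - if v = y then 1 else 0) +
          ((if v = y then 1 else 0) - if v = x then 1 else 0) *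
            ((η u : ℝ) - if u = y then 1 else 0)) else 0) := by
      intro x y
      by_cases hxy : adj x y
      · have hne : x ≠ y := fun h' => hirr x (by rw [← h'] at hxy; exact hxy)
        simp only [if_pos hxy]
        exact h.term_eq u v x y hne
      · simp only [if_neg hxy, mul_zero, Finset.sum_const_zero]
    simp only [e1]
    rw [sum_swap3]
    simp only [pair_combine hadj hirr]
    have e3 : ∀ a b, pairFn n ψ a b = ∑ η ∈ occBox V n,
      ψ η ^ 2 * ((η a : ℝ) * ((η b : ℝ) - if a = b then 1 else 0)) := fun a b =>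
      Finset.sum_congr rfl fun η _ => by ring
    have e4 : ∀ (a b : V) (G : V → (V → ℕ) → ℝ), ∑ η ∈ occBox V n, ψ η ^ 2 *
        (∑ z, if adj a z then G z η else 0) =
        ∑ z, if adj a z then ∑ η ∈ occBox V n, ψ η ^ 2 * G z η else 0 := by
      intro a b G
      simp only [Finset.mul_sum]
      rw [Finset.sum_comm]
      refine Finset.sum_congr rfl fun z _ => ?_
      split_ifs
      · rfl
      · simp
    simp only [mul_add (ψ _ ^ 2), Finset.sum_add_distrib]
    rw [e4 u v, e4 v u, pairOpM, neg_add, ← Finset.sum_neg_distrib, ← Finset.sum_neg_distrib]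
    have e5 : ∀ (a b c d e f : V) (w : ℝ), ∑ η ∈ occBox V n, ψ η ^ 2 *
        ((n : ℝ) * ((η a : ℝ) * ((η b : ℝ) - if a = b then 1 else 0)) -
        n * ((η c : ℝ) * ((η d : ℝ) - if c = d then 1 else 0)) +
        w * ((η e : ℝ) * ((η f : ℝ) - if e = f then 1 else 0))) =
        n * pairFn n ψ a b - n * pairFn n ψ c d + w * pairFn n ψ e f := by
      intro a b c d e f w
      rw [e3, e3, e3, Finset.mul_sum, Finset.mul_sum, Finset.mul_sum, ← Finset.sum_sub_distrib,
        ← Finset.sum_add_distrib]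
      exact Finset.sum_congr rfl fun η _ => by ring
    congr 1
    · refine Finset.sum_congr rfl fun z _ => ?_
      by_cases hz : adj u z
      · rw [if_pos hz, if_pos hz, e5]; ring
      · rw [if_neg hz, if_neg hz]; ring
    · refine Finset.sum_congr rfl fun z _ => ?_
      by_cases hz : adj v z
      · rw [if_pos hz, if_pos hz]
        have e6 : ∑ η ∈ occBox V n, ψ η ^ 2 *
            ((n : ℝ) * ((η u : ℝ) * ((η v : ℝ) - if u = v then 1 else 0)) -
            n * ((η z : ℝ) * ((η u : ℝ) - if z = u then 1 else 0)) +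
            ((if u = v then 1 else 0) - if u = z then 1 else 0) *
              ((η z : ℝ) * ((η v : ℝ) - if z = v then 1 else 0))) =
            n * pairFn n ψ u v - n * pairFn n ψ z u +
              ((if u = v then 1 else 0) - if u = z then 1 else 0) * pairFn n ψ z v :=
          e5 u v z u z v _
        rw [e6, pairFn_symm z u, pairFn_symm z v]; ring
      · rw [if_neg hz, if_neg hz]; ring
  rw [h2] at h1
  have h3 : ∑ ζ ∈ occBox V n, ((ζ u : ℝ) * ((ζ v : ℝ) - if u = v then 1 else 0)) * ψ ζ ^ 2 =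
      pairFn n ψ u v := rfl
  rw [h3] at h1
  linarith

end

end Vale.Agent.P361.B
end

section

set_option linter.unusedSectionVars false

/-!
Part B: comparison of pair functions with the heat flow.
-/

namespace Vale.Agent.P361.B

open Finset Filter Topology

lemma quasi_monotone {ι : Type*} [Finite ι] (G G' : ℝ → ι → ℝ) (K : ℝ)
    (hd : ∀ s i, HasDerivAt (fun s => G s i) (G' s i) s) (h0 : ∀ i, 0 ≤ G 0 i)
    (hq : ∀ s, 0 ≤ s → ∀ δ, 0 < δ → (∀ j, -δ ≤ G s j) → ∀ i, G s i = -δ → -(K * δ) ≤ G' s i) :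
    ∀ s, 0 ≤ s → ∀ i, 0 ≤ G s i := by
  intro s1 hs1 i1
  by_contra hneg
  push Not at hneg
  obtain ⟨ε, hε, hεs⟩ : ∃ ε > 0, ε * Real.exp ((K + 1) * s1) < - G s1 i1 := by
    refine ⟨- G s1 i1 / Real.exp ((K + 1) * s1) / 2, by have := Real.exp_pos ((K + 1) * s1)
                                                        apply div_pos (div_pos (by linarith) this)
                                                        norm_num, ?_⟩
    have := Real.exp_pos ((K + 1) * s1)
    field_simp
    linarith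
  set δ : ℝ → ℝ := fun s => ε * Real.exp ((K + 1) * s) with hδ
  have hδpos : ∀ s, 0 < δ s := fun s => mul_pos hε (Real.exp_pos _)
  have hδd : ∀ s, HasDerivAt δ ((K + 1) * δ s) s := by
    intro s
    have h1 : HasDerivAt (fun s : ℝ => (K + 1) * s) (K + 1) s := by
      simpa using (hasDerivAt_id s).const_mul (K + 1)
    have h2 := (h1.exp).const_mul ε
    have e : (K + 1) * δ s = ε * (Real.exp ((K + 1) * s) * (K + 1)) := by simp only [hδ]; ring
    rw [e]
    exact h2
  have hFd : ∀ s i, HasDerivAt (fun s => G s i + δ s) (G' s i + (K + 1) * δ s) s :=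
    fun s i => (hd s i).add (hδd s)
  have hFc : ∀ i, Continuous fun s => G s i + δ s := fun i =>
    continuous_iff_continuousAt.2 fun s => (hFd s i).continuousAt
  set B : Set ℝ := {s | s ∈ Set.Icc 0 s1 ∧ ∃ i, G s i + δ s ≤ 0} with hB
  have hBc : IsCompact B := by
    have : B = Set.Icc 0 s1 ∩ ⋃ i, {s | G s i + δ s ≤ 0} := by
      ext s; simp [hB]
    rw [this]
    refine isCompact_Icc.inter_right ?_
    exact isClosed_iUnion_of_finite fun i => isClosed_le (hFc i) continuous_const
  have hBn : B.Nonempty := ⟨s1, ⟨hs1, le_rfl⟩, i1, by linarith⟩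
  obtain ⟨t, ⟨⟨ht0, ht1⟩, i, hi⟩, hmin⟩ := hBc.exists_isLeast hBn
  have htpos : 0 < t := by
    rcases ht0.lt_or_eq with h | h
    · exact h
    · exfalso
      rw [← h] at hi
      have := h0 i
      have := hδpos 0
      linarith
  have hbefore : ∀ s, 0 ≤ s → s < t → ∀ j, 0 < G s j + δ s := by
    intro s hs hst j
    by_contra hcon
    push Not at hcon
    exact absurd (hmin ⟨⟨hs, by linarith⟩, j, hcon⟩) (not_le.2 hst)
  have hge : ∀ j, 0 ≤ G t j + δ t := by
    intro j
    have h1 : Tendsto (fun s => G s j + δ s) (𝓝[<] t) (𝓝 (G t j + δ t)) :=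
      ((hFc j).tendsto t).mono_left nhdsWithin_le_nhds
    refine ge_of_tendsto h1 ?_
    filter_upwards [Ioo_mem_nhdsLT htpos] with s hs
    exact (hbefore s hs.1.le hs.2 j).le
  have hit : G t i = - δ t := by linarith [hge i]
  have hG' := hq t ht0 (δ t) (hδpos t) (fun j => by linarith [hge j]) i hit
  have hpos : 0 < G' t i + (K + 1) * δ t := by
    have := hδpos t
    nlinarith
  have hslope := hasDerivAt_iff_tendsto_slope.1 (hFd t i)
  have hev : ∀ᶠ s in 𝓝[≠] t, 0 < slope (fun s => G s i + δ s) t s :=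
    hslope.eventually (lt_mem_nhds hpos)
  have hev2 : ∀ᶠ s in 𝓝[<] t, 0 < slope (fun s => G s i + δ s) t s :=
    hev.filter_mono (nhdsWithin_mono _ fun s hs => ne_of_lt hs)
  obtain ⟨s, hs1', hs2⟩ := (hev2.and (Ioo_mem_nhdsLT htpos)).exists
  have h3 := hbefore s hs2.1.le hs2.2 i
  rw [slope_def_field] at hs1'
  have h4 : G t i + δ t = 0 := by linarith
  have h5 : s - t < 0 := by linarith [hs2.2]
  rw [h4] at hs1'
  have : (G s i + δ s - 0) / (s - t) < 0 := div_neg_of_pos_of_neg (by linarith) h5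
  linarith

variable {V : Type*} [Fintype V] [DecidableEq V]

/-- Eigenbasis of the graph Laplacian. -/
structure Spec (adj : V → V → Prop) [DecidableRel adj] (e : V → V → ℝ) (lam : V → ℝ) : Prop where
  eig : ∀ k x, ∑ z, (if adj x z then e k z - e k x else 0) = - lam k * e k x
  compl : ∀ x y, ∑ k, e k x * e k y = if x = y then 1 else 0
  orth : ∀ k l, ∑ x, e k x * e l x = if k = l then 1 else 0

/-- Heat flow. -/
noncomputable def heat (n : ℕ) (e : V → V → ℝ) (lam : V → ℝ) (ζ : V → ℕ) (s : ℝ) (x : V) : ℝ :=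
  ∑ k, Real.exp (-(s * n * lam k)) * (∑ y, (ζ y : ℝ) * e k y) * e k x

section

variable {n : ℕ} {adj : V → V → Prop} [DecidableRel adj] {e : V → V → ℝ} {lam : V → ℝ}

lemma heat_zero (hS : Spec adj e lam) (ζ : V → ℕ) (x : V) : heat n e lam ζ 0 x = ζ x := by
  unfold heat
  calc _ = ∑ k, ∑ y, (ζ y : ℝ) * (e k y * e k x) := by
        refine Finset.sum_congr rfl fun k _ => ?_
        rw [zero_mul, zero_mul, neg_zero, Real.exp_zero, one_mul, Finset.sum_mul]
        exact Finset.sum_congr rfl fun y _ => by ring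
    _ = ∑ y, (ζ y : ℝ) * ∑ k, e k y * e k x := by
        rw [Finset.sum_comm]
        exact Finset.sum_congr rfl fun y _ => by rw [Finset.mul_sum]
    _ = _ := by
        simp only [hS.compl]
        simp

lemma heat_deriv (hS : Spec adj e lam) (ζ : V → ℕ) (s : ℝ) (x : V) :
    HasDerivAt (fun s => heat n e lam ζ s x)
      (n * ∑ z, (if adj x z then heat n e lam ζ s z - heat n e lam ζ s x else 0)) s := by
  have h1 : HasDerivAt (fun s => heat n e lam ζ s x)
      (∑ k, Real.exp (-(s * n * lam k)) * (-(n * lam k)) * (∑ y, (ζ y : ℝ) * e k y) * e k x) s := by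
    unfold heat
    refine HasDerivAt.fun_sum fun k _ => ?_
    have h2 : HasDerivAt (fun s : ℝ => -(s * n * lam k)) (-(n * lam k)) s := by
      have h0 : HasDerivAt (fun s : ℝ => (-((n : ℝ) * lam k)) * s) (-(n * lam k)) s := by
        simpa using (hasDerivAt_id' s).const_mul (-((n : ℝ) * lam k))
      have h3 : (fun s : ℝ => -(s * n * lam k)) = fun s : ℝ => (-((n : ℝ) * lam k)) * s := by
        funext s; ring
      rw [h3]; exact h0
    exact (h2.exp.mul_const _).mul_const _
  convert h1 using 1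
  have h3 : ∀ z, (if adj x z then heat n e lam ζ s z - heat n e lam ζ s x else 0) =
      ∑ k, Real.exp (-(s * n * lam k)) * (∑ y, (ζ y : ℝ) * e k y) *
        (if adj x z then e k z - e k x else 0) := by
    intro z
    split_ifs
    · unfold heat
      rw [← Finset.sum_sub_distrib]
      exact Finset.sum_congr rfl fun k _ => by ring
    · simp
  simp only [h3]
  rw [Finset.sum_comm, Finset.mul_sum]
  refine Finset.sum_congr rfl fun k _ => ?_
  rw [← Finset.mul_sum, hS.eig]
  ring

lemma heat_sq (hS : Spec adj e lam) (ζ : V → ℕ) (s : ℝ) :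
    ∑ x, heat n e lam ζ s x ^ 2 =
      ∑ k, Real.exp (-(2 * s * n * lam k)) * (∑ y, (ζ y : ℝ) * e k y) ^ 2 := by
  have h1 : ∀ x, heat n e lam ζ s x ^ 2 = ∑ k, ∑ l,
      (Real.exp (-(s * n * lam k)) * (∑ y, (ζ y : ℝ) * e k y)) *
      (Real.exp (-(s * n * lam l)) * (∑ y, (ζ y : ℝ) * e l y)) * (e k x * e l x) := by
    intro x
    rw [sq]
    unfold heat
    rw [Finset.sum_mul_sum]
    exact Finset.sum_congr rfl fun k _ => Finset.sum_congr rfl fun l _ => by ring
  simp only [h1]
  rw [Finset.sum_comm]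
  refine Finset.sum_congr rfl fun k _ => ?_
  rw [Finset.sum_comm]
  simp only [← Finset.mul_sum, hS.orth]
  rw [Finset.sum_eq_single k]
  · rw [if_pos rfl, mul_one]
    have : Real.exp (-(2 * s * n * lam k)) = Real.exp (-(s * n * lam k)) *
        Real.exp (-(s * n * lam k)) := by rw [← Real.exp_add]; congr 1; ring
    rw [this]; ring
  · intro l _ hl
    rw [if_neg (Ne.symm hl), mul_zero]
  · simp

lemma heat_sq_le (hS : Spec adj e lam) {N : ℕ} (ζ : V → ℕ) (hζ : ∑ x, ζ x = N) (s : ℝ)
    {b : V → ℝ} (hb : ∀ k x, e k x ^ 2 ≤ b k) :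
    ∑ x, heat n e lam ζ s x ^ 2 ≤ (N : ℝ) ^ 2 * ∑ k, Real.exp (-(2 * s * n * lam k)) * b k := by
  rw [heat_sq hS, Finset.mul_sum]
  refine Finset.sum_le_sum fun k _ => ?_
  have h1 : (∑ y, (ζ y : ℝ) * e k y) ^ 2 ≤ (N : ℝ) ^ 2 * b k := by
    have h2 : (∑ y, (ζ y : ℝ) * e k y) ^ 2 ≤ (∑ y, (ζ y : ℝ)) * ∑ y, (ζ y : ℝ) * e k y ^ 2 := by
      have := Finset.sum_sq_le_sum_mul_sum_of_sq_le_mul (R := ℝ) Finset.univ
        (r := fun y => (ζ y : ℝ) * e k y) (f := fun y => (ζ y : ℝ))
        (g := fun y => (ζ y : ℝ) * e k y ^ 2) (fun y _ => by positivity)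
        (fun y _ => by positivity) (fun y _ => le_of_eq (by ring))
      exact this
    have h3 : ∑ y, (ζ y : ℝ) = N := by rw [← hζ]; push_cast; rfl
    have h4 : ∑ y, (ζ y : ℝ) * e k y ^ 2 ≤ N * b k := by
      rw [← h3, Finset.sum_mul]
      exact Finset.sum_le_sum fun y _ => mul_le_mul_of_nonneg_left (hb k y) (by positivity)
    calc _ ≤ _ := h2
      _ ≤ (N : ℝ) * (N * b k) := by rw [h3]; exact mul_le_mul_of_nonneg_left h4 (by positivity)
      _ = _ := by ring
  calc _ ≤ Real.exp (-(2 * s * n * lam k)) * ((N : ℝ) ^ 2 * b k) :=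
        mul_le_mul_of_nonneg_left h1 (Real.exp_pos _).le
    _ = _ := by ring

/-- Product supersolution. -/
noncomputable def prodW (n : ℕ) (a : V → ℝ) (u v : V) : ℝ :=
  (1 - (if u = v then (1 : ℝ) else 0) / n) * (a u * a v)

/-- Its time derivative. -/
noncomputable def prodW' (n : ℕ) (adj : V → V → Prop) [DecidableRel adj] (a : V → ℝ)
    (u v : V) : ℝ :=
  (1 - (if u = v then (1 : ℝ) else 0) / n) *
    ((n * ∑ z, (if adj u z then a z - a u else 0)) * a v +
      a u * (n * ∑ z, (if adj v z then a z - a v else 0)))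

lemma pairOpM_prodW (hn : 1 ≤ n) (hadj : ∀ x y, adj x y → adj y x) (hirr : ∀ x, ¬ adj x x)
    (a : V → ℝ) (u v : V) :
    pairOpM n adj (prodW n a) u v ≤ prodW' n adj a u v := by
  have hn0 : (n : ℝ) ≠ 0 := by positivity
  have hrest : prodW' n adj a u v = (1 - (if u = v then (1 : ℝ) else 0) / n) *
      (∑ z, (if adj u z then n * (a z - a u) * a v else 0) +
       ∑ z, (if adj v z then n * (a z - a v) * a u else 0)) := by
    unfold prodW'
    congr 1
    rw [Finset.mul_sum, Finset.sum_mul, Finset.mul_sum, Finset.mul_sum]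
    congr 1
    · exact Finset.sum_congr rfl fun z _ => by split_ifs <;> ring
    · exact Finset.sum_congr rfl fun z _ => by split_ifs <;> ring
  rw [hrest]
  by_cases huv : u = v
  · subst huv
    rw [if_pos rfl]
    refine le_of_eq ?_
    unfold pairOpM
    rw [mul_add, Finset.mul_sum]
    congr 1
    · refine Finset.sum_congr rfl fun z _ => ?_
      by_cases hz : adj u z
      · have hne : z ≠ u := fun h' => hirr u (h' ▸ hz)
        rw [if_pos hz, if_pos hz, if_pos rfl, if_neg (Ne.symm hne), prodW, prodW, if_neg hne,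
          if_pos rfl]
        field_simp
        ring
      · rw [if_neg hz, if_neg hz, mul_zero]
    · refine Finset.sum_congr rfl fun z _ => ?_
      by_cases hz : adj u z
      · have hne : z ≠ u := fun h' => hirr u (h' ▸ hz)
        rw [if_pos hz, if_pos hz, if_pos rfl, if_neg (Ne.symm hne), prodW, prodW,
          if_neg (Ne.symm hne), if_pos rfl]
        field_simp
        ring
      · rw [if_neg hz, if_neg hz, mul_zero]
  · rw [if_neg huv, zero_div, sub_zero, one_mul]
    unfold pairOpM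
    have h1 : ∑ z, (if adj u z then (n : ℝ) * (prodW n a z v - prodW n a u v) +
        ((if v = z then 1 else 0) - if u = v then 1 else 0) * prodW n a z u else 0) =
        ∑ z, (if adj u z then n * (a z - a u) * a v else 0) +
          (if adj u v then a v * a u - a v ^ 2 else 0) := by
      have h2 : (if adj u v then a v * a u - a v ^ 2 else 0) =
          ∑ z, (if v = z then (if adj u v then a v * a u - a v ^ 2 else 0) else 0) := by
        simp
      rw [h2, ← Finset.sum_add_distrib]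
      refine Finset.sum_congr rfl fun z _ => ?_
      by_cases hz : adj u z
      · have hne : z ≠ u := fun h' => hirr u (h' ▸ hz)
        rw [if_pos hz, if_pos hz, if_neg huv, prodW, prodW, prodW, if_neg huv, if_neg hne]
        by_cases hvz : v = z
        · rw [if_pos hvz, if_pos hvz.symm, if_pos hvz, hvz, if_pos hz]
          field_simp
          ring
        · rw [if_neg hvz, if_neg (Ne.symm hvz), if_neg hvz]; ring
      · rw [if_neg hz, if_neg hz]
        by_cases hvz : v = z
        · rw [if_pos hvz, hvz, if_neg hz]; ring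
        · rw [if_neg hvz]; ring
    have h3 : ∑ z, (if adj v z then (n : ℝ) * (prodW n a u z - prodW n a u v) +
        ((if u = z then 1 else 0) - if u = v then 1 else 0) * prodW n a v z else 0) =
        ∑ z, (if adj v z then n * (a z - a v) * a u else 0) +
          (if adj v u then a u * a v - a u ^ 2 else 0) := by
      have h2 : (if adj v u then a u * a v - a u ^ 2 else 0) =
          ∑ z, (if u = z then (if adj v u then a u * a v - a u ^ 2 else 0) else 0) := by
        simp
      rw [h2, ← Finset.sum_add_distrib]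
      refine Finset.sum_congr rfl fun z _ => ?_
      by_cases hz : adj v z
      · have hne : z ≠ v := fun h' => hirr v (h' ▸ hz)
        rw [if_pos hz, if_pos hz, if_neg huv, prodW, prodW, prodW, if_neg huv,
          if_neg (Ne.symm hne)]
        by_cases hvz : u = z
        · rw [if_pos hvz, if_pos hvz, hvz, if_pos hz]
          field_simp
          ring
        · rw [if_neg hvz, if_neg hvz]; ring
      · rw [if_neg hz, if_neg hz]
        by_cases hvz : u = z
        · rw [if_pos hvz, hvz, if_neg hz]; ring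
        · rw [if_neg hvz]; ring
    rw [h1, h3]
    by_cases huv2 : adj u v
    · rw [if_pos huv2, if_pos (hadj _ _ huv2)]
      nlinarith [sq_nonneg (a u - a v)]
    · rw [if_neg huv2, if_neg fun h' => huv2 (hadj _ _ h')]
      linarith

lemma pairOpM_lower (hn : 1 ≤ n) (hirr : ∀ x, ¬ adj x x) {g : V → V → ℝ} {δ : ℝ} (hδ : 0 < δ)
    (hg : ∀ a b, -δ ≤ g a b) {u v : V} (huv : g u v = -δ) : -(2 * δ) ≤ pairOpM n adj g u v := by
  have hn1 : (1 : ℝ) ≤ n := by exact_mod_cast hn
  unfold pairOpM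
  have key : ∀ (u v : V) (g : V → V → ℝ), (∀ a b, -δ ≤ g a b) → g u v = -δ →
      -δ ≤ ∑ z, (if adj u z then (n : ℝ) * (g z v - g u v) +
      ((if v = z then 1 else 0) - if u = v then 1 else 0) * g z u else 0) := by
    intro u v g hg huv
    by_cases h : u = v
    · refine le_trans (by linarith : -δ ≤ 0) (Finset.sum_nonneg fun z _ => ?_)
      split_ifs with hz h1
      · exfalso; rw [← h1, ← h] at hz; exact hirr u hz
      · rw [← h] at huv ⊢
        have := hg z u
        rw [huv]
        nlinarith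
      · exact le_rfl
    · rw [show (-δ : ℝ) = ∑ z, (if v = z then -δ else 0) by simp]
      refine Finset.sum_le_sum fun z _ => ?_
      rw [if_neg h, huv]
      have h1 := hg z v
      have h2 := hg z u
      have h3 : 0 ≤ (n : ℝ) * (g z v - -δ) := mul_nonneg (by linarith) (by linarith)
      split_ifs <;> linarith
  have k1 := key u v g hg huv
  have k2 := key v u (fun a b => g b a) (fun a b => hg b a) huv
  have e : (∑ z, if adj v z then (n : ℝ) * (g u z - g u v) +
      ((if u = z then 1 else 0) - if v = u then 1 else 0) * g v z else 0) =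
      ∑ z, if adj v z then (n : ℝ) * (g u z - g u v) +
      ((if u = z then 1 else 0) - if u = v then 1 else 0) * g v z else 0 := by
    refine Finset.sum_congr rfl fun z _ => ?_
    by_cases h : u = v
    · rw [if_pos h, if_pos h.symm]
    · rw [if_neg h, if_neg (Ne.symm h)]
  rw [e] at k2
  linarith

end

end Vale.Agent.P361.B
end

section

set_option linter.unusedSectionVars false

/-!
Part B: bound on the pair function of an eigenvector.
-/

namespace Vale.Agent.P361.B

open Finset Filter Topology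

variable {V : Type*} [Fintype V] [DecidableEq V]
variable {n N : ℕ} {adj : V → V → Prop} [DecidableRel adj] {e : V → V → ℝ} {lam : V → ℝ}
variable {E : ℝ} {ψ : (V → ℕ) → ℝ}

lemma pairOpM_comb {ι : Type*} (t : Finset ι) (c : ι → ℝ) (g : ι → V → V → ℝ) (h : V → V → ℝ)
    (w : ℝ) (u v : V) :
    pairOpM n adj (fun a b => w * ∑ i ∈ t, c i * g i a b - h a b) u v =
      w * ∑ i ∈ t, c i * pairOpM n adj (g i) u v - pairOpM n adj h u v := by
  unfold pairOpM
  simp only [mul_add (c _), Finset.sum_add_distrib, mul_add w]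
  have key : ∀ (u v : V) (f₁ f₂ f₃ : V → V × V) (r : V → ℝ),
      ∑ z, (if adj u z then (n : ℝ) * ((w * ∑ i ∈ t, c i * g i (f₁ z).1 (f₁ z).2 -
          h (f₁ z).1 (f₁ z).2) - (w * ∑ i ∈ t, c i * g i (f₂ z).1 (f₂ z).2 -
          h (f₂ z).1 (f₂ z).2)) + r z * (w * ∑ i ∈ t, c i * g i (f₃ z).1 (f₃ z).2 -
          h (f₃ z).1 (f₃ z).2) else 0) =
      w * ∑ i ∈ t, c i * ∑ z, (if adj u z then (n : ℝ) * (g i (f₁ z).1 (f₁ z).2 -
          g i (f₂ z).1 (f₂ z).2) + r z * g i (f₃ z).1 (f₃ z).2 else 0) -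
        ∑ z, (if adj u z then (n : ℝ) * (h (f₁ z).1 (f₁ z).2 -
          h (f₂ z).1 (f₂ z).2) + r z * h (f₃ z).1 (f₃ z).2 else 0) := by
    intro u v f₁ f₂ f₃ r
    have e1 : ∑ i ∈ t, c i * ∑ z, (if adj u z then (n : ℝ) * (g i (f₁ z).1 (f₁ z).2 -
          g i (f₂ z).1 (f₂ z).2) + r z * g i (f₃ z).1 (f₃ z).2 else 0) =
        ∑ z, (if adj u z then (n : ℝ) * (∑ i ∈ t, c i * g i (f₁ z).1 (f₁ z).2 -
          ∑ i ∈ t, c i * g i (f₂ z).1 (f₂ z).2) +
          r z * ∑ i ∈ t, c i * g i (f₃ z).1 (f₃ z).2 else 0) := by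
      simp only [Finset.mul_sum (Finset.univ)]
      rw [Finset.sum_comm]
      refine Finset.sum_congr rfl fun z _ => ?_
      split_ifs
      · rw [← Finset.sum_sub_distrib, Finset.mul_sum, Finset.mul_sum, ← Finset.sum_add_distrib]
        exact Finset.sum_congr rfl fun i _ => by ring
      · simp
    rw [e1, Finset.mul_sum, ← Finset.sum_sub_distrib]
    refine Finset.sum_congr rfl fun z _ => ?_
    split_ifs
    · ring
    · ring
  have k1 := key u v (fun z => (z, v)) (fun _ => (u, v)) (fun z => (z, u))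
    (fun z => (if v = z then 1 else 0) - if u = v then 1 else 0)
  have k2 := key v u (fun z => (u, z)) (fun _ => (u, v)) (fun z => (v, z))
    (fun z => (if u = z then 1 else 0) - if u = v then 1 else 0)
  simp only at k1 k2
  rw [k1, k2]
  ring

lemma prodW_deriv (hS : Spec adj e lam) (ζ : V → ℕ) (u v : V) (s : ℝ) :
    HasDerivAt (fun s => prodW n (heat n e lam ζ s) u v) (prodW' n adj (heat n e lam ζ s) u v) s :=
  ((heat_deriv hS ζ s u).mul (heat_deriv hS ζ s v)).const_mul _

theorem IsEig.pair_le (h : IsEig n adj N E ψ) (hn : 1 ≤ n) (hE : 0 ≤ E)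
    (hadj : ∀ x y, adj x y → adj y x) (hirr : ∀ x, ¬ adj x x) (hS : Spec adj e lam)
    {s : ℝ} (hs : 0 ≤ s) (u v : V) :
    pairFn n ψ u v ≤ Real.exp (4 * E * s) *
      ∑ ζ ∈ occBox V n, ψ ζ ^ 2 * prodW n (heat n e lam ζ s) u v := by
  set G : ℝ → V × V → ℝ := fun s p => Real.exp (4 * E * s) *
      ∑ ζ ∈ occBox V n, ψ ζ ^ 2 * prodW n (heat n e lam ζ s) p.1 p.2 - pairFn n ψ p.1 p.2 with hG
  set G' : ℝ → V × V → ℝ := fun s p => Real.exp (4 * E * s) * (4 * E) *
      ∑ ζ ∈ occBox V n, ψ ζ ^ 2 * prodW n (heat n e lam ζ s) p.1 p.2 +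
      Real.exp (4 * E * s) *
      ∑ ζ ∈ occBox V n, ψ ζ ^ 2 * prodW' n adj (heat n e lam ζ s) p.1 p.2 with hG'
  have hd : ∀ s p, HasDerivAt (fun s => G s p) (G' s p) s := by
    intro s p
    have h1 : HasDerivAt (fun s : ℝ => Real.exp (4 * E * s)) (Real.exp (4 * E * s) * (4 * E)) s := by
      have h0 : HasDerivAt (fun s : ℝ => 4 * E * s) (4 * E) s := by
        simpa using (hasDerivAt_id' s).const_mul (4 * E)
      exact h0.exp
    have h2 : HasDerivAt (fun s => ∑ ζ ∈ occBox V n, ψ ζ ^ 2 *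
        prodW n (heat n e lam ζ s) p.1 p.2)
        (∑ ζ ∈ occBox V n, ψ ζ ^ 2 * prodW' n adj (heat n e lam ζ s) p.1 p.2) s :=
      HasDerivAt.fun_sum fun ζ _ => (prodW_deriv hS ζ p.1 p.2 s).const_mul _
    exact (h1.mul h2).sub_const _
  have hn0 : (0 : ℝ) < n := by exact_mod_cast hn
  have h0 : ∀ p, 0 ≤ G 0 p := by
    intro p
    simp only [hG, mul_zero, Real.exp_zero, one_mul, sub_nonneg, pairFn]
    refine Finset.sum_le_sum fun ζ hζ => ?_
    rw [mul_comm]
    refine mul_le_mul_of_nonneg_left ?_ (sq_nonneg _)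
    rw [prodW, heat_zero hS, heat_zero hS]
    rw [mem_occBox] at hζ
    by_cases hp : p.1 = p.2
    · rw [if_pos hp, hp]
      have h1 : (ζ p.2 : ℝ) ≤ n := by exact_mod_cast hζ p.2
      have h2 : (0 : ℝ) ≤ ζ p.2 := by positivity
      have h3 : (ζ p.2 : ℝ) * ζ p.2 / n ≤ ζ p.2 := by
        rw [div_le_iff₀ hn0]
        exact mul_le_mul_of_nonneg_left h1 h2
      have h4 : (1 - 1 / (n : ℝ)) * ((ζ p.2 : ℝ) * ζ p.2) =
        (ζ p.2 : ℝ) * ζ p.2 - (ζ p.2 : ℝ) * ζ p.2 / n := by ring
      rw [h4]; nlinarith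
    · rw [if_neg hp]; simp
  have hq : ∀ s, 0 ≤ s → ∀ δ, 0 < δ → (∀ j, -δ ≤ G s j) → ∀ p, G s p = -δ →
      -((2 + 4 * E) * δ) ≤ G' s p := by
    intro s _ δ hδ hge p hp
    have h1 : -(2 * δ) ≤ pairOpM n adj (fun a b => G s (a, b)) p.1 p.2 :=
      pairOpM_lower hn hirr hδ (fun a b => hge (a, b)) hp
    have h2 : pairOpM n adj (fun a b => G s (a, b)) p.1 p.2 =
        Real.exp (4 * E * s) * ∑ ζ ∈ occBox V n, ψ ζ ^ 2 *
          pairOpM n adj (prodW n (heat n e lam ζ s)) p.1 p.2 -
        pairOpM n adj (pairFn n ψ) p.1 p.2 :=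
      pairOpM_comb (occBox V n) (fun ζ => ψ ζ ^ 2) (fun ζ => prodW n (heat n e lam ζ s))
        (pairFn n ψ) (Real.exp (4 * E * s)) p.1 p.2
    have h3 : ∑ ζ ∈ occBox V n, ψ ζ ^ 2 * pairOpM n adj (prodW n (heat n e lam ζ s)) p.1 p.2 ≤
        ∑ ζ ∈ occBox V n, ψ ζ ^ 2 * prodW' n adj (heat n e lam ζ s) p.1 p.2 :=
      Finset.sum_le_sum fun ζ _ => mul_le_mul_of_nonneg_left
        (pairOpM_prodW hn hadj hirr _ p.1 p.2) (sq_nonneg _)
    have h4 := mul_le_mul_of_nonneg_left h3 (Real.exp_pos (4 * E * s)).le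
    have h5 := h.pair_ineq hadj hirr p.1 p.2
    have h6 : G' s p = 4 * E * (G s p + pairFn n ψ p.1 p.2) + Real.exp (4 * E * s) *
      ∑ ζ ∈ occBox V n, ψ ζ ^ 2 * prodW' n adj (heat n e lam ζ s) p.1 p.2 := by
      simp only [hG, hG']; ring
    rw [h6, hp]
    rw [h2] at h1
    nlinarith
  have hfin := quasi_monotone G G' (2 + 4 * E) hd h0 hq s hs (u, v)
  simp only [hG] at hfin
  linarith

/-- Main bound on pair correlations across edges. -/
theorem IsEig.edge_sum_le (h : IsEig n adj N E ψ) (hn : 1 ≤ n) (hE : 0 ≤ E)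
    (hadj : ∀ x y, adj x y → adj y x) (hirr : ∀ x, ¬ adj x x) (hS : Spec adj e lam)
    {D : ℝ} (hD : ∀ x, ∑ y, (if adj x y then (1 : ℝ) else 0) ≤ D)
    {b : V → ℝ} (hb : ∀ k x, e k x ^ 2 ≤ b k) {s : ℝ} (hs : 0 ≤ s) :
    ∑ x, ∑ y, (if adj x y then pairFn n ψ x y + pairFn n ψ y y else 0) ≤
      2 * D * Real.exp (4 * E * s) * ((N : ℝ) ^ 2 * ∑ k, Real.exp (-(2 * s * n * lam k)) * b k) := by
  have hn0 : (0 : ℝ) < n := by exact_mod_cast hn
  have hn1 : (1 : ℝ) ≤ n := by exact_mod_cast hn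
  set P := (N : ℝ) ^ 2 * ∑ k, Real.exp (-(2 * s * n * lam k)) * b k with hP
  have hD0 : ∀ x : V, 0 ≤ D := fun x => le_trans
    (Finset.sum_nonneg fun y _ => by split_ifs <;> norm_num) (hD x)
  -- bound for one configuration
  have hone : ∀ ζ : V → ℕ, ∑ x, ∑ y, (if adj x y then prodW n (heat n e lam ζ s) x y +
      prodW n (heat n e lam ζ s) y y else 0) ≤ 2 * D * ∑ x, heat n e lam ζ s x ^ 2 := by
    intro ζ
    set a := heat n e lam ζ s with ha
    have h1 : ∀ x y, adj x y → prodW n a x y + prodW n a y y ≤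
        1 / 2 * a x ^ 2 + 3 / 2 * a y ^ 2 := by
      intro x y hxy
      have hne : x ≠ y := fun h' => hirr x (by rw [← h'] at hxy; exact hxy)
      rw [prodW, prodW, if_neg hne, if_pos rfl]
      have h2 : (1 - 1 / (n : ℝ)) * (a y * a y) ≤ a y ^ 2 := by
        have : 0 ≤ 1 / (n : ℝ) * (a y * a y) := mul_nonneg (by positivity) (mul_self_nonneg _)
        nlinarith
      have h3 : (1 - 0 / (n : ℝ)) * (a x * a y) ≤ 1 / 2 * a x ^ 2 + 1 / 2 * a y ^ 2 := by
        rw [zero_div, sub_zero, one_mul]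
        nlinarith [sq_nonneg (a x - a y)]
      linarith
    calc ∑ x, ∑ y, (if adj x y then prodW n a x y + prodW n a y y else 0)
        ≤ ∑ x, ∑ y, ((if adj x y then (1 : ℝ) else 0) * (1 / 2 * a x ^ 2) +
            (if adj x y then (1 : ℝ) else 0) * (3 / 2 * a y ^ 2)) := by
          refine Finset.sum_le_sum fun x _ => Finset.sum_le_sum fun y _ => ?_
          split_ifs with hxy
          · have := h1 x y hxy; linarith
          · simp
      _ = ∑ x, (∑ y, (if adj x y then (1 : ℝ) else 0)) * (1 / 2 * a x ^ 2) +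
          ∑ y, (∑ x, (if adj y x then (1 : ℝ) else 0)) * (3 / 2 * a y ^ 2) := by
          simp only [Finset.sum_add_distrib]
          congr 1
          · exact Finset.sum_congr rfl fun x _ => by rw [Finset.sum_mul]
          · rw [Finset.sum_comm]
            refine Finset.sum_congr rfl fun y _ => ?_
            rw [Finset.sum_mul]
            refine Finset.sum_congr rfl fun x _ => ?_
            by_cases hxy : adj x y
            · rw [if_pos hxy, if_pos (hadj _ _ hxy)]
            · rw [if_neg hxy, if_neg fun h' => hxy (hadj _ _ h')]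
      _ ≤ ∑ x, D * (1 / 2 * a x ^ 2) + ∑ y, D * (3 / 2 * a y ^ 2) := by
          refine add_le_add (Finset.sum_le_sum fun x _ => ?_) (Finset.sum_le_sum fun y _ => ?_)
          · exact mul_le_mul_of_nonneg_right (hD x) (by positivity)
          · exact mul_le_mul_of_nonneg_right (hD y) (by positivity)
      _ = _ := by
          rw [← Finset.sum_add_distrib, Finset.mul_sum]
          exact Finset.sum_congr rfl fun x _ => by ring
  have hsum : ∑ x, ∑ y, (if adj x y then pairFn n ψ x y + pairFn n ψ y y else 0) ≤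
      Real.exp (4 * E * s) * ∑ ζ ∈ occBox V n, ψ ζ ^ 2 *
        ∑ x, ∑ y, (if adj x y then prodW n (heat n e lam ζ s) x y +
          prodW n (heat n e lam ζ s) y y else 0) := by
    rw [← sum_swap3, Finset.mul_sum]
    refine Finset.sum_le_sum fun x _ => ?_
    rw [Finset.mul_sum]
    refine Finset.sum_le_sum fun y _ => ?_
    by_cases hxy : adj x y
    · simp only [if_pos hxy]
      have h1 := h.pair_le hn hE hadj hirr hS hs x y
      have h2 := h.pair_le hn hE hadj hirr hS hs y y
      calc _ ≤ _ := add_le_add h1 h2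
        _ = _ := by
          rw [← mul_add, ← Finset.sum_add_distrib]
          congr 1
          exact Finset.sum_congr rfl fun ζ _ => by ring
    · simp only [if_neg hxy, mul_zero, Finset.sum_const_zero]
      exact le_rfl
  refine hsum.trans ?_
  have hfin : ∑ ζ ∈ occBox V n, ψ ζ ^ 2 *
        ∑ x, ∑ y, (if adj x y then prodW n (heat n e lam ζ s) x y +
          prodW n (heat n e lam ζ s) y y else 0) ≤ 2 * D * P := by
    have h1 : ∀ ζ ∈ occBox V n, ψ ζ ^ 2 *
        ∑ x, ∑ y, (if adj x y then prodW n (heat n e lam ζ s) x y +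
          prodW n (heat n e lam ζ s) y y else 0) ≤ ψ ζ ^ 2 * (2 * D * P) := by
      intro ζ _
      by_cases hζ : ∑ x, ζ x = N
      · refine mul_le_mul_of_nonneg_left ((hone ζ).trans ?_) (sq_nonneg _)
        rcases isEmpty_or_nonempty V with hV | ⟨⟨x⟩⟩
        · simp [hP]
        · exact mul_le_mul_of_nonneg_left (heat_sq_le hS ζ hζ s hb)
            (by have := hD0 x; positivity)
      · rw [h.sect ζ hζ]; simp
    calc _ ≤ ∑ ζ ∈ occBox V n, ψ ζ ^ 2 * (2 * D * P) := Finset.sum_le_sum h1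
      _ = 2 * D * P := by rw [← Finset.sum_mul, h.norm, one_mul]
  calc _ ≤ Real.exp (4 * E * s) * (2 * D * P) :=
        mul_le_mul_of_nonneg_left hfin (Real.exp_pos _).le
    _ = _ := by ring

end Vale.Agent.P361.B
end

section

/-!
A Bogoliubov-type inequality for Gibbs states (in unnormalized form).
-/

namespace Vale.Agent.P361

open Matrix Finset
open scoped ComplexOrder

theorem convexOn_sub_one_mul_log :
    ConvexOn ℝ (Set.Ioi 0) fun u : ℝ => (u - 1) * Real.log u := by
  have h1 : ConvexOn ℝ (Set.Ioi 0) fun u : ℝ => u * Real.log u :=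
    Real.convexOn_mul_log.subset (fun x hx => Set.mem_Ici.2 (le_of_lt hx)) (convex_Ioi 0)
  have h2 : ConvexOn ℝ (Set.Ioi 0) fun u : ℝ => -Real.log u :=
    strictConcaveOn_log_Ioi.concaveOn.neg
  refine (h1.add h2).congr ?_
  intro u _
  simp only [Pi.add_apply]
  ring

/-- Weighted Jensen consequence. -/
theorem jensen_weights {κ : Type*} (s : Finset κ) (q u : κ → ℝ) (hq : ∀ i ∈ s, 0 ≤ q i)
    (hu : ∀ i ∈ s, 0 < u i) (hC : 0 < ∑ i ∈ s, q i * (u i - 1)) {T : ℝ}
    (hT : ∑ i ∈ s, q i * ((u i - 1) * Real.log (u i)) ≤ T * ∑ i ∈ s, q i * (u i - 1)) :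
    (∑ i ∈ s, q i * (u i - 1)) / (Real.exp T - 1) ≤ ∑ i ∈ s, q i := by
  set C := ∑ i ∈ s, q i * (u i - 1) with hCdef
  set D := ∑ i ∈ s, q i * ((u i - 1) * Real.log (u i)) with hDdef
  set N := ∑ i ∈ s, q i with hNdef
  have hN0 : 0 ≤ N := Finset.sum_nonneg hq
  have hN : 0 < N := by
    rcases hN0.lt_or_eq with h | h
    · exact h
    · exfalso
      have hz : ∀ i ∈ s, q i = 0 := (Finset.sum_eq_zero_iff_of_nonneg hq).1 h.symm
      have : C = 0 := by
        rw [hCdef]
        exact Finset.sum_eq_zero fun i hi => by rw [hz i hi, zero_mul]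
      linarith
  have hJ := convexOn_sub_one_mul_log.map_sum_le (t := s) (w := fun i => q i / N) (p := u)
    (fun i hi => div_nonneg (hq i hi) hN0)
    (by rw [← Finset.sum_div]; exact div_self hN.ne') hu
  simp only [smul_eq_mul] at hJ
  have e1 : ∑ i ∈ s, q i / N * u i = 1 + C / N := by
    have : ∑ i ∈ s, q i / N * u i = (∑ i ∈ s, (q i * (u i - 1) + q i)) / N := by
      rw [Finset.sum_div]
      refine Finset.sum_congr rfl fun i _ => ?_
      ring
    rw [this, Finset.sum_add_distrib, add_div, ← hCdef, ← hNdef, div_self hN.ne', add_comm]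
  have e2 : ∑ i ∈ s, q i / N * ((u i - 1) * Real.log (u i)) = D / N := by
    rw [hDdef, Finset.sum_div]
    refine Finset.sum_congr rfl fun i _ => ?_
    ring
  rw [e1, e2] at hJ
  have h1 : Real.log (1 + C / N) ≤ D / C := by
    rw [le_div_iff₀ hC]
    have h2 : (1 + C / N - 1) * Real.log (1 + C / N) * N ≤ D / N * N :=
      mul_le_mul_of_nonneg_right hJ hN0
    have h3 : (1 + C / N - 1) * Real.log (1 + C / N) * N = Real.log (1 + C / N) * C := by
      field_simp
      ring
    have h4 : D / N * N = D := by field_simp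
    linarith
  have hpos : 0 < 1 + C / N := by positivity
  have h1' : Real.log (1 + C / N) ≤ T := h1.trans (by rw [div_le_iff₀ hC]; exact hT)
  have h2 : 1 + C / N ≤ Real.exp T := by
    calc 1 + C / N = Real.exp (Real.log (1 + C / N)) := (Real.exp_log hpos).symm
      _ ≤ _ := Real.exp_le_exp.2 h1'
  have h3 : C / N ≤ Real.exp T - 1 := by linarith
  have h4 : 0 < C / N := by positivity
  rw [div_le_iff₀ (lt_of_lt_of_le h4 h3)]
  calc C = N * (C / N) := by field_simp
    _ ≤ N * (Real.exp T - 1) := mul_le_mul_of_nonneg_left h3 hN0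

variable {ι : Type*} [Fintype ι] [DecidableEq ι]

/-- Expansions in the eigenbasis. -/
theorem trace_star_mul {X : Matrix ι ι ℂ} (hX : X.IsHermitian) (A : Matrix ι ι ℂ) :
    (trace (NormedSpace.exp X * (star A * A))).re = ∑ i, ∑ j,
      Real.exp (hX.eigenvalues j) * ‖(star (hX.eigenvectorUnitary : Matrix ι ι ℂ) * A *
        (hX.eigenvectorUnitary : Matrix ι ι ℂ)) i j‖ ^ 2 := by
  set U := (hX.eigenvectorUnitary : Matrix ι ι ℂ) with hU
  have hUU : U * star U = 1 := Unitary.coe_mul_star_self _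
  set B := star U * A * U with hB
  rw [trace_exp_mul hX, Complex.re_sum, Finset.sum_comm]
  refine Finset.sum_congr rfl fun j _ => ?_
  rw [Complex.re_ofReal_mul]
  have h1 : star U * (star A * A) * U = star B * B := by
    rw [hB]
    simp only [star_mul, star_star]
    calc star U * (star A * A) * U = star U * star A * 1 * A * U := by
          rw [Matrix.mul_one]; simp only [Matrix.mul_assoc]
      _ = _ := by rw [← hUU]; simp only [Matrix.mul_assoc]
  rw [h1, Matrix.mul_apply, Complex.re_sum, Finset.mul_sum]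
  refine Finset.sum_congr rfl fun i _ => ?_
  congr 1
  rw [Matrix.star_apply, Complex.star_def, Complex.conj_mul']
  norm_cast

theorem trace_mul_star {X : Matrix ι ι ℂ} (hX : X.IsHermitian) (A : Matrix ι ι ℂ) :
    (trace (NormedSpace.exp X * (A * star A))).re = ∑ i, ∑ j,
      Real.exp (hX.eigenvalues i) * ‖(star (hX.eigenvectorUnitary : Matrix ι ι ℂ) * A *
        (hX.eigenvectorUnitary : Matrix ι ι ℂ)) i j‖ ^ 2 := by
  set U := (hX.eigenvectorUnitary : Matrix ι ι ℂ) with hU
  have hUU : U * star U = 1 := Unitary.coe_mul_star_self _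
  set B := star U * A * U with hB
  rw [trace_exp_mul hX, Complex.re_sum]
  refine Finset.sum_congr rfl fun i _ => ?_
  rw [Complex.re_ofReal_mul]
  have h1 : star U * (A * star A) * U = B * star B := by
    rw [hB]
    simp only [star_mul, star_star]
    calc star U * (A * star A) * U = star U * A * 1 * star A * U := by
          rw [Matrix.mul_one]; simp only [Matrix.mul_assoc]
      _ = _ := by rw [← hUU]; simp only [Matrix.mul_assoc]
  rw [h1, Matrix.mul_apply, Complex.re_sum, Finset.mul_sum]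
  refine Finset.sum_congr rfl fun j _ => ?_
  congr 1
  rw [Matrix.star_apply, Complex.star_def, Complex.mul_conj']
  norm_cast

/-- `[A, [A*, X]]`. -/
def dblComm (A X : Matrix ι ι ℂ) : Matrix ι ι ℂ :=
  A * (star A * X - X * star A) - (star A * X - X * star A) * A

theorem trace_dblComm {X : Matrix ι ι ℂ} (hX : X.IsHermitian) (A : Matrix ι ι ℂ) :
    (trace (NormedSpace.exp X * dblComm A X)).re = ∑ i, ∑ j,
      (Real.exp (hX.eigenvalues i) - Real.exp (hX.eigenvalues j)) *
      (hX.eigenvalues i - hX.eigenvalues j) *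
      ‖(star (hX.eigenvectorUnitary : Matrix ι ι ℂ) * A *
        (hX.eigenvectorUnitary : Matrix ι ι ℂ)) i j‖ ^ 2 := by
  set U := (hX.eigenvectorUnitary : Matrix ι ι ℂ) with hU
  have hUU : U * star U = 1 := Unitary.coe_mul_star_self _
  set B := star U * A * U with hB
  set Λ : Matrix ι ι ℂ := diagonal (fun i => (hX.eigenvalues i : ℂ)) with hΛ
  have hd : star U * X * U = Λ := diag_conj_eigen hX
  set G : Matrix ι ι ℂ := star B * Λ - Λ * star B with hG
  have hGij : ∀ i j, G j i = star (B i j) * ((hX.eigenvalues i : ℂ) - (hX.eigenvalues j : ℂ)) := by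
    intro i j
    rw [hG, Matrix.sub_apply, hΛ, Matrix.mul_diagonal, Matrix.diagonal_mul, Matrix.star_apply]
    ring
  have hins : ∀ P Q : Matrix ι ι ℂ, star U * (P * Q) * U = (star U * P * U) * (star U * Q * U) := by
    intro P Q
    calc star U * (P * Q) * U = star U * P * 1 * Q * U := by
          rw [Matrix.mul_one]; simp only [Matrix.mul_assoc]
      _ = _ := by rw [← hUU]; simp only [Matrix.mul_assoc]
  have hsB : star U * star A * U = star B := by
    rw [hB]; simp only [star_mul, star_star, Matrix.mul_assoc]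
  have hGc : star U * (star A * X - X * star A) * U = G := by
    rw [Matrix.mul_sub, Matrix.sub_mul, hins, hins, hd, hsB]
  rw [trace_exp_mul hX, ← hU]
  have h1 : ∀ i, (star U * dblComm A X * U) i i = (B * G) i i - (G * B) i i := by
    intro i
    unfold dblComm
    rw [Matrix.mul_sub, Matrix.sub_mul, hins A, hins _ A, hGc, ← hB, Matrix.sub_apply]
  have h0 : ∑ i, ((Real.exp (hX.eigenvalues i) : ℝ) : ℂ) * (star U * dblComm A X * U) i i =
      ∑ i, ((Real.exp (hX.eigenvalues i) : ℝ) : ℂ) * ∑ j, B i j * G j i -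
      ∑ i, ((Real.exp (hX.eigenvalues i) : ℝ) : ℂ) * ∑ j, G i j * B j i := by
    rw [← Finset.sum_sub_distrib]
    refine Finset.sum_congr rfl fun i _ => ?_
    rw [h1 i, mul_sub, Matrix.mul_apply, Matrix.mul_apply]
  rw [h0]
  have h2 : ∀ i j, B i j * G j i = ((‖B i j‖ ^ 2 * (hX.eigenvalues i - hX.eigenvalues j) : ℝ) : ℂ) := by
    intro i j
    rw [hGij, ← mul_assoc, Complex.star_def, Complex.mul_conj']
    push_cast
    rfl
  have h3 : ∀ i j, G i j * B j i = ((‖B j i‖ ^ 2 * (hX.eigenvalues j - hX.eigenvalues i) : ℝ) : ℂ) := by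
    intro i j
    rw [hGij, mul_comm, ← mul_assoc, Complex.star_def, Complex.mul_conj']
    push_cast
    rfl
  simp only [h2, h3]
  have h4 : ∑ i, ((Real.exp (hX.eigenvalues i) : ℝ) : ℂ) * ∑ j,
      ((‖B j i‖ ^ 2 * (hX.eigenvalues j - hX.eigenvalues i) : ℝ) : ℂ) =
      ∑ i, ∑ j, ((Real.exp (hX.eigenvalues j) * (‖B i j‖ ^ 2 *
        (hX.eigenvalues i - hX.eigenvalues j)) : ℝ) : ℂ) := by
    rw [Finset.sum_comm' (s := Finset.univ) (t := fun _ => Finset.univ)
      (s' := fun _ => Finset.univ) (t' := Finset.univ) (by simp)]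
    refine Finset.sum_congr rfl fun i _ => ?_
    rw [Finset.mul_sum]
    refine Finset.sum_congr rfl fun j _ => ?_
    push_cast
    ring
  rw [h4]
  have h5 : ∑ i, ((Real.exp (hX.eigenvalues i) : ℝ) : ℂ) * ∑ j,
      ((‖B i j‖ ^ 2 * (hX.eigenvalues i - hX.eigenvalues j) : ℝ) : ℂ) =
      ∑ i, ∑ j, ((Real.exp (hX.eigenvalues i) * (‖B i j‖ ^ 2 *
        (hX.eigenvalues i - hX.eigenvalues j)) : ℝ) : ℂ) := by
    refine Finset.sum_congr rfl fun i _ => ?_
    rw [Finset.mul_sum]
    refine Finset.sum_congr rfl fun j _ => ?_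
    push_cast
    ring
  rw [h5, ← Finset.sum_sub_distrib]
  have h6 : (∑ i, (∑ j, ((Real.exp (hX.eigenvalues i) * (‖B i j‖ ^ 2 *
        (hX.eigenvalues i - hX.eigenvalues j)) : ℝ) : ℂ) - ∑ j,
        ((Real.exp (hX.eigenvalues j) * (‖B i j‖ ^ 2 *
        (hX.eigenvalues i - hX.eigenvalues j)) : ℝ) : ℂ))) =
      ((∑ i, ∑ j, (Real.exp (hX.eigenvalues i) - Real.exp (hX.eigenvalues j)) *
      (hX.eigenvalues i - hX.eigenvalues j) * ‖B i j‖ ^ 2 : ℝ) : ℂ) := by
    push_cast
    refine Finset.sum_congr rfl fun i _ => ?_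
    rw [← Finset.sum_sub_distrib]
    refine Finset.sum_congr rfl fun j _ => ?_
    ring
  rw [h6, Complex.ofReal_re]

/-- Bogoliubov–Roepstorff inequality for a finite family of operators. -/
theorem roepstorff {κ : Type*} [Fintype κ] {X : Matrix ι ι ℂ} (hX : X.IsHermitian)
    (A : κ → Matrix ι ι ℂ)
    (hC : 0 < ∑ a, (trace (NormedSpace.exp X * (A a * star (A a) - star (A a) * A a))).re)
    {T : ℝ} (hT : ∑ a, (trace (NormedSpace.exp X * dblComm (A a) X)).re ≤
      T * ∑ a, (trace (NormedSpace.exp X * (A a * star (A a) - star (A a) * A a))).re) :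
    (∑ a, (trace (NormedSpace.exp X * (A a * star (A a) - star (A a) * A a))).re) /
      (Real.exp T - 1) ≤ ∑ a, (trace (NormedSpace.exp X * (star (A a) * A a))).re := by
  set U := (hX.eigenvectorUnitary : Matrix ι ι ℂ) with hU
  set q : κ × ι × ι → ℝ := fun p => Real.exp (hX.eigenvalues p.2.2) *
    ‖(star U * A p.1 * U) p.2.1 p.2.2‖ ^ 2 with hq
  set u : κ × ι × ι → ℝ := fun p => Real.exp (hX.eigenvalues p.2.1 - hX.eigenvalues p.2.2) with hu
  have hN : ∑ a, (trace (NormedSpace.exp X * (star (A a) * A a))).re = ∑ p, q p := by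
    simp only [trace_star_mul hX, Fintype.sum_prod_type, hq]
    rfl
  have hCC : ∑ a, (trace (NormedSpace.exp X * (A a * star (A a) - star (A a) * A a))).re =
      ∑ p, q p * (u p - 1) := by
    simp only [Matrix.mul_sub, Matrix.trace_sub, Complex.sub_re, trace_star_mul hX,
      trace_mul_star hX, Fintype.sum_prod_type, hq, hu]
    refine Finset.sum_congr rfl fun a _ => ?_
    rw [← Finset.sum_sub_distrib]
    refine Finset.sum_congr rfl fun i _ => ?_
    rw [← Finset.sum_sub_distrib]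
    refine Finset.sum_congr rfl fun j _ => ?_
    rw [Real.exp_sub, ← hU]
    have := (Real.exp_pos (hX.eigenvalues j)).ne'
    field_simp
  have hD : ∑ a, (trace (NormedSpace.exp X * dblComm (A a) X)).re =
      ∑ p, q p * ((u p - 1) * Real.log (u p)) := by
    simp only [trace_dblComm hX, Fintype.sum_prod_type, hq, hu, Real.log_exp]
    refine Finset.sum_congr rfl fun a _ => ?_
    refine Finset.sum_congr rfl fun i _ => ?_
    refine Finset.sum_congr rfl fun j _ => ?_
    rw [Real.exp_sub, ← hU]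
    have := (Real.exp_pos (hX.eigenvalues j)).ne'
    field_simp
  rw [hCC] at hC
  rw [hCC, hD] at hT
  rw [hCC, hN]
  exact jensen_weights Finset.univ q u (fun p _ => by simp only [hq]; positivity)
    (fun p _ => Real.exp_pos _) hC hT

end Vale.Agent.P361
end

section

/-!
Spin algebra: commutation relations and the bond inequality.
-/

namespace Vale.Agent.P361

open Matrix Finset
open scoped ComplexOrder

/-- Raising matrix `S⁺ = (S⁻)ᴴ`. -/
noncomputable def spinRaise (n : ℕ) : Matrix (Fin (n + 1)) (Fin (n + 1)) ℂ := (spinLower n)ᴴ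

/-- Diagonal Holstein–Primakoff factor. -/
noncomputable def hpA (n : ℕ) : Matrix (Fin (n + 1)) (Fin (n + 1)) ℂ :=
  diagonal fun j => ((Real.sqrt ((n : ℝ) - (j : ℕ)) : ℝ) : ℂ)

/-- Truncated boson annihilation matrix. -/
noncomputable def hpB (n : ℕ) : Matrix (Fin (n + 1)) (Fin (n + 1)) ℂ :=
  Matrix.of fun i j => if (i : ℕ) + 1 = (j : ℕ) then ((Real.sqrt ((j : ℕ) : ℝ) : ℝ) : ℂ) else 0

theorem hpA_mul_self (n : ℕ) :
    (hpA n)ᴴ * hpA n = ((n : ℂ) / 2) • (1 : Matrix (Fin (n + 1)) (Fin (n + 1)) ℂ) + spinZ n := by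
  ext i j
  by_cases hij : i = j
  · subst hij
    have hi : ((i : ℕ) : ℝ) ≤ n := by exact_mod_cast Nat.lt_succ_iff.1 i.2
    simp only [hpA, spinZ, Matrix.diagonal_conjTranspose, Matrix.diagonal_mul_diagonal,
      Matrix.diagonal_apply_eq, Matrix.add_apply, Matrix.smul_apply, Matrix.one_apply_eq,
      smul_eq_mul, mul_one, Pi.star_apply, Complex.star_def, Complex.conj_ofReal]
    rw [← Complex.ofReal_mul, Real.mul_self_sqrt (by linarith)]
    push_cast
    ring
  · simp [hpA, spinZ, hij, Matrix.diagonal_conjTranspose, Matrix.diagonal_mul_diagonal]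

theorem hpB_mul_self (n : ℕ) :
    (hpB n)ᴴ * hpB n = ((n : ℂ) / 2) • (1 : Matrix (Fin (n + 1)) (Fin (n + 1)) ℂ) - spinZ n := by
  ext i j
  rw [Matrix.mul_apply]
  simp only [hpB, Matrix.conjTranspose_apply, Matrix.of_apply]
  by_cases hij : i = j
  · subst hij
    simp only [spinZ, Matrix.sub_apply, Matrix.smul_apply, Matrix.one_apply_eq,
      Matrix.diagonal_apply_eq, smul_eq_mul, mul_one]
    by_cases hi0 : (i : ℕ) = 0
    · rw [Finset.sum_eq_zero]
      · simp [hi0]
      · intro k _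
        rw [if_neg (by omega)]
        simp
    · have hlt : (i : ℕ) - 1 < n + 1 := by omega
      rw [Finset.sum_eq_single (⟨(i : ℕ) - 1, hlt⟩ : Fin (n + 1))]
      · have : (i : ℕ) - 1 + 1 = (i : ℕ) := by omega
        simp only [this, if_true, Complex.star_def, Complex.conj_ofReal]
        rw [← Complex.ofReal_mul, Real.mul_self_sqrt (Nat.cast_nonneg _)]
        push_cast
        ring
      · intro k _ hk
        rw [if_neg]
        · simp
        · intro h
          apply hk
          ext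
          simp only
          omega
      · intro h; exact absurd (Finset.mem_univ _) h
  · have hij' : (i : ℕ) ≠ (j : ℕ) := fun h => hij (Fin.ext h)
    rw [Finset.sum_eq_zero]
    · simp [spinZ, hij]
    · intro k _
      by_cases h1 : (k : ℕ) + 1 = (i : ℕ)
      · rw [if_neg (show ¬ (k : ℕ) + 1 = (j : ℕ) by omega)]
        simp
      · rw [if_neg h1]
        simp

theorem hpA_mul_hpB (n : ℕ) : (hpA n) * hpB n = spinRaise n := by
  ext i j
  simp only [hpA, hpB, spinRaise, spinLower, Matrix.diagonal_mul, Matrix.of_apply,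
    Matrix.conjTranspose_apply]
  by_cases h : (i : ℕ) + 1 = (j : ℕ)
  · rw [if_pos h, if_pos h.symm]
    rw [Complex.star_def, Complex.conj_ofReal, ← Complex.ofReal_mul]
    congr 1
    have hi : ((i : ℕ) : ℝ) ≤ n := by exact_mod_cast Nat.lt_succ_iff.1 i.2
    rw [← Real.sqrt_mul (by linarith)]
    congr 1
    rw [← h]
    push_cast
    ring
  · rw [if_neg h, if_neg (fun h' => h h'.symm)]
    simp

theorem hpA_isHermitian (n : ℕ) : (hpA n)ᴴ = hpA n := by
  simp only [hpA, Matrix.diagonal_conjTranspose]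
  congr 1
  ext j
  simp

theorem hpB_mul_hpA (n : ℕ) : (hpB n)ᴴ * hpA n = spinLower n := by
  have h := congrArg Matrix.conjTranspose (hpA_mul_hpB n)
  rw [Matrix.conjTranspose_mul, hpA_isHermitian, spinRaise, Matrix.conjTranspose_conjTranspose] at h
  exact h

theorem lower_mul_raise (n : ℕ) :
    spinLower n * spinRaise n = diagonal fun j : Fin (n + 1) =>
      (((j : ℕ) : ℂ) * ((n : ℂ) + 1 - (j : ℕ))) := by
  ext i j
  rw [Matrix.mul_apply]
  simp only [spinRaise, spinLower, Matrix.conjTranspose_apply, Matrix.of_apply]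
  by_cases hij : i = j
  · subst hij
    simp only [Matrix.diagonal_apply_eq]
    by_cases hi0 : (i : ℕ) = 0
    · rw [Finset.sum_eq_zero]
      · simp [hi0]
      · intro k _
        rw [if_neg (by omega)]
        simp
    · have hlt : (i : ℕ) - 1 < n + 1 := by omega
      rw [Finset.sum_eq_single (⟨(i : ℕ) - 1, hlt⟩ : Fin (n + 1))]
      · have : (i : ℕ) = (i : ℕ) - 1 + 1 := by omega
        rw [if_pos this]
        rw [Complex.star_def, Complex.conj_ofReal, ← Complex.ofReal_mul, Real.mul_self_sqrt]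
        · push_cast; ring
        · have hi : ((i : ℕ) : ℝ) ≤ n := by exact_mod_cast Nat.lt_succ_iff.1 i.2
          have : (0 : ℝ) ≤ ((i : ℕ) : ℝ) := Nat.cast_nonneg _
          exact mul_nonneg this (by linarith)
      · intro k _ hk
        rw [if_neg]
        · simp
        · intro h
          apply hk
          ext
          simp only
          omega
      · intro h; exact absurd (Finset.mem_univ _) h
  · have hij' : (i : ℕ) ≠ (j : ℕ) := fun h => hij (Fin.ext h)
    rw [Finset.sum_eq_zero]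
    · simp [hij]
    · intro k _
      by_cases h1 : (i : ℕ) = (k : ℕ) + 1
      · rw [if_neg (show ¬ (j : ℕ) = (k : ℕ) + 1 by omega)]
        simp
      · rw [if_neg h1]
        simp

theorem raise_mul_lower (n : ℕ) :
    spinRaise n * spinLower n = diagonal fun j : Fin (n + 1) =>
      ((((j : ℕ) : ℂ) + 1) * ((n : ℂ) - (j : ℕ))) := by
  ext i j
  rw [Matrix.mul_apply]
  simp only [spinRaise, spinLower, Matrix.conjTranspose_apply, Matrix.of_apply]
  by_cases hij : i = j
  · subst hij
    simp only [Matrix.diagonal_apply_eq]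
    by_cases hi0 : (i : ℕ) = n
    · rw [Finset.sum_eq_zero]
      · simp [hi0]
      · intro k _
        have := k.2
        rw [if_neg (by omega)]
        simp
    · have hlt : (i : ℕ) + 1 < n + 1 := by have := i.2; omega
      rw [Finset.sum_eq_single (⟨(i : ℕ) + 1, hlt⟩ : Fin (n + 1))]
      · rw [if_pos rfl]
        rw [Complex.star_def, Complex.conj_ofReal, ← Complex.ofReal_mul, Real.mul_self_sqrt]
        · push_cast; ring
        · have hi : ((i : ℕ) : ℝ) ≤ n := by exact_mod_cast Nat.lt_succ_iff.1 i.2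
          have : (0 : ℝ) ≤ ((i : ℕ) : ℝ) := Nat.cast_nonneg _
          push_cast
          exact mul_nonneg (by linarith) (by linarith)
      · intro k _ hk
        rw [if_neg]
        · simp
        · intro h
          apply hk
          ext
          simp only
          omega
      · intro h; exact absurd (Finset.mem_univ _) h
  · have hij' : (i : ℕ) ≠ (j : ℕ) := fun h => hij (Fin.ext h)
    rw [Finset.sum_eq_zero]
    · simp [hij]
    · intro k _
      by_cases h1 : (k : ℕ) = (i : ℕ) + 1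
      · rw [if_neg (show ¬ (k : ℕ) = (j : ℕ) + 1 by omega)]
        simp
      · rw [if_neg h1]
        simp

theorem raise_lower_comm (n : ℕ) :
    spinRaise n * spinLower n - spinLower n * spinRaise n = (2 : ℂ) • spinZ n := by
  rw [raise_mul_lower, lower_mul_raise, Matrix.diagonal_sub, spinZ, ← Matrix.diagonal_smul]
  congr 1
  ext j
  simp only [Pi.smul_apply, smul_eq_mul]
  ring

theorem lower_Z_comm (n : ℕ) :
    spinLower n * spinZ n - spinZ n * spinLower n = spinLower n := by
  ext i j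
  rw [Matrix.sub_apply, spinZ, Matrix.mul_diagonal, Matrix.diagonal_mul]
  simp only [spinLower, Matrix.of_apply]
  split_ifs with h
  · rw [h]; push_cast; ring
  · simp

theorem raise_Z_comm (n : ℕ) :
    spinRaise n * spinZ n - spinZ n * spinRaise n = -spinRaise n := by
  have h := congrArg Matrix.conjTranspose (lower_Z_comm n)
  rw [Matrix.conjTranspose_sub, Matrix.conjTranspose_mul, Matrix.conjTranspose_mul] at h
  have hz : (spinZ n)ᴴ = spinZ n := spin_isHermitian n 2
  rw [hz] at h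
  rw [← neg_sub, spinRaise]
  rw [h]

theorem lower_raise_le (n : ℕ) :
    ((n : ℂ) • (((n : ℂ) / 2) • (1 : Matrix (Fin (n + 1)) (Fin (n + 1)) ℂ) - spinZ n) -
      spinLower n * spinRaise n).PosSemidef := by
  have h : (n : ℂ) • (((n : ℂ) / 2) • (1 : Matrix (Fin (n + 1)) (Fin (n + 1)) ℂ) - spinZ n) -
      spinLower n * spinRaise n = diagonal fun j : Fin (n + 1) =>
        ((((j : ℕ) : ℝ) * ((j : ℕ) - 1) : ℝ) : ℂ) := by
    rw [lower_mul_raise]
    ext i j
    by_cases hij : i = j
    · subst hij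
      simp [spinZ]
      ring
    · simp [spinZ, hij]
  rw [h]
  refine Matrix.PosSemidef.diagonal ?_
  intro j
  simp only [Pi.zero_apply]
  rw [Complex.zero_le_real]
  rcases Nat.eq_zero_or_pos (j : ℕ) with h0 | h0
  · simp [h0]
  · have : (1 : ℝ) ≤ ((j : ℕ) : ℝ) := by exact_mod_cast h0
    exact mul_nonneg (by linarith) (by linarith)

variable {n : ℕ} {Λ : Finset Site}

theorem pair_eq (x y : Λ) :
    ∑ a : Fin 3, siteOp x (spin n a) * siteOp y (spin n a) =
      siteOp x (spinZ n) * siteOp y (spinZ n) +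
      (1 / 2 : ℂ) • (siteOp x (spinRaise n) * siteOp y (spinLower n) +
        siteOp x (spinLower n) * siteOp y (spinRaise n)) := by
  rw [Fin.sum_univ_three]
  have h0 : spin n 0 = (1 / 2 : ℂ) • (spinRaise n + spinLower n) := rfl
  have h1 : spin n 1 = (1 / (2 * Complex.I) : ℂ) • (spinRaise n - spinLower n) := rfl
  have h2 : spin n 2 = spinZ n := rfl
  rw [h0, h1, h2]
  simp only [siteOp_smul, siteOp_add, siteOp_sub, Matrix.smul_mul, Matrix.mul_smul, smul_smul]
  have hI : (1 / (2 * Complex.I) : ℂ) * (1 / (2 * Complex.I)) = -(1 / 4) := by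
    rw [div_mul_div_comm, one_mul]
    have : 2 * Complex.I * (2 * Complex.I) = -4 := by
      rw [mul_mul_mul_comm, Complex.I_mul_I]; norm_num
    rw [this]; norm_num
  rw [hI]
  simp only [Matrix.mul_add, Matrix.add_mul, Matrix.mul_sub, Matrix.sub_mul]
  module

/-- The bond inequality `2 Z_x Z_y + (R_x L_y + L_x R_y)/2 ≤ 2 S²`. -/
theorem bond_posSemidef {x y : Λ} (hxy : x ≠ y) :
    ((2 * ((n : ℂ) / 2) ^ 2) • (1 : Matrix (Λ → Fin (n + 1)) (Λ → Fin (n + 1)) ℂ) -
      ((2 : ℂ) • (siteOp x (spinZ n) * siteOp y (spinZ n)) +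
      (1 / 2 : ℂ) • (siteOp x (spinRaise n) * siteOp y (spinLower n) +
        siteOp x (spinLower n) * siteOp y (spinRaise n)))).PosSemidef := by
  set ax := siteOp x (hpA n) with hax
  set ay := siteOp y (hpA n) with hay
  set bx := siteOp x (hpB n) with hbx
  set yb := siteOp y (hpB n) with hyb
  have key : (2 * ((n : ℂ) / 2) ^ 2) • (1 : Matrix (Λ → Fin (n + 1)) (Λ → Fin (n + 1)) ℂ) -
      ((2 : ℂ) • (siteOp x (spinZ n) * siteOp y (spinZ n)) +
      (1 / 2 : ℂ) • (siteOp x (spinRaise n) * siteOp y (spinLower n) +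
        siteOp x (spinLower n) * siteOp y (spinRaise n))) =
      (1 / 2 : ℂ) • ((ax * yb - bx * ay)ᴴ * (ax * yb - bx * ay) + (ax * yb)ᴴ * (ax * yb) +
        (bx * ay)ᴴ * (bx * ay)) := by
    have hAA : ∀ z : Λ, siteOp z ((hpA n)ᴴ * hpA n) =
        ((n : ℂ) / 2) • (1 : Matrix (Λ → Fin (n + 1)) (Λ → Fin (n + 1)) ℂ) +
          siteOp z (spinZ n) := by
      intro z; rw [hpA_mul_self, siteOp_add, siteOp_smul, siteOp_one]
    have hBB : ∀ z : Λ, siteOp z ((hpB n)ᴴ * hpB n) =
        ((n : ℂ) / 2) • (1 : Matrix (Λ → Fin (n + 1)) (Λ → Fin (n + 1)) ℂ) -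
          siteOp z (spinZ n) := by
      intro z; rw [hpB_mul_self, siteOp_sub, siteOp_smul, siteOp_one]
    have e1 : (ax * yb)ᴴ * (ax * yb) = siteOp x ((hpA n)ᴴ * hpA n) *
        siteOp y ((hpB n)ᴴ * hpB n) := by
      rw [Matrix.conjTranspose_mul, hax, hyb, siteOp_conjTranspose, siteOp_conjTranspose,
        ← siteOp_mul, ← siteOp_mul]
      rw [Matrix.mul_assoc, ← Matrix.mul_assoc (siteOp x (hpA n)ᴴ), siteOp_mul,
        ← Matrix.mul_assoc, ← siteOp_commute hxy, Matrix.mul_assoc, siteOp_mul]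
    have e2 : (bx * ay)ᴴ * (bx * ay) = siteOp x ((hpB n)ᴴ * hpB n) *
        siteOp y ((hpA n)ᴴ * hpA n) := by
      rw [Matrix.conjTranspose_mul, hay, hbx, siteOp_conjTranspose, siteOp_conjTranspose,
        ← siteOp_mul, ← siteOp_mul]
      rw [Matrix.mul_assoc, ← Matrix.mul_assoc (siteOp x (hpB n)ᴴ), siteOp_mul,
        ← Matrix.mul_assoc, ← siteOp_commute hxy, Matrix.mul_assoc, siteOp_mul]
    have e3 : (ax * yb)ᴴ * (bx * ay) = siteOp x (spinRaise n) * siteOp y (spinLower n) := by
      rw [← hpA_mul_hpB, ← hpB_mul_hpA, ← siteOp_mul, ← siteOp_mul, Matrix.conjTranspose_mul, hax,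
        hyb, siteOp_conjTranspose, siteOp_conjTranspose, hpA_isHermitian, hbx, hay]
      rw [Matrix.mul_assoc, ← Matrix.mul_assoc (siteOp x (hpA n)), siteOp_mul,
        ← Matrix.mul_assoc, ← siteOp_commute hxy, Matrix.mul_assoc]
    have e4 : (bx * ay)ᴴ * (ax * yb) = siteOp x (spinLower n) * siteOp y (spinRaise n) := by
      rw [← hpA_mul_hpB, ← hpB_mul_hpA, ← siteOp_mul, ← siteOp_mul, Matrix.conjTranspose_mul, hay,
        hbx, siteOp_conjTranspose, siteOp_conjTranspose, hpA_isHermitian, hax, hyb]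
      rw [Matrix.mul_assoc, ← Matrix.mul_assoc (siteOp x (hpB n)ᴴ), siteOp_mul,
        ← Matrix.mul_assoc, ← siteOp_commute hxy, Matrix.mul_assoc]
    rw [Matrix.conjTranspose_sub, Matrix.sub_mul, Matrix.mul_sub, Matrix.mul_sub, e1, e2, e3, e4,
      hAA, hBB, hAA, hBB]
    simp only [Matrix.mul_add, Matrix.add_mul, Matrix.mul_sub, Matrix.sub_mul, Matrix.smul_mul,
      Matrix.mul_smul, Matrix.one_mul, Matrix.mul_one]
    module
  rw [key]
  refine Matrix.PosSemidef.smul ?_ (by norm_num [Complex.le_def])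
  exact ((Matrix.posSemidef_conjTranspose_mul_self _).add
    (Matrix.posSemidef_conjTranspose_mul_self _)).add (Matrix.posSemidef_conjTranspose_mul_self _)

end Vale.Agent.P361
end

section

/-!
The double commutator of a weighted raising operator with the Heisenberg exponent.
-/

namespace Vale.Agent.P361

open Matrix Finset
open scoped ComplexOrder

variable {n : ℕ} {Λ : Finset Site}

/-- `A_f = ∑ f_x S⁺_x`. -/
noncomputable def modeOp (n : ℕ) {Λ : Finset Site} (f : Λ → ℝ) :
    Matrix (Λ → Fin (n + 1)) (Λ → Fin (n + 1)) ℂ :=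
  ∑ x, (f x : ℂ) • siteOp x (spinRaise n)

theorem star_modeOp (f : Λ → ℝ) :
    star (modeOp n f) = ∑ x, (f x : ℂ) • siteOp x (spinLower n) := by
  rw [modeOp, Matrix.star_eq_conjTranspose, Matrix.conjTranspose_sum]
  refine Finset.sum_congr rfl fun x _ => ?_
  rw [Matrix.conjTranspose_smul, siteOp_conjTranspose, spinRaise,
    Matrix.conjTranspose_conjTranspose]
  simp

/-- The pair interaction in terms of raising and lowering operators. -/
noncomputable def pairH (n : ℕ) {Λ : Finset Site} (x y : Λ) :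
    Matrix (Λ → Fin (n + 1)) (Λ → Fin (n + 1)) ℂ :=
  siteOp x (spinZ n) * siteOp y (spinZ n) +
      (1 / 2 : ℂ) • (siteOp x (spinRaise n) * siteOp y (spinLower n) +
        siteOp x (spinLower n) * siteOp y (spinRaise n))

/-- Bond current. -/
noncomputable def bondW (n : ℕ) {Λ : Finset Site} (x y : Λ) :
    Matrix (Λ → Fin (n + 1)) (Λ → Fin (n + 1)) ℂ :=
  siteOp x (spinLower n) * siteOp y (spinZ n) - siteOp x (spinZ n) * siteOp y (spinLower n)

theorem comm_prod_of_ne {x y z : Λ} (hx : z ≠ x) (hy : z ≠ y)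
    (A B C : Matrix (Fin (n + 1)) (Fin (n + 1)) ℂ) :
    siteOp z C * (siteOp x A * siteOp y B) - (siteOp x A * siteOp y B) * siteOp z C = 0 := by
  rw [← Matrix.mul_assoc, siteOp_commute hx, Matrix.mul_assoc, siteOp_commute hy,
    ← Matrix.mul_assoc, sub_self]

theorem comm_prod_left {x y : Λ} (hxy : x ≠ y)
    (A B C : Matrix (Fin (n + 1)) (Fin (n + 1)) ℂ) :
    siteOp x C * (siteOp x A * siteOp y B) - (siteOp x A * siteOp y B) * siteOp x C =
      siteOp x (C * A - A * C) * siteOp y B := by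
  rw [Matrix.mul_assoc (siteOp x A), ← siteOp_commute hxy, ← Matrix.mul_assoc, ← Matrix.mul_assoc,
    siteOp_mul, siteOp_mul, ← Matrix.sub_mul, ← siteOp_sub]

theorem comm_prod_right {x y : Λ} (hxy : x ≠ y)
    (A B C : Matrix (Fin (n + 1)) (Fin (n + 1)) ℂ) :
    siteOp y C * (siteOp x A * siteOp y B) - (siteOp x A * siteOp y B) * siteOp y C =
      siteOp x A * siteOp y (C * B - B * C) := by
  rw [← Matrix.mul_assoc, ← siteOp_commute hxy, Matrix.mul_assoc, Matrix.mul_assoc,
    siteOp_mul, siteOp_mul, ← Matrix.mul_sub, ← siteOp_sub]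

theorem comm_lower_pairH_of_ne {x y z : Λ} (hx : z ≠ x) (hy : z ≠ y) :
    siteOp z (spinLower n) * pairH n x y - pairH n x y * siteOp z (spinLower n) = 0 := by
  have h1 := comm_prod_of_ne hx hy (spinZ n) (spinZ n) (spinLower n)
  have h2 := comm_prod_of_ne hx hy (spinRaise n) (spinLower n) (spinLower n)
  have h3 := comm_prod_of_ne hx hy (spinLower n) (spinRaise n) (spinLower n)
  rw [pairH]
  have : siteOp z (spinLower n) * (siteOp x (spinZ n) * siteOp y (spinZ n) +
      (1 / 2 : ℂ) • (siteOp x (spinRaise n) * siteOp y (spinLower n) +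
        siteOp x (spinLower n) * siteOp y (spinRaise n))) -
      (siteOp x (spinZ n) * siteOp y (spinZ n) +
      (1 / 2 : ℂ) • (siteOp x (spinRaise n) * siteOp y (spinLower n) +
        siteOp x (spinLower n) * siteOp y (spinRaise n))) * siteOp z (spinLower n) =
      (siteOp z (spinLower n) * (siteOp x (spinZ n) * siteOp y (spinZ n)) -
        (siteOp x (spinZ n) * siteOp y (spinZ n)) * siteOp z (spinLower n)) +
      (1 / 2 : ℂ) • ((siteOp z (spinLower n) * (siteOp x (spinRaise n) * siteOp y (spinLower n)) -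
        (siteOp x (spinRaise n) * siteOp y (spinLower n)) * siteOp z (spinLower n)) +
        (siteOp z (spinLower n) * (siteOp x (spinLower n) * siteOp y (spinRaise n)) -
        (siteOp x (spinLower n) * siteOp y (spinRaise n)) * siteOp z (spinLower n))) := by
    simp only [Matrix.mul_add, Matrix.add_mul, Matrix.mul_smul, Matrix.smul_mul]
    module
  rw [this, h1, h2, h3]
  simp

theorem comm_lower_pairH_left {x y : Λ} (hxy : x ≠ y) :
    siteOp x (spinLower n) * pairH n x y - pairH n x y * siteOp x (spinLower n) = bondW n x y := by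
  have h1 := comm_prod_left hxy (spinZ n) (spinZ n) (spinLower n)
  have h2 := comm_prod_left hxy (spinRaise n) (spinLower n) (spinLower n)
  have h3 := comm_prod_left hxy (spinLower n) (spinRaise n) (spinLower n)
  have c2 : spinLower n * spinRaise n - spinRaise n * spinLower n = -((2 : ℂ) • spinZ n) := by
    rw [← raise_lower_comm, neg_sub]
  rw [lower_Z_comm] at h1
  rw [c2] at h2
  rw [sub_self, siteOp_zero, Matrix.zero_mul] at h3
  have : siteOp x (spinLower n) * pairH n x y - pairH n x y * siteOp x (spinLower n) =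
      (siteOp x (spinLower n) * (siteOp x (spinZ n) * siteOp y (spinZ n)) -
        (siteOp x (spinZ n) * siteOp y (spinZ n)) * siteOp x (spinLower n)) +
      (1 / 2 : ℂ) • ((siteOp x (spinLower n) * (siteOp x (spinRaise n) * siteOp y (spinLower n)) -
        (siteOp x (spinRaise n) * siteOp y (spinLower n)) * siteOp x (spinLower n)) +
        (siteOp x (spinLower n) * (siteOp x (spinLower n) * siteOp y (spinRaise n)) -
        (siteOp x (spinLower n) * siteOp y (spinRaise n)) * siteOp x (spinLower n))) := by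
    rw [pairH]
    simp only [Matrix.mul_add, Matrix.add_mul, Matrix.mul_smul, Matrix.smul_mul]
    module
  rw [this, h1, h2, h3, bondW, siteOp_neg, siteOp_smul, Matrix.neg_mul, Matrix.smul_mul]
  module

theorem comm_lower_pairH_right {x y : Λ} (hxy : x ≠ y) :
    siteOp y (spinLower n) * pairH n x y - pairH n x y * siteOp y (spinLower n) =
      -bondW n x y := by
  have h1 := comm_prod_right hxy (spinZ n) (spinZ n) (spinLower n)
  have h2 := comm_prod_right hxy (spinRaise n) (spinLower n) (spinLower n)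
  have h3 := comm_prod_right hxy (spinLower n) (spinRaise n) (spinLower n)
  have c2 : spinLower n * spinRaise n - spinRaise n * spinLower n = -((2 : ℂ) • spinZ n) := by
    rw [← raise_lower_comm, neg_sub]
  rw [lower_Z_comm] at h1
  rw [c2] at h3
  rw [sub_self, siteOp_zero, Matrix.mul_zero] at h2
  have : siteOp y (spinLower n) * pairH n x y - pairH n x y * siteOp y (spinLower n) =
      (siteOp y (spinLower n) * (siteOp x (spinZ n) * siteOp y (spinZ n)) -
        (siteOp x (spinZ n) * siteOp y (spinZ n)) * siteOp y (spinLower n)) +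
      (1 / 2 : ℂ) • ((siteOp y (spinLower n) * (siteOp x (spinRaise n) * siteOp y (spinLower n)) -
        (siteOp x (spinRaise n) * siteOp y (spinLower n)) * siteOp y (spinLower n)) +
        (siteOp y (spinLower n) * (siteOp x (spinLower n) * siteOp y (spinRaise n)) -
        (siteOp x (spinLower n) * siteOp y (spinRaise n)) * siteOp y (spinLower n))) := by
    rw [pairH]
    simp only [Matrix.mul_add, Matrix.add_mul, Matrix.mul_smul, Matrix.smul_mul]
    module
  rw [this, h1, h2, h3, bondW, siteOp_neg, siteOp_smul, Matrix.mul_neg, Matrix.mul_smul]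
  module

theorem comm_raise_bondW_of_ne {x y z : Λ} (hx : z ≠ x) (hy : z ≠ y) :
    siteOp z (spinRaise n) * bondW n x y - bondW n x y * siteOp z (spinRaise n) = 0 := by
  have h1 := comm_prod_of_ne hx hy (spinLower n) (spinZ n) (spinRaise n)
  have h2 := comm_prod_of_ne hx hy (spinZ n) (spinLower n) (spinRaise n)
  have : siteOp z (spinRaise n) * bondW n x y - bondW n x y * siteOp z (spinRaise n) =
      (siteOp z (spinRaise n) * (siteOp x (spinLower n) * siteOp y (spinZ n)) -
        (siteOp x (spinLower n) * siteOp y (spinZ n)) * siteOp z (spinRaise n)) -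
      (siteOp z (spinRaise n) * (siteOp x (spinZ n) * siteOp y (spinLower n)) -
        (siteOp x (spinZ n) * siteOp y (spinLower n)) * siteOp z (spinRaise n)) := by
    rw [bondW, Matrix.mul_sub, Matrix.sub_mul]
    abel
  rw [this, h1, h2, sub_zero]

theorem comm_raise_bondW_left {x y : Λ} (hxy : x ≠ y) :
    siteOp x (spinRaise n) * bondW n x y - bondW n x y * siteOp x (spinRaise n) =
      (2 : ℂ) • (siteOp x (spinZ n) * siteOp y (spinZ n)) +
        siteOp x (spinRaise n) * siteOp y (spinLower n) := by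
  have h1 := comm_prod_left hxy (spinLower n) (spinZ n) (spinRaise n)
  have h2 := comm_prod_left hxy (spinZ n) (spinLower n) (spinRaise n)
  rw [raise_lower_comm] at h1
  rw [raise_Z_comm] at h2
  have : siteOp x (spinRaise n) * bondW n x y - bondW n x y * siteOp x (spinRaise n) =
      (siteOp x (spinRaise n) * (siteOp x (spinLower n) * siteOp y (spinZ n)) -
        (siteOp x (spinLower n) * siteOp y (spinZ n)) * siteOp x (spinRaise n)) -
      (siteOp x (spinRaise n) * (siteOp x (spinZ n) * siteOp y (spinLower n)) -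
        (siteOp x (spinZ n) * siteOp y (spinLower n)) * siteOp x (spinRaise n)) := by
    rw [bondW, Matrix.mul_sub, Matrix.sub_mul]
    abel
  rw [this, h1, h2, siteOp_neg, siteOp_smul, Matrix.neg_mul, Matrix.smul_mul, sub_neg_eq_add]

theorem comm_raise_bondW_right {x y : Λ} (hxy : x ≠ y) :
    siteOp y (spinRaise n) * bondW n x y - bondW n x y * siteOp y (spinRaise n) =
      -((2 : ℂ) • (siteOp x (spinZ n) * siteOp y (spinZ n)) +
        siteOp x (spinLower n) * siteOp y (spinRaise n)) := by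
  have h1 := comm_prod_right hxy (spinLower n) (spinZ n) (spinRaise n)
  have h2 := comm_prod_right hxy (spinZ n) (spinLower n) (spinRaise n)
  rw [raise_Z_comm] at h1
  rw [raise_lower_comm] at h2
  have : siteOp y (spinRaise n) * bondW n x y - bondW n x y * siteOp y (spinRaise n) =
      (siteOp y (spinRaise n) * (siteOp x (spinLower n) * siteOp y (spinZ n)) -
        (siteOp x (spinLower n) * siteOp y (spinZ n)) * siteOp y (spinRaise n)) -
      (siteOp y (spinRaise n) * (siteOp x (spinZ n) * siteOp y (spinLower n)) -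
        (siteOp x (spinZ n) * siteOp y (spinLower n)) * siteOp y (spinRaise n)) := by
    rw [bondW, Matrix.mul_sub, Matrix.sub_mul]
    abel
  rw [this, h1, h2, siteOp_neg, siteOp_smul, Matrix.mul_neg, Matrix.mul_smul]
  abel

theorem dblComm_pairH (f : Λ → ℝ) {x y : Λ} (hxy : x ≠ y) :
    dblComm (modeOp n f) (pairH n x y) = ((f x - f y : ℝ) : ℂ) •
      ((f x : ℂ) • ((2 : ℂ) • (siteOp x (spinZ n) * siteOp y (spinZ n)) +
        siteOp x (spinRaise n) * siteOp y (spinLower n)) -
       (f y : ℂ) • ((2 : ℂ) • (siteOp x (spinZ n) * siteOp y (spinZ n)) +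
        siteOp x (spinLower n) * siteOp y (spinRaise n))) := by
  have h1 : star (modeOp n f) * pairH n x y - pairH n x y * star (modeOp n f) =
      ((f x - f y : ℝ) : ℂ) • bondW n x y := by
    rw [star_modeOp, Finset.sum_mul, Finset.mul_sum, ← Finset.sum_sub_distrib]
    have h2 : ∀ z : Λ, ((f z : ℂ) • siteOp z (spinLower n)) * pairH n x y -
        pairH n x y * ((f z : ℂ) • siteOp z (spinLower n)) =
        (f z : ℂ) • (siteOp z (spinLower n) * pairH n x y -
          pairH n x y * siteOp z (spinLower n)) := by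
      intro z
      rw [Matrix.smul_mul, Matrix.mul_smul, smul_sub]
    simp only [h2]
    rw [Fintype.sum_eq_add x y hxy, comm_lower_pairH_left hxy, comm_lower_pairH_right hxy]
    · push_cast
      module
    · intro z hz
      rw [comm_lower_pairH_of_ne hz.1 hz.2, smul_zero]
  unfold dblComm
  rw [h1, Matrix.mul_smul, Matrix.smul_mul, ← smul_sub]
  congr 1
  rw [modeOp, Finset.sum_mul, Finset.mul_sum, ← Finset.sum_sub_distrib]
  have h2 : ∀ z : Λ, ((f z : ℂ) • siteOp z (spinRaise n)) * bondW n x y -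
      bondW n x y * ((f z : ℂ) • siteOp z (spinRaise n)) =
      (f z : ℂ) • (siteOp z (spinRaise n) * bondW n x y -
        bondW n x y * siteOp z (spinRaise n)) := by
    intro z
    rw [Matrix.smul_mul, Matrix.mul_smul, smul_sub]
  simp only [h2]
  rw [Fintype.sum_eq_add x y hxy, comm_raise_bondW_left hxy, comm_raise_bondW_right hxy]
  · module
  · intro z hz
    rw [comm_raise_bondW_of_ne hz.1 hz.2, smul_zero]

theorem dblComm_Z (f : Λ → ℝ) (x : Λ) :
    dblComm (modeOp n f) (siteOp x (spinZ n)) =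
      ((2 * f x ^ 2 : ℝ) : ℂ) • siteOp x (spinZ n) := by
  have h1 : star (modeOp n f) * siteOp x (spinZ n) - siteOp x (spinZ n) * star (modeOp n f) =
      (f x : ℂ) • siteOp x (spinLower n) := by
    rw [star_modeOp, Finset.sum_mul, Finset.mul_sum, ← Finset.sum_sub_distrib,
      Fintype.sum_eq_single x]
    · rw [Matrix.smul_mul, Matrix.mul_smul, ← smul_sub, siteOp_mul, siteOp_mul, ← siteOp_sub,
        lower_Z_comm]
    · intro z hz
      rw [Matrix.smul_mul, Matrix.mul_smul, siteOp_commute hz, sub_self]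
  unfold dblComm
  rw [h1, modeOp, Finset.sum_mul, Finset.mul_sum, ← Finset.sum_sub_distrib,
      Fintype.sum_eq_single x]
  · rw [Matrix.smul_mul, Matrix.mul_smul, Matrix.smul_mul, Matrix.mul_smul, ← smul_sub, ← smul_sub,
      siteOp_mul, siteOp_mul, ← siteOp_sub, raise_lower_comm, siteOp_smul]
    push_cast
    module
  · intro z hz
    rw [Matrix.smul_mul, Matrix.mul_smul, Matrix.smul_mul, Matrix.mul_smul, siteOp_commute hz]
    module

theorem dblComm_add {ι : Type*} [Fintype ι] [DecidableEq ι] (A X Y : Matrix ι ι ℂ) :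
    dblComm A (X + Y) = dblComm A X + dblComm A Y := by
  unfold dblComm
  simp only [Matrix.mul_add, Matrix.add_mul, Matrix.mul_sub, Matrix.sub_mul]
  abel

theorem dblComm_smul {ι : Type*} [Fintype ι] [DecidableEq ι] (c : ℂ) (A X : Matrix ι ι ℂ) :
    dblComm A (c • X) = c • dblComm A X := by
  unfold dblComm
  simp only [Matrix.mul_smul, Matrix.smul_mul, ← smul_sub]

theorem dblComm_zero {ι : Type*} [Fintype ι] [DecidableEq ι] (A : Matrix ι ι ℂ) :
    dblComm A (0 : Matrix ι ι ℂ) = 0 := by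
  unfold dblComm
  simp

theorem dblComm_sum {ι : Type*} [Fintype ι] [DecidableEq ι] {κ : Type*} (s : Finset κ)
    (A : Matrix ι ι ℂ) (X : κ → Matrix ι ι ℂ) :
    dblComm A (∑ i ∈ s, X i) = ∑ i ∈ s, dblComm A (X i) := by
  classical
  induction s using Finset.induction_on with
  | empty => simp [dblComm_zero]
  | insert a s ha ih => rw [Finset.sum_insert ha, Finset.sum_insert ha, dblComm_add, ih]

/-- The exponent in terms of pair interactions. -/
theorem expo_eq (n : ℕ) (Λ : Finset Site) (β h : ℝ) :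
    expo n Λ β h = ((β / 2 : ℝ) : ℂ) • (∑ x : Λ, ∑ y : Λ, if IsNN x.1 y.1 then pairH n x y else 0) +
      ((β * h : ℝ) : ℂ) • ∑ x : Λ, siteOp x (spinZ n) := by
  unfold expo hamiltonian magnetization
  have h2 : spin n 2 = spinZ n := rfl
  have h3 : ∀ x y : Λ, ∑ a : Fin 3, siteOp x (spin n a) * siteOp y (spin n a) = pairH n x y :=
    fun x y => pair_eq x y
  simp only [h3, h2]
  push_cast
  module

theorem dblComm_expo (f : Λ → ℝ) (β h : ℝ) :
    dblComm (modeOp n f) (expo n Λ β h) =
      ((β / 2 : ℝ) : ℂ) • (∑ x : Λ, ∑ y : Λ, if IsNN x.1 y.1 then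
        dblComm (modeOp n f) (pairH n x y) else 0) +
      ((β * h : ℝ) : ℂ) • ∑ x : Λ, ((2 * f x ^ 2 : ℝ) : ℂ) • siteOp x (spinZ n) := by
  rw [expo_eq, dblComm_add, dblComm_smul, dblComm_smul, dblComm_sum, dblComm_sum]
  simp only [dblComm_sum, dblComm_Z]
  congr 2
  refine Finset.sum_congr rfl fun x _ => Finset.sum_congr rfl fun y _ => ?_
  split_ifs
  · rfl
  · exact dblComm_zero _

end Vale.Agent.P361
end

section

/-!
Heisenberg model on a general finite graph: the exponent `-β (H_J - h M)`, the supporting line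
inequality in `h`, and the dependence of the logarithm of the partition function on the graph.
-/

namespace Vale.Agent.P361.LRO

open Matrix Filter Topology Finset
open scoped ComplexOrder

section General

variable {V : Type} [Fintype V] [DecidableEq V]

/-- The exponent `-β (H_J - h M)`. -/
noncomputable def expoV (n : ℕ) (J : V → V → Prop) [DecidableRel J] (β h : ℝ) : Model.Op n V :=
  -(β : ℂ) • (Model.hamiltonian n J - (h : ℂ) • Model.magnetization n V)

/-- Number of ordered pairs `(x, y)` with `J x y`. -/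
noncomputable def pairsV (J : V → V → Prop) [DecidableRel J] : ℝ :=
  ∑ x : V, ∑ y : V, if J x y then (1 : ℝ) else 0

theorem totOp_eqV (n : ℕ) (J : V → V → Prop) [DecidableRel J] (β h c φ₀ : ℝ) :
    totOp (V := V) (β / 2) c (spin n)
      ((φ₀ : ℂ) • (1 : Matrix (Fin (n + 1)) (Fin (n + 1)) ℂ) + ((β * h : ℝ) : ℂ) • spin n 2) J =
      expoV n J β h + (((β / 2) * c * pairsV J + φ₀ * Fintype.card V : ℝ) : ℂ) •
        (1 : Matrix (V → Fin (n + 1)) (V → Fin (n + 1)) ℂ) := by
  have hH : Model.hamiltonian n J = -((1 / 2 : ℂ) • ∑ x : V, ∑ y : V,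
      if J x y then ∑ a : Fin 3, siteOpV x (spin n a) * siteOpV y (spin n a) else 0) := rfl
  have hM : Model.magnetization n V = ∑ x : V, siteOpV x (spin n 2) := rfl
  unfold totOp expoV pairsV pairOp
  rw [hH, hM]
  simp only [siteOpV_add, siteOpV_smul, siteOpV_one]
  have e1 : (∑ x : V, ∑ y : V, if J x y then
      ((c : ℂ) • (1 : Matrix (V → Fin (n + 1)) (V → Fin (n + 1)) ℂ) +
        ∑ a, siteOpV x (spin n a) * siteOpV y (spin n a)) else 0) =
      ((c * ∑ x : V, ∑ y : V, (if J x y then (1 : ℝ) else 0) : ℝ) : ℂ) •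
        (1 : Matrix (V → Fin (n + 1)) (V → Fin (n + 1)) ℂ) +
      ∑ x : V, ∑ y : V, if J x y then
        ∑ a, siteOpV x (spin n a) * siteOpV y (spin n a) else 0 := by
    push_cast
    rw [Finset.mul_sum, Finset.sum_smul, ← Finset.sum_add_distrib]
    refine Finset.sum_congr rfl fun x _ => ?_
    rw [Finset.mul_sum, Finset.sum_smul, ← Finset.sum_add_distrib]
    refine Finset.sum_congr rfl fun y _ => ?_
    split_ifs <;> simp
  rw [e1, Finset.sum_add_distrib, Finset.sum_const, Finset.card_univ, ← Finset.smul_sum]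
  push_cast
  module

theorem fieldF_isHermitian (n : ℕ) (φ₀ r : ℝ) :
    ((φ₀ : ℂ) • (1 : Matrix (Fin (n + 1)) (Fin (n + 1)) ℂ) +
      ((r : ℝ) : ℂ) • spin n 2).IsHermitian := by
  rw [Matrix.IsHermitian, Matrix.conjTranspose_add, Matrix.conjTranspose_smul,
    Matrix.conjTranspose_smul, spin_isHermitian n 2, Matrix.conjTranspose_one]
  simp only [RCLike.star_def, Complex.conj_ofReal]

theorem expoV_isHermitian (n : ℕ) (J : V → V → Prop) [DecidableRel J] (hJ : ∀ x, ¬ J x x)
    (β h : ℝ) : (expoV n J β h).IsHermitian := by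
  have h1 := totOp_eqV n J β h 0 0
  have h2 := totOp_isHermitian (V := V) (β / 2) 0 (spin_isHermitian n)
    (F := ((0 : ℝ) : ℂ) • (1 : Matrix (Fin (n + 1)) (Fin (n + 1)) ℂ) +
      ((β * h : ℝ) : ℂ) • spin n 2) (fieldF_isHermitian n 0 (β * h)) J hJ
  rw [h1] at h2
  simpa only [mul_zero, zero_mul, add_zero, Complex.ofReal_zero, zero_smul] using h2

theorem logTr_eq (n : ℕ) (J : V → V → Prop) [DecidableRel J] (β h : ℝ) :
    Model.logTr n J β h = Real.log (trace (NormedSpace.exp (expoV n J β h))).re := rfl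

/-- Total magnetization `⟨M⟩` of the Gibbs state of `H_J - h M`. -/
noncomputable def gibbsMagV (n : ℕ) (J : V → V → Prop) [DecidableRel J] (β h : ℝ) : ℝ :=
  (trace (NormedSpace.exp (expoV n J β h) * Model.magnetization n V)).re /
    (trace (NormedSpace.exp (expoV n J β h))).re

theorem magnetizationV_isHermitian (n : ℕ) : (Model.magnetization n V).IsHermitian := by
  have hM : Model.magnetization n V = ∑ x : V, siteOpV x (spin n 2) := rfl
  rw [hM, Matrix.IsHermitian, Matrix.conjTranspose_sum]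
  exact Finset.sum_congr rfl fun x _ => siteOpV_isHermitian x (spin_isHermitian n 2)

theorem expoV_shift (n : ℕ) (J : V → V → Prop) [DecidableRel J] (β h h' : ℝ) :
    expoV n J β h' = expoV n J β h + ((β * (h' - h) : ℝ) : ℂ) • Model.magnetization n V := by
  unfold expoV
  push_cast
  module

/-- Supporting line inequality for the logarithm of the partition function. -/
theorem logTr_support (n : ℕ) (J : V → V → Prop) [DecidableRel J] (hJ : ∀ x, ¬ J x x)
    (β h h' : ℝ) :
    Model.logTr n J β h + β * (h' - h) * gibbsMagV n J β h ≤ Model.logTr n J β h' := by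
  have hY : (((β * (h' - h) : ℝ) : ℂ) • Model.magnetization n V).IsHermitian := by
    rw [Matrix.IsHermitian, Matrix.conjTranspose_smul, magnetizationV_isHermitian n]
    simp
  have h1 := Vale.Agent.P361.peierls_bogoliubov (expoV_isHermitian n J hJ β h) hY
  rw [← expoV_shift] at h1
  rw [logTr_eq, logTr_eq]
  refine le_trans (le_of_eq ?_) h1
  congr 1
  rw [Matrix.mul_smul, Matrix.trace_smul, smul_eq_mul, Complex.re_ofReal_mul]
  unfold gibbsMagV
  ring

theorem logZ_eqV (n : ℕ) (J : V → V → Prop) [DecidableRel J] (hJ : ∀ x, ¬ J x x)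
    (β h c φ₀ : ℝ) :
    logZ (V := V) (β / 2) c (spin n)
      ((φ₀ : ℂ) • (1 : Matrix (Fin (n + 1)) (Fin (n + 1)) ℂ) + ((β * h : ℝ) : ℂ) • spin n 2) J =
      Model.logTr n J β h + ((β / 2) * c * pairsV J + φ₀ * Fintype.card V) := by
  unfold logZ
  rw [totOp_eqV, trace_exp_add_smul_one, Real.log_mul (Real.exp_pos _).ne'
    (trace_exp_pos (expoV_isHermitian n J hJ β h)).ne', Real.log_exp, logTr_eq]
  ring

/-- Invariance under relabelling of the sites. -/
theorem logTr_relabel {W : Type} [Fintype W] [DecidableEq W] (g : V ≃ W) (n : ℕ)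
    (J : W → W → Prop) [DecidableRel J] (hJ : ∀ x, ¬ J x x) (β h : ℝ) :
    Model.logTr n (fun x y : V => J (g x) (g y)) β h = Model.logTr n J β h := by
  have h1 := logZ_eqV n J hJ β h 0 0
  have h2 := logZ_eqV n (fun x y : V => J (g x) (g y)) (fun x => hJ (g x)) β h 0 0
  have h3 := logZ_relabel g (β / 2) 0 (spin n)
    (((0 : ℝ) : ℂ) • (1 : Matrix (Fin (n + 1)) (Fin (n + 1)) ℂ) + ((β * h : ℝ) : ℂ) • spin n 2) J
  rw [h1, h2] at h3
  simpa using h3

/-- Adding pairs to the graph changes the logarithm of the partition function by at most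
`β c / 2` per ordered pair. -/
theorem logTr_mono_pairs (n : ℕ) {c : ℝ}
    (hc : ((c : ℂ) • (1 : Matrix (Fin (n + 1)) (Fin (n + 1)) ℂ) -
      ∑ a, spin n a * spin n a).PosSemidef)
    (J J' : V → V → Prop) [DecidableRel J] [DecidableRel J'] (hJ : ∀ x, ¬ J x x)
    (hJ' : ∀ x, ¬ J' x x) (hJJ : ∀ x y, J x y → J' x y) {β : ℝ} (hβ : 0 ≤ β) (h : ℝ) :
    |Model.logTr n J' β h - Model.logTr n J β h| ≤ (β / 2) * c * (pairsV J' - pairsV J) := by
  have hb : 0 ≤ β / 2 := by positivity
  set F : Matrix (Fin (n + 1)) (Fin (n + 1)) ℂ :=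
    ((0 : ℝ) : ℂ) • (1 : Matrix (Fin (n + 1)) (Fin (n + 1)) ℂ) + ((β * h : ℝ) : ℂ) • spin n 2
    with hF
  have hFh : F.IsHermitian := fieldF_isHermitian n 0 (β * h)
  have h1 := totOp_isHermitian (V := V) (β / 2) c (spin_isHermitian n) hFh J hJ
  have h2 := totOp_isHermitian (V := V) (β / 2) c (spin_isHermitian n) hFh J' hJ'
  have hpos : (totOp (V := V) (β / 2) c (spin n) F J' -
      totOp (V := V) (β / 2) c (spin n) F J).PosSemidef := by
    have e : totOp (V := V) (β / 2) c (spin n) F J' - totOp (V := V) (β / 2) c (spin n) F J =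
        ((β / 2 : ℝ) : ℂ) • ∑ x : V, ∑ y : V,
          if J' x y ∧ ¬ J x y then pairOp c (spin n) x y else 0 := by
      unfold totOp
      rw [add_sub_add_right_eq_sub, ← smul_sub, ← Finset.sum_sub_distrib]
      congr 1
      refine Finset.sum_congr rfl fun x _ => ?_
      rw [← Finset.sum_sub_distrib]
      refine Finset.sum_congr rfl fun y _ => ?_
      by_cases h1 : J x y
      · simp [h1, hJJ x y h1]
      · by_cases h2 : J' x y <;> simp [h1, h2]
    rw [e]
    refine Matrix.PosSemidef.smul ?_ (by simpa only [Complex.zero_le_real] using hb)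
    refine Matrix.posSemidef_sum _ fun x _ => Matrix.posSemidef_sum _ fun y _ => ?_
    split_ifs with h
    · refine pairOp_posSemidef (spin_isHermitian n) hc ?_
      rintro rfl
      exact hJ' _ h.1
    · exact Matrix.PosSemidef.zero
  have hpos2 : ((totOp (V := V) (β / 2) c (spin n) F J +
      ((β * c * (pairsV J' - pairsV J) : ℝ) : ℂ) •
        (1 : Matrix (V → Fin (n + 1)) (V → Fin (n + 1)) ℂ)) -
      totOp (V := V) (β / 2) c (spin n) F J').PosSemidef := by
    have e : (totOp (V := V) (β / 2) c (spin n) F J +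
      ((β * c * (pairsV J' - pairsV J) : ℝ) : ℂ) •
        (1 : Matrix (V → Fin (n + 1)) (V → Fin (n + 1)) ℂ)) -
      totOp (V := V) (β / 2) c (spin n) F J' =
        ((β / 2 : ℝ) : ℂ) • ∑ x : V, ∑ y : V,
          if J' x y ∧ ¬ J x y then (((2 * c : ℝ) : ℂ) •
            (1 : Matrix (V → Fin (n + 1)) (V → Fin (n + 1)) ℂ) - pairOp c (spin n) x y)
          else 0 := by
      unfold totOp pairsV
      have e2 : ((β * c * ((∑ x : V, ∑ y : V, if J' x y then (1 : ℝ) else 0) -
          ∑ x : V, ∑ y : V, if J x y then (1 : ℝ) else 0) : ℝ) : ℂ) •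
          (1 : Matrix (V → Fin (n + 1)) (V → Fin (n + 1)) ℂ) =
          ((β / 2 : ℝ) : ℂ) • ∑ x : V, ∑ y : V,
            if J' x y ∧ ¬ J x y then (((2 * c : ℝ) : ℂ) •
              (1 : Matrix (V → Fin (n + 1)) (V → Fin (n + 1)) ℂ)) else 0 := by
        have e3 : (∑ x : V, ∑ y : V, if J' x y ∧ ¬ J x y then (((2 * c : ℝ) : ℂ) •
            (1 : Matrix (V → Fin (n + 1)) (V → Fin (n + 1)) ℂ)) else 0) =
            ((∑ x : V, ∑ y : V, if J' x y ∧ ¬ J x y then (1 : ℝ) else 0 : ℝ) : ℂ) •
            (((2 * c : ℝ) : ℂ) • (1 : Matrix (V → Fin (n + 1)) (V → Fin (n + 1)) ℂ)) := by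
          push_cast
          rw [Finset.sum_smul]
          refine Finset.sum_congr rfl fun x _ => ?_
          rw [Finset.sum_smul]
          refine Finset.sum_congr rfl fun y _ => ?_
          split_ifs <;> simp
        have e4 : (∑ x : V, ∑ y : V, if J' x y ∧ ¬ J x y then (1 : ℝ) else 0) =
            (∑ x : V, ∑ y : V, if J' x y then (1 : ℝ) else 0) -
              ∑ x : V, ∑ y : V, if J x y then (1 : ℝ) else 0 := by
          rw [← Finset.sum_sub_distrib]
          refine Finset.sum_congr rfl fun x _ => ?_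
          rw [← Finset.sum_sub_distrib]
          refine Finset.sum_congr rfl fun y _ => ?_
          by_cases h1 : J x y
          · simp [h1, hJJ x y h1]
          · by_cases h2 : J' x y <;> simp [h1, h2]
        rw [e3, e4, smul_smul, smul_smul]
        congr 1
        push_cast
        ring
      rw [e2]
      have e5 : (∑ x : V, ∑ y : V, if J' x y ∧ ¬ J x y then (((2 * c : ℝ) : ℂ) •
            (1 : Matrix (V → Fin (n + 1)) (V → Fin (n + 1)) ℂ) - pairOp c (spin n) x y)
          else 0) = (∑ x : V, ∑ y : V, if J' x y ∧ ¬ J x y then (((2 * c : ℝ) : ℂ) •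
              (1 : Matrix (V → Fin (n + 1)) (V → Fin (n + 1)) ℂ)) else 0) -
            ((∑ x : V, ∑ y : V, if J' x y then pairOp c (spin n) x y else 0) -
            ∑ x : V, ∑ y : V, if J x y then pairOp c (spin n) x y else 0) := by
        rw [← Finset.sum_sub_distrib, ← Finset.sum_sub_distrib]
        refine Finset.sum_congr rfl fun x _ => ?_
        rw [← Finset.sum_sub_distrib, ← Finset.sum_sub_distrib]
        refine Finset.sum_congr rfl fun y _ => ?_
        by_cases h1 : J x y
        · simp [h1, hJJ x y h1]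
        · by_cases h2 : J' x y <;> simp [h1, h2]
      rw [e5]
      module
    rw [e]
    refine Matrix.PosSemidef.smul ?_ (by simpa only [Complex.zero_le_real] using hb)
    refine Matrix.posSemidef_sum _ fun x _ => Matrix.posSemidef_sum _ fun y _ => ?_
    split_ifs with h
    · refine pairOp_upper (spin_isHermitian n) hc ?_
      rintro rfl
      exact hJ' _ h.1
    · exact Matrix.PosSemidef.zero
  have h3 : (((β * c * (pairsV J' - pairsV J) : ℝ) : ℂ) •
        (1 : Matrix (V → Fin (n + 1)) (V → Fin (n + 1)) ℂ)).IsHermitian := by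
    rw [Matrix.IsHermitian, Matrix.conjTranspose_smul, Matrix.conjTranspose_one]
    simp only [RCLike.star_def, Complex.conj_ofReal]
  have i1 := Real.log_le_log (trace_exp_pos h1) (trace_exp_mono h1 h2 hpos)
  have i2 := Real.log_le_log (trace_exp_pos h2) (trace_exp_mono h2 (h1.add h3) hpos2)
  rw [trace_exp_add_smul_one, Real.log_mul (Real.exp_pos _).ne' (trace_exp_pos h1).ne',
    Real.log_exp] at i2
  have l1 := logZ_eqV n J hJ β h c 0
  have l2 := logZ_eqV n J' hJ' β h c 0
  unfold logZ at l1 l2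
  rw [← hF] at l1 l2
  rw [l1, l2] at i1 i2
  rw [abs_le]
  constructor <;> nlinarith [i1, i2]

end General

end Vale.Agent.P361.LRO
end

section

/-!
Periodic boundary conditions: the pressure on the torus `(ℤ/(2N+1))³` has the same limit as the
pressure with free boundary conditions.
-/

namespace Vale.Agent.P361.LRO

open Matrix Filter Topology Finset
open scoped ComplexOrder

/-- Nearest neighbours on the torus of side `L`. -/
def torusAdj (L : ℕ) (x y : Fin 3 → ZMod L) : Prop :=
  ∃ i, (x i = y i + 1 ∨ y i = x i + 1) ∧ ∀ j, j ≠ i → x j = y j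

instance (L : ℕ) : DecidableRel (torusAdj L) := fun x y => by
  unfold torusAdj; infer_instance

theorem torusAdj_irrefl {L : ℕ} (hL : 1 < L) (x : Fin 3 → ZMod L) : ¬ torusAdj L x x := by
  have : Fact (1 < L) := ⟨hL⟩
  rintro ⟨i, h | h, -⟩ <;> simp at h

theorem torusAdj_symm {L : ℕ} {x y : Fin 3 → ZMod L} (h : torusAdj L x y) : torusAdj L y x := by
  obtain ⟨i, h1, h2⟩ := h
  exact ⟨i, h1.symm, fun j hj => (h2 j hj).symm⟩

/-- The torus coordinate map on the box. -/
def boxCast (N : ℕ) (x : Model.box N) : Fin 3 → ZMod (2 * N + 1) :=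
  fun i => ((x.1 i : ℤ) : ZMod (2 * N + 1))

theorem mem_boxM {N : ℕ} {x : Fin 3 → ℤ} : x ∈ Model.box N ↔ ∀ i, -(N : ℤ) ≤ x i ∧ x i ≤ N := by
  simp only [Model.box, Finset.mem_Icc, Pi.le_def]
  exact ⟨fun h i => ⟨h.1 i, h.2 i⟩, fun h => ⟨fun i => (h i).1, fun i => (h i).2⟩⟩

theorem cast_eq_imp {L : ℕ} {a b : ℤ} (h : ((a : ℤ) : ZMod L) = ((b : ℤ) : ZMod L))
    (hab : |a - b| < L) : a = b := by
  rw [← sub_eq_zero, ← Int.cast_sub, ZMod.intCast_zmod_eq_zero_iff_dvd] at h
  have := Int.eq_zero_of_abs_lt_dvd h hab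
  linarith

theorem boxCast_injective (N : ℕ) : Function.Injective (boxCast N) := by
  intro x y hxy
  apply Subtype.ext
  funext i
  have hx := mem_boxM.1 x.2 i
  have hy := mem_boxM.1 y.2 i
  refine cast_eq_imp (congrFun hxy i) ?_
  rw [abs_lt]
  push_cast
  constructor <;> linarith [hx.1, hx.2, hy.1, hy.2]

theorem card_boxM (N : ℕ) : (Model.box N).card = (2 * N + 1) ^ 3 := card_box N

theorem boxCast_bijective (N : ℕ) : Function.Bijective (boxCast N) := by
  rw [Fintype.bijective_iff_injective_and_card]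
  refine ⟨boxCast_injective N, ?_⟩
  rw [Fintype.card_coe, card_boxM, Fintype.card_fun, ZMod.card, Fintype.card_fin]

noncomputable def boxEquiv (N : ℕ) : Model.box N ≃ (Fin 3 → ZMod (2 * N + 1)) :=
  Equiv.ofBijective (boxCast N) (boxCast_bijective N)

theorem boxEquiv_apply (N : ℕ) (x : Model.box N) (i : Fin 3) :
    boxEquiv N x i = ((x.1 i : ℤ) : ZMod (2 * N + 1)) := rfl

theorem nn_iff {x y : Fin 3 → ℤ} : ∑ i, |x i - y i| = 1 ↔
    ∃ i, (x i = y i + 1 ∨ y i = x i + 1) ∧ ∀ j, j ≠ i → x j = y j := by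
  constructor
  · intro h
    by_contra hcon
    push Not at hcon
    have hne : ∃ i, x i ≠ y i := by
      by_contra h2
      push Not at h2
      rw [Finset.sum_eq_zero fun i _ => by rw [h2 i, sub_self, abs_zero]] at h
      norm_num at h
    obtain ⟨i, hi⟩ := hne
    have h1 : 1 ≤ |x i - y i| := Int.one_le_abs (sub_ne_zero.2 hi)
    have h3 : ∑ j ∈ Finset.univ.erase i, |x j - y j| = 0 := by
      have h4 := Finset.add_sum_erase Finset.univ (fun j => |x j - y j|) (Finset.mem_univ i)
      have h5 : 0 ≤ ∑ j ∈ Finset.univ.erase i, |x j - y j| :=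
        Finset.sum_nonneg fun j _ => abs_nonneg _
      linarith
    have h6 : |x i - y i| = 1 := by
      have h4 := Finset.add_sum_erase Finset.univ (fun j => |x j - y j|) (Finset.mem_univ i)
      linarith
    have h7 : ∀ j, j ≠ i → x j = y j := by
      intro j hj
      have := (Finset.sum_eq_zero_iff_of_nonneg fun j _ => abs_nonneg _).1 h3 j
        (Finset.mem_erase.2 ⟨hj, Finset.mem_univ j⟩)
      have := abs_eq_zero.1 this
      linarith
    obtain ⟨j, hj, hj2⟩ := hcon i (by
      rcases (abs_eq (by norm_num : (0 : ℤ) ≤ 1)).1 h6 with h | h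
      · left; linarith
      · right; linarith)
    exact hj2 (h7 j hj)
  · rintro ⟨i, h1, h2⟩
    rw [← Finset.add_sum_erase Finset.univ (fun j => |x j - y j|) (Finset.mem_univ i),
      Finset.sum_eq_zero fun j hj => by
        rw [h2 j (Finset.ne_of_mem_erase hj), sub_self, abs_zero]]
    rcases h1 with h1 | h1
    · rw [h1]; norm_num
    · rw [h1]; norm_num

theorem free_imp_torus {N : ℕ} (x y : Model.box N) (h : ∑ i, |x.1 i - y.1 i| = 1) :
    torusAdj (2 * N + 1) (boxEquiv N x) (boxEquiv N y) := by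
  obtain ⟨i, h1, h2⟩ := nn_iff.1 h
  refine ⟨i, ?_, fun j hj => ?_⟩
  · rcases h1 with h1 | h1
    · left; rw [boxEquiv_apply, boxEquiv_apply, h1]; push_cast; ring
    · right; rw [boxEquiv_apply, boxEquiv_apply, h1]; push_cast; ring
  · rw [boxEquiv_apply, boxEquiv_apply, h2 j hj]

/-- If `x` is not on the boundary, torus neighbours are free neighbours. -/
theorem torus_imp_free {N : ℕ} (hN : 1 ≤ N) (x y : Model.box N)
    (hx : ∀ i, -(N : ℤ) + 1 ≤ x.1 i ∧ x.1 i ≤ N - 1)
    (h : torusAdj (2 * N + 1) (boxEquiv N x) (boxEquiv N y)) : ∑ i, |x.1 i - y.1 i| = 1 := by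
  obtain ⟨i, h1, h2⟩ := h
  refine nn_iff.2 ⟨i, ?_, fun j hj => ?_⟩
  · have hxi := hx i
    have hyi := mem_boxM.1 y.2 i
    rcases h1 with h1 | h1
    · left
      rw [boxEquiv_apply, boxEquiv_apply] at h1
      have h3 : ((x.1 i : ℤ) : ZMod (2 * N + 1)) = ((y.1 i + 1 : ℤ) : ZMod (2 * N + 1)) := by
        rw [h1]; push_cast; ring
      refine cast_eq_imp h3 ?_
      rw [abs_lt]; push_cast
      constructor <;> linarith [hxi.1, hxi.2, hyi.1, hyi.2]
    · right
      rw [boxEquiv_apply, boxEquiv_apply] at h1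
      have h3 : ((y.1 i : ℤ) : ZMod (2 * N + 1)) = ((x.1 i + 1 : ℤ) : ZMod (2 * N + 1)) := by
        rw [h1]; push_cast; ring
      refine cast_eq_imp h3 ?_
      rw [abs_lt]; push_cast
      constructor <;> linarith [hxi.1, hxi.2, hyi.1, hyi.2]
  · have hxi := mem_boxM.1 x.2 j
    have hyi := mem_boxM.1 y.2 j
    have h3 : ((x.1 j : ℤ) : ZMod (2 * N + 1)) = ((y.1 j : ℤ) : ZMod (2 * N + 1)) := h2 j hj
    refine cast_eq_imp h3 ?_
    rw [abs_lt]; push_cast
    constructor <;> linarith [hxi.1, hxi.2, hyi.1, hyi.2]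

theorem torus_degree {L : ℕ} [NeZero L] (x : Fin 3 → ZMod L) :
    (Finset.univ.filter fun y => torusAdj L x y).card ≤ 6 := by
  have hsub : (Finset.univ.filter fun y => torusAdj L x y) ⊆
      (Finset.univ : Finset (Fin 3 × Bool)).image
        (fun p => Function.update x p.1 (if p.2 then x p.1 + 1 else x p.1 - 1)) := by
    intro y hy
    rw [Finset.mem_filter] at hy
    obtain ⟨i, h1, h2⟩ := hy.2
    rw [Finset.mem_image]
    rcases h1 with h1 | h1
    · refine ⟨(i, false), Finset.mem_univ _, ?_⟩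
      funext j
      by_cases hj : j = i
      · subst hj; simp [h1]
      · simp only [Bool.false_eq_true, if_false]
        rw [Function.update_of_ne hj]; exact h2 j hj
    · refine ⟨(i, true), Finset.mem_univ _, ?_⟩
      funext j
      by_cases hj : j = i
      · subst hj; simp [h1]
      · simp only [if_true]
        rw [Function.update_of_ne hj]; exact h2 j hj
  calc _ ≤ _ := Finset.card_le_card hsub
    _ ≤ (Finset.univ : Finset (Fin 3 × Bool)).card := Finset.card_image_le
    _ = 6 := by simp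

/-- The torus adjacency transported to the box. -/
def torusBox (N : ℕ) (x y : Model.box N) : Prop :=
  torusAdj (2 * N + 1) (boxEquiv N x) (boxEquiv N y)

noncomputable instance (N : ℕ) : DecidableRel (torusBox N) := fun x y => by
  unfold torusBox; infer_instance

theorem card_boundary (N : ℕ) (hN : 1 ≤ N) :
    ((Finset.univ.filter fun x : Model.box N =>
      ¬ ∀ i, -(N : ℤ) + 1 ≤ x.1 i ∧ x.1 i ≤ N - 1).card : ℝ) ≤ 3 * 2 * (2 * N + 1) ^ 2 := by
  obtain ⟨M, rfl⟩ : ∃ M, N = M + 1 := ⟨N - 1, by omega⟩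
  have h1 : (Finset.univ.filter fun x : Model.box (M + 1) =>
      ∀ i, -((M + 1 : ℕ) : ℤ) + 1 ≤ x.1 i ∧ x.1 i ≤ ((M + 1 : ℕ) : ℤ) - 1).card =
      (Model.box M).card := by
    refine Finset.card_bij (fun x _ => x.1) ?_ ?_ ?_
    · intro x hx
      rw [Finset.mem_filter] at hx
      rw [mem_boxM]
      intro i
      have := hx.2 i
      push_cast at this
      constructor <;> linarith [this.1, this.2]
    · intro x _ y _ h
      exact Subtype.ext h
    · intro x hx
      rw [mem_boxM] at hx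
      refine ⟨⟨x, mem_boxM.2 fun i => ?_⟩, ?_, rfl⟩
      · have := hx i
        push_cast
        constructor <;> linarith [this.1, this.2]
      · rw [Finset.mem_filter]
        refine ⟨Finset.mem_univ _, fun i => ?_⟩
        have := hx i
        push_cast
        constructor <;> linarith [this.1, this.2]
  have h2 := Finset.card_filter_add_card_filter_not (s := (Finset.univ : Finset (Model.box (M + 1))))
    (fun x : Model.box (M + 1) =>
      ∀ i, -((M + 1 : ℕ) : ℤ) + 1 ≤ x.1 i ∧ x.1 i ≤ ((M + 1 : ℕ) : ℤ) - 1)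
  rw [h1, Finset.card_univ, Fintype.card_coe, card_boxM, card_boxM] at h2
  have h3 : ((2 * M + 1) ^ 3 : ℝ) + ((Finset.univ.filter fun x : Model.box (M + 1) =>
      ¬ ∀ i, -((M + 1 : ℕ) : ℤ) + 1 ≤ x.1 i ∧ x.1 i ≤ ((M + 1 : ℕ) : ℤ) - 1).card : ℝ) =
      (2 * (M + 1) + 1) ^ 3 := by
    exact_mod_cast h2
  push_cast at h3 ⊢
  nlinarith [h3, (Nat.cast_nonneg M : (0 : ℝ) ≤ M)]

theorem pairs_torus_sub (N : ℕ) (hN : 1 ≤ N) :
    pairsV (torusBox N) - pairsV (fun x y : Model.box N => ∑ i, |x.1 i - y.1 i| = 1) ≤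
      36 * (2 * N + 1) ^ 2 := by
  classical
  unfold pairsV
  rw [← Finset.sum_sub_distrib]
  have hstep : ∀ x : Model.box N, (∑ y : Model.box N, if torusBox N x y then (1 : ℝ) else 0) -
      (∑ y : Model.box N, if ∑ i, |x.1 i - y.1 i| = 1 then (1 : ℝ) else 0) ≤
      if ¬ ∀ i, -(N : ℤ) + 1 ≤ x.1 i ∧ x.1 i ≤ N - 1 then (6 : ℝ) else 0 := by
    intro x
    by_cases hx : ∀ i, -(N : ℤ) + 1 ≤ x.1 i ∧ x.1 i ≤ N - 1
    · rw [if_neg (not_not.2 hx), sub_nonpos]
      refine Finset.sum_le_sum fun y _ => ?_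
      by_cases h : torusBox N x y
      · rw [if_pos h, if_pos (torus_imp_free hN x y hx h)]
      · rw [if_neg h]; split_ifs <;> norm_num
    · rw [if_pos hx]
      have h1 : (∑ y : Model.box N, if torusBox N x y then (1 : ℝ) else 0) ≤ 6 := by
        rw [Finset.sum_boole]
        have h2 : (Finset.univ.filter fun y => torusBox N x y).card =
            (Finset.univ.filter fun y => torusAdj (2 * N + 1) (boxEquiv N x) y).card := by
          refine Finset.card_bij (fun y _ => boxEquiv N y) ?_ ?_ ?_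
          · intro y hy
            rw [Finset.mem_filter] at hy ⊢
            exact ⟨Finset.mem_univ _, hy.2⟩
          · intro y _ z _ h
            exact (boxEquiv N).injective h
          · intro y hy
            refine ⟨(boxEquiv N).symm y, ?_, by simp⟩
            rw [Finset.mem_filter] at hy ⊢
            refine ⟨Finset.mem_univ _, ?_⟩
            unfold torusBox
            simpa using hy.2
        rw [h2]
        exact_mod_cast torus_degree _
      have h2 : (0 : ℝ) ≤ ∑ y : Model.box N, if ∑ i, |x.1 i - y.1 i| = 1 then (1 : ℝ) else 0 :=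
        Finset.sum_nonneg fun y _ => by split_ifs <;> norm_num
      linarith
  refine (Finset.sum_le_sum fun x _ => hstep x).trans ?_
  rw [← Finset.sum_filter, Finset.sum_const, nsmul_eq_mul]
  have := card_boundary N hN
  nlinarith [this]

/-- Pressure with periodic boundary conditions. -/
noncomputable def pressTorus (n N : ℕ) (β h : ℝ) : ℝ :=
  (β * (2 * N + 1) ^ 3)⁻¹ * Model.logTr n (torusAdj (2 * N + 1)) β h

theorem pressTorus_sub_le (n : ℕ) : ∃ C : ℝ, 0 ≤ C ∧ ∀ (N : ℕ), 1 ≤ N → ∀ β : ℝ, 0 < β → ∀ h : ℝ,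
    |pressTorus n N β h - Model.finPressure n N β h| ≤ C / (2 * N + 1) := by
  obtain ⟨c, hc0, hc⟩ := exists_upper_bound (X := ∑ a, spin n a * spin n a) (by
    rw [Matrix.IsHermitian, Matrix.conjTranspose_sum]
    refine Finset.sum_congr rfl fun a _ => ?_
    rw [Matrix.conjTranspose_mul, spin_isHermitian n a])
  refine ⟨18 * c, by positivity, fun N hN β hβ h => ?_⟩
  have hirr : ∀ x : Model.box N, ¬ (∑ i, |x.1 i - x.1 i| = 1) := by
    intro x hx
    simp at hx
  have hirr' : ∀ x : Model.box N, ¬ torusBox N x x := fun x =>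
    torusAdj_irrefl (by omega) _
  have h1 := logTr_mono_pairs n hc (fun x y : Model.box N => ∑ i, |x.1 i - y.1 i| = 1)
    (torusBox N) hirr hirr' (fun x y hxy => free_imp_torus x y hxy) hβ.le h
  have h2 : Model.logTr n (torusBox N) β h = Model.logTr n (torusAdj (2 * N + 1)) β h :=
    logTr_relabel (boxEquiv N) n (torusAdj (2 * N + 1)) (torusAdj_irrefl (by omega)) β h
  have h3 := pairs_torus_sub N hN
  rw [h2] at h1
  have hcard : ((Model.box N).card : ℝ) = (2 * N + 1) ^ 3 := by
    rw [card_boxM]; push_cast; ring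
  unfold pressTorus Model.finPressure
  rw [hcard, ← mul_sub, abs_mul, abs_of_pos (by positivity : (0 : ℝ) < (β * (2 * N + 1) ^ 3)⁻¹)]
  have h4 : |Model.logTr n (torusAdj (2 * N + 1)) β h -
      Model.logTr n (fun x y : Model.box N => ∑ i, |x.1 i - y.1 i| = 1) β h| ≤
      (β / 2) * c * (36 * (2 * N + 1) ^ 2) :=
    h1.trans (mul_le_mul_of_nonneg_left h3 (by positivity))
  refine (mul_le_mul_of_nonneg_left h4 (by positivity)).trans (le_of_eq ?_)
  field_simp
  ring

/-- The pressure with periodic boundary conditions converges to `Model.pressure`. -/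
theorem pressTorus_tendsto (n : ℕ) {β : ℝ} (hβ : 0 < β) (h : ℝ) :
    Tendsto (fun N : ℕ => pressTorus n N β h) atTop (𝓝 (Model.pressure n β h)) := by
  obtain ⟨C, hC, hb⟩ := pressTorus_sub_le n
  have h1 : Tendsto (fun N : ℕ => Model.finPressure n N β h) atTop
      (𝓝 (Model.pressure n β h)) := pressure_tendsto n hβ h
  have h2 : Tendsto (fun N : ℕ => C / (2 * (N : ℝ) + 1)) atTop (𝓝 0) := by
    refine Tendsto.div_atTop tendsto_const_nhds ?_
    exact tendsto_atTop_add_const_right _ _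
      (Tendsto.const_mul_atTop (by norm_num) tendsto_natCast_atTop_atTop)
  have h3 : Tendsto (fun N : ℕ => pressTorus n N β h - Model.finPressure n N β h) atTop
      (𝓝 0) := by
    refine squeeze_zero_norm' ?_ h2
    filter_upwards [eventually_ge_atTop 1] with N hN
    exact hb N hN β hβ h
  have h4 := h3.add h1
  simpa using h4

/-- Support line inequality for the torus pressure. -/
theorem pressTorus_support (n N : ℕ) (hN : 1 ≤ N) {β : ℝ} (hβ : 0 < β) (h h' : ℝ) :
    pressTorus n N β h + (h' - h) * (gibbsMagV n (torusAdj (2 * N + 1)) β h / (2 * N + 1) ^ 3) ≤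
      pressTorus n N β h' := by
  have h1 := logTr_support n (torusAdj (2 * N + 1)) (torusAdj_irrefl (by omega)) β h h'
  have h2 := mul_le_mul_of_nonneg_left h1 (a := (β * (2 * (N : ℝ) + 1) ^ 3)⁻¹) (by positivity)
  unfold pressTorus
  refine le_trans (le_of_eq ?_) h2
  field_simp

/-- If the torus magnetization per site at every field `h ∈ [a_N, 1]`, `a_N → 0`, is at least
`m₀` for all large `N`, then the spontaneous magnetization is at least `m₀`. -/
theorem spontMag_ge (n : ℕ) {β : ℝ} (hβ : 0 < β) {m₀ : ℝ} {a : ℕ → ℝ}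
    (ha : Tendsto a atTop (𝓝 0))
    (H : ∀ᶠ N : ℕ in atTop, ∀ h : ℝ, a N ≤ h → h ≤ 1 →
      m₀ ≤ gibbsMagV n (torusAdj (2 * N + 1)) β h / (2 * N + 1) ^ 3) :
    m₀ ≤ Model.spontMag n β := by
  have key : ∀ h₁ h₂ : ℝ, 0 < h₁ → h₁ ≤ h₂ → h₂ ≤ 1 →
      Model.pressure n β h₁ + (h₂ - h₁) * m₀ ≤ Model.pressure n β h₂ := by
    intro h₁ h₂ h0 h12 h21
    have t1 := (pressTorus_tendsto n hβ h₁).add_const ((h₂ - h₁) * m₀)
    have t2 := pressTorus_tendsto n hβ h₂
    refine le_of_tendsto_of_tendsto t1 t2 ?_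
    filter_upwards [H, eventually_ge_atTop 1, (tendsto_order.1 ha).2 h₁ h0] with N hN hN1 haN
    have h3 := pressTorus_support n N hN1 hβ h₁ h₂
    have h4 := hN h₁ haN.le (h12.trans h21)
    have h5 := mul_le_mul_of_nonneg_left h4 (by linarith : (0 : ℝ) ≤ h₂ - h₁)
    linarith
  have hconv : ConvexOn ℝ Set.univ (Model.pressure n β) := pressure_convex n hβ
  have hcont : Continuous (Model.pressure n β) := by
    have := hconv.continuousOn isOpen_univ
    rwa [continuousOn_univ] at this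
  have key0 : ∀ h₂ : ℝ, 0 < h₂ → h₂ ≤ 1 →
      Model.pressure n β 0 + h₂ * m₀ ≤ Model.pressure n β h₂ := by
    intro h₂ h20 h21
    have t1 : Tendsto (fun h₁ => Model.pressure n β h₁ + (h₂ - h₁) * m₀) (𝓝[>] 0)
        (𝓝 (Model.pressure n β 0 + (h₂ - 0) * m₀)) := by
      have : Continuous fun h₁ => Model.pressure n β h₁ + (h₂ - h₁) * m₀ := by fun_prop
      exact this.continuousWithinAt.tendsto
    rw [sub_zero] at t1
    refine le_of_tendsto t1 ?_
    filter_upwards [Ioc_mem_nhdsGT h20] with h₁ hh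
    exact key h₁ h₂ hh.1 hh.2 h21
  have hder : HasDerivWithinAt (Model.pressure n β) (Model.spontMag n β) (Set.Ioi 0) 0 :=
    spontMag_hasDeriv n hβ
  rw [hasDerivWithinAt_iff_tendsto_slope' (by simp)] at hder
  refine ge_of_tendsto hder ?_
  filter_upwards [Ioc_mem_nhdsGT (zero_lt_one' ℝ)] with h hh
  rw [slope_def_field, sub_zero, le_div_iff₀ hh.1]
  linarith [key0 h hh.1 hh.2]

end Vale.Agent.P361.LRO
end

section

/-!
P361, bridge: the partition function of the physical circuit is the trace of a product of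
matrices on `V → Fin 2`.
-/

namespace Vale.Agent.P361.LRO.Br

open Finset Matrix

noncomputable section

section chain

variable {Y : Type} [Fintype Y] [DecidableEq Y] {R : Type} [CommRing R]

/-- Expansion of a product of matrices. -/
theorem chain : ∀ (n : ℕ) (M : Fin n → Matrix Y Y R) (b : Y) (g : Y → R),
    ∑ t : Fin n → Y, (∏ k : Fin n, M k (t k) ((Fin.cons b t : Fin (n + 1) → Y) k.castSucc)) *
      g ((Fin.cons b t : Fin (n + 1) → Y) (Fin.last n)) =
    ∑ a, g a * ((List.ofFn M).reverse).prod a b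
  | 0, M, b, g => by
    simp only [List.ofFn_zero, List.reverse_nil, List.prod_nil, Finset.univ_unique,
      Finset.sum_singleton, Finset.univ_eq_empty, Finset.prod_empty, one_mul]
    rw [Finset.sum_eq_single b]
    · simp
    · intro a _ h
      rw [Matrix.one_apply_ne h, mul_zero]
    · intro h
      exact absurd (Finset.mem_univ b) h
  | n + 1, M, b, g => by
    rw [← (Fin.consEquiv fun _ : Fin (n + 1) => Y).sum_comp, Fintype.sum_prod_type]
    have h : ∀ t₀ : Y, ∑ t' : Fin n → Y, (∏ k : Fin (n + 1), M k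
        ((Fin.consEquiv (fun _ : Fin (n + 1) => Y)) (t₀, t') k)
        ((Fin.cons b ((Fin.consEquiv (fun _ : Fin (n + 1) => Y)) (t₀, t')) :
          Fin (n + 2) → Y) k.castSucc)) *
        g ((Fin.cons b ((Fin.consEquiv (fun _ : Fin (n + 1) => Y)) (t₀, t')) :
          Fin (n + 2) → Y) (Fin.last (n + 1))) =
        M 0 t₀ b * ∑ a, g a * ((List.ofFn fun k : Fin n => M k.succ).reverse).prod a t₀ := by
      intro t₀
      rw [← chain n (fun k => M k.succ) t₀ g, Finset.mul_sum]
      refine Finset.sum_congr rfl fun t' _ => ?_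
      rw [Fin.prod_univ_succ, ← mul_assoc]
      congr 1
    rw [Finset.sum_congr rfl fun t₀ _ => h t₀, List.ofFn_succ, List.reverse_cons, List.prod_append,
      List.prod_singleton]
    simp only [Matrix.mul_apply, Finset.mul_sum]
    rw [Finset.sum_comm]
    refine Finset.sum_congr rfl fun a _ => Finset.sum_congr rfl fun t₀ _ => ?_
    ring

/-- Cyclic products. -/
theorem cyclic (n : ℕ) (M : Fin (n + 1) → Matrix Y Y R) :
    ∑ s : Fin (n + 1) → Y, ∏ k, M k (s k) (s (k - 1)) =
      Matrix.trace (M 0 * ((List.ofFn fun k : Fin n => M k.succ).reverse).prod) := by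
  rw [← (Fin.consEquiv fun _ : Fin (n + 1) => Y).sum_comp, Fintype.sum_prod_type, Matrix.trace]
  refine Finset.sum_congr rfl fun b _ => ?_
  rw [Matrix.diag_apply, Matrix.mul_apply, ← chain n (fun k => M k.succ) b fun a => M 0 b a]
  refine Finset.sum_congr rfl fun t _ => ?_
  rw [Fin.prod_univ_succ, mul_comm]
  congr 1
  · refine Finset.prod_congr rfl fun k _ => ?_
    have h : k.succ - 1 = k.castSucc := by
      rw [← Fin.coeSucc_eq_succ, add_sub_cancel_right]
    rw [h]
    rfl
  · have h : (0 : Fin (n + 1)) - 1 = Fin.last n := by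
      rw [sub_eq_iff_eq_add]
      simp
    rw [h]
    rfl

end chain

end

end Vale.Agent.P361.LRO.Br
end

section

/-!
P361, stage 3: from all moments to the exponential moment (finite sums).
-/

namespace Vale.Agent.P361.LRO.Bloch

open Finset

/-- `κ^m E[x^m] ≤ m!` for all `m` implies `E[exp (κ x / 2)] ≤ 2` (finite measures). -/
theorem exp_moment {ι : Type*} [Fintype ι] {w x : ι → ℝ} {κ S : ℝ}
    (hm : ∀ m : ℕ, κ ^ m * ∑ i, w i * x i ^ m ≤ (m.factorial : ℝ) * S) :
    ∑ i, w i * Real.exp (κ * x i / 2) ≤ 2 * S := by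
  have h1 : HasSum (fun m : ℕ => ∑ i, w i * ((κ * x i / 2) ^ m / (m.factorial : ℝ)))
      (∑ i, w i * Real.exp (κ * x i / 2)) := by
    refine hasSum_sum fun i _ => ?_
    have := (NormedSpace.expSeries_div_hasSum_exp (𝔸 := ℝ) (κ * x i / 2)).mul_left (w i)
    rwa [← Real.exp_eq_exp_ℝ] at this
  have h2 : HasSum (fun m : ℕ => (1 / 2 : ℝ) ^ m * S) (2 * S) := by
    have := (hasSum_geometric_of_lt_one (r := (1 / 2 : ℝ)) (by norm_num) (by norm_num)).mul_right S
    norm_num at this
    simpa using this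
  refine hasSum_le (fun m => ?_) h1 h2
  have h3 : ∑ i, w i * ((κ * x i / 2) ^ m / (m.factorial : ℝ)) =
      (1 / 2 : ℝ) ^ m / (m.factorial : ℝ) * (κ ^ m * ∑ i, w i * x i ^ m) := by
    rw [Finset.mul_sum, Finset.mul_sum]
    refine Finset.sum_congr rfl fun i _ => ?_
    rw [div_pow, mul_pow, div_pow, one_pow]
    ring
  rw [h3]
  have hf : (0 : ℝ) < (m.factorial : ℝ) := by exact_mod_cast m.factorial_pos
  calc (1 / 2 : ℝ) ^ m / (m.factorial : ℝ) * (κ ^ m * ∑ i, w i * x i ^ m)
      ≤ (1 / 2 : ℝ) ^ m / (m.factorial : ℝ) * ((m.factorial : ℝ) * S) :=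
        mul_le_mul_of_nonneg_left (hm m) (by positivity)
    _ = (1 / 2 : ℝ) ^ m * S := by field_simp

end Vale.Agent.P361.LRO.Bloch
end
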