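import Mathlib
import Vale.Agent.P361.Bdl.B2
import Vale.Agent.P361.Bdl.B1
import Vale.Agent.P361.Model
import Vale.Agent.P361.ModelB

set_option linter.all false

section

namespace Vale.Agent.P361.H

open Matrix Filter Topology

variable {n : ℕ}

lemma finPressure_eq (Λ : Finset Site) (β h : ℝ) :
    finPressure n Λ β h = (β * Λ.card)⁻¹ * Real.log (partZ n Λ β h) := rfl

/-- Peierls–Bogoliubov for the field dependence. -/
lemma log_partZ_le (Λ : Finset Site) (β h h' : ℝ) :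
    Real.log (partZ n Λ β h) + β * (h' - h) * (tr n Λ β h (magnetization n Λ) / partZ n Λ β h) ≤
      Real.log (partZ n Λ β h') := by
  have h1 := peierls_bogoliubov (expo n Λ β h) (expo n Λ β h') (expo_isHermitian β h)
    (expo_isHermitian β h')
  have e : expo n Λ β h' - expo n Λ β h = ((β * (h' - h) : ℝ) : ℂ) • magnetization n Λ := by
    unfold expo; push_cast; module
  rw [e] at h1
  change Real.log (partZ n Λ β h) + tr n Λ β h (((β * (h' - h) : ℝ) : ℂ) • magnetization n Λ) /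
    partZ n Λ β h ≤ Real.log (partZ n Λ β h') at h1
  rw [tr_smul, mul_div_assoc] at h1
  exact h1

lemma mag_ge (N : ℕ) {β h₀ h : ℝ} (hβ : 0 < β) (hh : h₀ < h) :
    (finPressure n (box N) β h - finPressure n (box N) β h₀) / (h - h₀) ≤
      mag n (box N) β h := by
  have hZ : 0 < partZ n (box N) β h := partZ_pos β h
  have hV : 0 < ((box N).card : ℝ) := by rw [card_box]; positivity
  have hd : 0 < h - h₀ := sub_pos.2 hh
  have h1 := log_partZ_le (n := n) (box N) β h h₀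
  rw [finPressure_eq, finPressure_eq, div_le_iff₀ hd, ← mul_sub, mag]
  rw [inv_mul_le_iff₀ (by positivity)]
  have e : β * (h₀ - h) * (tr n (box N) β h (magnetization n (box N)) / partZ n (box N) β h) =
    -(β * ((box N).card : ℝ) * (tr n (box N) β h (magnetization n (box N)) /
      (((box N).card : ℝ) * partZ n (box N) β h) * (h - h₀))) := by
    field_simp; ring
  rw [e] at h1
  linarith

/-- Product structure of the momentum sum. -/
lemma sum_box_exp (N : ℕ) (t : ℝ) :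
    ∑ l ∈ box N, Real.exp (-t * disp N l) =
      (∑ l ∈ Finset.Icc (-(N : ℤ)) N,
        Real.exp (-t * (1 - Real.cos (2 * Real.pi / (2 * N + 1) * (l : ℝ))))) ^ 3 := by
  have h1 : ∀ l : Site, Real.exp (-t * disp N l) =
      ∏ j, Real.exp (-t * (1 - Real.cos (2 * Real.pi / (2 * N + 1) * ((l j : ℤ) : ℝ)))) := by
    intro l
    rw [disp, Finset.mul_sum, Real.exp_sum]; rfl
  simp only [h1]
  rw [box_eq, ← Finset.prod_univ_sum (fun _ : Fin 3 => Finset.Icc (-(N : ℤ)) N)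
    (fun _ l => Real.exp (-t * (1 - Real.cos (2 * Real.pi / (2 * N + 1) * (l : ℝ)))))]
  simp

lemma sum_box_lower (N : ℕ) {t : ℝ} (ht : 0 ≤ t) :
    (max (bJ t - (2 * N + 1 : ℝ)⁻¹) 0) ^ 3 ≤
      ((2 * N + 1 : ℝ) ^ 3)⁻¹ * ∑ l ∈ box N, Real.exp (-t * disp N l) := by
  rw [sum_box_exp, ← inv_pow, ← mul_pow]
  refine pow_le_pow_left₀ (le_max_right _ _) ?_ 3
  refine max_le (riemann_lower N t ht) ?_
  exact mul_nonneg (by positivity) (Finset.sum_nonneg fun l _ => (Real.exp_pos _).le)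

lemma series_lower (N R : ℕ) {β h q μ S : ℝ} (hβ : 0 < β) (hh : 0 < h) (hq : 0 < q)
    (hμ : q ≤ μ) (hS : 0 ≤ S) :
    q * ∑ r ∈ Finset.range R, Real.exp (-(((r : ℝ) + 1) * (β * h))) *
      (max (bJ (((r : ℝ) + 1) * (β * S) / q) - (2 * N + 1 : ℝ)⁻¹) 0) ^ 3 ≤
    μ * (((2 * N + 1 : ℝ) ^ 3)⁻¹ * ∑ l ∈ box N,
      1 / (Real.exp (β * (S * disp N l / μ + h)) - 1)) := by
  have hμ0 : 0 < μ := hq.trans_le hμ
  have hV : 0 < ((2 * N + 1 : ℝ) ^ 3)⁻¹ := by positivity
  have hy : ∀ l, 0 < β * (S * disp N l / μ + h) := by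
    intro l
    have := disp_nonneg N l
    positivity
  have h1 : ∀ r : ℕ, Real.exp (-(((r : ℝ) + 1) * (β * h))) *
      (max (bJ (((r : ℝ) + 1) * (β * S) / q) - (2 * N + 1 : ℝ)⁻¹) 0) ^ 3 ≤
      ((2 * N + 1 : ℝ) ^ 3)⁻¹ * ∑ l ∈ box N,
        Real.exp (-(((r : ℝ) + 1) * (β * (S * disp N l / μ + h)))) := by
    intro r
    have ht : 0 ≤ ((r : ℝ) + 1) * (β * S) / q := by positivity
    refine (mul_le_mul_of_nonneg_left (sum_box_lower N ht) (Real.exp_pos _).le).trans ?_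
    rw [← mul_assoc, mul_comm (Real.exp _), mul_assoc, Finset.mul_sum]
    refine mul_le_mul_of_nonneg_left (Finset.sum_le_sum fun l _ => ?_) hV.le
    rw [← Real.exp_add]
    refine Real.exp_le_exp.2 ?_
    have hD := disp_nonneg N l
    have hdiv : S * disp N l / μ ≤ S * disp N l / q :=
      div_le_div_of_nonneg_left (mul_nonneg hS hD) hq hμ
    have h2 : ((r : ℝ) + 1) * β * (S * disp N l / μ) ≤ ((r : ℝ) + 1) * β * (S * disp N l / q) :=
      mul_le_mul_of_nonneg_left hdiv (by positivity)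
    have e1 : -(((r : ℝ) + 1) * (β * h)) + -(((r : ℝ) + 1) * (β * S) / q) * disp N l =
      -(((r : ℝ) + 1) * (β * h)) - ((r : ℝ) + 1) * β * (S * disp N l / q) := by ring
    have e2 : -(((r : ℝ) + 1) * (β * (S * disp N l / μ + h))) =
      -(((r : ℝ) + 1) * (β * h)) - ((r : ℝ) + 1) * β * (S * disp N l / μ) := by ring
    rw [e1, e2]
    linarith
  have h3 : ∑ r ∈ Finset.range R, Real.exp (-(((r : ℝ) + 1) * (β * h))) *
      (max (bJ (((r : ℝ) + 1) * (β * S) / q) - (2 * N + 1 : ℝ)⁻¹) 0) ^ 3 ≤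
      ((2 * N + 1 : ℝ) ^ 3)⁻¹ * ∑ l ∈ box N, 1 / (Real.exp (β * (S * disp N l / μ + h)) - 1) := by
    refine (Finset.sum_le_sum fun r _ => h1 r).trans ?_
    rw [← Finset.mul_sum, Finset.sum_comm]
    refine mul_le_mul_of_nonneg_left (Finset.sum_le_sum fun l _ => ?_) hV.le
    exact geom_le (hy l) R
  exact mul_le_mul hμ h3 (Finset.sum_nonneg fun r _ =>
    mul_nonneg (Real.exp_pos _).le (pow_nonneg (le_max_right _ _) 3)) hμ0.le

lemma finite_bound' (n N R : ℕ) {β h q : ℝ} (hβ : 0 < β) (hh : 0 < h) (hq : 0 < q)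
    (hμ : q ≤ mag n (box N) β h) :
    q * ∑ r ∈ Finset.range R, Real.exp (-(((r : ℝ) + 1) * (β * h))) *
      (max (bJ (((r : ℝ) + 1) * (β * (2 * ((n : ℝ) / 2) ^ 2)) / q) - (2 * N + 1 : ℝ)⁻¹) 0) ^ 3 ≤
    (n : ℝ) / 2 * ((n : ℝ) / 2 - mag n (box N) β h) :=
  (series_lower N R hβ hh hq hμ (mul_nonneg two_pos.le (sq_nonneg _))).trans
    (finite_bound n N hβ (hq.trans_le hμ))

/-- Infinite-volume bound: `m` is any lower bound for the slopes of the pressure to the right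
of `h₀ ≥ 0`. -/
theorem limit_bound (n R : ℕ) {β : ℝ} (hβ : 0 < β) (p : ℝ → ℝ)
    (hp : ∀ h, Tendsto (fun N => finPressure n (box N) β h) atTop (𝓝 (p h))) (m : ℝ)
    {h₀ : ℝ} (hh₀ : 0 ≤ h₀)
    (hm : ∀ h, h₀ < h → m ≤ (p h - p h₀) / (h - h₀)) {q : ℝ} (hq : 0 < q) (hqm : q < m) :
    q * ∑ r ∈ Finset.range R, Real.exp (-(((r : ℝ) + 1) * (β * h₀))) *
      (bJ (((r : ℝ) + 1) * (β * (2 * ((n : ℝ) / 2) ^ 2)) / q)) ^ 3 ≤
    (n : ℝ) / 2 * ((n : ℝ) / 2 - m) := by
  have hinv : Tendsto (fun N : ℕ => (2 * (N : ℝ) + 1)⁻¹) atTop (𝓝 0) := by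
    refine tendsto_inv_atTop_zero.comp ?_
    refine tendsto_atTop_add_const_right _ _ ?_
    exact Tendsto.const_mul_atTop two_pos tendsto_natCast_atTop_atTop
  have step : ∀ h, h₀ < h → q * ∑ r ∈ Finset.range R, Real.exp (-(((r : ℝ) + 1) * (β * h))) *
      (bJ (((r : ℝ) + 1) * (β * (2 * ((n : ℝ) / 2) ^ 2)) / q)) ^ 3 ≤
      (n : ℝ) / 2 * ((n : ℝ) / 2 - m) := by
    intro h hh
    have hdiff : Tendsto (fun N => (finPressure n (box N) β h - finPressure n (box N) β h₀) /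
        (h - h₀)) atTop (𝓝 ((p h - p h₀) / (h - h₀))) := ((hp h).sub (hp h₀)).div_const _
    have hge : m ≤ (p h - p h₀) / (h - h₀) := hm h hh
    have hev : ∀ᶠ N : ℕ in atTop,
        q < (finPressure n (box N) β h - finPressure n (box N) β h₀) / (h - h₀) :=
      hdiff.eventually (lt_mem_nhds (hqm.trans_le hge))
    have hL : Tendsto (fun N : ℕ => q * ∑ r ∈ Finset.range R,
        Real.exp (-(((r : ℝ) + 1) * (β * h))) *
        (max (bJ (((r : ℝ) + 1) * (β * (2 * ((n : ℝ) / 2) ^ 2)) / q) - (2 * N + 1 : ℝ)⁻¹) 0) ^ 3)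
        atTop (𝓝 (q * ∑ r ∈ Finset.range R, Real.exp (-(((r : ℝ) + 1) * (β * h))) *
        (max (bJ (((r : ℝ) + 1) * (β * (2 * ((n : ℝ) / 2) ^ 2)) / q) - 0) 0) ^ 3)) := by
      refine Tendsto.const_mul _ (tendsto_finsetSum _ fun r _ => ?_)
      refine Tendsto.const_mul _ (Tendsto.pow ?_ 3)
      exact (tendsto_const_nhds.sub hinv).max tendsto_const_nhds
    have hR : Tendsto (fun N : ℕ => (n : ℝ) / 2 * ((n : ℝ) / 2 -
        (finPressure n (box N) β h - finPressure n (box N) β h₀) / (h - h₀))) atTop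
        (𝓝 ((n : ℝ) / 2 * ((n : ℝ) / 2 - (p h - p h₀) / (h - h₀)))) :=
      Tendsto.const_mul _ (tendsto_const_nhds.sub hdiff)
    have hle := le_of_tendsto_of_tendsto hL hR (by
      filter_upwards [hev] with N hN
      have h1 := mag_ge (n := n) N hβ hh
      refine (finite_bound' n N R hβ (hh₀.trans_lt hh) hq (hN.le.trans h1)).trans ?_
      exact mul_le_mul_of_nonneg_left (by linarith) (by positivity))
    have hmax : ∀ r : ℕ, max (bJ (((r : ℝ) + 1) * (β * (2 * ((n : ℝ) / 2) ^ 2)) / q) - 0) 0 =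
        bJ (((r : ℝ) + 1) * (β * (2 * ((n : ℝ) / 2) ^ 2)) / q) := by
      intro r; rw [sub_zero, max_eq_left (bJ_nonneg _)]
    simp only [hmax] at hle
    refine hle.trans ?_
    exact mul_le_mul_of_nonneg_left (by linarith) (by positivity)
  have hlim : Tendsto (fun h : ℝ => q * ∑ r ∈ Finset.range R,
      Real.exp (-(((r : ℝ) + 1) * (β * h))) *
      (bJ (((r : ℝ) + 1) * (β * (2 * ((n : ℝ) / 2) ^ 2)) / q)) ^ 3) (𝓝[>] h₀)
      (𝓝 (q * ∑ r ∈ Finset.range R, Real.exp (-(((r : ℝ) + 1) * (β * h₀))) *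
      (bJ (((r : ℝ) + 1) * (β * (2 * ((n : ℝ) / 2) ^ 2)) / q)) ^ 3)) := by
    have hc : Continuous (fun h : ℝ => q * ∑ r ∈ Finset.range R,
      Real.exp (-(((r : ℝ) + 1) * (β * h))) *
      (bJ (((r : ℝ) + 1) * (β * (2 * ((n : ℝ) / 2) ^ 2)) / q)) ^ 3) := by fun_prop
    exact (hc.tendsto h₀).mono_left nhdsWithin_le_nhds
  exact le_of_tendsto hlim (by
    filter_upwards [self_mem_nhdsWithin] with h hh
    exact step h hh)

/-- The same with `q = m`. -/
theorem limit_bound_self (n R : ℕ) {β : ℝ} (hβ : 0 < β) (p : ℝ → ℝ)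
    (hp : ∀ h, Tendsto (fun N => finPressure n (box N) β h) atTop (𝓝 (p h))) (m : ℝ)
    {h₀ : ℝ} (hh₀ : 0 ≤ h₀)
    (hm : ∀ h, h₀ < h → m ≤ (p h - p h₀) / (h - h₀)) (hm0 : 0 < m) :
    m * ∑ r ∈ Finset.range R, Real.exp (-(((r : ℝ) + 1) * (β * h₀))) *
      (bJ (((r : ℝ) + 1) * (β * (2 * ((n : ℝ) / 2) ^ 2)) / m)) ^ 3 ≤
    (n : ℝ) / 2 * ((n : ℝ) / 2 - m) := by
  have hlim : Tendsto (fun q : ℝ => q * ∑ r ∈ Finset.range R,
      Real.exp (-(((r : ℝ) + 1) * (β * h₀))) *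
      (bJ (((r : ℝ) + 1) * (β * (2 * ((n : ℝ) / 2) ^ 2)) / q)) ^ 3) (𝓝[<] m)
      (𝓝 (m * ∑ r ∈ Finset.range R, Real.exp (-(((r : ℝ) + 1) * (β * h₀))) *
      (bJ (((r : ℝ) + 1) * (β * (2 * ((n : ℝ) / 2) ^ 2)) / m)) ^ 3)) := by
    refine Tendsto.mono_left ?_ nhdsWithin_le_nhds
    refine Tendsto.mul tendsto_id (tendsto_finsetSum _ fun r _ => ?_)
    refine Tendsto.const_mul _ (Tendsto.pow ?_ 3)
    exact (bJ_continuous.tendsto _).comp (tendsto_const_nhds.div tendsto_id hm0.ne')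
  refine le_of_tendsto hlim ?_
  have h1 : ∀ᶠ q : ℝ in 𝓝[<] m, 0 < q := mem_nhdsWithin_of_mem_nhds (lt_mem_nhds hm0)
  filter_upwards [h1, self_mem_nhdsWithin] with q hq hqm
  exact limit_bound n R hβ p hp m hh₀ hm hq hqm

end Vale.Agent.P361.H
end

section

namespace Vale.Agent.P361.H

open MeasureTheory Filter Topology

/-- Right derivative of the pressure at the field `h`. -/
noncomputable def magAt (n : ℕ) (β h : ℝ) : ℝ := derivWithin (pressure n β) (Set.Ioi h) h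

lemma magAt_slope (n : ℕ) {β : ℝ} (hβ : 0 < β) (h₀ : ℝ) :
    ∀ h, h₀ < h → magAt n β h₀ ≤ (pressure n β h - pressure n β h₀) / (h - h₀) :=
  fun _ hh => rightDeriv_le_slope' n hβ hh

/-- Series form of the bound at field `h₀ ≥ 0`. -/
theorem magAt_series (n R : ℕ) {β h₀ : ℝ} (hβ : 0 < β) (hh₀ : 0 ≤ h₀) (hm : 0 < magAt n β h₀) :
    magAt n β h₀ * ∑ r ∈ Finset.range R, Real.exp (-(((r : ℝ) + 1) * (β * h₀))) *
      (bJ (((r : ℝ) + 1) * (β * (2 * ((n : ℝ) / 2) ^ 2)) / magAt n β h₀)) ^ 3 ≤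
    (n : ℝ) / 2 * ((n : ℝ) / 2 - magAt n β h₀) :=
  limit_bound_self n R hβ (pressure n β) (fun h => pressure_tendsto n hβ h) _ hh₀
    (magAt_slope n hβ h₀) hm

/-- Integral form of the bound at field `h₀ ≥ 0`. -/
theorem magAt_integral {n : ℕ} (hn : 1 ≤ n) {β h₀ : ℝ} (hβ : 0 < β) (hh₀ : 0 ≤ h₀)
    (hm : 0 < magAt n β h₀) :
    IntegrableOn (fun k : Fin 3 → ℝ => 1 / (Real.exp (β * ((n : ℝ) / 2 / magAt n β h₀ *
      (2 * ((n : ℝ) / 2) * ∑ j, (1 - Real.cos (k j))) + h₀)) - 1)) cube ∧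
    magAt n β h₀ / ((n : ℝ) / 2) * (((2 * Real.pi) ^ 3)⁻¹ * ∫ k in cube,
      1 / (Real.exp (β * ((n : ℝ) / 2 / magAt n β h₀ *
        (2 * ((n : ℝ) / 2) * ∑ j, (1 - Real.cos (k j))) + h₀)) - 1)) ≤
      (n : ℝ) / 2 - magAt n β h₀ := by
  obtain ⟨m, hmdef⟩ : ∃ m, m = magAt n β h₀ := ⟨_, rfl⟩
  have hser := fun R => magAt_series n R hβ hh₀ hm
  rw [← hmdef] at hm hser ⊢
  clear hmdef
  have hS : 0 < (n : ℝ) / 2 := by
    have : (1 : ℝ) ≤ n := by exact_mod_cast hn
    linarith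
  obtain ⟨S, hSdef⟩ : ∃ S : ℝ, S = (n : ℝ) / 2 := ⟨_, rfl⟩
  rw [← hSdef] at hS hser ⊢
  have key := integral_bose_le (a := β * (2 * S ^ 2) / m) (b := β * h₀)
    (C := S * (S - m) / m) (by positivity) (by positivity) (by
      intro R
      rw [le_div_iff₀ hm, mul_comm]
      refine le_trans (le_of_eq ?_) (hser R)
      congr 1
      refine Finset.sum_congr rfl fun r _ => ?_
      congr 3
      ring)
  have e : ∀ k : Fin 3 → ℝ, β * (S / m * (2 * S * ∑ j, (1 - Real.cos (k j))) + h₀) =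
      β * (2 * S ^ 2) / m * ∑ j, (1 - Real.cos (k j)) + β * h₀ := by
    intro k; ring
  simp only [e]
  refine ⟨key.1, ?_⟩
  have h2 := mul_le_mul_of_nonneg_left key.2 (a := m / S) (by positivity)
  refine h2.trans (le_of_eq ?_)
  field_simp

theorem spontMag_le (n : ℕ) {β : ℝ} (hβ : 0 < β) (hn : 1 ≤ n) : spontMag n β ≤ (n : ℝ) / 2 := by
  have hS : 0 < (n : ℝ) / 2 := by
    have : (1 : ℝ) ≤ n := by exact_mod_cast hn
    linarith
  rcases le_or_gt (spontMag n β) 0 with h | h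
  · linarith
  · have h1 := magAt_series n 0 hβ le_rfl (h₀ := 0) h
    simp only [Finset.range_zero, Finset.sum_empty, mul_zero] at h1
    have h2 := (mul_nonneg_iff_of_pos_left hS).1 h1
    change 0 ≤ (n : ℝ) / 2 - spontMag n β at h2
    linarith

/-- One-sided Bloch law. -/
theorem one_sided_bloch {n : ℕ} (hn : 1 ≤ n) {c : ℝ} (hc : c < blochCoeff ((n : ℝ) / 2)) :
    ∀ᶠ β : ℝ in atTop, c < β ^ (3 / 2 : ℝ) * ((n : ℝ) / 2 - spontMag n β) := by
  have hS : 0 < (n : ℝ) / 2 := by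
    have : (1 : ℝ) ≤ n := by exact_mod_cast hn
    linarith
  refine bloch_of_bound hS (spontMag n) ?_ hc
  intro β hβ q hq hqm R
  have h := limit_bound n R hβ (pressure n β) (fun h => pressure_tendsto n hβ h)
    (spontMag n β) le_rfl (magAt_slope n hβ 0) hq hqm
  simpa using h

end Vale.Agent.P361.H
end

section

namespace Vale.Agent.P361.Bridge

open Filter Topology MeasureTheory

lemma hamiltonian_eq (n N : ℕ) :
    Model.hamiltonian n (fun x y : Model.box N => ∑ i, |x.1 i - y.1 i| = 1) =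
      hamiltonian n (box N) := rfl

lemma magnetization_eq (n N : ℕ) :
    Model.magnetization n (Model.box N) = magnetization n (box N) := rfl

lemma finPressure_eq (n N : ℕ) (β h : ℝ) :
    Model.finPressure n N β h = finPressure n (box N) β h := rfl

lemma pressure_eq (n : ℕ) (β h : ℝ) : Model.pressure n β h = pressure n β h := rfl

lemma spontMag_eq (n : ℕ) (β : ℝ) : Model.spontMag n β = spontMag n β := rfl

theorem main_thermo (n : ℕ) (hn : 1 ≤ n) (β : ℝ) (hβ : 0 < β) :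
    (∀ h : ℝ, Tendsto (fun N : ℕ => Model.finPressure n N β h) atTop
      (𝓝 (Model.pressure n β h))) ∧
    ConvexOn ℝ Set.univ (Model.pressure n β) ∧
    HasDerivWithinAt (Model.pressure n β) (Model.spontMag n β) (Set.Ioi 0) 0 ∧
    Model.spontMag n β ≤ (n : ℝ) / 2 :=
  ⟨fun h => pressure_tendsto n hβ h, pressure_convex n hβ, spontMag_hasDeriv n hβ,
    H.spontMag_le n hβ hn⟩

theorem main_integral (n : ℕ) (hn : 1 ≤ n) (β : ℝ) (hβ : 0 < β) (hm : 0 < Model.spontMag n β) :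
    IntegrableOn (fun k => 1 / (Real.exp (β * ((n : ℝ) / 2 / Model.spontMag n β) *
      Model.magnon ((n : ℝ) / 2) k) - 1)) (Set.univ.pi fun _ => Set.Icc (-Real.pi) Real.pi) ∧
    Model.spontMag n β / ((n : ℝ) / 2) * Model.boseInt (fun k =>
      β * ((n : ℝ) / 2 / Model.spontMag n β) * Model.magnon ((n : ℝ) / 2) k) ≤
      (n : ℝ) / 2 - Model.spontMag n β := by
  have h := H.magAt_integral hn hβ le_rfl (h₀ := 0) hm
  have e : ∀ k : Fin 3 → ℝ, β * ((n : ℝ) / 2 / Model.spontMag n β) *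
      Model.magnon ((n : ℝ) / 2) k =
      β * ((n : ℝ) / 2 / H.magAt n β 0 *
        (2 * ((n : ℝ) / 2) * ∑ j, (1 - Real.cos (k j))) + 0) := by
    intro k
    have : H.magAt n β 0 = Model.spontMag n β := rfl
    rw [this, Model.magnon, add_zero, mul_assoc]
  unfold Model.boseInt
  simp only [e]
  exact h

theorem main_bloch (n : ℕ) (hn : 1 ≤ n) (c : ℝ) (hc : c < (riemannZeta (3 / 2)).re /
    (8 * Real.pi ^ (3 / 2 : ℝ) * ((n : ℝ) / 2) ^ (3 / 2 : ℝ))) :
    ∀ᶠ β : ℝ in atTop, c < β ^ (3 / 2 : ℝ) * ((n : ℝ) / 2 - Model.spontMag n β) :=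
  H.one_sided_bloch hn hc

end Vale.Agent.P361.Bridge
end

section

/-!
Part B, steps D1 and D3: subadditivity of `log Zt` and comparison of the pressure with one cube.
-/

namespace Vale.Agent.P361.B

open Matrix Finset Filter Topology
open scoped ComplexOrder Kronecker

set_option linter.unusedSectionVars false

section General

variable {α β γ : Type*} [Fintype α] [DecidableEq α] [Fintype β] [DecidableEq β]
  [Fintype γ] [DecidableEq γ]

/-- `tr exp (X₁ ⊗ 1 + 1 ⊗ X₂) = tr e^{X₁} tr e^{X₂}`. -/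
theorem trace_exp_kron {X₁ : Matrix α α ℂ} {X₂ : Matrix β β ℂ}
    (h₁ : X₁.IsHermitian) (h₂ : X₂.IsHermitian) :
    trace (NormedSpace.exp (X₁ ⊗ₖ (1 : Matrix β β ℂ) + (1 : Matrix α α ℂ) ⊗ₖ X₂)) =
      ((∑ p : α × β, Real.exp (h₁.eigenvalues p.1 + h₂.eigenvalues p.2) : ℝ) : ℂ) := by
  set U₁ := (h₁.eigenvectorUnitary : Matrix α α ℂ) with hU₁
  set U₂ := (h₂.eigenvectorUnitary : Matrix β β ℂ) with hU₂
  have hUU₁ : star U₁ * U₁ = 1 := Unitary.coe_star_mul_self _
  have hUU₂ : star U₂ * U₂ = 1 := Unitary.coe_star_mul_self _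
  set W := U₁ ⊗ₖ U₂ with hW
  have hstarW : star W = star U₁ ⊗ₖ star U₂ := by
    rw [hW, Matrix.star_eq_conjTranspose, Matrix.conjTranspose_kronecker]; rfl
  have hWW : star W * W = 1 := by
    rw [hstarW, hW, ← Matrix.mul_kronecker_mul, hUU₁, hUU₂, Matrix.one_kronecker_one]
  have hWW' : W * star W = 1 := mul_eq_one_comm.1 hWW
  have hinv : star W = W⁻¹ := (Matrix.inv_eq_left_inv hWW).symm
  have hunit : IsUnit W := ⟨⟨W, star W, hWW', hWW⟩, rfl⟩
  have e3 : star W * (X₁ ⊗ₖ (1 : Matrix β β ℂ) + (1 : Matrix α α ℂ) ⊗ₖ X₂) * W =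
      diagonal (fun p : α × β => (h₁.eigenvalues p.1 : ℂ) + (h₂.eigenvalues p.2 : ℂ)) := by
    rw [Matrix.mul_add, Matrix.add_mul, hstarW, hW, ← Matrix.mul_kronecker_mul,
      ← Matrix.mul_kronecker_mul, ← Matrix.mul_kronecker_mul, ← Matrix.mul_kronecker_mul,
      Matrix.mul_one, Matrix.mul_one, hUU₁, hUU₂, diag_conj_eigen h₁, diag_conj_eigen h₂]
    ext p q
    obtain ⟨p1, p2⟩ := p
    obtain ⟨q1, q2⟩ := q
    simp only [Matrix.add_apply, Matrix.kroneckerMap_apply, Matrix.diagonal_apply,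
      Matrix.one_apply, Prod.mk.injEq]
    by_cases h1 : p1 = q1 <;> by_cases h2 : p2 = q2 <;> simp [h1, h2]
  have e4 : X₁ ⊗ₖ (1 : Matrix β β ℂ) + (1 : Matrix α α ℂ) ⊗ₖ X₂ =
      W * diagonal (fun p : α × β => (h₁.eigenvalues p.1 : ℂ) + (h₂.eigenvalues p.2 : ℂ)) *
        W⁻¹ := by
    rw [← e3, ← hinv]
    calc X₁ ⊗ₖ (1 : Matrix β β ℂ) + (1 : Matrix α α ℂ) ⊗ₖ X₂ =
        (W * star W) * (X₁ ⊗ₖ (1 : Matrix β β ℂ) + (1 : Matrix α α ℂ) ⊗ₖ X₂) *
          (W * star W) := by rw [hWW', Matrix.one_mul, Matrix.mul_one]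
      _ = _ := by simp only [Matrix.mul_assoc]
  rw [e4, Matrix.exp_conj _ _ hunit, Matrix.exp_diagonal, Matrix.trace_mul_comm,
    ← Matrix.mul_assoc, ← hinv, hWW, Matrix.one_mul, Matrix.trace_diagonal, Complex.ofReal_sum]
  refine Finset.sum_congr rfl fun p _ => ?_
  rw [Pi.exp_def]
  simp [← Complex.exp_eq_exp_ℂ]

/-- Subadditivity tool: if `Y ≤ X₁ ⊗ 1 + 1 ⊗ X₂` then `tr e^Y ≤ tr e^{X₁} tr e^{X₂}`. -/
theorem trace_exp_prod_ge [Nonempty α] [Nonempty β] (e : α × β ≃ γ) {X₁ : Matrix α α ℂ}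
    {X₂ : Matrix β β ℂ}
    {Y : Matrix γ γ ℂ} (h₁ : X₁.IsHermitian) (h₂ : X₂.IsHermitian) (hY : Y.IsHermitian)
    (hP : ((X₁ ⊗ₖ (1 : Matrix β β ℂ) + (1 : Matrix α α ℂ) ⊗ₖ X₂) - Y.submatrix e e).PosSemidef) :
    (trace (NormedSpace.exp Y)).re ≤
    (trace (NormedSpace.exp X₁)).re * (trace (NormedSpace.exp X₂)).re := by
  have hY' : (Y.submatrix e e).IsHermitian := hY.submatrix e
  have hX : (X₁ ⊗ₖ (1 : Matrix β β ℂ) + (1 : Matrix α α ℂ) ⊗ₖ X₂).IsHermitian := by
    rw [Matrix.IsHermitian, Matrix.conjTranspose_add, Matrix.conjTranspose_kronecker,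
      Matrix.conjTranspose_kronecker, h₁, h₂, Matrix.conjTranspose_one, Matrix.conjTranspose_one]
  have h := trace_exp_mono hY' hX hP
  rw [trace_exp_submatrix, trace_exp_kron h₁ h₂, Complex.ofReal_re] at h
  refine h.trans (le_of_eq ?_)
  rw [trace_exp_re h₁, trace_exp_re h₂, Finset.sum_mul_sum, Fintype.sum_prod_type]
  simp_rw [Real.exp_add]

end General

section

variable {d κ : Type*} [Fintype d] [DecidableEq d] [Fintype κ]
  {V : Type*} [Fintype V] [DecidableEq V]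
  {V₁ : Type*} [Fintype V₁] [DecidableEq V₁] {V₂ : Type*} [Fintype V₂] [DecidableEq V₂]

/-- Splitting identity of the total exponent. -/
theorem totOp_split_eq (b c : ℝ) (S : κ → Matrix d d ℂ)
    (F : Matrix d d ℂ) (adj : V → V → Prop) [DecidableRel adj] (f : V₁ ⊕ V₂ ≃ V) :
    (totOp b c S F adj).submatrix (confEquiv f) (confEquiv f) -
      (totOp b c S F (fun x y : V₁ => adj (f (Sum.inl x)) (f (Sum.inl y))) ⊗ₖ
          (1 : Matrix (V₂ → d) (V₂ → d) ℂ) +
        (1 : Matrix (V₁ → d) (V₁ → d) ℂ) ⊗ₖ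
          totOp b c S F (fun x y : V₂ => adj (f (Sum.inr x)) (f (Sum.inr y)))) =
      (b : ℂ) • ((∑ x : V₁, ∑ y : V₂, if adj (f (Sum.inl x)) (f (Sum.inr y)) then
          (pairOp c S (f (Sum.inl x)) (f (Sum.inr y))).submatrix (confEquiv f) (confEquiv f)
          else 0) +
        (∑ x : V₂, ∑ y : V₁, if adj (f (Sum.inr x)) (f (Sum.inl y)) then
          (pairOp c S (f (Sum.inr x)) (f (Sum.inl y))).submatrix (confEquiv f) (confEquiv f)
          else 0)) := by
  have h2 : ∀ x y : V, (if adj x y then pairOp c S x y else 0).submatrix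
      (confEquiv f) (confEquiv f) = if adj x y then (pairOp c S x y).submatrix
      (confEquiv f) (confEquiv f) else 0 := by
    intro x y
    by_cases h : adj x y
    · rw [if_pos h, if_pos h]
    · rw [if_neg h, if_neg h]
      ext i j; rfl
  have h3 : ∀ x y : V₁, (if adj (f (Sum.inl x)) (f (Sum.inl y)) then pairOp c S x y
      else 0) ⊗ₖ (1 : Matrix (V₂ → d) (V₂ → d) ℂ) =
      if adj (f (Sum.inl x)) (f (Sum.inl y)) then
        pairOp c S x y ⊗ₖ (1 : Matrix (V₂ → d) (V₂ → d) ℂ) else 0 := by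
    intro x y
    by_cases h : adj (f (Sum.inl x)) (f (Sum.inl y))
    · rw [if_pos h, if_pos h]
    · rw [if_neg h, if_neg h]
      exact Matrix.zero_kronecker _
  have h4 : ∀ x y : V₂, (1 : Matrix (V₁ → d) (V₁ → d) ℂ) ⊗ₖ
      (if adj (f (Sum.inr x)) (f (Sum.inr y)) then pairOp c S x y else 0) =
      if adj (f (Sum.inr x)) (f (Sum.inr y)) then
        (1 : Matrix (V₁ → d) (V₁ → d) ℂ) ⊗ₖ pairOp c S x y else 0 := by
    intro x y
    by_cases h : adj (f (Sum.inr x)) (f (Sum.inr y))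
    · rw [if_pos h, if_pos h]
    · rw [if_neg h, if_neg h]
      exact Matrix.kronecker_zero _
  simp only [totOp, Matrix.submatrix_add, Pi.add_apply, Matrix.submatrix_smul, Pi.smul_apply,
    submatrix_sum_eq, h2, Matrix.add_kronecker, Matrix.smul_kronecker, sum_kron,
    Matrix.kronecker_add, Matrix.kronecker_smul, kron_sum, h3, h4]
  simp only [← Equiv.sum_comp f, Fintype.sum_sum_type, pairOp_inl, pairOp_inr, siteOpV_inl,
    siteOpV_inr, Finset.sum_add_distrib, smul_add]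
  abel

/-- Subadditivity of `logZ` when the pair terms are negative. -/
theorem logZ_subadd [Nonempty d] {b c : ℝ} (hb : 0 ≤ b) {S : κ → Matrix d d ℂ}
    (hS : ∀ a, (S a).IsHermitian) {F : Matrix d d ℂ} (hF : F.IsHermitian)
    (adj : V → V → Prop) [DecidableRel adj] (hadj : ∀ x, ¬ adj x x)
    (hneg : ∀ x y : V, x ≠ y → (-pairOp c S x y).PosSemidef) (f : V₁ ⊕ V₂ ≃ V) :
    logZ b c S F adj ≤
    logZ b c S F (fun x y : V₁ => adj (f (Sum.inl x)) (f (Sum.inl y))) +
      logZ b c S F (fun x y : V₂ => adj (f (Sum.inr x)) (f (Sum.inr y))) := by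
  have h1 := totOp_isHermitian b c hS hF (fun x y : V₁ => adj (f (Sum.inl x)) (f (Sum.inl y)))
    (fun x => hadj _)
  have h2 := totOp_isHermitian b c hS hF (fun x y : V₂ => adj (f (Sum.inr x)) (f (Sum.inr y)))
    (fun x => hadj _)
  have h3 := totOp_isHermitian b c hS hF adj hadj
  have key : ((totOp b c S F (fun x y : V₁ => adj (f (Sum.inl x)) (f (Sum.inl y))) ⊗ₖ
          (1 : Matrix (V₂ → d) (V₂ → d) ℂ) +
        (1 : Matrix (V₁ → d) (V₁ → d) ℂ) ⊗ₖ
          totOp b c S F (fun x y : V₂ => adj (f (Sum.inr x)) (f (Sum.inr y)))) -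
      (totOp b c S F adj).submatrix (confEquiv f) (confEquiv f)).PosSemidef := by
    have e := totOp_split_eq b c S F adj f
    rw [← neg_sub, e, ← smul_neg, neg_add, ← Finset.sum_neg_distrib, ← Finset.sum_neg_distrib]
    refine Matrix.PosSemidef.smul ?_ (by simpa using hb)
    refine Matrix.PosSemidef.add ?_ ?_
    · refine Matrix.posSemidef_sum _ fun x _ => ?_
      rw [← Finset.sum_neg_distrib]
      refine Matrix.posSemidef_sum _ fun y _ => ?_
      split_ifs
      · refine Matrix.PosSemidef.submatrix (hneg _ _ ?_) _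
        intro h
        simpa using f.injective h
      · rw [neg_zero]; exact Matrix.PosSemidef.zero
    · refine Matrix.posSemidef_sum _ fun x _ => ?_
      rw [← Finset.sum_neg_distrib]
      refine Matrix.posSemidef_sum _ fun y _ => ?_
      split_ifs
      · refine Matrix.PosSemidef.submatrix (hneg _ _ ?_) _
        intro h
        simpa using f.injective h
      · rw [neg_zero]; exact Matrix.PosSemidef.zero
  have h := trace_exp_prod_ge (confEquiv f) h1 h2 h3 key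
  have p1 := trace_exp_pos h1
  have p2 := trace_exp_pos h2
  have p3 := trace_exp_pos h3
  unfold logZ
  rw [← Real.log_mul p1.ne' p2.ne']
  exact Real.log_le_log p3 h

end

section Lattice

variable {n : ℕ} {Λ : Finset Site}

/-- One-site field term. -/
noncomputable def fld (n : ℕ) (t : ℝ) : Matrix (Fin (n + 1)) (Fin (n + 1)) ℂ :=
  -((t : ℂ) • (((n : ℂ) / 2) • (1 : Matrix (Fin (n + 1)) (Fin (n + 1)) ℂ) - spin n 2))

theorem fld_isHermitian (n : ℕ) (t : ℝ) : (fld n t).IsHermitian := by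
  rw [fld, Matrix.IsHermitian, Matrix.conjTranspose_neg, Matrix.conjTranspose_smul,
    Matrix.conjTranspose_sub, Matrix.conjTranspose_smul, Matrix.conjTranspose_one,
    spin_isHermitian n 2]
  simp

theorem pairOp_eq_dot (x y : Λ) : pairOp (-((n : ℝ) / 2) ^ 2) (spin n) x y =
    -((((n : ℂ) / 2) ^ 2) • (1 : Matrix (Λ → Fin (n + 1)) (Λ → Fin (n + 1)) ℂ) -
      H.dotOp n x y) := by
  unfold pairOp H.dotOp
  simp only [siteOp_eq_siteOpV]
  push_cast
  module

theorem neg_pairOp_posSemidef {x y : Λ} (hxy : x ≠ y) :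
    (-pairOp (-((n : ℝ) / 2) ^ 2) (spin n) x y).PosSemidef := by
  rw [pairOp_eq_dot, neg_neg]
  have h := H.dot_sos (n := n) hxy
  have h2 : (((n : ℂ) / 2) ^ 2) • (1 : Matrix (Λ → Fin (n + 1)) (Λ → Fin (n + 1)) ℂ) -
      H.dotOp n x y = (1 / 2 : ℂ) • ((H.oA n x * H.oB n y - H.oB n x * H.oA n y)ᴴ *
        (H.oA n x * H.oB n y - H.oB n x * H.oA n y)) := by
    rw [h]
    module
  rw [h2]
  exact Matrix.PosSemidef.smul (Matrix.posSemidef_conjTranspose_mul_self _)
    (by norm_num [Complex.le_def])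

theorem totOp_eq_hT (β t : ℝ) : totOp (V := Λ) (β / 2) (-((n : ℝ) / 2) ^ 2) (spin n) (fld n t)
      (fun x y => IsNN x.1 y.1) =
      -((β : ℂ) • hT n Λ + (t : ℂ) • numOp n Λ) := by
  unfold totOp hT numOp fld
  simp only [pairOp_eq_dot]
  have e1 : (∑ x : Λ, ∑ y : Λ, if IsNN x.1 y.1 then
      -((((n : ℂ) / 2) ^ 2) • (1 : Matrix (Λ → Fin (n + 1)) (Λ → Fin (n + 1)) ℂ) -
      H.dotOp n x y) else 0) = -∑ x : Λ, ∑ y : Λ, if IsNN x.1 y.1 then
      ((((n : ℂ) / 2) ^ 2) • (1 : Matrix (Λ → Fin (n + 1)) (Λ → Fin (n + 1)) ℂ) -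
      H.dotOp n x y) else 0 := by
    rw [← Finset.sum_neg_distrib]
    refine Finset.sum_congr rfl fun x _ => ?_
    rw [← Finset.sum_neg_distrib]
    refine Finset.sum_congr rfl fun y _ => ?_
    split_ifs <;> simp
  rw [e1]
  have e2 : ∀ x : Λ, siteOpV x (-((t : ℂ) • (((n : ℂ) / 2) •
      (1 : Matrix (Fin (n + 1)) (Fin (n + 1)) ℂ) - spin n 2))) =
      -((t : ℂ) • (((n : ℂ) / 2) • (1 : Matrix _ _ ℂ) - H.oZ n x)) := by
    intro x
    rw [siteOpV_neg, siteOpV_smul, siteOpV_sub, siteOpV_smul, siteOpV_one,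
      ← siteOp_eq_siteOpV]
    rfl
  simp only [e2, Finset.sum_neg_distrib, ← Finset.smul_sum]
  push_cast
  module

theorem log_Zt_eq (β t : ℝ) : Real.log (Zt n Λ β t) =
    lz (β / 2) (-((n : ℝ) / 2) ^ 2) n (fld n t) Λ := by
  unfold lz logZ Zt
  rw [totOp_eq_hT]

theorem hT_isHermitian : (hT n Λ).IsHermitian := by
  have h := totOp_isHermitian (V := Λ) ((-2 : ℝ) / 2) (-((n : ℝ) / 2) ^ 2) (spin_isHermitian n)
    (fld_isHermitian n 0) (fun x y => IsNN x.1 y.1) (fun x => isNN_irrefl x.1)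
  rw [totOp_eq_hT] at h
  have h2 : hT n Λ = (1 / 2 : ℂ) • (-((((-2 : ℝ) : ℂ)) • hT n Λ + ((0 : ℝ) : ℂ) • numOp n Λ)) := by
    push_cast
    module
  rw [h2, Matrix.IsHermitian, Matrix.conjTranspose_smul, h]
  congr 1
  simp

theorem expo_isHermitian' (β t : ℝ) :
    (-((β : ℂ) • hT n Λ + (t : ℂ) • numOp n Λ)).IsHermitian := by
  rw [← totOp_eq_hT]
  exact totOp_isHermitian (V := Λ) (β / 2) (-((n : ℝ) / 2) ^ 2) (spin_isHermitian n)
    (fld_isHermitian n t) (fun x y => IsNN x.1 y.1) (fun x => isNN_irrefl x.1)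

theorem Zt_pos (β t : ℝ) : 0 < Zt n Λ β t := trace_exp_pos (expo_isHermitian' β t)

theorem hT_posSemidef : (hT n Λ).PosSemidef := by
  unfold hT
  refine Matrix.PosSemidef.smul ?_ (by norm_num [Complex.le_def])
  refine Matrix.posSemidef_sum _ fun x _ => Matrix.posSemidef_sum _ fun y _ => ?_
  split_ifs with h
  · have h2 := neg_pairOp_posSemidef (n := n) (Λ := Λ) (x := x) (y := y) (by
      rintro rfl; exact isNN_irrefl _ h)
    rwa [pairOp_eq_dot, neg_neg] at h2
  · exact Matrix.PosSemidef.zero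

end Lattice

section Ground

variable {n : ℕ} {Λ : Finset Site}

/-- The fully polarized configuration. -/
def e0 (n : ℕ) (Λ : Finset Site) : (Λ → Fin (n + 1)) → ℂ := Pi.single (fun _ => 0) 1

theorem oB_e0 (y : Λ) : H.oB n y *ᵥ e0 n Λ = 0 := by
  ext σ
  rw [e0, Matrix.mulVec_single_one]
  refine (H.siteOp_apply y (H.schwB n) σ (fun _ => 0)).trans ?_
  simp [H.schwB]

theorem oZ_e0 (y : Λ) : H.oZ n y *ᵥ e0 n Λ = ((n : ℂ) / 2) • e0 n Λ := by
  have h : H.oZ n y = ((n : ℂ) / 2) • (1 : Matrix _ _ ℂ) - (H.oB n y)ᴴ * H.oB n y := by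
    rw [siteOp_conjTranspose, H.siteOp_mul, H.schwB_schwB, H.siteOp_sub, H.siteOp_smul,
      H.siteOp_one]
    abel
  rw [h, Matrix.sub_mulVec, ← Matrix.mulVec_mulVec, oB_e0, Matrix.mulVec_zero, sub_zero,
    Matrix.smul_mulVec, Matrix.one_mulVec]

theorem pair_e0 {x y : Λ} (hxy : x ≠ y) :
    ((((n : ℂ) / 2) ^ 2) • (1 : Matrix (Λ → Fin (n + 1)) (Λ → Fin (n + 1)) ℂ) -
      H.dotOp n x y) *ᵥ e0 n Λ = 0 := by
  have h := H.dot_sos (n := n) hxy
  have h2 : (((n : ℂ) / 2) ^ 2) • (1 : Matrix (Λ → Fin (n + 1)) (Λ → Fin (n + 1)) ℂ) -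
      H.dotOp n x y = (1 / 2 : ℂ) • ((H.oA n x * H.oB n y - H.oB n x * H.oA n y)ᴴ *
        (H.oA n x * H.oB n y - H.oB n x * H.oA n y)) := by
    rw [h]
    module
  rw [h2, Matrix.smul_mulVec, ← Matrix.mulVec_mulVec, Matrix.sub_mulVec,
    H.siteOp_comm hxy (H.schwB n) (H.schwA n), ← Matrix.mulVec_mulVec, ← Matrix.mulVec_mulVec,
    oB_e0, oB_e0]
  simp

theorem hT_e0 : hT n Λ *ᵥ e0 n Λ = 0 := by
  unfold hT
  rw [Matrix.smul_mulVec, Matrix.sum_mulVec]
  rw [Finset.sum_eq_zero, smul_zero]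
  intro x _
  rw [Matrix.sum_mulVec]
  refine Finset.sum_eq_zero fun y _ => ?_
  split_ifs with h
  · exact pair_e0 (by rintro rfl; exact isNN_irrefl _ h)
  · exact Matrix.zero_mulVec _

theorem numOp_e0 : numOp n Λ *ᵥ e0 n Λ = 0 := by
  unfold numOp
  rw [Matrix.sum_mulVec]
  refine Finset.sum_eq_zero fun x _ => ?_
  rw [Matrix.sub_mulVec, oZ_e0, Matrix.smul_mulVec, Matrix.one_mulVec, sub_self]

theorem one_le_Zt (β t : ℝ) : 1 ≤ Zt n Λ β t := by
  have h0 : (-((β : ℂ) • hT n Λ + (t : ℂ) • numOp n Λ)) *ᵥ e0 n Λ = 0 := by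
    rw [Matrix.neg_mulVec, Matrix.add_mulVec, Matrix.smul_mulVec, Matrix.smul_mulVec, hT_e0,
      numOp_e0]
    simp
  have hH := expo_isHermitian' (n := n) (Λ := Λ) β t
  unfold Zt
  generalize -((β : ℂ) • hT n Λ + (t : ℂ) • numOp n Λ) = X at h0 hH ⊢
  have h := peierls hH (V := 1) (by simp)
  refine le_trans ?_ h
  rw [star_one, Matrix.one_mul, Matrix.mul_one]
  have h1 : X (fun _ => 0) (fun _ => 0) = 0 := by
    have := congrFun h0 (fun _ => 0)
    rw [e0, Matrix.mulVec_single_one] at this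
    exact this
  have h2 : Real.exp ((X (fun _ => 0) (fun _ => 0)).re) ≤ ∑ i, Real.exp ((X i i).re) :=
    Finset.single_le_sum (f := fun i => Real.exp ((X i i).re))
      (fun _ _ => (Real.exp_pos _).le) (Finset.mem_univ _)
  refine le_trans ?_ h2
  rw [h1]
  simp

theorem numOp_posSemidef : (numOp n Λ).PosSemidef := by
  unfold numOp
  refine Matrix.posSemidef_sum _ fun x _ => ?_
  have h : ((n : ℂ) / 2) • (1 : Matrix (Λ → Fin (n + 1)) (Λ → Fin (n + 1)) ℂ) - H.oZ n x =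
      (H.oB n x)ᴴ * H.oB n x := by
    rw [siteOp_conjTranspose, H.siteOp_mul, H.schwB_schwB, H.siteOp_sub, H.siteOp_smul,
      H.siteOp_one]
  rw [h]
  exact Matrix.posSemidef_conjTranspose_mul_self _

theorem Zt_le_card {β t : ℝ} (hβ : 0 ≤ β) (ht : 0 ≤ t) :
    Zt n Λ β t ≤ ((n : ℝ) + 1) ^ Λ.card := by
  have h := trace_exp_mono (expo_isHermitian' (n := n) (Λ := Λ) β t)
    (Y := (0 : Matrix (Λ → Fin (n + 1)) (Λ → Fin (n + 1)) ℂ)) Matrix.isHermitian_zero (by
      rw [zero_sub, neg_neg]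
      exact (hT_posSemidef.smul (by simpa using hβ)).add
        (numOp_posSemidef.smul (by simpa using ht)))
  refine le_trans h (le_of_eq ?_)
  rw [NormedSpace.exp_zero, Matrix.trace_one, Complex.natCast_re]
  simp

/-- Monotonicity in both parameters. -/
theorem Zt_anti {β β' t t' : ℝ} (hβ : β ≤ β') (ht : t ≤ t') :
    Zt n Λ β' t' ≤ Zt n Λ β t := by
  refine trace_exp_mono (expo_isHermitian' (n := n) (Λ := Λ) β' t')
    (expo_isHermitian' (n := n) (Λ := Λ) β t) ?_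
  have e : -((β : ℂ) • hT n Λ + (t : ℂ) • numOp n Λ) - -((β' : ℂ) • hT n Λ + (t' : ℂ) • numOp n Λ)
      = ((β' - β : ℝ) : ℂ) • hT n Λ + ((t' - t : ℝ) : ℂ) • numOp n Λ := by
    push_cast
    module
  rw [e]
  exact (hT_posSemidef.smul (by rw [Complex.zero_le_real]; linarith)).add
    (numOp_posSemidef.smul (by rw [Complex.zero_le_real]; linarith))

end Ground

section SetFunction

variable {n : ℕ} {β t : ℝ}

theorem log_Zt_nonneg (Λ : Finset Site) : 0 ≤ Real.log (Zt n Λ β t) :=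
  Real.log_nonneg (one_le_Zt β t)

theorem log_Zt_le (hβ : 0 ≤ β) (ht : 0 ≤ t) (Λ : Finset Site) :
    Real.log (Zt n Λ β t) ≤ Real.log ((n : ℝ) + 1) * Λ.card := by
  have h := Real.log_le_log (Zt_pos β t) (Zt_le_card (n := n) (Λ := Λ) hβ ht)
  rwa [Real.log_pow, mul_comm] at h

theorem log_Zt_subadd (hβ : 0 ≤ β) (Λ₁ Λ₂ : Finset Site) (h : Disjoint Λ₁ Λ₂) :
    Real.log (Zt n (Λ₁ ∪ Λ₂) β t) ≤ Real.log (Zt n Λ₁ β t) + Real.log (Zt n Λ₂ β t) := by
  simp only [log_Zt_eq]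
  unfold lz
  exact logZ_subadd (V := (Λ₁ ∪ Λ₂ : Finset Site)) (by positivity) (spin_isHermitian n)
    (fld_isHermitian n t) (fun x y : (Λ₁ ∪ Λ₂ : Finset Site) => IsNN x.1 y.1)
    (fun x => isNN_irrefl x.1) (fun x y hxy => neg_pairOp_posSemidef hxy)
    (Equiv.Finset.union Λ₁ Λ₂ h)

theorem log_Zt_translate (v : Site) (Λ : Finset Site) :
    Real.log (Zt n (Λ.map (addRightEmbedding v)) β t) = Real.log (Zt n Λ β t) := by
  simp only [log_Zt_eq]
  exact lz_translate v Λ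

/-- Superadditive companion of `log Zt`. -/
noncomputable def gset (n : ℕ) (β t : ℝ) (Λ : Finset Site) : ℝ :=
  Real.log ((n : ℝ) + 1) * Λ.card - Real.log (Zt n Λ β t)

theorem gset_superadd (hβ : 0 ≤ β) (Λ₁ Λ₂ : Finset Site) (h : Disjoint Λ₁ Λ₂) :
    gset n β t Λ₁ + gset n β t Λ₂ ≤ gset n β t (Λ₁ ∪ Λ₂) := by
  unfold gset
  rw [Finset.card_union_of_disjoint h]
  push_cast
  linarith [log_Zt_subadd (n := n) (t := t) hβ Λ₁ Λ₂ h]

theorem gset_translate (v : Site) (Λ : Finset Site) :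
    gset n β t (Λ.map (addRightEmbedding v)) = gset n β t Λ := by
  unfold gset
  rw [log_Zt_translate, Finset.card_map]

theorem gset_nonneg (hβ : 0 ≤ β) (ht : 0 ≤ t) (Λ : Finset Site) : 0 ≤ gset n β t Λ := by
  unfold gset
  linarith [log_Zt_le (n := n) hβ ht Λ]

theorem gset_le (Λ : Finset Site) : gset n β t Λ ≤ Real.log ((n : ℝ) + 1) * Λ.card := by
  unfold gset
  linarith [log_Zt_nonneg (n := n) (β := β) (t := t) Λ]

theorem cube_eq (L : ℕ) : cube L = P361.cube L := rfl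

/-- (D3) -/
theorem log_Zt_cube_mul (hβ : 0 ≤ β) (ht : 0 ≤ t) (q L : ℕ) (hL : 0 < L) :
    Real.log (Zt n (cube (q * L)) β t) ≤ (q : ℝ) ^ 3 * Real.log (Zt n (cube L) β t) := by
  have h := G_cube_mul (G := gset n β t) (gset_superadd hβ) gset_translate
    (gset_nonneg hβ ht) L q (q * L) hL le_rfl
  unfold gset at h
  rw [card_cube, card_cube] at h
  rw [cube_eq, cube_eq]
  push_cast at h
  nlinarith

/-- Existence of the limit along boxes. -/
theorem log_Zt_box_le (hβ : 0 ≤ β) (ht : 0 ≤ t) {a : ℝ} (L : ℕ) (hL : 0 < L)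
    (ha : Tendsto (fun N : ℕ => Real.log (Zt n (box N) β t) / ((box N).card : ℝ)) atTop (𝓝 a)) :
    a ≤ Real.log (Zt n (cube L) β t) / (L : ℝ) ^ 3 := by
  have hLR : (0 : ℝ) < L := by exact_mod_cast hL
  -- lower bound for the superadditive function along boxes
  have h1 : ∀ N : ℕ, ((((2 * N + 1) / L : ℕ) : ℝ) / ((2 * N + 1 : ℕ) : ℝ)) ^ 3 *
      gset n β t (cube L) ≤ gset n β t (box N) / ((box N).card : ℝ) := by
    intro N
    have h := G_cube_mul (G := gset n β t) (gset_superadd hβ) gset_translate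
      (gset_nonneg hβ ht) L ((2 * N + 1) / L) (2 * N + 1) hL (Nat.div_mul_le_self _ _)
    rw [box_eq_map, gset_translate, Finset.card_map, card_cube]
    have hpos : (0 : ℝ) < ((2 * N + 1 : ℕ) : ℝ) := by positivity
    rw [Nat.cast_pow, le_div_iff₀ (by positivity), div_pow]
    rw [cube_eq]
    calc _ = (((2 * N + 1) / L : ℕ) : ℝ) ^ 3 * gset n β t (P361.cube L) := by
          field_simp
      _ ≤ _ := h
  have h2 : Tendsto (fun N : ℕ => ((((2 * N + 1) / L : ℕ) : ℝ) / ((2 * N + 1 : ℕ) : ℝ)) ^ 3 *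
      gset n β t (cube L)) atTop (𝓝 ((1 / (L : ℝ)) ^ 3 * gset n β t (cube L))) := by
    refine Tendsto.mul_const _ (Tendsto.pow ?_ 3)
    have h3 := (tendsto_nat_floor_mul_div_atTop (R := ℝ) (a := 1 / (L : ℝ))
      (by positivity)).comp tendsto_natCast_atTop_atTop
    have h4 : Tendsto (fun N : ℕ => 2 * N + 1) atTop atTop := by
      refine tendsto_atTop_mono (fun n => ?_) tendsto_id
      simp only [id]; omega
    refine (h3.comp h4).congr fun N => ?_
    simp only [Function.comp]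
    congr 2
    rw [one_div, inv_mul_eq_div, Nat.floor_div_eq_div]
  have h5 : Tendsto (fun N : ℕ => gset n β t (box N) / ((box N).card : ℝ)) atTop
      (𝓝 (Real.log ((n : ℝ) + 1) - a)) := by
    refine (tendsto_const_nhds.sub ha).congr fun N => ?_
    have hpos : (0 : ℝ) < (box N).card := by exact_mod_cast (box_nonempty N).card_pos
    unfold gset
    field_simp
  have h6 := le_of_tendsto_of_tendsto' h2 h5 h1
  unfold gset at h6
  rw [cube_eq, card_cube] at h6
  rw [cube_eq]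
  push_cast at h6
  have h7 : (1 / (L : ℝ)) ^ 3 * (Real.log ((n : ℝ) + 1) * (L : ℝ) ^ 3 -
      Real.log (Zt n (P361.cube L) β t)) = Real.log ((n : ℝ) + 1) -
      Real.log (Zt n (P361.cube L) β t) / (L : ℝ) ^ 3 := by
    field_simp
  linarith

end SetFunction

section Pressure

variable {n : ℕ}

theorem nn_count_eq (Λ : Finset Site) (x : Site) :
    (∑ y ∈ Λ, if IsNN x y then (1 : ℝ) else 0) =
      ((Finset.univ.filter fun p : Fin 3 × Bool => x + H.dir p ∈ Λ).card : ℝ) := by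
  rw [← Finset.sum_filter, Finset.sum_const, nsmul_eq_mul, mul_one]
  congr 1
  symm
  refine Finset.card_bij (fun p _ => x + H.dir p) ?_ ?_ ?_
  · intro p hp
    rw [Finset.mem_filter] at hp ⊢
    exact ⟨hp.2, (H.isNN_iff _ _).2 ⟨p, rfl⟩⟩
  · intro p _ q _ h
    exact H.dir_injective (by simpa using h)
  · intro y hy
    rw [Finset.mem_filter] at hy
    obtain ⟨p, rfl⟩ := (H.isNN_iff _ _).1 hy.2
    exact ⟨p, by rw [Finset.mem_filter]; exact ⟨Finset.mem_univ _, hy.1⟩, rfl⟩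

theorem edgeCount_le_six (Λ : Finset Site) : edgeCount Λ ≤ 6 * Λ.card := by
  rw [edgeCount_eq]
  calc ∑ x ∈ Λ, ∑ y ∈ Λ, (if IsNN x y then (1 : ℝ) else 0) ≤ ∑ _x ∈ Λ, (6 : ℝ) := by
        refine Finset.sum_le_sum fun x _ => ?_
        rw [nn_count_eq]
        have : (Finset.univ.filter fun p : Fin 3 × Bool => x + H.dir p ∈ Λ).card ≤ 6 :=
          (Finset.card_filter_le _ _).trans (by simp)
        exact_mod_cast this
    _ = 6 * Λ.card := by
        rw [Finset.sum_const, nsmul_eq_mul]; ring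

theorem dir_abs_le : ∀ (p : Fin 3 × Bool) (i : Fin 3), |H.dir p i| ≤ 1 := by decide

theorem edgeCount_box_ge (N : ℕ) : 6 * ((2 * (N : ℝ) + 1) ^ 3) ≤ edgeCount (box (N + 1)) := by
  rw [edgeCount_eq]
  have hsub : box N ⊆ box (N + 1) := by
    intro x hx
    rw [H.mem_box] at hx ⊢
    intro i
    have := hx i
    push_cast
    constructor <;> linarith
  calc 6 * ((2 * (N : ℝ) + 1) ^ 3) = ∑ _x ∈ box N, (6 : ℝ) := by
        rw [Finset.sum_const, nsmul_eq_mul, card_box]; push_cast; ring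
    _ ≤ ∑ x ∈ box N, ∑ y ∈ box (N + 1), (if IsNN x y then (1 : ℝ) else 0) := by
        refine Finset.sum_le_sum fun x hx => ?_
        rw [nn_count_eq, Finset.filter_true_of_mem]
        · simp
        · intro p _
          rw [H.mem_box] at hx ⊢
          intro i
          have h1 := hx i
          have h2 : |H.dir p i| ≤ 1 := dir_abs_le p i
          have h3 := abs_le.1 h2
          simp only [Pi.add_apply]
          push_cast
          constructor <;> linarith
    _ ≤ ∑ x ∈ box (N + 1), ∑ y ∈ box (N + 1), (if IsNN x y then (1 : ℝ) else 0) := by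
        refine Finset.sum_le_sum_of_subset_of_nonneg hsub fun _ _ _ => ?_
        exact Finset.sum_nonneg fun _ _ => by split_ifs <;> norm_num

theorem edge_density : Tendsto (fun N : ℕ => edgeCount (box N) / ((box N).card : ℝ)) atTop
    (𝓝 6) := by
  rw [← tendsto_add_atTop_iff_nat 1]
  have h1 : Tendsto (fun N : ℕ => 6 * ((2 * (N : ℝ) + 1) / (2 * ((N : ℝ) + 1) + 1)) ^ 3) atTop
      (𝓝 (6 * 1 ^ 3)) := by
    refine Tendsto.const_mul _ (Tendsto.pow ?_ 3)
    have h2 : Tendsto (fun N : ℕ => 1 - 2 / (2 * ((N : ℝ) + 1) + 1)) atTop (𝓝 (1 - 0)) := by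
      refine tendsto_const_nhds.sub (Tendsto.div_atTop tendsto_const_nhds ?_)
      refine tendsto_atTop_mono (f := fun N : ℕ => (N : ℝ)) (fun N => ?_)
        tendsto_natCast_atTop_atTop
      have : (0 : ℝ) ≤ N := Nat.cast_nonneg N
      linarith
    rw [sub_zero] at h2
    refine h2.congr fun N => ?_
    have : (0 : ℝ) ≤ N := Nat.cast_nonneg N
    field_simp
    ring
  rw [one_pow, mul_one] at h1
  refine tendsto_of_tendsto_of_tendsto_of_le_of_le h1 tendsto_const_nhds (fun N => ?_)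
    (fun N => ?_)
  · have h3 := edgeCount_box_ge N
    simp only
    rw [card_box, le_div_iff₀ (by positivity), div_pow]
    push_cast
    refine le_trans (le_of_eq ?_) h3
    have : (0 : ℝ) ≤ N := Nat.cast_nonneg N
    field_simp
  · have h3 := edgeCount_le_six (box (N + 1))
    have hpos : (0 : ℝ) < (box (N + 1)).card := by exact_mod_cast (box_nonempty (N + 1)).card_pos
    simp only
    rw [div_le_iff₀ hpos]
    exact h3

/-- The reduced pressure `β (p_β(h) - 3S² - S h)`. -/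
noncomputable def gRed (n : ℕ) (β h : ℝ) : ℝ :=
  β * (pressure n β h - 3 * ((n : ℝ) / 2) ^ 2 - (n : ℝ) / 2 * h)

theorem finPressure_Zt (Λ : Finset Site) (β h : ℝ) :
    finPressure n Λ β h = (β * Λ.card)⁻¹ * (Real.log (Zt n Λ β (β * h)) +
      (β / 2) * ((n : ℝ) / 2) ^ 2 * edgeCount Λ + β * h * ((n : ℝ) / 2) * Λ.card) := by
  rw [finPressure_eq n Λ β h (-((n : ℝ) / 2) ^ 2) (-(β * h * ((n : ℝ) / 2))), log_Zt_eq]
  have e : (((-(β * h * ((n : ℝ) / 2)) : ℝ) : ℂ) •
      (1 : Matrix (Fin (n + 1)) (Fin (n + 1)) ℂ) + ((β * h : ℝ) : ℂ) • spin n 2) =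
      fld n (β * h) := by
    unfold fld
    push_cast
    module
  rw [e]
  ring

/-- `β (p - 3S² - S h)` is the limit of `|Λ|⁻¹ log Zt`. -/
theorem gRed_tendsto {β : ℝ} (hβ : 0 < β) (h : ℝ) :
    Tendsto (fun N : ℕ => Real.log (Zt n (box N) β (β * h)) / ((box N).card : ℝ)) atTop
      (𝓝 (gRed n β h)) := by
  have h1 := ((pressure_tendsto n hβ h).const_mul β)
  have h2 := (edge_density.const_mul (β / 2 * ((n : ℝ) / 2) ^ 2))
  have h3 := (h1.sub h2).sub_const (β * ((n : ℝ) / 2) * h)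
  have e : β * pressure n β h - β / 2 * ((n : ℝ) / 2) ^ 2 * 6 - β * ((n : ℝ) / 2) * h =
      gRed n β h := by
    unfold gRed; ring
  rw [e] at h3
  refine h3.congr fun N => ?_
  have hpos : (0 : ℝ) < (box N).card := by exact_mod_cast (box_nonempty N).card_pos
  rw [finPressure_Zt]
  field_simp
  ring

/-- (D1) -/
theorem gRed_le {β h : ℝ} (hβ : 0 < β) (hh : 0 ≤ h) {L : ℕ} (hL : 0 < L) :
    gRed n β h ≤ Real.log (Zt n (cube L) β (β * h)) / (L : ℝ) ^ 3 :=
  log_Zt_box_le hβ.le (by positivity) L hL (gRed_tendsto hβ h)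

theorem gRed_nonneg {β : ℝ} (hβ : 0 < β) (h : ℝ) : 0 ≤ gRed n β h := by
  refine ge_of_tendsto' (gRed_tendsto (n := n) hβ h) fun N => ?_
  exact div_nonneg (log_Zt_nonneg _) (by positivity)

end Pressure

end Vale.Agent.P361.B
end

section

/-!
Part B, step D7: sharp lower bound on the reduced pressure, uniformly in the field.
-/

namespace Vale.Agent.P361.B

open MeasureTheory Filter Topology

/-- Gaussian tail. -/
theorem gauss_tail {A : ℝ} (hA : 0 < A) :
    ∫ u in Set.Ioi A, Real.exp (-(1 / 2) * u ^ 2) ≤ Real.exp (-(1 / 2) * A ^ 2) / A := by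
  have hi1 : IntegrableOn (fun u : ℝ => Real.exp (-(1 / 2) * u ^ 2)) (Set.Ioi A) :=
    (integrable_exp_neg_mul_sq (by norm_num)).integrableOn
  have hi2 : IntegrableOn (fun u : ℝ => u * Real.exp (-(1 / 2) * u ^ 2)) (Set.Ioi A) :=
    (integrable_mul_exp_neg_mul_sq (by norm_num)).integrableOn
  have h1 : ∫ u in Set.Ioi A, u * Real.exp (-(1 / 2) * u ^ 2) = Real.exp (-(1 / 2) * A ^ 2) := by
    have hd : ∀ x ∈ Set.Ici A, HasDerivAt (fun u : ℝ => -Real.exp (-(1 / 2) * u ^ 2))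
        (x * Real.exp (-(1 / 2) * x ^ 2)) x := by
      intro x _
      have h := (((hasDerivAt_pow 2 x).const_mul (-(1 / 2 : ℝ))).exp).fun_neg
      refine h.congr_deriv ?_
      push_cast
      ring
    have ht : Tendsto (fun u : ℝ => -Real.exp (-(1 / 2) * u ^ 2)) atTop (𝓝 (-0)) := by
      refine Tendsto.neg (Real.tendsto_exp_atBot.comp ?_)
      refine Tendsto.const_mul_atTop_of_neg (by norm_num) (tendsto_pow_atTop (by norm_num))
    rw [integral_Ioi_of_hasDerivAt_of_tendsto' hd hi2 ht]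
    ring
  have h2 : ∫ u in Set.Ioi A, Real.exp (-(1 / 2) * u ^ 2) ≤
      ∫ u in Set.Ioi A, A⁻¹ * (u * Real.exp (-(1 / 2) * u ^ 2)) := by
    refine setIntegral_mono_on hi1 (hi2.const_mul _) measurableSet_Ioi fun u hu => ?_
    rw [← mul_assoc]
    refine le_mul_of_one_le_left (Real.exp_pos _).le ?_
    rw [inv_mul_eq_div, one_le_div hA]
    exact (Set.mem_Ioi.1 hu).le
  rw [integral_const_mul, h1] at h2
  rw [div_eq_inv_mul (Real.exp _) A]
  exact h2

/-- Quantitative lower bound for the Bessel factor. -/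
theorem bJ_lower {x : ℝ} (hx : 0 < x) :
    (Real.sqrt (2 * Real.pi))⁻¹ * (1 - 1 / x) ≤ Real.sqrt x * H.bJ x := by
  have hpi := Real.pi_pos
  have hs : 0 < Real.sqrt x := Real.sqrt_pos.2 hx
  refine le_trans ?_ (H.bJ_gauss_lower hx)
  set A := Real.pi * Real.sqrt x with hA
  have hA0 : 0 < A := by positivity
  have hint : IntegrableOn (fun u : ℝ => Real.exp (-(1 / 2) * u ^ 2)) (Set.Ioi 0) :=
    (integrable_exp_neg_mul_sq (by norm_num)).integrableOn
  have h1 : ∫ u in (0 : ℝ)..A, Real.exp (-(1 / 2) * u ^ 2) =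
      Real.sqrt (Real.pi / (1 / 2)) / 2 - ∫ u in Set.Ioi A, Real.exp (-(1 / 2) * u ^ 2) := by
    rw [← integral_gaussian_Ioi]
    rw [intervalIntegral.integral_of_le hA0.le, eq_sub_iff_add_eq,
      ← setIntegral_union Set.Ioc_disjoint_Ioi_same measurableSet_Ioi
        (hint.mono_set Set.Ioc_subset_Ioi_self)
        (hint.mono_set (Set.Ioi_subset_Ioi hA0.le)), Set.Ioc_union_Ioi_eq_Ioi hA0.le]
  rw [h1]
  have h2 := gauss_tail hA0
  have e : Real.pi⁻¹ * (Real.sqrt (Real.pi / (1 / 2)) / 2) = (Real.sqrt (2 * Real.pi))⁻¹ := by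
    have h4 : Real.sqrt (2 * Real.pi) ^ 2 = 2 * Real.pi := Real.sq_sqrt (by positivity)
    have h5 : 0 < Real.sqrt (2 * Real.pi) := Real.sqrt_pos.2 (by positivity)
    rw [show Real.pi / (1 / 2) = 2 * Real.pi by ring]
    generalize Real.sqrt (2 * Real.pi) = s at h4 h5
    have h6 : Real.pi = s ^ 2 / 2 := by linarith
    rw [h6]
    field_simp
  rw [mul_sub (Real.pi⁻¹), e, mul_sub, mul_one]
  have h3 : Real.pi⁻¹ * ∫ u in Set.Ioi A, Real.exp (-(1 / 2) * u ^ 2) ≤
      (Real.sqrt (2 * Real.pi))⁻¹ * (1 / x) := by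
    refine (mul_le_mul_of_nonneg_left h2 (by positivity)).trans ?_
    have h6 : Real.exp (-(1 / 2) * A ^ 2) ≤ 1 / (1 + 4 * x) := by
      have h7 : (1 / 2) * A ^ 2 = Real.pi ^ 2 * x / 2 := by
        rw [hA, mul_pow, Real.sq_sqrt hx.le]; ring
      have h8 : 9 ≤ Real.pi ^ 2 := by nlinarith [Real.pi_gt_three]
      have h9 : 1 + 4 * x ≤ Real.exp ((1 / 2) * A ^ 2) := by
        have := Real.add_one_le_exp ((1 / 2) * A ^ 2)
        rw [h7] at this ⊢
        nlinarith
      rw [show -(1 / 2 : ℝ) * A ^ 2 = -((1 / 2) * A ^ 2) by ring, Real.exp_neg, ← one_div]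
      exact one_div_le_one_div_of_le (by positivity) h9
    have h10 : Real.pi⁻¹ * (Real.exp (-(1 / 2) * A ^ 2) / A) ≤
        Real.pi⁻¹ * ((1 / (1 + 4 * x)) / A) :=
      mul_le_mul_of_nonneg_left (div_le_div_of_nonneg_right h6 hA0.le) (by positivity)
    refine h10.trans ?_
    have hsq : Real.sqrt (2 * Real.pi) ≤ 3 := by
      rw [show (3 : ℝ) = Real.sqrt 9 by
        rw [show (9 : ℝ) = 3 ^ 2 by norm_num, Real.sqrt_sq (by norm_num)]]
      exact Real.sqrt_le_sqrt (by nlinarith [Real.pi_lt_four])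
    have hsq0 : 0 < Real.sqrt (2 * Real.pi) := Real.sqrt_pos.2 (by positivity)
    have h11 : (3 : ℝ)⁻¹ * (1 / x) ≤ (Real.sqrt (2 * Real.pi))⁻¹ * (1 / x) :=
      mul_le_mul_of_nonneg_right (inv_anti₀ hsq0 hsq) (by positivity)
    refine le_trans ?_ h11
    have h12 : Real.pi⁻¹ * ((1 / (1 + 4 * x)) / A) = 1 / (Real.pi ^ 2 * (1 + 4 * x) *
        Real.sqrt x) := by
      rw [hA]; field_simp
    rw [h12]
    have h13 : (3 : ℝ)⁻¹ * (1 / x) = 1 / (3 * x) := by field_simp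
    rw [h13]
    refine one_div_le_one_div_of_le (by positivity) ?_
    have hx2 : Real.sqrt x ^ 2 = x := Real.sq_sqrt hx.le
    have h8 : 9 ≤ Real.pi ^ 2 := by nlinarith [Real.pi_gt_three]
    have h14 : 3 * x ≤ 9 * ((1 + 4 * x) * Real.sqrt x) := by
      have : 3 * x = 3 * Real.sqrt x * Real.sqrt x := by nlinarith
      rw [this]
      have h15 : 3 * Real.sqrt x ≤ 9 * (1 + 4 * x) := by nlinarith [sq_nonneg (Real.sqrt x - 1)]
      nlinarith
    have h16 : 9 * ((1 + 4 * x) * Real.sqrt x) ≤ Real.pi ^ 2 * ((1 + 4 * x) * Real.sqrt x) :=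
      mul_le_mul_of_nonneg_right h8 (by positivity)
    calc 3 * x ≤ 9 * ((1 + 4 * x) * Real.sqrt x) := h14
      _ ≤ Real.pi ^ 2 * ((1 + 4 * x) * Real.sqrt x) := h16
      _ = _ := by ring
  linarith

/-- Partial sums of `(4πS)^{-3/2} Li_{3/2}(e^{-t})`. -/
noncomputable def fR (S : ℝ) (R : ℕ) (t : ℝ) : ℝ :=
  (Real.sqrt (4 * Real.pi * S) ^ 3)⁻¹ *
    ∑ r ∈ Finset.range R, Real.exp (-(((r : ℝ) + 1) * t)) / Real.sqrt ((r : ℝ) + 1) ^ 3

/-- Partial sums of `(4πS)^{-3/2} Li_{5/2}(e^{-t})`. -/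
noncomputable def FR (S : ℝ) (R : ℕ) (t : ℝ) : ℝ :=
  (Real.sqrt (4 * Real.pi * S) ^ 3)⁻¹ *
    ∑ r ∈ Finset.range R, Real.exp (-(((r : ℝ) + 1) * t)) /
      (((r : ℝ) + 1) * Real.sqrt ((r : ℝ) + 1) ^ 3)

theorem fR_nonneg (S : ℝ) (R : ℕ) (t : ℝ) : 0 ≤ fR S R t := by
  unfold fR
  refine mul_nonneg (by positivity) (Finset.sum_nonneg fun r _ => ?_)
  positivity

theorem FR_nonneg (S : ℝ) (R : ℕ) (t : ℝ) : 0 ≤ FR S R t := by
  unfold FR
  refine mul_nonneg (by positivity) (Finset.sum_nonneg fun r _ => ?_)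
  positivity

/-- The limiting coefficient at zero field. -/
noncomputable def aS (S : ℝ) : ℝ :=
  (Real.sqrt (4 * Real.pi * S) ^ 3)⁻¹ * (riemannZeta (3 / 2)).re

theorem fR_le (S : ℝ) (R : ℕ) {t : ℝ} (ht : 0 ≤ t) : fR S R t ≤ aS S := by
  unfold fR aS
  refine mul_le_mul_of_nonneg_left ?_ (by positivity)
  refine le_trans ?_ (sum_le_hasSum (Finset.range R) (fun r _ => by positivity) H.zeta_hasSum)
  refine Finset.sum_le_sum fun r _ => ?_
  refine div_le_div_of_nonneg_right ?_ (by positivity)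
  rw [Real.exp_le_one_iff]
  have : 0 ≤ ((r : ℝ) + 1) * t := by positivity
  linarith

theorem aS_nonneg (S : ℝ) : 0 ≤ aS S := (fR_nonneg S 0 0).trans (fR_le S 0 le_rfl)

theorem hasDerivAt_FR (S : ℝ) (R : ℕ) (t : ℝ) : HasDerivAt (FR S R) (-fR S R t) t := by
  have h1 : ∀ r ∈ Finset.range R, HasDerivAt (fun t : ℝ => Real.exp (-(((r : ℝ) + 1) * t)) /
      (((r : ℝ) + 1) * Real.sqrt ((r : ℝ) + 1) ^ 3))
      (-(Real.exp (-(((r : ℝ) + 1) * t)) / Real.sqrt ((r : ℝ) + 1) ^ 3)) t := by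
    intro r _
    have h2 : HasDerivAt (fun t : ℝ => -(((r : ℝ) + 1) * t)) (-((r : ℝ) + 1)) t := by
      have := ((hasDerivAt_id' t).const_mul ((r : ℝ) + 1)).fun_neg
      refine this.congr_deriv ?_
      ring
    have h3 := h2.exp.div_const (((r : ℝ) + 1) * Real.sqrt ((r : ℝ) + 1) ^ 3)
    refine h3.congr_deriv ?_
    have h4 : 0 < Real.sqrt ((r : ℝ) + 1) := Real.sqrt_pos.2 (by positivity)
    field_simp
  have h5 := (HasDerivAt.fun_sum h1).const_mul ((Real.sqrt (4 * Real.pi * S) ^ 3)⁻¹)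
  refine h5.congr_deriv ?_
  rw [fR, Finset.sum_neg_distrib, mul_neg]

theorem FR_tendsto_zero (S : ℝ) (R : ℕ) : Tendsto (FR S R) atTop (𝓝 0) := by
  unfold FR
  have h1 : Tendsto (fun t : ℝ => ∑ r ∈ Finset.range R, Real.exp (-(((r : ℝ) + 1) * t)) /
      (((r : ℝ) + 1) * Real.sqrt ((r : ℝ) + 1) ^ 3)) atTop (𝓝 (∑ _r ∈ Finset.range R, 0)) := by
    refine tendsto_finsetSum _ fun r _ => ?_
    have h2 : Tendsto (fun t : ℝ => Real.exp (-(((r : ℝ) + 1) * t))) atTop (𝓝 0) := by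
      refine Real.tendsto_exp_neg_atTop_nhds_zero.comp ?_
      exact Tendsto.const_mul_atTop (by positivity) tendsto_id
    simpa using h2.div_const (((r : ℝ) + 1) * Real.sqrt ((r : ℝ) + 1) ^ 3)
  simpa using h1.const_mul ((Real.sqrt (4 * Real.pi * S) ^ 3)⁻¹)

/-- The Bernoulli type inequality used for the self-consistent bound. -/
theorem bernoulli_aux {u : ℝ} (hu : 0 ≤ u) : 1 - 5 / 2 * (1 - u ^ 2) ≤ u ^ 5 := by
  have h : 2 * u ^ 5 - 5 * u ^ 2 + 3 = (1 - u) ^ 2 * (2 * u ^ 3 + 4 * u ^ 2 + 6 * u + 3) := by ring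
  have h2 : 0 ≤ (1 - u) ^ 2 * (2 * u ^ 3 + 4 * u ^ 2 + 6 * u + 3) := by positivity
  nlinarith

/-- One term of the series bound. -/
theorem bJ_term {S β m : ℝ} (hS : 0 < S) (hβ : 0 < β) (hm : 0 < m) (hmS : m ≤ S)
    (hy : 1 ≤ 2 * S * β) (r : ℕ) :
    (1 - 1 / (2 * S * β)) ^ 3 * (Real.sqrt (m / S) ^ 3 * ((Real.sqrt (4 * Real.pi * S) ^ 3)⁻¹ *
      ((Real.sqrt β ^ 3)⁻¹ * (Real.sqrt ((r : ℝ) + 1) ^ 3)⁻¹))) ≤
      (H.bJ (((r : ℝ) + 1) * (β * (2 * S ^ 2)) / m)) ^ 3 := by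
  have hpi := Real.pi_pos
  set x := ((r : ℝ) + 1) * (β * (2 * S ^ 2)) / m with hx
  have hx0 : 0 < x := by positivity
  have hxy : 2 * S * β ≤ x := by
    rw [hx, le_div_iff₀ hm]
    have h1 : 2 * S * β * m ≤ 2 * S * β * S := mul_le_mul_of_nonneg_left hmS (by positivity)
    have h2 : 2 * S * β * S ≤ ((r : ℝ) + 1) * (β * (2 * S ^ 2)) := by
      have : (1 : ℝ) ≤ (r : ℝ) + 1 := by linarith [Nat.cast_nonneg (α := ℝ) r]
      calc 2 * S * β * S = 1 * (β * (2 * S ^ 2)) := by ring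
        _ ≤ _ := mul_le_mul_of_nonneg_right this (by positivity)
    linarith
  have hb := bJ_lower hx0
  have hsx : 0 < Real.sqrt x := Real.sqrt_pos.2 hx0
  have h3 : (Real.sqrt (2 * Real.pi))⁻¹ * (1 - 1 / (2 * S * β)) ≤ Real.sqrt x * H.bJ x := by
    refine le_trans ?_ hb
    refine mul_le_mul_of_nonneg_left ?_ (by positivity)
    have : 1 / x ≤ 1 / (2 * S * β) := one_div_le_one_div_of_le (by positivity) hxy
    linarith
  have h4 : (Real.sqrt x)⁻¹ * ((Real.sqrt (2 * Real.pi))⁻¹ * (1 - 1 / (2 * S * β))) ≤ H.bJ x := by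
    rw [inv_mul_le_iff₀ hsx]; exact h3
  have h5 : 0 ≤ 1 - 1 / (2 * S * β) := by
    rw [sub_nonneg, div_le_one (by positivity)]; exact hy
  have h6 := pow_le_pow_left₀ (by positivity) h4 3
  refine le_trans (le_of_eq ?_) h6
  have h7 : Real.sqrt x * Real.sqrt (2 * Real.pi) * Real.sqrt (m / S) =
      Real.sqrt (4 * Real.pi * S) * (Real.sqrt β * Real.sqrt ((r : ℝ) + 1)) := by
    rw [← Real.sqrt_mul hx0.le, ← Real.sqrt_mul (by positivity), ← Real.sqrt_mul (by positivity),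
      ← Real.sqrt_mul (by positivity)]
    congr 1
    rw [hx]
    field_simp
    ring
  have hr0 : 0 < Real.sqrt ((r : ℝ) + 1) := Real.sqrt_pos.2 (by positivity)
  have hb0 : 0 < Real.sqrt β := Real.sqrt_pos.2 hβ
  have h40 : 0 < Real.sqrt (4 * Real.pi * S) := Real.sqrt_pos.2 (by positivity)
  have h20 : 0 < Real.sqrt (2 * Real.pi) := Real.sqrt_pos.2 (by positivity)
  have h8 : (Real.sqrt x)⁻¹ * (Real.sqrt (2 * Real.pi))⁻¹ =
      Real.sqrt (m / S) * ((Real.sqrt (4 * Real.pi * S))⁻¹ * ((Real.sqrt β)⁻¹ *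
        (Real.sqrt ((r : ℝ) + 1))⁻¹)) := by
    generalize Real.sqrt (4 * Real.pi * S) = z1 at h7 h40 ⊢
    generalize Real.sqrt (2 * Real.pi) = z2 at h7 h20 ⊢
    generalize Real.sqrt (m / S) = z3 at h7 ⊢
    generalize Real.sqrt x = z4 at h7 hsx ⊢
    generalize Real.sqrt β = z5 at h7 hb0 ⊢
    generalize Real.sqrt ((r : ℝ) + 1) = z6 at h7 hr0 ⊢
    field_simp
    linarith
  rw [← mul_assoc ((Real.sqrt x)⁻¹), h8]
  ring

theorem magAt_le {n : ℕ} (hn : 1 ≤ n) {β h : ℝ} (hβ : 0 < β) (hh : 0 ≤ h) :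
    H.magAt n β h ≤ (n : ℝ) / 2 := by
  have hS : 0 < (n : ℝ) / 2 := by
    have : (1 : ℝ) ≤ n := by exact_mod_cast hn
    linarith
  rcases le_or_gt (H.magAt n β h) 0 with h0 | h0
  · linarith
  · have h1 := H.magAt_series n 0 hβ hh h0
    simp only [Finset.range_zero, Finset.sum_empty, mul_zero] at h1
    have h2 := (mul_nonneg_iff_of_pos_left hS).1 h1
    linarith

/-- Uniform lower bound for the magnetization deficit. -/
theorem mag_lower {n : ℕ} (hn : 1 ≤ n) : ∃ K : ℝ, 1 ≤ K ∧ ∀ β : ℝ, K ≤ β → ∀ h : ℝ, 0 ≤ h →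
    ∀ R : ℕ, (1 - K / β) * fR ((n : ℝ) / 2) R (β * h) ≤
      Real.sqrt β ^ 3 * ((n : ℝ) / 2 - H.magAt n β h) := by
  set S : ℝ := (n : ℝ) / 2 with hSdef
  have hS : 0 < S := by
    have : (1 : ℝ) ≤ n := by exact_mod_cast hn
    rw [hSdef]; linarith
  have hA := aS_nonneg S
  refine ⟨1 + 1 / (2 * S) + aS S / S + (3 + 5 * aS S) / (2 * S), ?_, ?_⟩
  · have h1 : 0 ≤ 1 / (2 * S) := by positivity
    have h2 : 0 ≤ aS S / S := by positivity
    have h3 : 0 ≤ (3 + 5 * aS S) / (2 * S) := by positivity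
    linarith
  intro β hβK h hh R
  set K := 1 + 1 / (2 * S) + aS S / S + (3 + 5 * aS S) / (2 * S) with hK
  have k1 : 0 ≤ 1 / (2 * S) := by positivity
  have k2 : 0 ≤ aS S / S := by positivity
  have k3 : 0 ≤ (3 + 5 * aS S) / (2 * S) := by positivity
  have hβ1 : 1 ≤ β := by linarith
  have hβ : 0 < β := by linarith
  have hy : 1 ≤ 2 * S * β := by
    have : 1 / (2 * S) ≤ β := by linarith
    rw [div_le_iff₀ (by positivity)] at this
    linarith
  have hAβ : aS S ≤ S * β := by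
    have : aS S / S ≤ β := by linarith
    rw [div_le_iff₀ hS] at this
    linarith
  have hsβ : 1 ≤ Real.sqrt β := by rw [Real.one_le_sqrt]; exact hβ1
  have hs2 : Real.sqrt β ^ 2 = β := Real.sq_sqrt hβ.le
  have hs3 : β ≤ Real.sqrt β ^ 3 := by
    calc β = Real.sqrt β ^ 2 * 1 := by rw [hs2, mul_one]
      _ ≤ Real.sqrt β ^ 2 * Real.sqrt β := mul_le_mul_of_nonneg_left hsβ (by positivity)
      _ = _ := by ring
  have ht : 0 ≤ β * h := by positivity
  set f := fR S R (β * h) with hf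
  have hf0 : 0 ≤ f := fR_nonneg _ _ _
  have hfA : f ≤ aS S := fR_le _ _ ht
  set m := H.magAt n β h with hm
  have hmS : m ≤ S := magAt_le hn hβ hh
  have hM0 : 0 ≤ Real.sqrt β ^ 3 * (S - m) := mul_nonneg (by positivity) (by linarith)
  rcases le_or_gt m 0 with hneg | hpos
  · have h1 : (1 - K / β) * f ≤ f := by
      have : 0 ≤ K / β := by positivity
      nlinarith
    calc (1 - K / β) * f ≤ aS S := h1.trans hfA
      _ ≤ S * β := hAβ
      _ ≤ Real.sqrt β ^ 3 * S := by nlinarith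
      _ ≤ Real.sqrt β ^ 3 * (S - m) := mul_le_mul_of_nonneg_left (by linarith) (by positivity)
  · have hser := H.magAt_series n R hβ hh hpos
    rw [← hm, ← hSdef] at hser
    set c := (1 - 1 / (2 * S * β)) ^ 3 with hc
    have hc1 : 0 ≤ 1 - 1 / (2 * S * β) := by
      rw [sub_nonneg, div_le_one (by positivity)]; exact hy
    have hc2 : 1 - 1 / (2 * S * β) ≤ 1 := by
      have : 0 ≤ 1 / (2 * S * β) := by positivity
      linarith
    have hc0 : 0 ≤ c := by positivity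
    have hcle : c ≤ 1 := pow_le_one₀ hc1 hc2
    have hcge : 1 - 3 * (1 / (2 * S * β)) ≤ c := by
      rw [hc]
      generalize 1 / (2 * S * β) = w at hc1 hc2
      nlinarith [mul_nonneg (sq_nonneg w) hc1, sq_nonneg w]
    set u := Real.sqrt (m / S) with hu
    have hu0 : 0 ≤ u := Real.sqrt_nonneg _
    have hu2 : u ^ 2 = m / S := Real.sq_sqrt (by positivity)
    -- lower bound of the series
    have hlow : c * (u ^ 3 * (Real.sqrt β ^ 3)⁻¹) * f ≤
        ∑ r ∈ Finset.range R, Real.exp (-(((r : ℝ) + 1) * (β * h))) *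
          (H.bJ (((r : ℝ) + 1) * (β * (2 * S ^ 2)) / m)) ^ 3 := by
      rw [hf, fR, Finset.mul_sum, Finset.mul_sum]
      refine Finset.sum_le_sum fun r _ => ?_
      have h1 := bJ_term hS hβ hpos hmS hy r
      have h2 := mul_le_mul_of_nonneg_left h1 (Real.exp_pos (-(((r : ℝ) + 1) * (β * h)))).le
      refine le_trans (le_of_eq ?_) h2
      rw [← hc, ← hu]
      ring
    have h1 : m * (c * (u ^ 3 * (Real.sqrt β ^ 3)⁻¹) * f) ≤ S * (S - m) :=
      (mul_le_mul_of_nonneg_left hlow hpos.le).trans hser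
    -- self-consistency
    set M := Real.sqrt β ^ 3 * (S - m) with hM
    have hsb : 0 < Real.sqrt β ^ 3 := by positivity
    have h2 : u ^ 5 * (c * f) ≤ M := by
      have h3 := mul_le_mul_of_nonneg_left h1 (a := Real.sqrt β ^ 3 / S) (by positivity)
      have e1 : Real.sqrt β ^ 3 / S * (m * (c * (u ^ 3 * (Real.sqrt β ^ 3)⁻¹) * f)) =
          u ^ 5 * (c * f) := by
        have : u ^ 5 = m / S * u ^ 3 := by rw [← hu2]; ring
        rw [this]
        field_simp
      have e2 : Real.sqrt β ^ 3 / S * (S * (S - m)) = M := by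
        rw [hM]; field_simp
      rw [e1, e2] at h3
      exact h3
    have h3 := bernoulli_aux hu0
    have hcf : 0 ≤ c * f := mul_nonneg hc0 hf0
    have h4 : 1 - u ^ 2 = M / (S * Real.sqrt β ^ 3) := by
      rw [hu2, hM]; field_simp
    rw [h4] at h3
    have h5 : (1 - 5 / 2 * (M / (S * Real.sqrt β ^ 3))) * (c * f) ≤ M :=
      (mul_le_mul_of_nonneg_right h3 hcf).trans h2
    set δ := 5 / (2 * S) / Real.sqrt β ^ 3 * (c * f) with hδ
    have hδ0 : 0 ≤ δ := by positivity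
    have h6 : c * f ≤ M * (1 + δ) := by
      have e : (1 - 5 / 2 * (M / (S * Real.sqrt β ^ 3))) * (c * f) = c * f - M * δ := by
        rw [hδ]; field_simp
      rw [e] at h5
      linarith
    have h7 : c * f * (1 - δ) ≤ M := by
      rcases le_or_gt δ 1 with hd | hd
      · calc c * f * (1 - δ) ≤ M * (1 + δ) * (1 - δ) :=
              mul_le_mul_of_nonneg_right h6 (by linarith)
          _ = M - M * δ ^ 2 := by ring
          _ ≤ M := by
            have : 0 ≤ M * δ ^ 2 := by positivity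
            linarith
      · have : c * f * (1 - δ) ≤ 0 := mul_nonpos_of_nonneg_of_nonpos hcf (by linarith)
        linarith
    refine le_trans ?_ h7
    have hδle : δ ≤ 5 * aS S / (2 * S) / β := by
      rw [hδ]
      have h8 : c * f ≤ aS S := by
        calc c * f ≤ 1 * f := mul_le_mul_of_nonneg_right hcle hf0
          _ = f := one_mul _
          _ ≤ aS S := hfA
      calc 5 / (2 * S) / Real.sqrt β ^ 3 * (c * f) ≤ 5 / (2 * S) / β * aS S := by
            refine mul_le_mul ?_ h8 hcf (by positivity)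
            exact div_le_div_of_nonneg_left (by positivity) hβ hs3
        _ = _ := by ring
    have h9 : 1 - K / β ≤ c * (1 - δ) := by
      rcases le_or_gt (1 - K / β) 0 with hk | hk
      · rcases le_or_gt δ 1 with hd | hd
        · exact hk.trans (mul_nonneg hc0 (by linarith))
        · -- δ > 1 forces K / β > 1
          have h10 : (5 * aS S / (2 * S)) / β ≤ K / β := by
            refine div_le_div_of_nonneg_right ?_ hβ.le
            have : (3 + 5 * aS S) / (2 * S) = 3 / (2 * S) + 5 * aS S / (2 * S) := by ring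
            have : 0 ≤ 3 / (2 * S) := by positivity
            linarith
          have h11 : 0 ≤ (1 - c) * (δ - 1) := mul_nonneg (by linarith) (by linarith)
          have h12 : c * (1 - δ) = 1 - δ + (1 - c) * (δ - 1) := by ring
          linarith
      · have h10 : c * (1 - δ) ≥ 1 - 3 * (1 / (2 * S * β)) - δ := by
          have h13 : 0 ≤ (1 - c) * δ := mul_nonneg (by linarith) hδ0
          have h12 : c * (1 - δ) = c - δ + (1 - c) * δ := by ring
          linarith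
        have h11 : 3 * (1 / (2 * S * β)) + 5 * aS S / (2 * S) / β ≤ K / β := by
          have : 3 * (1 / (2 * S * β)) + 5 * aS S / (2 * S) / β =
              ((3 + 5 * aS S) / (2 * S)) / β := by field_simp
          rw [this]
          exact div_le_div_of_nonneg_right (by linarith) hβ.le
        linarith
    calc (1 - K / β) * f ≤ c * (1 - δ) * f := mul_le_mul_of_nonneg_right h9 hf0
      _ = c * f * (1 - δ) := by ring

theorem gRed_hasDeriv (n : ℕ) {β : ℝ} (hβ : 0 < β) (h : ℝ) :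
    HasDerivWithinAt (gRed n β) (β * (H.magAt n β h - (n : ℝ) / 2)) (Set.Ici h) h := by
  have h1 : HasDerivWithinAt (pressure n β) (H.magAt n β h) (Set.Ici h) h :=
    hasDerivWithinAt_Ioi_iff_Ici.1 (pressure_hasRightDeriv n hβ h)
  have h2 : HasDerivWithinAt (fun x : ℝ => (n : ℝ) / 2 * x) ((n : ℝ) / 2) (Set.Ici h) h := by
    simpa using (hasDerivWithinAt_id h (Set.Ici h)).const_mul ((n : ℝ) / 2)
  have h3 := ((h1.sub_const (3 * ((n : ℝ) / 2) ^ 2)).sub h2).const_mul β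
  exact h3

theorem gRed_continuous (n : ℕ) {β : ℝ} (hβ : 0 < β) : Continuous (gRed n β) := by
  have h1 : Continuous (pressure n β) := by
    have := (pressure_convex n hβ).continuousOn isOpen_univ
    exact continuousOn_univ.1 this
  unfold gRed
  fun_prop

/-- (D7) Sharp lower bound for the reduced pressure, uniformly in the field. -/
theorem gRed_lower {n : ℕ} (hn : 1 ≤ n) : ∃ K : ℝ, 1 ≤ K ∧ ∀ β : ℝ, K ≤ β → ∀ h : ℝ, 0 ≤ h →
    ∀ R : ℕ, (1 - K / β) * FR ((n : ℝ) / 2) R (β * h) ≤ Real.sqrt β ^ 3 * gRed n β h := by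
  obtain ⟨K, hK1, hK⟩ := mag_lower hn
  refine ⟨K, hK1, fun β hβK a ha R => ?_⟩
  have hβ : 0 < β := by linarith
  have hsb : 0 < Real.sqrt β ^ 3 := by positivity
  set c := (1 - K / β) / Real.sqrt β ^ 3 with hc
  -- comparison on `[a, b]`
  have key : ∀ b : ℝ, a ≤ b → c * FR ((n : ℝ) / 2) R (β * a) ≤
      gRed n β a + c * FR ((n : ℝ) / 2) R (β * b) := by
    intro b hab
    have hd : ∀ x : ℝ, HasDerivAt (fun x => gRed n β a + (c * FR ((n : ℝ) / 2) R (β * x) -
        c * FR ((n : ℝ) / 2) R (β * a))) (-(c * β * fR ((n : ℝ) / 2) R (β * x))) x := by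
      intro x
      have h1 := hasDerivAt_FR ((n : ℝ) / 2) R (β * x)
      have h2 : HasDerivAt (fun x : ℝ => β * x) β x := by
        simpa using (hasDerivAt_id x).const_mul β
      have h3 := (h1.comp x h2).const_mul c
      have h4 := (h3.sub_const (c * FR ((n : ℝ) / 2) R (β * a))).const_add (gRed n β a)
      refine h4.congr_deriv ?_
      ring
    have h := image_le_of_deriv_right_le_deriv_boundary (f := gRed n β)
      (f' := fun x => β * (H.magAt n β x - (n : ℝ) / 2)) (a := a) (b := b)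
      (gRed_continuous n hβ).continuousOn (fun x _ => gRed_hasDeriv n hβ x)
      (B := fun x => gRed n β a + (c * FR ((n : ℝ) / 2) R (β * x) -
        c * FR ((n : ℝ) / 2) R (β * a)))
      (B' := fun x => -(c * β * fR ((n : ℝ) / 2) R (β * x))) (by simp)
      (fun x _ => (hd x).continuousAt.continuousWithinAt) (fun x _ => (hd x).hasDerivWithinAt)
      (by
        intro x hx
        have hx0 : 0 ≤ x := ha.trans hx.1
        have h5 := hK β hβK x hx0 R
        have h6 : c * β * fR ((n : ℝ) / 2) R (β * x) ≤ β * ((n : ℝ) / 2 - H.magAt n β x) := by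
          have h7 : c * fR ((n : ℝ) / 2) R (β * x) ≤ (n : ℝ) / 2 - H.magAt n β x := by
            rw [hc, div_mul_eq_mul_div, div_le_iff₀ hsb]
            linarith
          have := mul_le_mul_of_nonneg_left h7 hβ.le
          linarith
        linarith) (x := b) ⟨hab, le_rfl⟩
    have h0 := gRed_nonneg (n := n) hβ b
    linarith
  have hlim : Tendsto (fun b : ℝ => gRed n β a + c * FR ((n : ℝ) / 2) R (β * b)) atTop
      (𝓝 (gRed n β a + c * 0)) := by
    refine tendsto_const_nhds.add (Tendsto.const_mul _ ((FR_tendsto_zero _ R).comp ?_))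
    exact Tendsto.const_mul_atTop hβ tendsto_id
  have h1 : c * FR ((n : ℝ) / 2) R (β * a) ≤ gRed n β a + c * 0 := by
    refine ge_of_tendsto hlim ?_
    filter_upwards [eventually_ge_atTop a] with b hb
    exact key b hb
  rw [mul_zero, add_zero, hc, div_mul_eq_mul_div, div_le_iff₀ hsb] at h1
  linarith

/-- Upper bound of the deficit by difference quotients of the reduced pressure. -/
theorem mag_le_slope {n : ℕ} {β : ℝ} (hβ : 0 < β) {h₁ h₀ : ℝ} (hh : h₁ < h₀) :
    (n : ℝ) / 2 - H.magAt n β h₀ ≤ (gRed n β h₁ - gRed n β h₀) / (β * (h₀ - h₁)) := by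
  have hc := pressure_convex n hβ
  have h1 := hc.slope_le_leftDeriv_of_mem_interior (x := h₁) (y := h₀) (Set.mem_univ _)
    (by simp) hh
  have h2 := hc.leftDeriv_le_rightDeriv_of_mem_interior (x := h₀) (by simp)
  have h3 : (pressure n β h₀ - pressure n β h₁) / (h₀ - h₁) ≤ H.magAt n β h₀ := by
    rw [← slope_def_field]
    exact h1.trans h2
  have hpos : 0 < h₀ - h₁ := by linarith
  rw [div_le_iff₀ hpos] at h3
  rw [le_div_iff₀ (by positivity)]
  unfold gRed
  nlinarith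

end Vale.Agent.P361.B
end

section

/-!
Part B, step D8: from bounds on the reduced pressure to the uniform Bloch law in small fields.
-/

namespace Vale.Agent.P361.B

open MeasureTheory Filter Topology

/-- `(4πS)^{-3/2} Li_{3/2}(e^{-t})`. -/
noncomputable def fS (S t : ℝ) : ℝ :=
  (Real.sqrt (4 * Real.pi * S) ^ 3)⁻¹ *
    ∑' r : ℕ, Real.exp (-(((r : ℝ) + 1) * t)) / Real.sqrt ((r : ℝ) + 1) ^ 3

/-- `(4πS)^{-3/2} Li_{5/2}(e^{-t})`. -/
noncomputable def FS (S t : ℝ) : ℝ :=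
  (Real.sqrt (4 * Real.pi * S) ^ 3)⁻¹ *
    ∑' r : ℕ, Real.exp (-(((r : ℝ) + 1) * t)) / (((r : ℝ) + 1) * Real.sqrt ((r : ℝ) + 1) ^ 3)

theorem zsum : Summable (fun r : ℕ => 1 / Real.sqrt ((r : ℝ) + 1) ^ 3) := H.zeta_hasSum.summable

theorem exp_le_one {t : ℝ} (ht : 0 ≤ t) (r : ℕ) : Real.exp (-(((r : ℝ) + 1) * t)) ≤ 1 := by
  rw [Real.exp_le_one_iff]
  have : 0 ≤ ((r : ℝ) + 1) * t := by positivity
  linarith

theorem summable_f {t : ℝ} (ht : 0 ≤ t) :
    Summable (fun r : ℕ => Real.exp (-(((r : ℝ) + 1) * t)) / Real.sqrt ((r : ℝ) + 1) ^ 3) := by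
  refine Summable.of_nonneg_of_le (fun r => by positivity) (fun r => ?_) zsum
  exact div_le_div_of_nonneg_right (exp_le_one ht r) (by positivity)

theorem summable_F {t : ℝ} (ht : 0 ≤ t) :
    Summable (fun r : ℕ => Real.exp (-(((r : ℝ) + 1) * t)) /
      (((r : ℝ) + 1) * Real.sqrt ((r : ℝ) + 1) ^ 3)) := by
  refine Summable.of_nonneg_of_le (fun r => by positivity) (fun r => ?_) (summable_f ht)
  refine div_le_div_of_nonneg_left (Real.exp_pos _).le (by positivity) ?_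
  exact le_mul_of_one_le_left (by positivity) (by linarith [Nat.cast_nonneg (α := ℝ) r])

theorem fR_tendsto (S : ℝ) {t : ℝ} (ht : 0 ≤ t) :
    Tendsto (fun R => fR S R t) atTop (𝓝 (fS S t)) :=
  (summable_f ht).hasSum.tendsto_sum_nat.const_mul _

theorem FR_tendsto (S : ℝ) {t : ℝ} (ht : 0 ≤ t) :
    Tendsto (fun R => FR S R t) atTop (𝓝 (FS S t)) :=
  (summable_F ht).hasSum.tendsto_sum_nat.const_mul _

theorem fS_nonneg (S t : ℝ) : 0 ≤ fS S t :=
  mul_nonneg (by positivity) (tsum_nonneg fun r => by positivity)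

theorem FS_nonneg (S t : ℝ) : 0 ≤ FS S t :=
  mul_nonneg (by positivity) (tsum_nonneg fun r => by positivity)

theorem fS_zero (S : ℝ) : fS S 0 = aS S := by
  unfold fS aS
  rw [← H.zeta_hasSum.tsum_eq]
  simp

theorem fS_le (S : ℝ) {t : ℝ} (ht : 0 ≤ t) : fS S t ≤ aS S :=
  le_of_tendsto' (fR_tendsto S ht) fun R => fR_le S R ht

/-- Convexity estimate for `f`. -/
theorem fS_sub_le (S : ℝ) {t δ : ℝ} (ht : 0 ≤ t) (hδ : 0 ≤ δ) :
    fS S t - fS S (t + δ) ≤ fS S 0 - fS S δ := by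
  unfold fS
  rw [← mul_sub, ← mul_sub, ← (summable_f ht).tsum_sub (summable_f (add_nonneg ht hδ)),
    ← (summable_f le_rfl).tsum_sub (summable_f hδ)]
  refine mul_le_mul_of_nonneg_left ?_ (by positivity)
  refine Summable.tsum_le_tsum (fun r => ?_) ((summable_f ht).sub (summable_f (add_nonneg ht hδ)))
    ((summable_f le_rfl).sub (summable_f hδ))
  rw [← sub_div, ← sub_div]
  refine div_le_div_of_nonneg_right ?_ (by positivity)
  have h1 : Real.exp (-(((r : ℝ) + 1) * (t + δ))) =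
      Real.exp (-(((r : ℝ) + 1) * t)) * Real.exp (-(((r : ℝ) + 1) * δ)) := by
    rw [← Real.exp_add]; congr 1; ring
  have h2 : Real.exp (-(((r : ℝ) + 1) * 0)) = 1 := by simp
  rw [h1, h2]
  have h3 := exp_le_one ht r
  have h4 := exp_le_one hδ r
  nlinarith

/-- `F(t₁) - F(t₁ + δ) ≤ δ f(t₁)`. -/
theorem FS_sub_le (S : ℝ) {t δ : ℝ} (ht : 0 ≤ t) (hδ : 0 ≤ δ) :
    FS S t - FS S (t + δ) ≤ δ * fS S t := by
  unfold FS fS
  rw [← mul_sub, ← (summable_F ht).tsum_sub (summable_F (add_nonneg ht hδ)),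
    mul_left_comm δ]
  refine mul_le_mul_of_nonneg_left ?_ (by positivity)
  rw [← tsum_mul_left]
  refine Summable.tsum_le_tsum (fun r => ?_) ((summable_F ht).sub (summable_F (add_nonneg ht hδ)))
    ((summable_f ht).mul_left δ)
  rw [← sub_div]
  have h1 : Real.exp (-(((r : ℝ) + 1) * (t + δ))) =
      Real.exp (-(((r : ℝ) + 1) * t)) * Real.exp (-(((r : ℝ) + 1) * δ)) := by
    rw [← Real.exp_add]; congr 1; ring
  have h2 : 1 - ((r : ℝ) + 1) * δ ≤ Real.exp (-(((r : ℝ) + 1) * δ)) := by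
    have := Real.add_one_le_exp (-(((r : ℝ) + 1) * δ))
    linarith
  rw [h1, div_le_iff₀ (by positivity)]
  have h3 : δ * (Real.exp (-(((r : ℝ) + 1) * t)) / Real.sqrt ((r : ℝ) + 1) ^ 3) *
      (((r : ℝ) + 1) * Real.sqrt ((r : ℝ) + 1) ^ 3) =
      Real.exp (-(((r : ℝ) + 1) * t)) * (((r : ℝ) + 1) * δ) := by
    have : 0 < Real.sqrt ((r : ℝ) + 1) := Real.sqrt_pos.2 (by positivity)
    field_simp
  rw [h3]
  have := Real.exp_pos (-(((r : ℝ) + 1) * t))
  nlinarith

theorem FS_le (S : ℝ) {t : ℝ} (ht : 0 ≤ t) : FS S t ≤ aS S := by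
  refine le_trans ?_ (fS_le S ht)
  unfold FS fS
  refine mul_le_mul_of_nonneg_left ?_ (by positivity)
  refine Summable.tsum_le_tsum (fun r => ?_) (summable_F ht) (summable_f ht)
  refine div_le_div_of_nonneg_left (Real.exp_pos _).le (by positivity) ?_
  exact le_mul_of_one_le_left (by positivity) (by linarith [Nat.cast_nonneg (α := ℝ) r])

/-- Continuity of `f` at zero from the right. -/
theorem fS_tendsto_zero (S : ℝ) : Tendsto (fS S) (𝓝[≥] 0) (𝓝 (fS S 0)) := by
  unfold fS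
  refine Tendsto.const_mul _ ?_
  refine tendsto_tsum_of_dominated_convergence zsum (fun r => ?_) ?_
  · refine Tendsto.div_const ?_ _
    have : Continuous fun t : ℝ => Real.exp (-(((r : ℝ) + 1) * t)) := by fun_prop
    exact (this.tendsto 0).mono_left nhdsWithin_le_nhds
  · filter_upwards [self_mem_nhdsWithin] with t ht r
    rw [Real.norm_of_nonneg (by positivity)]
    exact div_le_div_of_nonneg_right (exp_le_one ht r) (by positivity)

/-- (D8) Uniform two-sided law from an upper bound on the reduced pressure. -/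
theorem deficit_uniform {n : ℕ} (hn : 1 ≤ n) {κ κ' : ℝ} (hκ : 0 < κ) (hκκ : κ < κ') (hκ1 : κ' ≤ 1)
    (hU : ∃ C β₀ : ℝ, ∀ β : ℝ, β₀ ≤ β → ∀ t : ℝ, β ^ (-κ') ≤ t →
      Real.sqrt β ^ 3 * gRed n β (t / β) ≤ FS ((n : ℝ) / 2) t + C * β ^ (-κ')) :
    ∀ ε : ℝ, 0 < ε → ∀ᶠ β : ℝ in atTop, ∀ t : ℝ, β ^ (-κ) ≤ t →
      |Real.sqrt β ^ 3 * ((n : ℝ) / 2 - H.magAt n β (t / β)) - fS ((n : ℝ) / 2) t| ≤ ε := by
  intro ε hε
  obtain ⟨C, β₀, hU⟩ := hU
  obtain ⟨K, hK1, hK⟩ := mag_lower hn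
  obtain ⟨K', hK1', hK'⟩ := gRed_lower hn
  set S : ℝ := (n : ℝ) / 2 with hS
  have hA := aS_nonneg S
  -- smallness conditions
  have l1 : Tendsto (fun β : ℝ => K / β * aS S) atTop (𝓝 0) := by
    simpa using ((tendsto_const_nhds (x := K)).div_atTop tendsto_id).mul_const (aS S)
  have l2 : Tendsto (fun β : ℝ => fS S 0 - fS S (β ^ (-κ) / 2)) atTop (𝓝 0) := by
    have h1 : Tendsto (fun β : ℝ => β ^ (-κ) / 2) atTop (𝓝[≥] 0) := by
      refine tendsto_nhdsWithin_iff.2 ⟨?_, ?_⟩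
      · simpa using (tendsto_rpow_neg_atTop hκ).div_const 2
      · filter_upwards [eventually_gt_atTop 0] with β hβ
        exact Set.mem_Ici.2 (by positivity)
    have h2 := ((fS_tendsto_zero S).comp h1).const_sub (fS S 0)
    simpa using h2
  have l3 : Tendsto (fun β : ℝ => 2 * (C * β ^ (κ - κ') + K' * aS S * β ^ (κ - 1))) atTop
      (𝓝 0) := by
    have h1 : Tendsto (fun β : ℝ => β ^ (κ - κ')) atTop (𝓝 0) := by
      have := tendsto_rpow_neg_atTop (y := κ' - κ) (by linarith)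
      simpa using this
    have h2 : Tendsto (fun β : ℝ => β ^ (κ - 1)) atTop (𝓝 0) := by
      have := tendsto_rpow_neg_atTop (y := 1 - κ) (by linarith)
      simpa using this
    simpa using ((h1.const_mul C).add (h2.const_mul (K' * aS S))).const_mul 2
  have l4 : Tendsto (fun β : ℝ => β ^ (κ' - κ)) atTop atTop :=
    tendsto_rpow_atTop (by linarith)
  filter_upwards [l1.eventually (ge_mem_nhds hε), l2.eventually (ge_mem_nhds (half_pos hε)),
    l3.eventually (ge_mem_nhds (half_pos hε)), l4.eventually_ge_atTop 2,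
    eventually_ge_atTop β₀, eventually_ge_atTop K, eventually_ge_atTop K',
    eventually_gt_atTop 0] with β e1 e2 e3 e4 hβ0 hβK hβK' hβ t ht
  have hsb : 0 < Real.sqrt β ^ 3 := by positivity
  have hκpos : 0 < β ^ (-κ) := by positivity
  have ht0 : 0 ≤ t := hκpos.le.trans ht
  -- lower bound
  have low : (1 - K / β) * fS S t ≤ Real.sqrt β ^ 3 * (S - H.magAt n β (t / β)) := by
    refine le_of_tendsto' ((fR_tendsto S ht0).const_mul (1 - K / β)) fun R => ?_
    have h := hK β hβK (t / β) (by positivity) R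
    rwa [mul_div_cancel₀ t hβ.ne'] at h
  have low2 : (1 - K' / β) * FS S t ≤ Real.sqrt β ^ 3 * gRed n β (t / β) := by
    refine le_of_tendsto' ((FR_tendsto S ht0).const_mul (1 - K' / β)) fun R => ?_
    have h := hK' β hβK' (t / β) (by positivity) R
    rwa [mul_div_cancel₀ t hβ.ne'] at h
  -- upper bound
  set δ : ℝ := β ^ (-κ) / 2 with hδ
  have hδ0 : 0 < δ := by positivity
  have ht1 : β ^ (-κ') ≤ t - δ := by
    have h1 : β ^ (-κ') * 2 ≤ β ^ (-κ) := by
      calc β ^ (-κ') * 2 ≤ β ^ (-κ') * β ^ (κ' - κ) :=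
            mul_le_mul_of_nonneg_left e4 (by positivity)
        _ = β ^ (-κ) := by rw [← Real.rpow_add hβ]; congr 1; ring
    rw [hδ]
    linarith
  have ht10 : 0 ≤ t - δ := le_trans (by positivity) ht1
  have up := hU β hβ0 (t - δ) ht1
  have sl := mag_le_slope (n := n) hβ (h₁ := (t - δ) / β) (h₀ := t / β)
    (div_lt_div_of_pos_right (by linarith) hβ)
  have e5 : β * (t / β - (t - δ) / β) = δ := by field_simp; ring
  rw [e5, le_div_iff₀ hδ0, ← hS] at sl
  have f1 := FS_sub_le S ht10 hδ0.le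
  have f2 := fS_sub_le S ht10 hδ0.le
  rw [sub_add_cancel] at f1 f2
  have f3 := FS_le S ht0
  have f4 := FS_nonneg S t
  have hi : Real.sqrt β ^ 3 * (S - H.magAt n β (t / β)) ≤ fS S t + ε := by
    have g1 : Real.sqrt β ^ 3 * (S - H.magAt n β (t / β)) * δ ≤
        δ * fS S (t - δ) + (C * β ^ (-κ') + K' / β * aS S) := by
      have g2 := mul_le_mul_of_nonneg_left sl hsb.le
      have g3 : K' / β * FS S t ≤ K' / β * aS S := mul_le_mul_of_nonneg_left f3 (by positivity)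
      have g6 : Real.sqrt β ^ 3 * (S - H.magAt n β (t / β)) * δ =
          Real.sqrt β ^ 3 * ((S - H.magAt n β (t / β)) * δ) := by ring
      rw [g6]
      rw [mul_sub (Real.sqrt β ^ 3) (gRed n β _)] at g2
      linarith
    have g4 : Real.sqrt β ^ 3 * (S - H.magAt n β (t / β)) ≤
        fS S (t - δ) + (C * β ^ (-κ') + K' / β * aS S) / δ := by
      rw [← sub_le_iff_le_add', le_div_iff₀ hδ0]
      linarith
    have g5 : (C * β ^ (-κ') + K' / β * aS S) / δ =
        2 * (C * β ^ (κ - κ') + K' * aS S * β ^ (κ - 1)) := by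
      have h1 : β ^ (κ - κ') = β ^ (-κ') / β ^ (-κ) := by
        rw [← Real.rpow_sub hβ]; congr 1; ring
      have h2 : β ^ (κ - 1) = β⁻¹ / β ^ (-κ) := by
        rw [← Real.rpow_neg_one, ← Real.rpow_sub hβ]; congr 1; ring
      rw [h1, h2, hδ]
      field_simp
    rw [g5] at g4
    linarith
  have hlow : fS S t - ε ≤ Real.sqrt β ^ 3 * (S - H.magAt n β (t / β)) := by
    have g1 : K / β * fS S t ≤ K / β * aS S :=
      mul_le_mul_of_nonneg_left (fS_le S ht0) (by positivity)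
    linarith
  rw [abs_le]
  constructor <;> linarith

end Vale.Agent.P361.B
end

section

namespace Vale.Agent.P361.BridgeB

open Filter Topology MeasureTheory

lemma mag_eq (n : ℕ) (β h : ℝ) : Model.mag n β h = H.magAt n β h := rfl

lemma mag_zero (n : ℕ) (β : ℝ) : Model.mag n β 0 = Model.spontMag n β := rfl

lemma sqrt_cube {x : ℝ} (hx : 0 ≤ x) : Real.sqrt x ^ 3 = x ^ (3 / 2 : ℝ) := by
  rw [Real.sqrt_eq_rpow, ← Real.rpow_natCast, ← Real.rpow_mul hx]
  norm_num

lemma ideal_eq {S : ℝ} (hS : 0 < S) (t : ℝ) : Model.idealDeficit S t = B.fS S t := by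
  unfold Model.idealDeficit B.fS
  congr 1
  · rw [sqrt_cube (by have := Real.pi_pos; positivity), Real.rpow_neg (by have := Real.pi_pos; positivity)]
  · refine tsum_congr fun j => ?_
    rw [sqrt_cube (by positivity)]

lemma ideal_zero {S : ℝ} (hS : 0 < S) : Model.idealDeficit S 0 =
    (riemannZeta (3 / 2)).re / (8 * Real.pi ^ (3 / 2 : ℝ) * S ^ (3 / 2 : ℝ)) := by
  have hpi := Real.pi_pos
  rw [ideal_eq hS, B.fS_zero, B.aS, ← sqrt_cube hpi.le, ← sqrt_cube hS.le]
  have e : Real.sqrt (4 * Real.pi * S) = 2 * (Real.sqrt Real.pi * Real.sqrt S) := by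
    rw [← Real.sqrt_mul hpi.le, show 4 * Real.pi * S = 2 ^ 2 * (Real.pi * S) by ring,
      Real.sqrt_mul (by norm_num), Real.sqrt_sq (by norm_num)]
  rw [e]
  have h1 : 0 < Real.sqrt Real.pi := Real.sqrt_pos.2 hpi
  have h2 : 0 < Real.sqrt S := Real.sqrt_pos.2 hS
  field_simp
  ring

end Vale.Agent.P361.BridgeB
end

section

/-!
Part B, step D2: crude bound on the partition function of a cube.
-/

namespace Vale.Agent.P361.B

open Matrix Finset Filter Topology
open scoped ComplexOrder Kronecker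

set_option linter.unusedSectionVars false

section Ladder

variable {n : ℕ} {Λ : Finset Site}

/-- Total lowering operator. -/
noncomputable def jM (n : ℕ) (Λ : Finset Site) : Matrix (Λ → Fin (n + 1)) (Λ → Fin (n + 1)) ℂ :=
  ∑ x : Λ, H.oM n x

/-- Total raising operator. -/
noncomputable def jP (n : ℕ) (Λ : Finset Site) : Matrix (Λ → Fin (n + 1)) (Λ → Fin (n + 1)) ℂ :=
  ∑ x : Λ, H.oP n x

/-- Total number of lowered spins of a configuration. -/
def cntS (σ : Λ → Fin (n + 1)) : ℕ := ∑ x, (σ x : ℕ)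

theorem siteOp_diagonal (x : Λ) (f : Fin (n + 1) → ℂ) :
    siteOp x (diagonal f) = diagonal (fun σ : Λ → Fin (n + 1) => f (σ x)) := by
  ext σ τ
  refine (H.siteOp_apply x (diagonal f) σ τ).trans ?_
  by_cases h : σ = τ
  · subst h; simp
  · rw [Matrix.diagonal_apply_ne _ h]
    obtain ⟨y, hy⟩ := Function.ne_iff.1 h
    by_cases hyx : y = x
    · subst hyx
      rw [Matrix.diagonal_apply_ne f hy, zero_mul]
    · have h0 : ∏ y ∈ Finset.univ.erase x,
          (1 : Matrix (Fin (n + 1)) (Fin (n + 1)) ℂ) (σ y) (τ y) = 0 :=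
        Finset.prod_eq_zero (i := y) (by simp [hyx]) (Matrix.one_apply_ne hy)
      rw [h0, mul_zero]

/-- Local number operator. -/
noncomputable def eta (n : ℕ) {Λ : Finset Site} (x : Λ) :
    Matrix (Λ → Fin (n + 1)) (Λ → Fin (n + 1)) ℂ :=
  diagonal (fun σ : Λ → Fin (n + 1) => ((σ x : ℕ) : ℂ))

theorem eta_eq (x : Λ) : eta n x = ((n : ℂ) / 2) • (1 : Matrix _ _ ℂ) - H.oZ n x := by
  have h : ((n : ℂ) / 2) • (1 : Matrix (Λ → Fin (n + 1)) (Λ → Fin (n + 1)) ℂ) - H.oZ n x =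
      siteOp x (((n : ℂ) / 2) • (1 : Matrix (Fin (n + 1)) (Fin (n + 1)) ℂ) - spinZ n) := by
    rw [H.siteOp_sub, H.siteOp_smul, H.siteOp_one]
  rw [h, eta]
  have h2 : ((n : ℂ) / 2) • (1 : Matrix (Fin (n + 1)) (Fin (n + 1)) ℂ) - spinZ n =
      diagonal (fun j : Fin (n + 1) => ((j : ℕ) : ℂ)) := by
    rw [spinZ, ← Matrix.diagonal_one, ← Matrix.diagonal_smul, Matrix.diagonal_sub]
    congr 1
    ext j
    simp
  rw [h2, siteOp_diagonal]

theorem numOp_eq_sum : numOp n Λ = ∑ x : Λ, eta n x := by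
  unfold numOp
  exact Finset.sum_congr rfl fun x _ => (eta_eq x).symm

theorem numOp_eq_diagonal : numOp n Λ = diagonal (fun σ : Λ → Fin (n + 1) => ((cntS σ : ℕ) : ℂ)) := by
  rw [numOp_eq_sum]
  ext σ τ
  rw [Matrix.sum_apply]
  by_cases h : σ = τ
  · subst h
    simp [eta, cntS]
  · simp [eta, h]

theorem jM_eq_mode : jM n Λ = H.modeOp n (fun _ : Λ => (1 : ℂ)) := by
  simp [jM, H.modeOp]

theorem jM_conj : (jM n Λ)ᴴ = jP n Λ := by
  rw [jM, Matrix.conjTranspose_sum]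
  exact Finset.sum_congr rfl fun x _ => H.oM_conj x

theorem mag_eq_num : magnetization n Λ = ((n : ℂ) / 2 * (Λ.card : ℂ)) •
    (1 : Matrix (Λ → Fin (n + 1)) (Λ → Fin (n + 1)) ℂ) - numOp n Λ := by
  rw [H.magnetization_eq, numOp, Finset.sum_sub_distrib, Finset.sum_const, Finset.card_univ,
    Fintype.card_coe]
  rw [← Nat.cast_smul_eq_nsmul ℂ, smul_smul, mul_comm ((n : ℂ) / 2)]
  abel

theorem num_jM : numOp n Λ * jM n Λ = jM n Λ * numOp n Λ + jM n Λ := by
  have h := H.comm_mag_mode (n := n) (Λ := Λ) (fun _ => 1)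
  rw [← jM_eq_mode, mag_eq_num] at h
  simp only [sub_mul, mul_sub, smul_mul_assoc, mul_smul_comm, Matrix.one_mul, Matrix.mul_one] at h
  rw [sub_eq_iff_eq_add] at h
  have h2 : numOp n Λ * jM n Λ = ((n : ℂ) / 2 * (Λ.card : ℂ)) • jM n Λ -
      (((n : ℂ) / 2 * (Λ.card : ℂ)) • jM n Λ - numOp n Λ * jM n Λ) := by abel
  rw [h2, h]
  abel

theorem jP_jM : jP n Λ * jM n Λ = jM n Λ * jP n Λ + (((n * Λ.card : ℕ) : ℂ) •
    (1 : Matrix (Λ → Fin (n + 1)) (Λ → Fin (n + 1)) ℂ) - (2 : ℂ) • numOp n Λ) := by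
  have h := H.comm_mode_mode (n := n) (Λ := Λ) (fun _ => 1)
  rw [← jM_eq_mode, jM_conj] at h
  rw [sub_eq_iff_eq_add] at h
  rw [h]
  have h2 : ∑ x : Λ, ((2 * Complex.normSq 1 : ℝ) : ℂ) • H.oZ n x =
      (2 : ℂ) • magnetization n Λ := by
    rw [H.magnetization_eq, Finset.smul_sum]
    simp
  rw [h2, mag_eq_num]
  push_cast
  module

/-- `∑_{x ≠ y} (S² - S_x·S_y)`. -/
noncomputable def casX (n : ℕ) (Λ : Finset Site) :
    Matrix (Λ → Fin (n + 1)) (Λ → Fin (n + 1)) ℂ :=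
  ∑ x : Λ, ∑ y : Λ, if x = y then 0 else
    ((((n : ℂ) / 2) ^ 2) • (1 : Matrix _ _ ℂ) - H.dotOp n x y)

theorem lower_raise_eta (x : Λ) : H.oM n x * H.oP n x =
    ((n : ℂ) + 1) • eta n x - eta n x * eta n x := by
  rw [H.siteOp_mul, H.lower_raise, siteOp_diagonal, eta, Matrix.diagonal_mul_diagonal,
    ← Matrix.diagonal_smul, Matrix.diagonal_sub]
  congr 1
  ext σ
  simp
  ring

theorem pair_eta {x y : Λ} :
    ((((n : ℂ) / 2) ^ 2) • (1 : Matrix (Λ → Fin (n + 1)) (Λ → Fin (n + 1)) ℂ) - H.dotOp n x y) =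
      ((n : ℂ) / 2) • (eta n x + eta n y) - eta n x * eta n y -
        (1 / 2 : ℂ) • (H.oP n x * H.oM n y + H.oM n x * H.oP n y) := by
  have hz : ∀ z : Λ, H.oZ n z = ((n : ℂ) / 2) • (1 : Matrix _ _ ℂ) - eta n z := by
    intro z; rw [eta_eq]; abel
  rw [H.dotOp_eq, hz x, hz y]
  simp only [sub_mul, mul_sub, smul_mul_assoc, mul_smul_comm, Matrix.one_mul, Matrix.mul_one]
  module

theorem casX_eq : casX n Λ = numOp n Λ * ((((n * Λ.card : ℕ) : ℂ) + 1) • (1 : Matrix _ _ ℂ)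
    - numOp n Λ) - jM n Λ * jP n Λ := by
  have e0 : casX n Λ = ∑ x : Λ, ∑ y : Λ, if x = y then 0 else
      (((n : ℂ) / 2) • (eta n x + eta n y) - eta n x * eta n y -
        (1 / 2 : ℂ) • (H.oM n y * H.oP n x + H.oM n x * H.oP n y)) := by
    unfold casX
    refine Finset.sum_congr rfl fun x _ => Finset.sum_congr rfl fun y _ => ?_
    split_ifs with h
    · rfl
    · rw [pair_eta, H.siteOp_comm h (spinLower n)ᴴ (spinLower n)]
  have e1 : ∀ x y : Λ, (if x = y then 0 else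
      (((n : ℂ) / 2) • (eta n x + eta n y) - eta n x * eta n y -
        (1 / 2 : ℂ) • (H.oM n y * H.oP n x + H.oM n x * H.oP n y))) =
      (((n : ℂ) / 2) • (eta n x + eta n y) - eta n x * eta n y -
        (1 / 2 : ℂ) • (H.oM n y * H.oP n x + H.oM n x * H.oP n y)) -
      (if x = y then ((n : ℂ) • eta n x - eta n x * eta n x - H.oM n x * H.oP n x) else 0) := by
    intro x y
    split_ifs with h
    · subst h
      module
    · rw [sub_zero]
  rw [e0, Finset.sum_congr rfl fun x _ => Finset.sum_congr rfl fun y _ => e1 x y]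
  simp only [Finset.sum_sub_distrib, Finset.sum_ite_eq, Finset.mem_univ, if_true,
    lower_raise_eta, smul_add, Finset.sum_add_distrib, Finset.sum_const, Finset.card_univ,
    Fintype.card_coe, ← Finset.smul_sum, ← numOp_eq_sum]
  have e2 : ∑ x : Λ, ∑ y : Λ, eta n x * eta n y = numOp n Λ * numOp n Λ := by
    rw [numOp_eq_sum, Finset.sum_mul_sum]
  have e3 : ∑ x : Λ, ∑ y : Λ, H.oM n x * H.oP n y = jM n Λ * jP n Λ := by
    rw [jM, jP, Finset.sum_mul_sum]
  have e4 : ∑ x : Λ, ∑ y : Λ, H.oM n y * H.oP n x = jM n Λ * jP n Λ := by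
    rw [Finset.sum_comm, e3]
  rw [e2, e3, e4]
  simp only [← Nat.cast_smul_eq_nsmul ℂ]
  rw [Matrix.mul_sub, Matrix.mul_smul, Matrix.mul_one]
  push_cast
  module

theorem casX_eq' : casX n Λ = (numOp n Λ + 1) * (((n * Λ.card : ℕ) : ℂ) • (1 : Matrix _ _ ℂ)
    - numOp n Λ) - jP n Λ * jM n Λ := by
  rw [jP_jM, casX_eq]
  simp only [Matrix.mul_sub, Matrix.add_mul, Matrix.mul_smul, Matrix.mul_one, Matrix.one_mul]
  module

theorem casX_comm_jM : casX n Λ * jM n Λ = jM n Λ * casX n Λ := by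
  have h1 := num_jM (n := n) (Λ := Λ)
  have h2 : casX n Λ * jM n Λ = numOp n Λ * ((((n * Λ.card : ℕ) : ℂ) + 1) • (1 : Matrix _ _ ℂ)
    - numOp n Λ) * jM n Λ - jM n Λ * jP n Λ * jM n Λ := by
    rw [casX_eq, Matrix.sub_mul]
  have h3 : jM n Λ * casX n Λ = jM n Λ * ((numOp n Λ + 1) * (((n * Λ.card : ℕ) : ℂ) •
      (1 : Matrix _ _ ℂ) - numOp n Λ)) - jM n Λ * jP n Λ * jM n Λ := by
    rw [casX_eq', Matrix.mul_sub, Matrix.mul_assoc]
  rw [h2, h3]
  congr 1
  have h4 : ((((n * Λ.card : ℕ) : ℂ) + 1) • (1 : Matrix _ _ ℂ) - numOp n Λ) * jM n Λ =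
      jM n Λ * (((n * Λ.card : ℕ) : ℂ) • (1 : Matrix _ _ ℂ) - numOp n Λ) := by
    rw [Matrix.sub_mul, h1]
    simp only [Matrix.mul_sub, Matrix.smul_mul, Matrix.mul_smul, Matrix.mul_one, Matrix.one_mul]
    module
  rw [Matrix.mul_assoc, h4, ← Matrix.mul_assoc, h1]
  simp only [Matrix.mul_sub, Matrix.add_mul, Matrix.mul_add, Matrix.mul_smul, Matrix.mul_one,
    Matrix.one_mul, Matrix.mul_assoc]

end Ladder

section Sectors

variable {n : ℕ} {Λ : Finset Site}

/-- Projection on the sector with `j` lowered spins. -/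
noncomputable def pj (n : ℕ) (Λ : Finset Site) (j : ℕ) :
    Matrix (Λ → Fin (n + 1)) (Λ → Fin (n + 1)) ℂ :=
  diagonal (fun σ : Λ → Fin (n + 1) => if cntS σ = j then 1 else 0)

theorem pj_num (j : ℕ) : pj n Λ j * numOp n Λ = (j : ℂ) • pj n Λ j := by
  rw [pj, numOp_eq_diagonal, Matrix.diagonal_mul_diagonal, ← Matrix.diagonal_smul]
  congr 1
  ext σ
  simp only [Pi.smul_apply, smul_eq_mul]
  split_ifs with h
  · rw [h]; ring
  · simp

theorem jM_apply_ne {σ τ : Λ → Fin (n + 1)} (h : jM n Λ σ τ ≠ 0) : cntS σ = cntS τ + 1 := by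
  have h1 := num_jM (n := n) (Λ := Λ)
  rw [numOp_eq_diagonal] at h1
  have h2 := congrFun (congrFun h1 σ) τ
  rw [Matrix.diagonal_mul, Matrix.add_apply, Matrix.mul_diagonal] at h2
  have h3 : (((cntS σ : ℕ) : ℂ) - ((cntS τ : ℕ) : ℂ) - 1) * jM n Λ σ τ = 0 := by
    linear_combination h2
  rcases mul_eq_zero.1 h3 with h4 | h4
  · have h5 : ((cntS σ : ℕ) : ℂ) = ((cntS τ + 1 : ℕ) : ℂ) := by
      push_cast; linear_combination h4
    exact_mod_cast h5
  · exact absurd h4 h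

theorem pj_jM (j : ℕ) : pj n Λ (j + 1) * jM n Λ = jM n Λ * pj n Λ j := by
  ext σ τ
  rw [pj, pj, Matrix.diagonal_mul, Matrix.mul_diagonal]
  by_cases h : jM n Λ σ τ = 0
  · rw [h]; simp
  · have h1 := jM_apply_ne h
    by_cases h2 : cntS τ = j
    · rw [if_pos (by omega), if_pos h2]; ring
    · rw [if_neg (by omega), if_neg h2]; ring

theorem p0_jM : pj n Λ 0 * jM n Λ = 0 := by
  ext σ τ
  rw [pj, Matrix.diagonal_mul, Matrix.zero_apply]
  by_cases h : jM n Λ σ τ = 0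
  · rw [h]; simp
  · have h1 := jM_apply_ne h
    rw [if_neg (by omega)]; ring

theorem pj_casX_succ (j : ℕ) : pj n Λ (j + 1) * casX n Λ =
    (((j : ℂ) + 1) * ((n * Λ.card : ℕ) - (j : ℂ))) • pj n Λ (j + 1) -
      jM n Λ * pj n Λ j * jP n Λ := by
  rw [casX_eq, Matrix.mul_sub, ← Matrix.mul_assoc, pj_num, Matrix.smul_mul, Matrix.mul_sub,
    Matrix.mul_smul, Matrix.mul_one, pj_num, ← Matrix.mul_assoc, pj_jM]
  push_cast
  module

theorem pj_casX (j : ℕ) : pj n Λ j * casX n Λ =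
    (((j : ℂ) + 1) * ((n * Λ.card : ℕ) - (j : ℂ))) • pj n Λ j -
      pj n Λ j * (jP n Λ * jM n Λ) := by
  rw [casX_eq', Matrix.mul_sub, ← Matrix.mul_assoc (pj n Λ j) (numOp n Λ + 1), Matrix.mul_add,
    pj_num, Matrix.mul_one, Matrix.add_mul, Matrix.smul_mul, Matrix.mul_sub,
    Matrix.mul_smul, Matrix.mul_one, pj_num]
  push_cast
  module

theorem p0_casX : pj n Λ 0 * casX n Λ = 0 := by
  rw [casX_eq, Matrix.mul_sub, ← Matrix.mul_assoc, pj_num, ← Matrix.mul_assoc, p0_jM]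
  simp

theorem casX_pow_comm (k : ℕ) : casX n Λ ^ k * jM n Λ = jM n Λ * casX n Λ ^ k := by
  induction k with
  | zero => simp
  | succ k ih => rw [pow_succ, Matrix.mul_assoc, casX_comm_jM, ← Matrix.mul_assoc, ih,
      Matrix.mul_assoc]

theorem trace_move {m : Type*} [Fintype m] [DecidableEq m] (A P B Y : Matrix m m ℂ)
    (h : Y * A = A * Y) : trace (A * P * B * Y) = trace (P * (B * A) * Y) := by
  calc trace (A * P * B * Y) = trace (A * (P * B * Y)) := by simp only [Matrix.mul_assoc]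
    _ = trace (P * B * Y * A) := Matrix.trace_mul_comm _ _
    _ = trace (P * B * (Y * A)) := by simp only [Matrix.mul_assoc]
    _ = trace (P * B * (A * Y)) := by rw [h]
    _ = trace (P * (B * A) * Y) := by simp only [Matrix.mul_assoc]

theorem trace_step {m : Type*} [Fintype m] [DecidableEq m] (P X R : Matrix m m ℂ) (c : ℂ)
    (h : P * X = c • P - R) (k : ℕ) :
    trace (P * X ^ (k + 1)) = c * trace (P * X ^ k) - trace (R * X ^ k) := by
  rw [pow_succ', ← Matrix.mul_assoc, h, Matrix.sub_mul, Matrix.trace_sub,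
      Matrix.smul_mul, Matrix.trace_smul, smul_eq_mul]

/-- Trace recursion. -/
theorem trace_pj_pow_succ (j k : ℕ) :
    trace (pj n Λ (j + 1) * casX n Λ ^ (k + 1)) - trace (pj n Λ j * casX n Λ ^ (k + 1)) =
      (((j : ℂ) + 1) * ((n * Λ.card : ℕ) - (j : ℂ))) *
      (trace (pj n Λ (j + 1) * casX n Λ ^ k) - trace (pj n Λ j * casX n Λ ^ k)) := by
  have h1 := trace_step _ _ _ _ (pj_casX_succ (n := n) (Λ := Λ) j) k
  have h2 := trace_step _ _ _ _ (pj_casX (n := n) (Λ := Λ) j) k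
  rw [trace_move _ _ _ _ (casX_pow_comm k)] at h1
  rw [h1, h2]
  ring

theorem trace_pj_pow (j k : ℕ) :
    trace (pj n Λ (j + 1) * casX n Λ ^ k) - trace (pj n Λ j * casX n Λ ^ k) =
      (((j : ℂ) + 1) * ((n * Λ.card : ℕ) - (j : ℂ))) ^ k *
      (trace (pj n Λ (j + 1)) - trace (pj n Λ j)) := by
  induction k with
  | zero => simp
  | succ k ih => rw [trace_pj_pow_succ, ih, pow_succ]; ring

theorem hasSum_trace_exp (P X : Matrix (Λ → Fin (n + 1)) (Λ → Fin (n + 1)) ℂ) (a : ℂ) :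
    HasSum (fun k : ℕ => ((k.factorial : ℂ)⁻¹) * (a ^ k * trace (P * X ^ k)))
      (trace (P * NormedSpace.exp (a • X))) := by
  have hs : HasSum (fun k : ℕ => ((k.factorial : ℂ)⁻¹) • (a • X) ^ k)
      (NormedSpace.exp (a • X)) := by
    open scoped Matrix.Norms.Operator in
    exact NormedSpace.exp_series_hasSum_exp' (𝕂 := ℂ) (a • X)
  have hcont : Continuous fun M : Matrix (Λ → Fin (n + 1)) (Λ → Fin (n + 1)) ℂ =>
      trace (P * M) := (continuous_const.matrix_mul continuous_id).matrix_trace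
  have h := hs.map (AddMonoidHom.mk' (fun M : Matrix (Λ → Fin (n + 1)) (Λ → Fin (n + 1)) ℂ =>
    trace (P * M)) (fun A B => by rw [Matrix.mul_add, Matrix.trace_add])) hcont
  have e : ((AddMonoidHom.mk' (fun M : Matrix (Λ → Fin (n + 1)) (Λ → Fin (n + 1)) ℂ =>
      trace (P * M)) (fun A B => by rw [Matrix.mul_add, Matrix.trace_add])) ∘
      fun k : ℕ => ((k.factorial : ℂ)⁻¹) • (a • X) ^ k) =
      fun k : ℕ => ((k.factorial : ℂ)⁻¹) * (a ^ k * trace (P * X ^ k)) := by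
    ext1 k
    simp only [Function.comp, AddMonoidHom.mk'_apply, smul_pow]
    rw [Matrix.mul_smul, Matrix.mul_smul, Matrix.trace_smul, Matrix.trace_smul, smul_eq_mul,
      smul_eq_mul]
  rw [e] at h
  exact h

theorem hasSum_congr_fun {f g : ℕ → ℂ} {a : ℂ} (h : HasSum f a) (hfg : ∀ k, f k = g k) :
    HasSum g a := by
  rwa [show g = f from funext fun k => (hfg k).symm]

theorem trace_pj_exp (j : ℕ) (a : ℂ) :
    trace (pj n Λ (j + 1) * NormedSpace.exp (a • casX n Λ)) -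
      trace (pj n Λ j * NormedSpace.exp (a • casX n Λ)) =
      Complex.exp (a * (((j : ℂ) + 1) * ((n * Λ.card : ℕ) - (j : ℂ)))) *
      (trace (pj n Λ (j + 1)) - trace (pj n Λ j)) := by
  have h1 := (hasSum_trace_exp (pj n Λ (j + 1)) (casX n Λ) a).sub
    (hasSum_trace_exp (pj n Λ j) (casX n Λ) a)
  have h2 : HasSum (fun k : ℕ => ((k.factorial : ℂ)⁻¹) *
      ((a * (((j : ℂ) + 1) * ((n * Λ.card : ℕ) - (j : ℂ)))) ^ k))
      (Complex.exp (a * (((j : ℂ) + 1) * ((n * Λ.card : ℕ) - (j : ℂ))))) := by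
    rw [Complex.exp_eq_exp_ℂ]
    have := NormedSpace.exp_series_hasSum_exp' (𝕂 := ℂ)
      (a * (((j : ℂ) + 1) * ((n * Λ.card : ℕ) - (j : ℂ))))
    simpa only [smul_eq_mul] using this
  have h3 := h2.mul_right (trace (pj n Λ (j + 1)) - trace (pj n Λ j))
  refine h1.unique ?_
  refine hasSum_congr_fun h3 ?_
  intro k
  have h4 := trace_pj_pow (n := n) (Λ := Λ) j k
  rw [mul_pow]
  linear_combination (-((k.factorial : ℂ)⁻¹ * a ^ k)) * h4

theorem trace_p0_exp (a : ℂ) :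
    trace (pj n Λ 0 * NormedSpace.exp (a • casX n Λ)) = trace (pj n Λ 0) := by
  have h1 := hasSum_trace_exp (pj n Λ 0) (casX n Λ) a
  have h2 : HasSum (fun k : ℕ => ((k.factorial : ℂ)⁻¹) * (a ^ k *
      trace (pj n Λ 0 * casX n Λ ^ k))) (trace (pj n Λ 0)) := by
    have h3 := hasSum_single (f := fun k : ℕ => ((k.factorial : ℂ)⁻¹) * (a ^ k *
      trace (pj n Λ 0 * casX n Λ ^ k))) 0 (fun k hk => by
        obtain ⟨k', rfl⟩ := Nat.exists_eq_succ_of_ne_zero hk
        simp only [Nat.succ_eq_add_one]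
        rw [pow_succ' (casX n Λ), ← Matrix.mul_assoc, p0_casX]
        simp)
    simpa using h3
  exact h1.unique h2

/-- Dimension of the sector. -/
def dimS (n : ℕ) (Λ : Finset Site) (j : ℕ) : ℕ :=
  (Finset.univ.filter fun σ : Λ → Fin (n + 1) => cntS σ = j).card

theorem trace_pj (j : ℕ) : trace (pj n Λ j) = (dimS n Λ j : ℂ) := by
  rw [pj, Matrix.trace_diagonal, dimS, Finset.card_filter]
  push_cast
  rfl

/-- Eigenvalue `c_j = j (2S|Λ| + 1 - j)`. -/
noncomputable def cj (n : ℕ) (Λ : Finset Site) (j : ℕ) : ℝ :=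
  (j : ℝ) * ((n : ℝ) * Λ.card + 1 - j)

theorem trace_pj_exp_le (j : ℕ) (s : ℝ) :
    (trace (pj n Λ j * NormedSpace.exp (((-s : ℝ) : ℂ) • casX n Λ))).re ≤
      ∑ i ∈ Finset.range (j + 1), Real.exp (-s * cj n Λ i) * dimS n Λ i := by
  induction j with
  | zero =>
    rw [trace_p0_exp, trace_pj]
    simp [cj]
  | succ j ih =>
    rw [Finset.sum_range_succ]
    have h := congrArg Complex.re (trace_pj_exp (n := n) (Λ := Λ) j ((-s : ℝ) : ℂ))
    rw [Complex.sub_re] at h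
    have e1 : Complex.exp (((-s : ℝ) : ℂ) * (((j : ℂ) + 1) * ((n * Λ.card : ℕ) - (j : ℂ)))) =
        ((Real.exp (-s * cj n Λ (j + 1)) : ℝ) : ℂ) := by
      rw [Complex.ofReal_exp]
      congr 1
      unfold cj
      push_cast
      ring
    rw [e1, trace_pj, trace_pj] at h
    have e2 : (((Real.exp (-s * cj n Λ (j + 1)) : ℝ) : ℂ) *
        ((dimS n Λ (j + 1) : ℂ) - (dimS n Λ j : ℂ))).re =
        Real.exp (-s * cj n Λ (j + 1)) * ((dimS n Λ (j + 1) : ℝ) - (dimS n Λ j : ℝ)) := by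
      rw [Complex.re_ofReal_mul]
      simp
    rw [e2] at h
    have h3 : 0 ≤ Real.exp (-s * cj n Λ (j + 1)) * (dimS n Λ j : ℝ) := by positivity
    linarith

theorem cntS_le (σ : Λ → Fin (n + 1)) : cntS σ ≤ n * Λ.card := by
  unfold cntS
  calc ∑ x, (σ x : ℕ) ≤ ∑ _x : Λ, n := Finset.sum_le_sum fun x _ => Nat.lt_succ_iff.1 (σ x).2
    _ = n * Λ.card := by simp [mul_comm]

theorem sum_pj : ∑ j ∈ Finset.range (n * Λ.card + 1), pj n Λ j = 1 := by
  ext σ τ
  rw [Matrix.sum_apply]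
  by_cases h : σ = τ
  · subst h
    simp only [pj, Matrix.diagonal_apply_eq, Matrix.one_apply_eq]
    rw [Finset.sum_ite_eq, if_pos]
    rw [Finset.mem_range]
    have := cntS_le σ
    omega
  · simp [pj, h]

theorem sum_dim_eq (f : ℕ → ℝ) {K : ℕ} (hK : n * Λ.card ≤ K) :
    ∑ i ∈ Finset.range (K + 1), f i * dimS n Λ i =
      ∑ σ : Λ → Fin (n + 1), f (cntS σ) := by
  have h1 : ∀ i, f i * dimS n Λ i = ∑ σ : Λ → Fin (n + 1), if cntS σ = i then f i else 0 := by
    intro i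
    rw [dimS, ← Finset.sum_filter, Finset.sum_const, nsmul_eq_mul, mul_comm]
  simp only [h1]
  rw [Finset.sum_comm]
  refine Finset.sum_congr rfl fun σ _ => ?_
  rw [Finset.sum_ite_eq, if_pos]
  rw [Finset.mem_range]
  have := cntS_le σ
  omega

theorem trace_exp_casX_le (s : ℝ) :
    (trace (NormedSpace.exp (((-s : ℝ) : ℂ) • casX n Λ))).re ≤
      ((n : ℝ) * Λ.card + 1) * ∑ σ : Λ → Fin (n + 1), Real.exp (-s * cj n Λ (cntS σ)) := by
  have h1 : (trace (NormedSpace.exp (((-s : ℝ) : ℂ) • casX n Λ))).re =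
      ∑ j ∈ Finset.range (n * Λ.card + 1),
        (trace (pj n Λ j * NormedSpace.exp (((-s : ℝ) : ℂ) • casX n Λ))).re := by
    rw [← Complex.re_sum, ← Matrix.trace_sum, ← Finset.sum_mul, sum_pj, Matrix.one_mul]
  rw [h1]
  calc ∑ j ∈ Finset.range (n * Λ.card + 1),
        (trace (pj n Λ j * NormedSpace.exp (((-s : ℝ) : ℂ) • casX n Λ))).re ≤
      ∑ _j ∈ Finset.range (n * Λ.card + 1),
        ∑ σ : Λ → Fin (n + 1), Real.exp (-s * cj n Λ (cntS σ)) := by
        refine Finset.sum_le_sum fun j hj => (trace_pj_exp_le j s).trans ?_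
        rw [← sum_dim_eq (fun i => Real.exp (-s * cj n Λ i)) le_rfl]
        refine Finset.sum_le_sum_of_subset_of_nonneg ?_ fun i _ _ => by positivity
        intro i hi
        rw [Finset.mem_range] at hi hj ⊢
        omega
    _ = _ := by
        rw [Finset.sum_const, Finset.card_range, nsmul_eq_mul]
        push_cast
        rfl

/-- Bound of the configuration sum by a product. -/
theorem sum_exp_cj_le {s : ℝ} (hs : 0 ≤ s) {z : ℝ}
    (hz : z = Real.exp (-s * ((n : ℝ) * Λ.card / 2))) :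
    ∑ σ : Λ → Fin (n + 1), Real.exp (-s * cj n Λ (cntS σ)) ≤
      2 * (∑ j ∈ Finset.range (n + 1), z ^ j) ^ Λ.card := by
  have hz0 : 0 < z := by rw [hz]; exact Real.exp_pos _
  have hprod : ∑ σ : Λ → Fin (n + 1), z ^ (cntS σ) = (∑ j ∈ Finset.range (n + 1), z ^ j) ^ Λ.card := by
    have h1 : ∀ σ : Λ → Fin (n + 1), z ^ (cntS σ) = ∏ x, z ^ ((σ x : Fin (n + 1)) : ℕ) := by
      intro σ
      rw [cntS, Finset.prod_pow_eq_pow_sum]
    simp only [h1]
    rw [Finset.sum_range (fun j => z ^ j)]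
    have h2 := Finset.prod_univ_sum (fun _ : Λ => (Finset.univ : Finset (Fin (n + 1))))
      (fun (_ : Λ) (j : Fin (n + 1)) => z ^ (j : ℕ))
    rw [Fintype.piFinset_univ, Finset.prod_const, Finset.card_univ, Fintype.card_coe] at h2
    exact h2.symm
  have hrev : ∑ σ : Λ → Fin (n + 1), z ^ (n * Λ.card - cntS σ) =
      ∑ σ : Λ → Fin (n + 1), z ^ (cntS σ) := by
    rw [← Equiv.sum_comp (Equiv.arrowCongr (Equiv.refl Λ) (Fin.revPerm (n := n + 1)))
      (fun σ => z ^ (cntS σ))]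
    refine Finset.sum_congr rfl fun σ _ => ?_
    congr 1
    have h3 : cntS (Equiv.arrowCongr (Equiv.refl Λ) (Fin.revPerm (n := n + 1)) σ) + cntS σ =
        n * Λ.card := by
      unfold cntS
      rw [← Finset.sum_add_distrib]
      have : ∀ x : Λ, ((Equiv.arrowCongr (Equiv.refl Λ) (Fin.revPerm (n := n + 1)) σ x :
          Fin (n + 1)) : ℕ) + (σ x : ℕ) = n := by
        intro x
        have h4 : Equiv.arrowCongr (Equiv.refl Λ) (Fin.revPerm (n := n + 1)) σ x =
          Fin.rev (σ x) := rfl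
        rw [h4, Fin.val_rev]
        have := (σ x).2
        omega
      simp only [this]
      simp [mul_comm]
    omega
  calc ∑ σ : Λ → Fin (n + 1), Real.exp (-s * cj n Λ (cntS σ)) ≤
      ∑ σ : Λ → Fin (n + 1), (z ^ (cntS σ) + z ^ (n * Λ.card - cntS σ)) := by
        refine Finset.sum_le_sum fun σ _ => ?_
        have hk := cntS_le σ
        generalize cntS σ = k at hk
        have hkR : (k : ℝ) ≤ (n : ℝ) * Λ.card := by exact_mod_cast hk
        have hk0 : (0 : ℝ) ≤ k := Nat.cast_nonneg k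
        rcases le_total (2 * (k : ℝ)) ((n : ℝ) * Λ.card) with h | h
        · refine le_trans ?_ (le_add_of_nonneg_right (by positivity))
          rw [hz, ← Real.exp_nat_mul, Real.exp_le_exp]
          unfold cj
          have h5 : (k : ℝ) * ((n : ℝ) * Λ.card / 2) ≤ (k : ℝ) * ((n : ℝ) * Λ.card + 1 - k) :=
            mul_le_mul_of_nonneg_left (by linarith) hk0
          nlinarith
        · refine le_trans ?_ (le_add_of_nonneg_left (by positivity))
          rw [hz, ← Real.exp_nat_mul, Real.exp_le_exp]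
          unfold cj
          rw [Nat.cast_sub hk]
          push_cast
          have h5 : ((n : ℝ) * Λ.card - k) * ((n : ℝ) * Λ.card / 2) ≤
              (k : ℝ) * ((n : ℝ) * Λ.card + 1 - k) := by
            have h6 : ((n : ℝ) * Λ.card - k) * ((n : ℝ) * Λ.card / 2) ≤
                ((n : ℝ) * Λ.card - k) * k :=
              mul_le_mul_of_nonneg_left (by linarith) (by linarith)
            nlinarith
          nlinarith
    _ = _ := by
        rw [Finset.sum_add_distrib, hrev, hprod]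
        ring

end Sectors

end Vale.Agent.P361.B
end

section

/-!
Path comparison in the cube: for a pseudo-metric on the sites of the cube, the sum of squared
distances over all pairs is at most `3 L⁵` times the sum over edges.
-/

namespace Vale.Agent.P361.B

open Finset

/-- The site with coordinates `a, b, c`. -/
def st (a b c : ℕ) : Site := ![(a : ℤ), (b : ℤ), (c : ℤ)]

theorem mem_cube' {L : ℕ} {x : Site} : x ∈ cube L ↔ ∀ i, 0 ≤ x i ∧ x i < L := by
  simp [cube, Fintype.mem_piFinset]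

theorem st_mem {L a b c : ℕ} : st a b c ∈ cube L ↔ a < L ∧ b < L ∧ c < L := by
  rw [mem_cube']
  constructor
  · intro h
    have h0 := h 0
    have h1 := h 1
    have h2 := h 2
    simp only [st, Matrix.cons_val_zero, Matrix.cons_val_one, Matrix.cons_val] at h0 h1 h2
    omega
  · rintro ⟨h0, h1, h2⟩ i
    fin_cases i <;> simp [st] <;> omega

theorem sum_cube (L : ℕ) (f : Site → ℝ) : ∑ x ∈ cube L, f x =
    ∑ a ∈ range L, ∑ b ∈ range L, ∑ c ∈ range L, f (st a b c) := by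
  have h1 : ∑ a ∈ range L, ∑ b ∈ range L, ∑ c ∈ range L, f (st a b c) =
      ∑ p ∈ range L ×ˢ range L ×ˢ range L, f (st p.1 p.2.1 p.2.2) := by
    rw [Finset.sum_product]
    refine Finset.sum_congr rfl fun a _ => ?_
    rw [Finset.sum_product]
  rw [h1]
  refine Finset.sum_bij' (fun x _ => ((x 0).toNat, (x 1).toNat, (x 2).toNat))
    (fun p _ => st p.1 p.2.1 p.2.2) ?_ ?_ ?_ ?_ ?_
  · intro x hx
    rw [mem_cube'] at hx
    have h0 := hx 0
    have h1 := hx 1
    have h2 := hx 2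
    simp only [Finset.mem_product, Finset.mem_range]
    omega
  · intro p hp
    simp only [Finset.mem_product, Finset.mem_range] at hp
    rw [st_mem]
    exact hp
  · intro x hx
    rw [mem_cube'] at hx
    have h0 := hx 0
    have h1 := hx 1
    have h2 := hx 2
    ext i
    fin_cases i <;> simp [st] <;> omega
  · intro p hp
    simp [st]
  · intro x hx
    rw [mem_cube'] at hx
    have h0 := hx 0
    have h1 := hx 1
    have h2 := hx 2
    congr 1
    ext i
    fin_cases i <;> simp [st] <;> omega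

theorem line_bound {L : ℕ} {ρ : ℕ → ℕ → ℝ} (h0 : ∀ a, a < L → ρ a a = 0)
    (hs : ∀ a b, a < L → b < L → ρ a b = ρ b a) (hn : ∀ a b, 0 ≤ ρ a b)
    (ht : ∀ a b c, a < L → b < L → c < L → ρ a c ≤ ρ a b + ρ b c)
    {a b : ℕ} (ha : a < L) (hb : b < L) :
    ρ a b ^ 2 ≤ L * ∑ k ∈ range (L - 1), ρ k (k + 1) ^ 2 := by
  have key : ∀ m a : ℕ, a + m < L → ρ a (a + m) ≤ ∑ k ∈ range (a + m), ρ k (k + 1) := by
    intro m
    induction m with
    | zero =>
      intro a ha
      rw [add_zero, h0 a (by omega)]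
      exact Finset.sum_nonneg fun _ _ => hn _ _
    | succ m ih =>
      intro a ha
      have h1 := ht a (a + m) (a + (m + 1)) (by omega) (by omega) ha
      have h2 := ih a (by omega)
      rw [← add_assoc, Finset.sum_range_succ]
      rw [← add_assoc] at h1
      linarith
  have key2 : ∀ a b : ℕ, a ≤ b → b < L → ρ a b ≤ ∑ k ∈ range (L - 1), ρ k (k + 1) := by
    intro a b hab hb
    obtain ⟨m, rfl⟩ := Nat.exists_eq_add_of_le hab
    refine (key m a hb).trans ?_
    refine Finset.sum_le_sum_of_subset_of_nonneg ?_ fun _ _ _ => hn _ _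
    intro k hk
    rw [Finset.mem_range] at hk ⊢
    omega
  have key3 : ρ a b ≤ ∑ k ∈ range (L - 1), ρ k (k + 1) := by
    rcases le_total a b with h | h
    · exact key2 a b h hb
    · rw [hs a b ha hb]
      exact key2 b a h ha
  have h1 : ρ a b ^ 2 ≤ (∑ k ∈ range (L - 1), ρ k (k + 1)) ^ 2 :=
    pow_le_pow_left₀ (hn _ _) key3 2
  have h2 := sq_sum_le_card_mul_sum_sq (s := range (L - 1)) (f := fun k => ρ k (k + 1))
  rw [Finset.card_range] at h2
  refine h1.trans (h2.trans ?_)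
  refine mul_le_mul_of_nonneg_right ?_ (Finset.sum_nonneg fun _ _ => sq_nonneg _)
  exact_mod_cast Nat.sub_le L 1

theorem nn_sum_split (L : ℕ) (F : Site → Site → ℝ) (hF : ∀ x y, F x y = F y x) :
    ∑ x ∈ cube L, ∑ y ∈ cube L, (if IsNN x y then F x y else 0) =
      2 * ∑ j : Fin 3, ∑ x ∈ cube L,
        (if x + H.dir (j, true) ∈ cube L then F x (x + H.dir (j, true)) else 0) := by
  have h1 : ∀ x y : Site, (if IsNN x y then F x y else 0) =
      ∑ p : Fin 3 × Bool, if y = x + H.dir p then F x y else 0 := by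
    intro x y
    by_cases h : IsNN x y
    · obtain ⟨p, hp⟩ := (H.isNN_iff x y).1 h
      rw [if_pos h, Finset.sum_eq_single p]
      · rw [if_pos hp]
      · intro q _ hq
        rw [if_neg]
        intro h2
        exact hq (H.dir_injective (by rw [hp] at h2; simpa using h2.symm))
      · simp
    · rw [if_neg h]
      symm
      refine Finset.sum_eq_zero fun p _ => ?_
      rw [if_neg]
      intro h2
      exact h ((H.isNN_iff x y).2 ⟨p, h2⟩)
  have h2 : ∀ p : Fin 3 × Bool, ∑ x ∈ cube L, ∑ y ∈ cube L,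
      (if y = x + H.dir p then F x y else 0) = ∑ x ∈ cube L,
        (if x + H.dir p ∈ cube L then F x (x + H.dir p) else 0) := by
    intro p
    refine Finset.sum_congr rfl fun x _ => ?_
    rw [Finset.sum_ite_eq']
  have hneg : ∀ j : Fin 3, H.dir (j, false) = -H.dir (j, true) := by
    intro j
    simp [H.dir, ← Pi.single_neg]
  have h3 : ∀ j : Fin 3, ∑ x ∈ cube L, ∑ y ∈ cube L,
      (if y = x + H.dir (j, false) then F x y else 0) = ∑ x ∈ cube L, ∑ y ∈ cube L,
      (if y = x + H.dir (j, true) then F x y else 0) := by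
    intro j
    rw [Finset.sum_comm]
    refine Finset.sum_congr rfl fun x _ => Finset.sum_congr rfl fun y _ => ?_
    rw [hneg, hF x y]
    have : x = y + -H.dir (j, true) ↔ y = x + H.dir (j, true) := by
      constructor
      · intro h; rw [h]; simp
      · intro h; rw [h]; simp
    simp only [this]
  calc ∑ x ∈ cube L, ∑ y ∈ cube L, (if IsNN x y then F x y else 0)
      = ∑ p : Fin 3 × Bool, ∑ x ∈ cube L, ∑ y ∈ cube L,
        (if y = x + H.dir p then F x y else 0) := by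
        simp only [h1]
        rw [Finset.sum_comm]
        rw [← Finset.sum_comm]
        have : ∀ x ∈ cube L, ∑ y ∈ cube L, ∑ p : Fin 3 × Bool,
            (if y = x + H.dir p then F x y else 0) = ∑ p : Fin 3 × Bool, ∑ y ∈ cube L,
            (if y = x + H.dir p then F x y else 0) := fun x _ => Finset.sum_comm
        rw [Finset.sum_congr rfl this, Finset.sum_comm]
    _ = ∑ j : Fin 3, (∑ x ∈ cube L, ∑ y ∈ cube L,
        (if y = x + H.dir (j, true) then F x y else 0) + ∑ x ∈ cube L, ∑ y ∈ cube L,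
        (if y = x + H.dir (j, false) then F x y else 0)) := by
        rw [Fintype.sum_prod_type]
        refine Finset.sum_congr rfl fun j _ => ?_
        rw [Fintype.sum_bool]
    _ = _ := by
        simp only [h3, h2]
        rw [Finset.mul_sum]
        refine Finset.sum_congr rfl fun j _ => ?_
        ring

theorem sum_shift1 (L : ℕ) (g : ℕ → ℝ) :
    ∑ a ∈ range L, (if a + 1 < L then g a else 0) = ∑ a ∈ range (L - 1), g a := by
  rw [← Finset.sum_filter]
  refine Finset.sum_congr ?_ fun _ _ => rfl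
  ext a
  simp only [Finset.mem_filter, Finset.mem_range]
  omega

theorem st_add0 (a b c : ℕ) : st a b c + H.dir (0, true) = st (a + 1) b c := by
  ext i
  fin_cases i <;> simp [st, H.dir]

theorem st_add1 (a b c : ℕ) : st a b c + H.dir (1, true) = st a (b + 1) c := by
  ext i
  fin_cases i <;> simp [st, H.dir]

theorem st_add2 (a b c : ℕ) : st a b c + H.dir (2, true) = st a b (c + 1) := by
  ext i
  fin_cases i <;> simp [st, H.dir]

theorem dir_sum (L : ℕ) (F : Site → Site → ℝ) : ∑ j : Fin 3, ∑ x ∈ cube L,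
    (if x + H.dir (j, true) ∈ cube L then F x (x + H.dir (j, true)) else 0) =
    (∑ b ∈ range L, ∑ c ∈ range L, ∑ k ∈ range (L - 1), F (st k b c) (st (k + 1) b c)) +
    (∑ a ∈ range L, ∑ c ∈ range L, ∑ k ∈ range (L - 1), F (st a k c) (st a (k + 1) c)) +
    (∑ a ∈ range L, ∑ b ∈ range L, ∑ k ∈ range (L - 1), F (st a b k) (st a b (k + 1))) := by
  rw [Fin.sum_univ_three]
  simp only [sum_cube, st_add0, st_add1, st_add2, st_mem]
  congr 1
  · congr 1
    · rw [Finset.sum_comm]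
      refine Finset.sum_congr rfl fun b hb => ?_
      rw [Finset.sum_comm]
      refine Finset.sum_congr rfl fun c hc => ?_
      rw [Finset.mem_range] at hb hc
      simp only [hb, hc, and_true]
      exact sum_shift1 L _
    · refine Finset.sum_congr rfl fun a ha => ?_
      rw [Finset.sum_comm]
      refine Finset.sum_congr rfl fun c hc => ?_
      rw [Finset.mem_range] at ha hc
      simp only [ha, hc, and_true, true_and]
      exact sum_shift1 L _
  · refine Finset.sum_congr rfl fun a ha => ?_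
    refine Finset.sum_congr rfl fun b hb => ?_
    rw [Finset.mem_range] at ha hb
    simp only [ha, hb, true_and]
    exact sum_shift1 L _

/-- The path comparison. -/
theorem path_sum (L : ℕ) {D : Site → Site → ℝ} (h0 : ∀ x, D x x = 0)
    (hs : ∀ x y, D x y = D y x) (hn : ∀ x y, 0 ≤ D x y)
    (ht : ∀ x y z, x ∈ cube L → y ∈ cube L → z ∈ cube L → D x z ≤ D x y + D y z) :
    ∑ x ∈ cube L, ∑ y ∈ cube L, D x y ^ 2 ≤
      3 / 2 * (L : ℝ) ^ 5 * ∑ x ∈ cube L, ∑ y ∈ cube L, (if IsNN x y then D x y ^ 2 else 0) := by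
  rw [nn_sum_split L (fun x y => D x y ^ 2) (fun x y => by rw [hs x y]),
    dir_sum L (fun x y => D x y ^ 2)]
  set E0 : ℕ → ℕ → ℝ := fun b c => ∑ k ∈ range (L - 1), D (st k b c) (st (k + 1) b c) ^ 2 with hE0
  set E1 : ℕ → ℕ → ℝ := fun a c => ∑ k ∈ range (L - 1), D (st a k c) (st a (k + 1) c) ^ 2 with hE1
  set E2 : ℕ → ℕ → ℝ := fun a b => ∑ k ∈ range (L - 1), D (st a b k) (st a b (k + 1)) ^ 2 with hE2
  have key : ∀ a b c a' b' c' : ℕ, a < L → b < L → c < L → a' < L → b' < L → c' < L →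
      D (st a b c) (st a' b' c') ^ 2 ≤
        3 * ((L : ℝ) * E0 b c + (L : ℝ) * E1 a' c + (L : ℝ) * E2 a' b') := by
    intro a b c a' b' c' ha hb hc ha' hb' hc'
    have m1 := (st_mem (L := L)).2 ⟨ha, hb, hc⟩
    have m2 := (st_mem (L := L)).2 ⟨ha', hb, hc⟩
    have m3 := (st_mem (L := L)).2 ⟨ha', hb', hc⟩
    have m4 := (st_mem (L := L)).2 ⟨ha', hb', hc'⟩
    have t1 := ht _ _ _ m1 m2 m4
    have t2 := ht _ _ _ m2 m3 m4
    have l1 : D (st a b c) (st a' b c) ^ 2 ≤ (L : ℝ) * E0 b c :=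
      line_bound (L := L) (ρ := fun u v => D (st u b c) (st v b c)) (fun u _ => h0 _)
        (fun u v _ _ => hs _ _) (fun u v => hn _ _)
        (fun u v w hu hv hw => ht _ _ _ ((st_mem (L := L)).2 ⟨hu, hb, hc⟩)
          ((st_mem (L := L)).2 ⟨hv, hb, hc⟩) ((st_mem (L := L)).2 ⟨hw, hb, hc⟩)) ha ha'
    have l2 : D (st a' b c) (st a' b' c) ^ 2 ≤ (L : ℝ) * E1 a' c :=
      line_bound (L := L) (ρ := fun u v => D (st a' u c) (st a' v c)) (fun u _ => h0 _)
        (fun u v _ _ => hs _ _) (fun u v => hn _ _)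
        (fun u v w hu hv hw => ht _ _ _ ((st_mem (L := L)).2 ⟨ha', hu, hc⟩)
          ((st_mem (L := L)).2 ⟨ha', hv, hc⟩) ((st_mem (L := L)).2 ⟨ha', hw, hc⟩)) hb hb'
    have l3 : D (st a' b' c) (st a' b' c') ^ 2 ≤ (L : ℝ) * E2 a' b' :=
      line_bound (L := L) (ρ := fun u v => D (st a' b' u) (st a' b' v)) (fun u _ => h0 _)
        (fun u v _ _ => hs _ _) (fun u v => hn _ _)
        (fun u v w hu hv hw => ht _ _ _ ((st_mem (L := L)).2 ⟨ha', hb', hu⟩)
          ((st_mem (L := L)).2 ⟨ha', hb', hv⟩) ((st_mem (L := L)).2 ⟨ha', hb', hw⟩)) hc hc'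
    have n1 := hn (st a b c) (st a' b c)
    have n2 := hn (st a' b c) (st a' b' c)
    have n3 := hn (st a' b' c) (st a' b' c')
    have n4 := hn (st a b c) (st a' b' c')
    have s1 : D (st a b c) (st a' b' c') ^ 2 ≤
        (D (st a b c) (st a' b c) + D (st a' b c) (st a' b' c) +
          D (st a' b' c) (st a' b' c')) ^ 2 := pow_le_pow_left₀ n4 (by linarith) 2
    nlinarith [sq_nonneg (D (st a b c) (st a' b c) - D (st a' b c) (st a' b' c)),
      sq_nonneg (D (st a' b c) (st a' b' c) - D (st a' b' c) (st a' b' c')),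
      sq_nonneg (D (st a b c) (st a' b c) - D (st a' b' c) (st a' b' c'))]
  simp only [sum_cube]
  calc ∑ a ∈ range L, ∑ b ∈ range L, ∑ c ∈ range L, ∑ a' ∈ range L, ∑ b' ∈ range L,
        ∑ c' ∈ range L, D (st a b c) (st a' b' c') ^ 2 ≤
      ∑ a ∈ range L, ∑ b ∈ range L, ∑ c ∈ range L, ∑ a' ∈ range L, ∑ b' ∈ range L,
        ∑ c' ∈ range L, 3 * ((L : ℝ) * E0 b c + (L : ℝ) * E1 a' c + (L : ℝ) * E2 a' b') := by
        refine Finset.sum_le_sum fun a ha => Finset.sum_le_sum fun b hb =>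
          Finset.sum_le_sum fun c hc => Finset.sum_le_sum fun a' ha' =>
          Finset.sum_le_sum fun b' hb' => Finset.sum_le_sum fun c' hc' => ?_
        rw [Finset.mem_range] at ha hb hc ha' hb' hc'
        exact key a b c a' b' c' ha hb hc ha' hb' hc'
    _ = _ := by
        simp only [← Finset.mul_sum, Finset.sum_add_distrib, Finset.sum_const,
          Finset.card_range, nsmul_eq_mul]
        rw [Finset.sum_comm (s := range L) (t := range L) (f := fun c a' => E1 a' c)]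
        ring

end Vale.Agent.P361.B
end

section

/-!
Part B, step D2: `∑_{x≠y} (S² - S_x·S_y) ≤ 3 L⁵ H̃` on the cube, and the crude bound on the
partition function.
-/

namespace Vale.Agent.P361.B

open Matrix Finset Filter Topology
open scoped ComplexOrder Kronecker

set_option linter.unusedSectionVars false

section Norm

variable {ι : Type*} [Fintype ι] [DecidableEq ι]

/-- Euclidean norm of a vector. -/
noncomputable def nrm (v : ι → ℂ) : ℝ := ‖(WithLp.toLp 2 v : EuclideanSpace ℂ ι)‖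

theorem nrm_nonneg (v : ι → ℂ) : 0 ≤ nrm v := norm_nonneg _

theorem nrm_add_le (u v : ι → ℂ) : nrm (u + v) ≤ nrm u + nrm v := by
  unfold nrm
  rw [WithLp.toLp_add]
  exact norm_add_le _ _

theorem nrm_neg (v : ι → ℂ) : nrm (-v) = nrm v := by
  unfold nrm
  rw [WithLp.toLp_neg, norm_neg]

theorem nrm_sq (v : ι → ℂ) : nrm v ^ 2 = ∑ i, ‖v i‖ ^ 2 := by
  unfold nrm
  rw [EuclideanSpace.norm_eq, Real.sq_sqrt (Finset.sum_nonneg fun _ _ => by positivity)]

theorem star_dot (M : Matrix ι ι ℂ) (ψ : ι → ℂ) :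
    star ψ ⬝ᵥ ((Mᴴ * M) *ᵥ ψ) = ((nrm (M *ᵥ ψ) ^ 2 : ℝ) : ℂ) := by
  rw [← Matrix.mulVec_mulVec, Matrix.dotProduct_mulVec, Matrix.vecMul_conjTranspose, star_star,
    nrm_sq, dotProduct]
  push_cast
  refine Finset.sum_congr rfl fun i _ => ?_
  rw [Pi.star_apply, RCLike.star_def, Complex.conj_mul']

theorem minkowski_aux {p₁ p₂ q₁ q₂ P Q : ℝ} (hP : 0 ≤ P) (hQ : 0 ≤ Q) (h1 : p₁ ^ 2 + p₂ ^ 2 = P ^ 2)
    (h2 : q₁ ^ 2 + q₂ ^ 2 = Q ^ 2) : (p₁ + q₁) ^ 2 + (p₂ + q₂) ^ 2 ≤ (P + Q) ^ 2 := by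
  have h3 : p₁ * q₁ + p₂ * q₂ ≤ P * Q := by
    refine abs_le_of_sq_le_sq' ?_ (by positivity) |>.2
    have : (P * Q) ^ 2 = (p₁ ^ 2 + p₂ ^ 2) * (q₁ ^ 2 + q₂ ^ 2) := by rw [mul_pow, h1, h2]
    rw [this]
    nlinarith [sq_nonneg (p₁ * q₂ - p₂ * q₁)]
  nlinarith

end Norm

section Metric

variable {n : ℕ} {Λ : Finset Site}

/-- `T_{xy} = a_x b_y - b_x a_y`. -/
noncomputable def tOp (n : ℕ) {Λ : Finset Site} (x y : Λ) :
    Matrix (Λ → Fin (n + 1)) (Λ → Fin (n + 1)) ℂ :=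
  H.oA n x * H.oB n y - H.oB n x * H.oA n y

theorem tOp_sq {x y : Λ} (hxy : x ≠ y) : (((n : ℂ) / 2) ^ 2) •
    (1 : Matrix (Λ → Fin (n + 1)) (Λ → Fin (n + 1)) ℂ) - H.dotOp n x y =
      (1 / 2 : ℂ) • ((tOp n x y)ᴴ * tOp n x y) := by
  unfold tOp
  rw [H.dot_sos hxy]
  module

theorem tOp_symm {x y : Λ} (hxy : x ≠ y) : tOp n y x = -tOp n x y := by
  unfold tOp
  rw [H.siteOp_comm hxy.symm, H.siteOp_comm hxy.symm]
  abel

theorem pluecker_a {x y z : Λ} (hxy : x ≠ y) (hyz : y ≠ z) (hxz : x ≠ z) :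
    H.oA n y * tOp n x z = H.oA n x * tOp n y z + H.oA n z * tOp n x y := by
  unfold tOp
  have c1 : H.oA n y * (H.oA n x * H.oB n z) = H.oA n x * (H.oA n y * H.oB n z) := by
    rw [← mul_assoc, H.siteOp_comm hxy.symm, mul_assoc]
  have c2 : H.oA n y * (H.oB n x * H.oA n z) = H.oA n z * (H.oB n x * H.oA n y) := by
    rw [H.siteOp_comm hxz (H.schwB n) (H.schwA n), ← mul_assoc,
      H.siteOp_comm hyz (H.schwA n) (H.schwA n), mul_assoc,
      H.siteOp_comm hxy.symm (H.schwA n) (H.schwB n)]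
  have c3 : H.oA n x * (H.oB n y * H.oA n z) = H.oA n z * (H.oA n x * H.oB n y) := by
    rw [H.siteOp_comm hyz (H.schwB n) (H.schwA n), ← mul_assoc,
      H.siteOp_comm hxz (H.schwA n) (H.schwA n), mul_assoc]
  rw [mul_sub, mul_sub, mul_sub, c1, c2, c3]
  abel

theorem pluecker_b {x y z : Λ} (hxy : x ≠ y) (hyz : y ≠ z) (hxz : x ≠ z) :
    H.oB n y * tOp n x z = H.oB n x * tOp n y z + H.oB n z * tOp n x y := by
  unfold tOp
  have c1 : H.oB n y * (H.oA n x * H.oB n z) = H.oB n z * (H.oA n x * H.oB n y) := by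
    rw [H.siteOp_comm hxz (H.schwA n) (H.schwB n), ← mul_assoc,
      H.siteOp_comm hyz (H.schwB n) (H.schwB n), mul_assoc,
      H.siteOp_comm hxy.symm (H.schwB n) (H.schwA n)]
  have c2 : H.oB n y * (H.oB n x * H.oA n z) = H.oB n x * (H.oB n y * H.oA n z) := by
    rw [← mul_assoc, H.siteOp_comm hxy.symm, mul_assoc]
  have c3 : H.oB n x * (H.oA n y * H.oB n z) = H.oB n z * (H.oB n x * H.oA n y) := by
    rw [H.siteOp_comm hyz (H.schwA n) (H.schwB n), ← mul_assoc,
      H.siteOp_comm hxz (H.schwB n) (H.schwB n), mul_assoc]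
  rw [mul_sub, mul_sub, mul_sub, c1, c2, c3]
  abel

theorem ab_norm (y : Λ) (v : (Λ → Fin (n + 1)) → ℂ) :
    nrm (H.oA n y *ᵥ v) ^ 2 + nrm (H.oB n y *ᵥ v) ^ 2 = n * nrm v ^ 2 := by
  have h1 := star_dot (H.oA n y) v
  have h2 := star_dot (H.oB n y) v
  have h3 := star_dot (1 : Matrix (Λ → Fin (n + 1)) (Λ → Fin (n + 1)) ℂ) v
  have h4 : (H.oA n y)ᴴ * H.oA n y + (H.oB n y)ᴴ * H.oB n y =
      (n : ℂ) • (1 : Matrix (Λ → Fin (n + 1)) (Λ → Fin (n + 1)) ℂ) := by
    rw [siteOp_conjTranspose, H.siteOp_mul, H.schwA_schwA, siteOp_conjTranspose, H.siteOp_mul,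
      H.schwB_schwB, H.siteOp_add, H.siteOp_sub, H.siteOp_smul, H.siteOp_one]
    module
  rw [Matrix.conjTranspose_one, Matrix.one_mul, Matrix.one_mulVec] at h3
  have h5 : (((nrm (H.oA n y *ᵥ v) ^ 2 + nrm (H.oB n y *ᵥ v) ^ 2 : ℝ)) : ℂ) =
      ((n * nrm v ^ 2 : ℝ) : ℂ) := by
    rw [Complex.ofReal_add, ← h1, ← h2, ← dotProduct_add, ← Matrix.add_mulVec, h4,
      Matrix.smul_mulVec, dotProduct_smul, Matrix.one_mulVec, h3]
    push_cast
    rfl
  exact_mod_cast h5

theorem t_triangle (hn : 0 < n) {x y z : Λ} (hxy : x ≠ y) (hyz : y ≠ z) (hxz : x ≠ z)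
    (ψ : (Λ → Fin (n + 1)) → ℂ) :
    nrm (tOp n x z *ᵥ ψ) ≤ nrm (tOp n x y *ᵥ ψ) + nrm (tOp n y z *ᵥ ψ) := by
  have hnR : (0 : ℝ) < n := by exact_mod_cast hn
  have h1 := ab_norm y (tOp n x z *ᵥ ψ)
  have h2 := ab_norm x (tOp n y z *ᵥ ψ)
  have h3 := ab_norm z (tOp n x y *ᵥ ψ)
  have e1 : H.oA n y *ᵥ (tOp n x z *ᵥ ψ) =
      H.oA n x *ᵥ (tOp n y z *ᵥ ψ) + H.oA n z *ᵥ (tOp n x y *ᵥ ψ) := by
    simp only [Matrix.mulVec_mulVec]
    rw [← Matrix.add_mulVec, pluecker_a hxy hyz hxz]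
  have e2 : H.oB n y *ᵥ (tOp n x z *ᵥ ψ) =
      H.oB n x *ᵥ (tOp n y z *ᵥ ψ) + H.oB n z *ᵥ (tOp n x y *ᵥ ψ) := by
    simp only [Matrix.mulVec_mulVec]
    rw [← Matrix.add_mulVec, pluecker_b hxy hyz hxz]
  rw [e1, e2] at h1
  have i1 := nrm_add_le (H.oA n x *ᵥ (tOp n y z *ᵥ ψ)) (H.oA n z *ᵥ (tOp n x y *ᵥ ψ))
  have i2 := nrm_add_le (H.oB n x *ᵥ (tOp n y z *ᵥ ψ)) (H.oB n z *ᵥ (tOp n x y *ᵥ ψ))
  set P := Real.sqrt n * nrm (tOp n y z *ᵥ ψ) with hP
  set Q := Real.sqrt n * nrm (tOp n x y *ᵥ ψ) with hQ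
  have hs : Real.sqrt n ^ 2 = n := Real.sq_sqrt hnR.le
  have hP2 : P ^ 2 = n * nrm (tOp n y z *ᵥ ψ) ^ 2 := by rw [hP, mul_pow, hs]
  have hQ2 : Q ^ 2 = n * nrm (tOp n x y *ᵥ ψ) ^ 2 := by rw [hQ, mul_pow, hs]
  have hspos : 0 < Real.sqrt n := Real.sqrt_pos.2 hnR
  have m := minkowski_aux (P := P) (Q := Q)
    (mul_nonneg hspos.le (nrm_nonneg _)) (mul_nonneg hspos.le (nrm_nonneg _))
    (by rw [h2, hP2]) (by rw [h3, hQ2])
  have m2 : (n : ℝ) * nrm (tOp n x z *ᵥ ψ) ^ 2 ≤ (P + Q) ^ 2 := by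
    rw [← h1]
    refine le_trans (add_le_add (pow_le_pow_left₀ (nrm_nonneg _) i1 2)
      (pow_le_pow_left₀ (nrm_nonneg _) i2 2)) m
  have m3 : (Real.sqrt n * nrm (tOp n x z *ᵥ ψ)) ^ 2 ≤ (P + Q) ^ 2 := by
    rw [mul_pow, hs]; exact m2
  have m4 := abs_le_of_sq_le_sq' m3 (add_nonneg (mul_nonneg hspos.le (nrm_nonneg _))
    (mul_nonneg hspos.le (nrm_nonneg _)))
  have m5 : Real.sqrt n * nrm (tOp n x z *ᵥ ψ) ≤
      Real.sqrt n * (nrm (tOp n x y *ᵥ ψ) + nrm (tOp n y z *ᵥ ψ)) := by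
    calc _ ≤ P + Q := m4.2
      _ = _ := by rw [hP, hQ]; ring
  exact le_of_mul_le_mul_left m5 hspos

open Classical in
/-- The pseudo-metric attached to a vector. -/
noncomputable def dst (n : ℕ) (Λ : Finset Site) (ψ : (Λ → Fin (n + 1)) → ℂ) (x y : Site) : ℝ :=
  if h : x ∈ Λ ∧ y ∈ Λ ∧ x ≠ y then nrm (tOp n ⟨x, h.1⟩ ⟨y, h.2.1⟩ *ᵥ ψ) else 0

theorem dst_coe (ψ : (Λ → Fin (n + 1)) → ℂ) {x y : Λ} (hxy : x ≠ y) :
    dst n Λ ψ x.1 y.1 = nrm (tOp n x y *ᵥ ψ) := by
  unfold dst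
  rw [dif_pos ⟨x.2, y.2, fun h => hxy (Subtype.ext h)⟩]

theorem dst_self (ψ : (Λ → Fin (n + 1)) → ℂ) (x : Site) : dst n Λ ψ x x = 0 := by
  unfold dst
  rw [dif_neg]
  intro h
  exact h.2.2 rfl

theorem dst_nonneg (ψ : (Λ → Fin (n + 1)) → ℂ) (x y : Site) : 0 ≤ dst n Λ ψ x y := by
  unfold dst
  split_ifs
  · exact nrm_nonneg _
  · exact le_rfl

theorem dst_symm (ψ : (Λ → Fin (n + 1)) → ℂ) (x y : Site) : dst n Λ ψ x y = dst n Λ ψ y x := by
  by_cases h : x ∈ Λ ∧ y ∈ Λ ∧ x ≠ y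
  · have h1 := dst_coe (n := n) ψ (x := ⟨x, h.1⟩) (y := ⟨y, h.2.1⟩)
      (fun h3 => h.2.2 (congrArg Subtype.val h3))
    have h2 := dst_coe (n := n) ψ (x := ⟨y, h.2.1⟩) (y := ⟨x, h.1⟩)
      (fun h3 => h.2.2 (congrArg Subtype.val h3).symm)
    simp only at h1 h2
    rw [h1, h2, tOp_symm (x := ⟨y, h.2.1⟩) (y := ⟨x, h.1⟩)
      (fun h3 => h.2.2 (congrArg Subtype.val h3).symm), Matrix.neg_mulVec, nrm_neg]
  · unfold dst
    rw [dif_neg h, dif_neg]
    rintro ⟨h1, h2, h3⟩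
    exact h ⟨h2, h1, h3.symm⟩

theorem dst_triangle (hn : 0 < n) (ψ : (Λ → Fin (n + 1)) → ℂ) {x y z : Site} (hx : x ∈ Λ)
    (hy : y ∈ Λ) (hz : z ∈ Λ) : dst n Λ ψ x z ≤ dst n Λ ψ x y + dst n Λ ψ y z := by
  by_cases hxz : x = z
  · subst hxz
    rw [dst_self]
    exact add_nonneg (dst_nonneg _ _ _) (dst_nonneg _ _ _)
  by_cases hxy : x = y
  · subst hxy
    rw [dst_self, zero_add]
  by_cases hyz : y = z
  · subst hyz
    rw [dst_self, add_zero]
  have e : ∀ {u v : Site} (hu : u ∈ Λ) (hv : v ∈ Λ), u ≠ v →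
      (⟨u, hu⟩ : Λ) ≠ ⟨v, hv⟩ := fun hu hv h h2 => h (congrArg Subtype.val h2)
  have h := t_triangle hn (e hx hy hxy) (e hy hz hyz) (e hx hz hxz) ψ
  have h1 := dst_coe (n := n) ψ (e hx hy hxy)
  have h2 := dst_coe (n := n) ψ (e hy hz hyz)
  have h3 := dst_coe (n := n) ψ (e hx hz hxz)
  simp only at h1 h2 h3
  rw [h1, h2, h3]
  exact h

end Metric

section Compare

variable {n : ℕ} {Λ : Finset Site}

theorem pair_quad {x y : Λ} (hxy : x ≠ y) (ψ : (Λ → Fin (n + 1)) → ℂ) :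
    star ψ ⬝ᵥ (((((n : ℂ) / 2) ^ 2) •
      (1 : Matrix (Λ → Fin (n + 1)) (Λ → Fin (n + 1)) ℂ) - H.dotOp n x y) *ᵥ ψ) =
      ((1 / 2 * dst n Λ ψ x.1 y.1 ^ 2 : ℝ) : ℂ) := by
  rw [tOp_sq hxy, Matrix.smul_mulVec, dotProduct_smul, star_dot, dst_coe ψ hxy]
  push_cast
  rfl

theorem casX_quad (ψ : (Λ → Fin (n + 1)) → ℂ) :
    star ψ ⬝ᵥ (casX n Λ *ᵥ ψ) =
      ((1 / 2 * ∑ x ∈ Λ, ∑ y ∈ Λ, dst n Λ ψ x y ^ 2 : ℝ) : ℂ) := by
  unfold casX
  rw [Matrix.sum_mulVec, dotProduct_sum]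
  have h1 : ∀ x y : Λ, star ψ ⬝ᵥ ((if x = y then 0 else
      ((((n : ℂ) / 2) ^ 2) • (1 : Matrix (Λ → Fin (n + 1)) (Λ → Fin (n + 1)) ℂ) -
        H.dotOp n x y)) *ᵥ ψ) = ((1 / 2 * dst n Λ ψ x.1 y.1 ^ 2 : ℝ) : ℂ) := by
    intro x y
    split_ifs with h
    · subst h
      rw [dst_self, Matrix.zero_mulVec, dotProduct_zero]
      simp
    · exact pair_quad h ψ
  have h2 : ∀ x : Λ, star ψ ⬝ᵥ ((∑ y : Λ, if x = y then 0 else
      ((((n : ℂ) / 2) ^ 2) • (1 : Matrix (Λ → Fin (n + 1)) (Λ → Fin (n + 1)) ℂ) -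
        H.dotOp n x y)) *ᵥ ψ) = ((1 / 2 * ∑ y ∈ Λ, dst n Λ ψ x.1 y ^ 2 : ℝ) : ℂ) := by
    intro x
    rw [Matrix.sum_mulVec, dotProduct_sum, Finset.sum_congr rfl fun y _ => h1 x y,
      ← Complex.ofReal_sum, ← Finset.mul_sum,
      Finset.sum_coe_sort Λ (fun y => dst n Λ ψ x.1 y ^ 2)]
  rw [Finset.sum_congr rfl fun x _ => h2 x, ← Complex.ofReal_sum, ← Finset.mul_sum,
    Finset.sum_coe_sort Λ (fun x => ∑ y ∈ Λ, dst n Λ ψ x y ^ 2)]

theorem hT_quad (ψ : (Λ → Fin (n + 1)) → ℂ) :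
    star ψ ⬝ᵥ (hT n Λ *ᵥ ψ) =
      ((1 / 4 * ∑ x ∈ Λ, ∑ y ∈ Λ, (if IsNN x y then dst n Λ ψ x y ^ 2 else 0) : ℝ) : ℂ) := by
  unfold hT
  rw [Matrix.smul_mulVec, dotProduct_smul, Matrix.sum_mulVec, dotProduct_sum]
  have h1 : ∀ x y : Λ, star ψ ⬝ᵥ ((if IsNN x.1 y.1 then
      ((((n : ℂ) / 2) ^ 2) • (1 : Matrix (Λ → Fin (n + 1)) (Λ → Fin (n + 1)) ℂ) -
        H.dotOp n x y) else 0) *ᵥ ψ) =
      ((1 / 2 * (if IsNN x.1 y.1 then dst n Λ ψ x.1 y.1 ^ 2 else 0) : ℝ) : ℂ) := by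
    intro x y
    split_ifs with h
    · exact pair_quad (by rintro rfl; exact isNN_irrefl _ h) ψ
    · rw [Matrix.zero_mulVec, dotProduct_zero]
      simp
  have h2 : ∀ x : Λ, star ψ ⬝ᵥ ((∑ y : Λ, if IsNN x.1 y.1 then
      ((((n : ℂ) / 2) ^ 2) • (1 : Matrix (Λ → Fin (n + 1)) (Λ → Fin (n + 1)) ℂ) -
        H.dotOp n x y) else 0) *ᵥ ψ) =
      ((1 / 2 * ∑ y ∈ Λ, (if IsNN x.1 y then dst n Λ ψ x.1 y ^ 2 else 0) : ℝ) : ℂ) := by
    intro x
    rw [Matrix.sum_mulVec, dotProduct_sum, Finset.sum_congr rfl fun y _ => h1 x y,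
      ← Complex.ofReal_sum, ← Finset.mul_sum,
      Finset.sum_coe_sort Λ (fun y => if IsNN x.1 y then dst n Λ ψ x.1 y ^ 2 else 0)]
  rw [Finset.sum_congr rfl fun x _ => h2 x, ← Complex.ofReal_sum, ← Finset.mul_sum,
    Finset.sum_coe_sort Λ (fun x => ∑ y ∈ Λ, if IsNN x y then dst n Λ ψ x y ^ 2 else 0)]
  rw [smul_eq_mul]
  push_cast
  ring

theorem casX_isHermitian : (casX n Λ).IsHermitian := by
  rw [Matrix.IsHermitian, casX, Matrix.conjTranspose_sum]
  refine Finset.sum_congr rfl fun x _ => ?_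
  rw [Matrix.conjTranspose_sum]
  refine Finset.sum_congr rfl fun y _ => ?_
  split_ifs with h
  · simp
  · rw [tOp_sq h, Matrix.conjTranspose_smul, Matrix.conjTranspose_mul,
      Matrix.conjTranspose_conjTranspose]
    simp

/-- `∑_{x≠y} (S² - S_x·S_y) ≤ 3 L⁵ H̃` on the cube. -/
theorem casX_le_hT (hn : 0 < n) (L : ℕ) :
    (((3 * (L : ℝ) ^ 5 : ℝ) : ℂ) • hT n (cube L) - casX n (cube L)).PosSemidef := by
  rw [Matrix.posSemidef_iff_dotProduct_mulVec]
  refine ⟨?_, fun ψ => ?_⟩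
  · rw [Matrix.IsHermitian, Matrix.conjTranspose_sub, Matrix.conjTranspose_smul,
      hT_isHermitian, casX_isHermitian]
    simp
  · rw [Matrix.sub_mulVec, dotProduct_sub, Matrix.smul_mulVec, dotProduct_smul, hT_quad,
      casX_quad, smul_eq_mul, ← Complex.ofReal_mul, ← Complex.ofReal_sub, Complex.zero_le_real]
    have h := path_sum L (D := dst n (cube L) ψ) (dst_self ψ) (dst_symm ψ) (dst_nonneg ψ)
      (fun x y z hx hy hz => dst_triangle hn ψ hx hy hz)
    nlinarith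

/-- (D2), comparison with a product over sites. -/
theorem Zt_le_prod (hn : 0 < n) {L : ℕ} (hL : 0 < L) {β : ℝ} (hβ : 0 ≤ β) :
    Zt n (cube L) β 0 ≤ 2 * ((n : ℝ) * (L : ℝ) ^ 3 + 1) *
      (∑ j ∈ Finset.range (n + 1), Real.exp (-(n * β / (6 * (L : ℝ) ^ 2))) ^ j) ^ (L ^ 3) := by
  have hLR : (0 : ℝ) < L := by exact_mod_cast hL
  set s : ℝ := β / (3 * (L : ℝ) ^ 5) with hs
  have hs0 : 0 ≤ s := by positivity
  have hcard : ((cube L).card : ℝ) = (L : ℝ) ^ 3 := by
    rw [cube_eq, card_cube]; push_cast; rfl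
  have h1 : Zt n (cube L) β 0 ≤ (trace (NormedSpace.exp (((-s : ℝ) : ℂ) • casX n (cube L)))).re := by
    refine trace_exp_mono (expo_isHermitian' (n := n) (Λ := cube L) β 0) ?_ ?_
    · rw [Matrix.IsHermitian, Matrix.conjTranspose_smul, casX_isHermitian]
      simp
    · have e : ((-s : ℝ) : ℂ) • casX n (cube L) -
          -((β : ℂ) • hT n (cube L) + ((0 : ℝ) : ℂ) • numOp n (cube L)) =
          (s : ℂ) • (((3 * (L : ℝ) ^ 5 : ℝ) : ℂ) • hT n (cube L) - casX n (cube L)) := by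
        have e2 : (β : ℂ) = (s : ℂ) * ((3 * (L : ℝ) ^ 5 : ℝ) : ℂ) := by
          rw [← Complex.ofReal_mul]
          congr 1
          rw [hs]
          field_simp
        rw [e2]
        push_cast
        module
      rw [e]
      exact (casX_le_hT hn L).smul (by simpa using hs0)
  have h2 := trace_exp_casX_le (n := n) (Λ := cube L) s
  have h3 := sum_exp_cj_le (n := n) (Λ := cube L) hs0
    (z := Real.exp (-s * ((n : ℝ) * (cube L).card / 2))) rfl
  rw [hcard] at h2 h3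
  have h4 : Real.exp (-s * ((n : ℝ) * (L : ℝ) ^ 3 / 2)) =
      Real.exp (-(n * β / (6 * (L : ℝ) ^ 2))) := by
    congr 1
    rw [hs]
    field_simp
    ring
  have h5 : (cube L).card = L ^ 3 := by rw [cube_eq, card_cube]
  rw [h4, h5] at h3
  refine h1.trans (h2.trans ?_)
  calc ((n : ℝ) * (L : ℝ) ^ 3 + 1) * ∑ σ : cube L → Fin (n + 1),
        Real.exp (-s * cj n (cube L) (cntS σ)) ≤ ((n : ℝ) * (L : ℝ) ^ 3 + 1) *
        (2 * (∑ j ∈ Finset.range (n + 1), Real.exp (-(n * β / (6 * (L : ℝ) ^ 2))) ^ j) ^ (L ^ 3)) :=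
        mul_le_mul_of_nonneg_left h3 (by positivity)
    _ = _ := by ring

/-- (D2) -/
theorem Zt_le_crude (hn : 0 < n) {L : ℕ} (hL : 0 < L) {β : ℝ} (hβ : 0 < β) :
    Zt n (cube L) β 0 ≤ 2 * ((n : ℝ) * (L : ℝ) ^ 3 + 1) *
      ((1 - Real.exp (-(n * β / (6 * (L : ℝ) ^ 2))))⁻¹) ^ (L ^ 3) := by
  have hLR : (0 : ℝ) < L := by exact_mod_cast hL
  have hnR : (0 : ℝ) < n := by exact_mod_cast hn
  refine (Zt_le_prod hn hL hβ.le).trans ?_
  set z := Real.exp (-(n * β / (6 * (L : ℝ) ^ 2))) with hz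
  have hz0 : 0 < z := Real.exp_pos _
  have hz1 : z < 1 := by
    rw [hz, Real.exp_lt_one_iff]
    have : 0 < n * β / (6 * (L : ℝ) ^ 2) := by positivity
    linarith
  have h1 : ∑ j ∈ Finset.range (n + 1), z ^ j ≤ (1 - z)⁻¹ := by
    rw [← tsum_geometric_of_lt_one hz0.le hz1]
    exact (summable_geometric_of_lt_one hz0.le hz1).sum_le_tsum _ (fun _ _ => by positivity)
  have h2 : (∑ j ∈ Finset.range (n + 1), z ^ j) ^ (L ^ 3) ≤ ((1 - z)⁻¹) ^ (L ^ 3) :=
    pow_le_pow_left₀ (Finset.sum_nonneg fun _ _ => by positivity) h1 _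
  exact mul_le_mul_of_nonneg_left h2 (by positivity)

/-- (D2), logarithmic form. -/
theorem log_Zt_le_crude (hn : 0 < n) {L : ℕ} (hL : 0 < L) {β : ℝ} (hβ : 0 < β)
    (hz : Real.exp (-(n * β / (6 * (L : ℝ) ^ 2))) ≤ 1 / 2) :
    Real.log (Zt n (cube L) β 0) ≤ Real.log (2 * ((n : ℝ) * (L : ℝ) ^ 3 + 1)) +
      2 * (L : ℝ) ^ 3 * Real.exp (-(n * β / (6 * (L : ℝ) ^ 2))) := by
  have h := Real.log_le_log (Zt_pos β 0) (Zt_le_crude hn hL hβ)
  have hLR : (0 : ℝ) < L := by exact_mod_cast hL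
  have hnR : (0 : ℝ) < n := by exact_mod_cast hn
  set z := Real.exp (-(n * β / (6 * (L : ℝ) ^ 2))) with hzdef
  have hz0 : 0 < z := Real.exp_pos _
  have h1 : (0 : ℝ) < 1 - z := by linarith
  rw [Real.log_mul (by positivity) (by positivity), Real.log_pow] at h
  have h2 : Real.log (1 - z)⁻¹ ≤ (1 - z)⁻¹ - 1 := Real.log_le_sub_one_of_pos (by positivity)
  have h3 : (1 - z)⁻¹ - 1 ≤ 2 * z := by
    have : (1 - z)⁻¹ - 1 = z / (1 - z) := by field_simp; ring
    rw [this, div_le_iff₀ h1]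
    nlinarith
  have h4 : ((L ^ 3 : ℕ) : ℝ) * Real.log (1 - z)⁻¹ ≤ ((L ^ 3 : ℕ) : ℝ) * (2 * z) :=
    mul_le_mul_of_nonneg_left (h2.trans h3) (by positivity)
  have h5 : ((L ^ 3 : ℕ) : ℝ) * (2 * z) = 2 * (L : ℝ) ^ 3 * z := by push_cast; ring
  linarith

end Compare

end Vale.Agent.P361.B
end

section

/-!
Shared definitions for the operator part (spin 1/2 on a finite set of sites `V`).
-/

namespace Vale.Agent.P361.LRO.Energy

open Matrix Finset

noncomputable section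

/-- Spin-1/2 configurations, `0` = up. -/
abbrev Cfg (V : Type*) := V → Fin 2

variable {V : Type*} [Fintype V] [DecidableEq V]

/-- The permutation operator `P_{xy}` on configurations. -/
def swapM (x y : V) : Matrix (Cfg V) (Cfg V) ℂ :=
  Matrix.of fun σ τ => if σ ∘ Equiv.swap x y = τ then 1 else 0

/-- The singlet projector `h_{xy} = (1 - P_{xy})/2`. -/
def hM (x y : V) : Matrix (Cfg V) (Cfg V) ℂ := (1 / 2 : ℂ) • (1 - swapM x y)

/-- `S³_x`. -/
def szM (x : V) : Matrix (Cfg V) (Cfg V) ℂ :=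
  Matrix.diagonal fun σ => if σ x = 0 then (1 / 2 : ℂ) else -(1 / 2)

/-- Gibbs expectation `tr (e^X A) / tr e^X`. -/
def ex {ι : Type*} [Fintype ι] [DecidableEq ι] (X A : Matrix ι ι ℂ) : ℝ :=
  (trace (NormedSpace.exp X * A)).re / (trace (NormedSpace.exp X)).re

end

end Vale.Agent.P361.LRO.Energy
end

section

/-! # P361 LRO, block (7): trace lemmas (helper348)

`tr exp` of a principal submatrix; `tr exp (X ⊗ 1)`. -/

namespace Vale.Agent.P361.LRO.Energy

open Matrix Finset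
open scoped ComplexOrder Kronecker

variable {ι κ : Type*} [Fintype ι] [DecidableEq ι] [Fintype κ] [DecidableEq κ]

/-- `tr exp` of a principal submatrix (block form) -/
theorem tr_exp_block_le {μ : Type*} [Fintype μ] [DecidableEq μ] {W : Matrix (κ ⊕ μ) (κ ⊕ μ) ℂ}
    (hW : W.IsHermitian) :
    (trace (NormedSpace.exp (W.submatrix Sum.inl Sum.inl))).re ≤ (trace (NormedSpace.exp W)).re := by
  have hA : (W.submatrix (Sum.inl : κ → κ ⊕ μ) Sum.inl).IsHermitian := hW.submatrix _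
  set A := W.submatrix (Sum.inl : κ → κ ⊕ μ) Sum.inl with hAdef
  set U := (hA.eigenvectorUnitary : Matrix κ κ ℂ) with hU
  have hUU : star U * U = 1 := Unitary.coe_star_mul_self _
  set V : Matrix (κ ⊕ μ) (κ ⊕ μ) ℂ := Matrix.fromBlocks U 0 0 1 with hV
  have hstar : star V = Matrix.fromBlocks (star U) 0 0 1 := by
    rw [hV, Matrix.star_eq_conjTranspose, Matrix.fromBlocks_conjTranspose]
    simp [Matrix.star_eq_conjTranspose]
  have hVV : star V * V = 1 := by
    rw [hstar, hV, Matrix.fromBlocks_multiply]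
    simp [hUU, Matrix.fromBlocks_one]
  have hWb : W = Matrix.fromBlocks A W.toBlocks₁₂ W.toBlocks₂₁ W.toBlocks₂₂ := by
    conv_lhs => rw [← Matrix.fromBlocks_toBlocks W]
    rfl
  have hP := peierls hW hVV
  refine le_trans ?_ hP
  rw [Fintype.sum_sum_type, trace_exp_re hA]
  have hx : ∀ i : κ, ((star V * W * V) (Sum.inl i) (Sum.inl i)).re = hA.eigenvalues i := by
    intro i
    have h2 : (star V * W * V) (Sum.inl i) (Sum.inl i) = (star U * A * U) i i := by
      rw [hstar, hV, hWb, Matrix.fromBlocks_multiply, Matrix.fromBlocks_multiply,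
        Matrix.fromBlocks_apply₁₁]
      simp
    rw [h2]
    have h1 : A = U * diagonal (RCLike.ofReal ∘ hA.eigenvalues) * star U := by
      have := hA.spectral_theorem
      rwa [Unitary.conjStarAlgAut_apply] at this
    have h3 : star U * A * U = diagonal (RCLike.ofReal ∘ hA.eigenvalues) := by
      calc star U * A * U = star U * (U * diagonal (RCLike.ofReal ∘ hA.eigenvalues) * star U) * U := by
            rw [← h1]
        _ = (star U * U) * diagonal (RCLike.ofReal ∘ hA.eigenvalues) * (star U * U) := by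
            simp only [Matrix.mul_assoc]
        _ = _ := by rw [hUU, Matrix.one_mul, Matrix.mul_one]
    rw [h3, Matrix.diagonal_apply_eq]
    simp
  simp only [hx]
  exact le_add_of_nonneg_right (Finset.sum_nonneg fun i _ => (Real.exp_pos _).le)

/-- `tr exp` of a principal submatrix -/
theorem tr_exp_submatrix_le {W : Matrix ι ι ℂ} (hW : W.IsHermitian) {f : κ → ι}
    (hf : Function.Injective f) :
    (trace (NormedSpace.exp (W.submatrix f f))).re ≤ (trace (NormedSpace.exp W)).re := by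
  classical
  let e : κ ⊕ ↥(Set.range f)ᶜ ≃ ι :=
    (Equiv.sumCongr (Equiv.ofInjective f hf) (Equiv.refl _)).trans (Equiv.Set.sumCompl (Set.range f))
  have he : ∀ k, e (Sum.inl k) = f k := by
    intro k
    simp [e]
  have h1 := tr_exp_block_le (hW.submatrix (e : κ ⊕ ↥(Set.range f)ᶜ → ι))
  rw [trace_exp_submatrix] at h1
  have h2 : (W.submatrix (e : κ ⊕ ↥(Set.range f)ᶜ → ι) e).submatrix (Sum.inl : κ → _) Sum.inl =
      W.submatrix f f := by
    ext i j
    simp only [Matrix.submatrix_apply, he]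
  rwa [h2] at h1

/-- `tr exp (X ⊗ 1)` -/
theorem tr_exp_kron_one {α β γ : Type*} [Fintype α] [DecidableEq α] [Fintype β] [DecidableEq β]
    [Fintype γ] [DecidableEq γ] (e : α × β ≃ γ) {X : Matrix α α ℂ} {Y : Matrix γ γ ℂ}
    (h : Y.submatrix e e = X ⊗ₖ (1 : Matrix β β ℂ)) :
    (trace (NormedSpace.exp Y)).re = Fintype.card β * (trace (NormedSpace.exp X)).re := by
  rw [← trace_exp_submatrix e, h]
  have h1 : X ⊗ₖ (1 : Matrix β β ℂ) = Matrix.blockDiagonal fun _ : β => X := by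
    ext ⟨i, k⟩ ⟨j, l⟩
    simp only [Matrix.kroneckerMap_apply, Matrix.blockDiagonal_apply, Matrix.one_apply]
    split_ifs <;> simp
  rw [h1, Matrix.exp_blockDiagonal, Matrix.trace_blockDiagonal]
  have h2 : ∀ k : β, (NormedSpace.exp fun _ : β => X) k = NormedSpace.exp X := by
    intro k
    open scoped Matrix.Norms.Operator in
    exact congrFun (Pi.exp_def (fun _ : β => X)) k
  simp only [h2, Finset.sum_const, Finset.card_univ, nsmul_eq_mul]
  rw [← Complex.ofReal_natCast, Complex.re_ofReal_mul]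

end Vale.Agent.P361.LRO.Energy
end

section

/-! # P361 LRO, block (7a): energy bound by Peierls–Bogoliubov (helper348)

`β ∑_{e touches Q} c_e ⟨h_e⟩ ≤ |Q| log 2 + β ∑_{e ∈ ∂Q} c_e` for any finite family of bonds `e = {a e, b e}` with weights `c e ≥ 0` and any
fields `h_x ≥ 0` on `Q` (arbitrary outside `Q`). -/

namespace Vale.Agent.P361.LRO.Energy

open Matrix Finset
open scoped ComplexOrder Kronecker

set_option linter.unusedSectionVars false

noncomputable section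

variable {V : Type*} [Fintype V] [DecidableEq V]

theorem comp_swap_swap (x y : V) (σ : Cfg V) : (σ ∘ Equiv.swap x y) ∘ Equiv.swap x y = σ := by
  ext z; simp

theorem swapM_isHermitian (x y : V) : (swapM x y).IsHermitian := by
  ext σ τ
  simp only [Matrix.conjTranspose_apply, swapM, Matrix.of_apply]
  have h : (τ ∘ Equiv.swap x y = σ) ↔ (σ ∘ Equiv.swap x y = τ) := by
    constructor
    · rintro rfl; exact comp_swap_swap x y τ
    · rintro rfl; exact comp_swap_swap x y σ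
  simp only [h]
  split_ifs <;> simp

theorem swapM_sq (x y : V) : swapM x y * swapM x y = 1 := by
  ext σ τ
  rw [Matrix.mul_apply]
  simp only [swapM, Matrix.of_apply]
  rw [Finset.sum_eq_single (σ ∘ Equiv.swap x y)]
  · rw [if_pos rfl, one_mul, comp_swap_swap, Matrix.one_apply]
  · intro ρ _ hρ
    rw [if_neg (fun h => hρ h.symm), zero_mul]
  · intro h; exact absurd (Finset.mem_univ _) h

theorem hM_isHermitian (x y : V) : (hM x y).IsHermitian := by
  unfold hM
  have h1 : ((1 : Matrix (Cfg V) (Cfg V) ℂ) - swapM x y).IsHermitian :=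
    Matrix.isHermitian_one.sub (swapM_isHermitian x y)
  ext σ τ
  have := congrFun (congrFun h1 σ) τ
  rw [Matrix.conjTranspose_apply] at this
  rw [Matrix.conjTranspose_apply, Matrix.smul_apply, Matrix.smul_apply, star_smul, this]
  simp

theorem hM_sq (x y : V) : hM x y * hM x y = hM x y := by
  unfold hM
  rw [Matrix.smul_mul, Matrix.mul_smul, Matrix.sub_mul, Matrix.mul_sub, Matrix.mul_sub, swapM_sq,
    Matrix.mul_one, Matrix.one_mul, Matrix.mul_one]
  module

theorem hM_posSemidef (x y : V) : (hM x y).PosSemidef := by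
  have h : hM x y = (hM x y)ᴴ * hM x y := by
    rw [(hM_isHermitian x y).eq, hM_sq]
  rw [h]
  exact Matrix.posSemidef_conjTranspose_mul_self _

theorem one_sub_hM_posSemidef (x y : V) : ((1 : Matrix (Cfg V) (Cfg V) ℂ) - hM x y).PosSemidef := by
  have h0 : ((1 : Matrix (Cfg V) (Cfg V) ℂ) - hM x y).IsHermitian :=
    Matrix.isHermitian_one.sub (hM_isHermitian x y)
  have h : (1 : Matrix (Cfg V) (Cfg V) ℂ) - hM x y =
      ((1 : Matrix (Cfg V) (Cfg V) ℂ) - hM x y)ᴴ * ((1 : Matrix (Cfg V) (Cfg V) ℂ) - hM x y) := by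
    rw [h0.eq, Matrix.sub_mul, Matrix.mul_sub, Matrix.mul_sub, hM_sq, Matrix.mul_one,
      Matrix.one_mul, Matrix.mul_one]
    abel
  rw [h]
  exact Matrix.posSemidef_conjTranspose_mul_self _

theorem szM_isHermitian (x : V) : (szM x).IsHermitian := by
  unfold szM
  rw [Matrix.isHermitian_diagonal_iff]
  intro σ
  split_ifs <;> simp [IsSelfAdjoint]

theorem half_sub_szM_posSemidef (x : V) :
    ((1 / 2 : ℂ) • (1 : Matrix (Cfg V) (Cfg V) ℂ) - szM x).PosSemidef := by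
  have h : (1 / 2 : ℂ) • (1 : Matrix (Cfg V) (Cfg V) ℂ) - szM x =
      Matrix.diagonal fun σ : Cfg V => if σ x = 0 then (0 : ℂ) else 1 := by
    ext σ τ
    by_cases hστ : σ = τ
    · subst hστ
      simp only [Matrix.sub_apply, Matrix.smul_apply, Matrix.one_apply_eq, szM,
        Matrix.diagonal_apply_eq, smul_eq_mul]
      split_ifs <;> norm_num
    · simp [szM, hστ]
  rw [h]
  refine Matrix.PosSemidef.diagonal fun σ => ?_
  simp only [Pi.zero_apply]
  split_ifs <;> simp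

theorem smul_real_posSemidef {ι : Type*} [Fintype ι] [DecidableEq ι] {A : Matrix ι ι ℂ} (hA : A.PosSemidef)
    {c : ℝ} (hc : 0 ≤ c) : ((c : ℂ) • A).PosSemidef :=
  Matrix.PosSemidef.smul hA (by simpa using hc)

theorem smul_real_isHermitian {ι : Type*} [Fintype ι] [DecidableEq ι] {A : Matrix ι ι ℂ} (hA : A.IsHermitian)
    (c : ℝ) : ((c : ℂ) • A).IsHermitian := by
  rw [Matrix.IsHermitian, Matrix.conjTranspose_smul, hA.eq]
  simp

theorem sum_isHermitian {ι κ : Type*} [Fintype ι] [DecidableEq ι] (s : Finset κ) {A : κ → Matrix ι ι ℂ}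
    (hA : ∀ k ∈ s, (A k).IsHermitian) : (∑ k ∈ s, A k).IsHermitian := by
  classical
  induction s using Finset.induction_on with
  | empty => simp
  | insert a s ha ih =>
    rw [Finset.sum_insert ha]
    exact (hA a (Finset.mem_insert_self _ _)).add (ih fun k hk => hA k (Finset.mem_insert_of_mem hk))

/-! ### Splitting off `Q` -/

variable (Q : Finset V)

/-- configurations outside / inside `Q` -/
def splitQ : ((({x // x ∉ Q}) → Fin 2) × (({x // ¬ x ∉ Q}) → Fin 2)) ≃ Cfg V :=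
  (Equiv.piEquivPiSubtypeProd (fun x => x ∉ Q) (fun _ => Fin 2)).symm

/-- extension by `up` -/
def extQ (s : ({x // x ∉ Q}) → Fin 2) : Cfg V := splitQ Q (s, 0)

variable {Q}

theorem splitQ_out (p : (({x // x ∉ Q}) → Fin 2) × (({x // ¬ x ∉ Q}) → Fin 2)) {x : V} (hx : x ∉ Q) :
    splitQ Q p x = p.1 ⟨x, hx⟩ := by
  simp [splitQ, Equiv.piEquivPiSubtypeProd, hx]

theorem splitQ_in (p : (({x // x ∉ Q}) → Fin 2) × (({x // ¬ x ∉ Q}) → Fin 2)) {x : V} (hx : ¬ x ∉ Q) :
    splitQ Q p x = p.2 ⟨x, hx⟩ := by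
  simp only [splitQ, Equiv.piEquivPiSubtypeProd, Equiv.coe_fn_symm_mk]
  rw [dif_neg hx]

theorem extQ_out (s : ({x // x ∉ Q}) → Fin 2) {x : V} (hx : x ∉ Q) : extQ Q s x = s ⟨x, hx⟩ :=
  splitQ_out (s, 0) hx

theorem extQ_injective : Function.Injective (extQ Q) := by
  intro s t h
  have := (splitQ Q).injective h
  exact (Prod.mk.inj this).1

/-- an operator which does not act on `Q` -/
def OffQ (Q : Finset V) (A : Matrix (Cfg V) (Cfg V) ℂ) : Prop :=
  ∀ s t q q', A (splitQ Q (s, q)) (splitQ Q (t, q')) = if q = q' then A (extQ Q s) (extQ Q t) else 0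

theorem offQ_add {A B : Matrix (Cfg V) (Cfg V) ℂ} (hA : OffQ Q A) (hB : OffQ Q B) : OffQ Q (A + B) := by
  intro s t q q'
  simp only [Matrix.add_apply, hA s t q q', hB s t q q']
  split_ifs <;> simp

theorem offQ_smul (c : ℂ) {A : Matrix (Cfg V) (Cfg V) ℂ} (hA : OffQ Q A) : OffQ Q (c • A) := by
  intro s t q q'
  simp only [Matrix.smul_apply, hA s t q q']
  split_ifs <;> simp

theorem offQ_sub {A B : Matrix (Cfg V) (Cfg V) ℂ} (hA : OffQ Q A) (hB : OffQ Q B) : OffQ Q (A - B) := by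
  intro s t q q'
  simp only [Matrix.sub_apply, hA s t q q', hB s t q q']
  split_ifs <;> simp

theorem offQ_sum {κ : Type*} (s : Finset κ) {A : κ → Matrix (Cfg V) (Cfg V) ℂ} (hA : ∀ k ∈ s, OffQ Q (A k)) :
    OffQ Q (∑ k ∈ s, A k) := by
  classical
  induction s using Finset.induction_on with
  | empty =>
    intro s t q q'
    simp
  | insert a s ha ih =>
    rw [Finset.sum_insert ha]
    exact offQ_add (hA a (Finset.mem_insert_self _ _)) (ih fun k hk => hA k (Finset.mem_insert_of_mem hk))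

theorem splitQ_eq_iff (s t : ({x // x ∉ Q}) → Fin 2) (q q' : ({x // ¬ x ∉ Q}) → Fin 2) :
    splitQ Q (s, q) = splitQ Q (t, q') ↔ q = q' ∧ extQ Q s = extQ Q t := by
  rw [(splitQ Q).injective.eq_iff, extQ_injective.eq_iff, Prod.mk.injEq]
  exact and_comm

theorem offQ_one : OffQ Q (1 : Matrix (Cfg V) (Cfg V) ℂ) := by
  intro s t q q'
  simp only [Matrix.one_apply, splitQ_eq_iff]
  split_ifs <;> simp_all

theorem offQ_szM {x : V} (hx : x ∉ Q) : OffQ Q (szM x) := by
  intro s t q q'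
  simp only [szM, Matrix.diagonal_apply, splitQ_eq_iff, extQ_out _ hx, splitQ_out _ hx]
  by_cases h1 : q = q'
  · simp [h1]
  · simp [h1]

theorem swap_comp_split {x y : V} (hx : x ∉ Q) (hy : y ∉ Q) (s : ({x // x ∉ Q}) → Fin 2)
    (q : ({x // ¬ x ∉ Q}) → Fin 2) : splitQ Q (s, q) ∘ Equiv.swap x y =
      splitQ Q (s ∘ Equiv.swap ⟨x, hx⟩ ⟨y, hy⟩, q) := by
  funext z
  by_cases hz : z ∉ Q
  · rw [splitQ_out _ hz, Function.comp_apply]
    have h1 : Equiv.swap x y z = ((Equiv.swap (⟨x, hx⟩ : {x // x ∉ Q}) ⟨y, hy⟩ ⟨z, hz⟩ : {x // x ∉ Q}) : V) := by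
      rw [Equiv.swap_apply_def, Equiv.swap_apply_def]
      simp only [Subtype.mk.injEq]
      split_ifs <;> rfl
    have h2 : Equiv.swap x y z ∉ Q := by
      rw [h1]
      exact (Equiv.swap (⟨x, hx⟩ : {x // x ∉ Q}) ⟨y, hy⟩ ⟨z, hz⟩).property
    rw [splitQ_out _ h2]
    simp only [Function.comp_apply]
    congr 1
    exact Subtype.ext h1
  · have h1 : z ≠ x := by rintro rfl; exact hz hx
    have h2 : z ≠ y := by rintro rfl; exact hz hy
    rw [splitQ_in _ hz, Function.comp_apply, Equiv.swap_apply_of_ne_of_ne h1 h2, splitQ_in _ hz]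

theorem offQ_swapM {x y : V} (hx : x ∉ Q) (hy : y ∉ Q) : OffQ Q (swapM x y) := by
  intro s t q q'
  have h0 : extQ Q s ∘ Equiv.swap x y = extQ Q (s ∘ Equiv.swap ⟨x, hx⟩ ⟨y, hy⟩) :=
    swap_comp_split hx hy s 0
  simp only [swapM, Matrix.of_apply, h0, swap_comp_split hx hy, splitQ_eq_iff]
  by_cases h1 : q = q'
  · simp [h1]
  · simp [h1]

theorem offQ_hM {x y : V} (hx : x ∉ Q) (hy : y ∉ Q) : OffQ Q (hM x y) :=
  offQ_smul _ (offQ_sub offQ_one (offQ_swapM hx hy))

theorem tr_exp_offQ {A : Matrix (Cfg V) (Cfg V) ℂ} (hA : OffQ Q A) :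
    (trace (NormedSpace.exp A)).re =
      (2 : ℝ) ^ Q.card * (trace (NormedSpace.exp (A.submatrix (extQ Q) (extQ Q)))).re := by
  have h : A.submatrix (splitQ Q) (splitQ Q) =
      (A.submatrix (extQ Q) (extQ Q)) ⊗ₖ (1 : Matrix (({x // ¬ x ∉ Q}) → Fin 2) (({x // ¬ x ∉ Q}) → Fin 2) ℂ) := by
    ext ⟨s, q⟩ ⟨t, q'⟩
    rw [Matrix.submatrix_apply, hA s t q q', Matrix.kroneckerMap_apply, Matrix.one_apply,
      Matrix.submatrix_apply]
    split_ifs <;> simp
  rw [tr_exp_kron_one (splitQ Q) h]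
  congr 1
  rw [Fintype.card_fun, Fintype.card_fin]
  have : Fintype.card {x // ¬ x ∉ Q} = Q.card := by
    rw [Fintype.card_subtype]
    congr 1
    ext x
    simp
  rw [this]
  push_cast
  rfl

/-- both ends in `Q`: no energy when `Q` is up -/
theorem hM_sub_in {x y : V} (hx : x ∈ Q) (hy : y ∈ Q) : (hM x y).submatrix (extQ Q) (extQ Q) = 0 := by
  ext s t
  have h1 : extQ Q s ∘ Equiv.swap x y = extQ Q s := by
    funext z
    simp only [Function.comp_apply, extQ]
    have h0 : ∀ {w : V}, w ∈ Q → splitQ Q (s, 0) w = 0 := by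
      intro w hw
      rw [splitQ_in _ (not_not.2 hw)]
      rfl
    rcases eq_or_ne z x with rfl | hzx
    · rw [Equiv.swap_apply_left, h0 hy, h0 hx]
    · rcases eq_or_ne z y with rfl | hzy
      · rw [Equiv.swap_apply_right, h0 hx, h0 hy]
      · rw [Equiv.swap_apply_of_ne_of_ne hzx hzy]
  simp only [Matrix.submatrix_apply, hM, Matrix.smul_apply, Matrix.sub_apply, swapM, Matrix.of_apply, h1,
    Matrix.one_apply, sub_self, smul_zero, Matrix.zero_apply]

theorem szM_sub_in {x : V} (hx : x ∈ Q) : (szM x).submatrix (extQ Q) (extQ Q) =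
    (1 / 2 : ℂ) • (1 : Matrix (({x // x ∉ Q}) → Fin 2) (({x // x ∉ Q}) → Fin 2) ℂ) := by
  ext s t
  have h0 : extQ Q s x = 0 := by
    rw [extQ, splitQ_in _ (not_not.2 hx)]
    rfl
  by_cases hst : s = t
  · subst hst
    simp [szM, h0]
  · have : extQ Q s ≠ extQ Q t := fun h => hst (extQ_injective h)
    simp [szM, this, hst]

variable {ι : Type*} [Fintype ι] [DecidableEq ι]

/-- exponent of the Gibbs state: `β (∑_x h_x S³_x - ∑_e c_e h_e)` -/
def gibX (β : ℝ) (h : V → ℝ) (a b : ι → V) (c : ι → ℝ) : Matrix (Cfg V) (Cfg V) ℂ :=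
  ∑ x, ((β * h x : ℝ) : ℂ) • szM x - ∑ e, ((β * c e : ℝ) : ℂ) • hM (a e) (b e)

theorem gibX_isHermitian (β : ℝ) (h : V → ℝ) (a b : ι → V) (c : ι → ℝ) : (gibX β h a b c).IsHermitian :=
  (sum_isHermitian _ fun _ _ => smul_real_isHermitian (szM_isHermitian _) _).sub
    (sum_isHermitian _ fun _ _ => smul_real_isHermitian (hM_isHermitian _ _) _)

theorem ex_add (X A B : Matrix (Cfg V) (Cfg V) ℂ) : ex X (A + B) = ex X A + ex X B := by
  unfold ex
  rw [Matrix.mul_add, Matrix.trace_add, Complex.add_re, add_div]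

theorem ex_smul (X : Matrix (Cfg V) (Cfg V) ℂ) (c : ℝ) (A : Matrix (Cfg V) (Cfg V) ℂ) :
    ex X ((c : ℂ) • A) = c * ex X A := by
  unfold ex
  rw [Matrix.mul_smul, Matrix.trace_smul, smul_eq_mul, Complex.re_ofReal_mul, mul_div_assoc]

theorem ex_zero (X : Matrix (Cfg V) (Cfg V) ℂ) : ex X 0 = 0 := by
  simp [ex]

theorem ex_sum {κ : Type*} (X : Matrix (Cfg V) (Cfg V) ℂ) (s : Finset κ) (A : κ → Matrix (Cfg V) (Cfg V) ℂ) :
    ex X (∑ k ∈ s, A k) = ∑ k ∈ s, ex X (A k) := by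
  classical
  induction s using Finset.induction_on with
  | empty => simp [ex_zero]
  | insert a s ha ih => rw [Finset.sum_insert ha, Finset.sum_insert ha, ex_add, ih]

/-- **(7a)** energy of the bonds touching `Q` -/
theorem energy_le {β : ℝ} (hβ : 0 ≤ β) (h : V → ℝ) (a b : ι → V) {c : ι → ℝ} (hc : ∀ e, 0 ≤ c e) (Q : Finset V)
    (hh : ∀ x ∈ Q, 0 ≤ h x) :
    β * ∑ e with (a e ∈ Q ∨ b e ∈ Q), c e * ex (gibX β h a b c) (hM (a e) (b e)) ≤
      Q.card * Real.log 2 + β * ∑ e with ((a e ∈ Q ∨ b e ∈ Q) ∧ ¬ (a e ∈ Q ∧ b e ∈ Q)), c e := by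
  classical
  set X := gibX β h a b c with hX
  have hXh : X.IsHermitian := gibX_isHermitian β h a b c
  -- the part of the Hamiltonian touching Q
  set T : Finset ι := Finset.univ.filter fun e => (a e ∈ Q ∨ b e ∈ Q) with hT
  set Y : Matrix (Cfg V) (Cfg V) ℂ := ∑ e ∈ T, ((β * c e : ℝ) : ℂ) • hM (a e) (b e) with hY
  have hYh : Y.IsHermitian := sum_isHermitian _ fun _ _ => smul_real_isHermitian (hM_isHermitian _ _) _
  have hPB := peierls_bogoliubov hXh hYh
  have hexY : (trace (NormedSpace.exp X * Y)).re / (trace (NormedSpace.exp X)).re =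
      β * ∑ e ∈ T, c e * ex X (hM (a e) (b e)) := by
    change ex X Y = _
    rw [hY, ex_sum, Finset.mul_sum]
    refine Finset.sum_congr rfl fun e _ => ?_
    rw [ex_smul]
    ring
  -- the operator off Q
  set A : Matrix (Cfg V) (Cfg V) ℂ := ∑ x with x ∉ Q, ((β * h x : ℝ) : ℂ) • szM x -
    ∑ e with ¬ (a e ∈ Q ∨ b e ∈ Q), ((β * c e : ℝ) : ℂ) • hM (a e) (b e) with hA
  have hAoff : OffQ Q A := by
    refine offQ_sub (offQ_sum _ fun x hx => offQ_smul _ (offQ_szM (Finset.mem_filter.1 hx).2))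
      (offQ_sum _ fun e he => offQ_smul _ ?_)
    have h2 := (Finset.mem_filter.1 he).2
    rw [not_or] at h2
    exact offQ_hM h2.1 h2.2
  have hAh : A.IsHermitian :=
    (sum_isHermitian _ fun _ _ => smul_real_isHermitian (szM_isHermitian _) _).sub
      (sum_isHermitian _ fun _ _ => smul_real_isHermitian (hM_isHermitian _ _) _)
  set D : Matrix (Cfg V) (Cfg V) ℂ := ∑ x ∈ Q, ((β * h x : ℝ) : ℂ) • szM x with hD
  have hXAD : X = A + D - Y := by
    rw [hX, hA, hD, hY, gibX, hT]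
    rw [← Finset.sum_filter_add_sum_filter_not Finset.univ (fun x => x ∉ Q)
      (fun x => ((β * h x : ℝ) : ℂ) • (szM x : Matrix (Cfg V) (Cfg V) ℂ)),
      ← Finset.sum_filter_add_sum_filter_not Finset.univ (fun e => a e ∈ Q ∨ b e ∈ Q)
      (fun e => ((β * c e : ℝ) : ℂ) • (hM (a e) (b e) : Matrix (Cfg V) (Cfg V) ℂ))]
    have h3 : (Finset.univ.filter fun x => ¬ x ∉ Q) = Q := by
      ext x; simp
    rw [h3]
    abel
  set H : ℝ := ∑ x ∈ Q, β * h x / 2 with hH
  -- upper bound of tr exp (X + Y)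
  have hup : (trace (NormedSpace.exp (X + Y))).re ≤ Real.exp H * (trace (NormedSpace.exp A)).re := by
    have h1 : X + Y = A + D := by rw [hXAD]; abel
    have hDh : D.IsHermitian := sum_isHermitian _ fun _ _ => smul_real_isHermitian (szM_isHermitian _) _
    rw [h1, ← trace_exp_add_smul_one]
    refine trace_exp_mono (hAh.add hDh) (hAh.add (smul_real_isHermitian Matrix.isHermitian_one H)) ?_
    have h2 : A + (H : ℂ) • (1 : Matrix (Cfg V) (Cfg V) ℂ) - (A + D) =
        ∑ x ∈ Q, ((β * h x : ℝ) : ℂ) • ((1 / 2 : ℂ) • (1 : Matrix (Cfg V) (Cfg V) ℂ) - szM x) := by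
      simp only [smul_sub, Finset.sum_sub_distrib, smul_smul, ← Finset.sum_smul]
      rw [hH, ← hD]
      push_cast
      have h4 : (∑ x ∈ Q, (β : ℂ) * (h x : ℂ) * (1 / 2)) = ∑ x ∈ Q, (β : ℂ) * (h x : ℂ) / 2 :=
        Finset.sum_congr rfl fun x _ => by ring
      rw [h4]
      abel
    rw [h2]
    exact Matrix.posSemidef_sum _ fun x hx =>
      smul_real_posSemidef (half_sub_szM_posSemidef x) (mul_nonneg hβ (hh x hx))
  -- lower bound of tr exp X
  set G : ℝ := β * ∑ e with ((a e ∈ Q ∨ b e ∈ Q) ∧ ¬ (a e ∈ Q ∧ b e ∈ Q)), c e with hG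
  have hAsub : (A.submatrix (extQ Q) (extQ Q)).IsHermitian := hAh.submatrix _
  have hlow : Real.exp (H - G) * (trace (NormedSpace.exp (A.submatrix (extQ Q) (extQ Q)))).re ≤
      (trace (NormedSpace.exp X)).re := by
    refine le_trans ?_ (tr_exp_submatrix_le hXh (extQ_injective (Q := Q)))
    rw [← trace_exp_add_smul_one]
    refine trace_exp_mono (hAsub.add (smul_real_isHermitian Matrix.isHermitian_one _)) (hXh.submatrix _) ?_
    have hDsub : D.submatrix (extQ Q) (extQ Q) =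
        (H : ℂ) • (1 : Matrix (({x // x ∉ Q}) → Fin 2) (({x // x ∉ Q}) → Fin 2) ℂ) := by
      rw [hD, submatrix_sum_eq, hH]
      push_cast
      rw [Finset.sum_smul]
      refine Finset.sum_congr rfl fun x hx => ?_
      rw [Matrix.submatrix_smul, Pi.smul_apply, Pi.smul_apply, szM_sub_in hx, smul_smul]
      congr 1
      ring
    have h2 : X.submatrix (extQ Q) (extQ Q) - (A.submatrix (extQ Q) (extQ Q) +
        ((H - G : ℝ) : ℂ) • (1 : Matrix (({x // x ∉ Q}) → Fin 2) (({x // x ∉ Q}) → Fin 2) ℂ)) =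
        ∑ e with ((a e ∈ Q ∨ b e ∈ Q) ∧ ¬ (a e ∈ Q ∧ b e ∈ Q)), ((β * c e : ℝ) : ℂ) •
          ((1 : Matrix (Cfg V) (Cfg V) ℂ) - hM (a e) (b e)).submatrix (extQ Q) (extQ Q) := by
      have hYsub : Y.submatrix (extQ Q) (extQ Q) =
          ∑ e with ((a e ∈ Q ∨ b e ∈ Q) ∧ ¬ (a e ∈ Q ∧ b e ∈ Q)), ((β * c e : ℝ) : ℂ) •
          (hM (a e) (b e)).submatrix (extQ Q) (extQ Q) := by
        rw [hY, submatrix_sum_eq, hT, ← Finset.filter_filter, eq_comm]
        refine Finset.sum_subset_zero_on_sdiff (Finset.filter_subset _ _) ?_ ?_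
        · intro e he
          rw [Finset.mem_sdiff] at he
          have h5 : a e ∈ Q ∧ b e ∈ Q := by
            by_contra h6
            exact he.2 (Finset.mem_filter.2 ⟨he.1, h6⟩)
          rw [Matrix.submatrix_smul, Pi.smul_apply, Pi.smul_apply, hM_sub_in h5.1 h5.2, smul_zero]
        · intro e _
          rfl
      have h1sub : (1 : Matrix (Cfg V) (Cfg V) ℂ).submatrix (extQ Q) (extQ Q) =
          (1 : Matrix (({x // x ∉ Q}) → Fin 2) (({x // x ∉ Q}) → Fin 2) ℂ) :=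
        Matrix.submatrix_one (extQ Q) extQ_injective
      have e1 : X.submatrix (extQ Q) (extQ Q) = A.submatrix (extQ Q) (extQ Q) +
          D.submatrix (extQ Q) (extQ Q) - Y.submatrix (extQ Q) (extQ Q) := by
        rw [hXAD]
        rfl
      rw [e1, hDsub, hYsub]
      simp only [Matrix.submatrix_sub, Pi.sub_apply, h1sub, smul_sub, Finset.sum_sub_distrib]
      have e2 : (∑ e with ((a e ∈ Q ∨ b e ∈ Q) ∧ ¬ (a e ∈ Q ∧ b e ∈ Q)), ((β * c e : ℝ) : ℂ) •
          (1 : Matrix (({x // x ∉ Q}) → Fin 2) (({x // x ∉ Q}) → Fin 2) ℂ)) =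
          (G : ℂ) • (1 : Matrix (({x // x ∉ Q}) → Fin 2) (({x // x ∉ Q}) → Fin 2) ℂ) := by
        rw [← Finset.sum_smul, hG]
        push_cast
        rw [Finset.mul_sum]
      rw [e2]
      push_cast
      module
    rw [h2]
    exact Matrix.posSemidef_sum _ fun e _ => smul_real_posSemidef
      ((one_sub_hM_posSemidef _ _).submatrix _) (mul_nonneg hβ (hc e))
  have htA := tr_exp_offQ hAoff
  have hp1 := trace_exp_pos hXh
  have hp2 : 0 < (trace (NormedSpace.exp (A.submatrix (extQ Q) (extQ Q)))).re := trace_exp_pos hAsub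
  rw [hexY] at hPB
  have hl1 : Real.log (trace (NormedSpace.exp (X + Y))).re ≤
      H + (Q.card * Real.log 2 + Real.log (trace (NormedSpace.exp (A.submatrix (extQ Q) (extQ Q)))).re) := by
    have h1 := Real.log_le_log (trace_exp_pos (hXh.add hYh)) hup
    rwa [htA, Real.log_mul (Real.exp_pos _).ne' (by positivity), Real.log_exp,
      Real.log_mul (by positivity) hp2.ne', Real.log_pow] at h1
  have hl2 : H - G + Real.log (trace (NormedSpace.exp (A.submatrix (extQ Q) (extQ Q)))).re ≤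
      Real.log (trace (NormedSpace.exp X)).re := by
    have h1 := Real.log_le_log (by positivity) hlow
    rwa [Real.log_mul (Real.exp_pos _).ne' hp2.ne', Real.log_exp] at h1
  linarith

end

end Vale.Agent.P361.LRO.Energy
end

section

/-! # P361 LRO, stage 3: embedding of the operators of a box (helper348)

`emb e A` = the operator `A` of the sites `U` acting on the sites `e u` of `V`; normalised log trace
`nlt`, additive over disjoint regions. -/

namespace Vale.Agent.P361.LRO.Loc3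

open Matrix Finset Vale.Agent.P361.LRO.Energy
open scoped ComplexOrder Kronecker

set_option linter.unusedSectionVars false

noncomputable section

variable {U V : Type} [Fintype U] [DecidableEq U] [Fintype V] [DecidableEq V]

/-- the operator `A` on the sites `e u` -/
def emb (e : U → V) (A : Matrix (Cfg U) (Cfg U) ℂ) : Matrix (Cfg V) (Cfg V) ℂ :=
  Matrix.of fun σ τ => if (∀ x, (∀ u, e u ≠ x) → σ x = τ x) then A (σ ∘ e) (τ ∘ e) else 0

/-- `A` does not act on the sites `e u`. -/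
def Off (e : U → V) (A : Matrix (Cfg V) (Cfg V) ℂ) : Prop :=
  ∀ σ τ, A σ τ = if σ ∘ e = τ ∘ e then
    A (fun x => if ∃ u, e u = x then 0 else σ x) (fun x => if ∃ u, e u = x then 0 else τ x) else 0

theorem emb_add (e : U → V) (A B : Matrix (Cfg U) (Cfg U) ℂ) : emb e (A + B) = emb e A + emb e B := by
  ext σ τ
  simp only [emb, Matrix.of_apply, Matrix.add_apply]
  split_ifs <;> simp

theorem emb_smul (e : U → V) (c : ℂ) (A : Matrix (Cfg U) (Cfg U) ℂ) : emb e (c • A) = c • emb e A := by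
  ext σ τ
  simp only [emb, Matrix.of_apply, Matrix.smul_apply]
  split_ifs <;> simp

theorem emb_neg (e : U → V) (A : Matrix (Cfg U) (Cfg U) ℂ) : emb e (-A) = -emb e A := by
  ext σ τ
  simp only [emb, Matrix.of_apply, Matrix.neg_apply]
  split_ifs <;> simp

theorem emb_sub (e : U → V) (A B : Matrix (Cfg U) (Cfg U) ℂ) : emb e (A - B) = emb e A - emb e B := by
  rw [sub_eq_add_neg, emb_add, emb_neg, ← sub_eq_add_neg]

theorem emb_zero (e : U → V) : emb e (0 : Matrix (Cfg U) (Cfg U) ℂ) = 0 := by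
  ext σ τ
  simp [emb]

theorem emb_sum {κ : Type*} (e : U → V) (s : Finset κ) (A : κ → Matrix (Cfg U) (Cfg U) ℂ) :
    emb e (∑ k ∈ s, A k) = ∑ k ∈ s, emb e (A k) := by
  classical
  induction s using Finset.induction_on with
  | empty => simp [emb_zero]
  | insert a s ha ih => rw [Finset.sum_insert ha, Finset.sum_insert ha, emb_add, ih]

theorem emb_isHermitian (e : U → V) {A : Matrix (Cfg U) (Cfg U) ℂ} (hA : A.IsHermitian) :
    (emb e A).IsHermitian := by
  ext σ τ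
  simp only [Matrix.conjTranspose_apply, emb, Matrix.of_apply]
  have h1 : (∀ x, (∀ u, e u ≠ x) → τ x = σ x) ↔ (∀ x, (∀ u, e u ≠ x) → σ x = τ x) := by
    constructor <;> intro h x hx <;> exact (h x hx).symm
  simp only [h1]
  split_ifs with h
  · have := congrFun (congrFun hA (σ ∘ e)) (τ ∘ e)
    rwa [Matrix.conjTranspose_apply] at this
  · simp

theorem eq_of_comp {e : U → V} {σ τ : Cfg V} (h1 : ∀ x, (∀ u, e u ≠ x) → σ x = τ x)
    (h2 : σ ∘ e = τ ∘ e) : σ = τ := by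
  funext x
  by_cases h : ∀ u, e u ≠ x
  · exact h1 x h
  · push Not at h
    obtain ⟨u, rfl⟩ := h
    exact congrFun h2 u

theorem emb_one (e : U → V) : emb e (1 : Matrix (Cfg U) (Cfg U) ℂ) = 1 := by
  ext σ τ
  simp only [emb, Matrix.of_apply, Matrix.one_apply]
  by_cases h : σ = τ
  · subst h; simp
  · rw [if_neg h]
    split_ifs with h1 h2
    · exact absurd (eq_of_comp h1 h2) h
    · rfl
    · rfl

theorem emb_szM (e : U → V) (u : U) : emb e (Vale.Agent.P361.LRO.Energy.szM u) = Vale.Agent.P361.LRO.Energy.szM (e u) := by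
  ext σ τ
  simp only [emb, Matrix.of_apply, Vale.Agent.P361.LRO.Energy.szM, Matrix.diagonal_apply]
  by_cases h : σ = τ
  · subst h; simp
  · rw [if_neg h]
    split_ifs with h1 h2 h3
    · exact absurd (eq_of_comp h1 h2) h
    · exact absurd (eq_of_comp h1 h2) h
    · rfl
    · rfl

theorem comp_swap_emb {e : U → V} (he : Function.Injective e) (σ : Cfg V) (u v : U) :
    (σ ∘ Equiv.swap (e u) (e v)) ∘ e = (σ ∘ e) ∘ Equiv.swap u v := by
  funext w
  simp only [Function.comp_apply]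
  congr 1
  rw [Equiv.swap_apply_def, Equiv.swap_apply_def]
  simp only [he.eq_iff]
  split_ifs <;> rfl

theorem emb_swapM {e : U → V} (he : Function.Injective e) (u v : U) :
    emb e (Vale.Agent.P361.LRO.Energy.swapM u v) = Vale.Agent.P361.LRO.Energy.swapM (e u) (e v) := by
  ext σ τ
  simp only [emb, Matrix.of_apply, Vale.Agent.P361.LRO.Energy.swapM]
  have h1 : (σ ∘ Equiv.swap (e u) (e v) = τ) ↔
      (∀ x, (∀ u, e u ≠ x) → σ x = τ x) ∧ (σ ∘ e) ∘ Equiv.swap u v = τ ∘ e := by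
    constructor
    · rintro rfl
      refine ⟨fun x hx => ?_, (comp_swap_emb he σ u v).symm⟩
      rw [Function.comp_apply, Equiv.swap_apply_of_ne_of_ne (hx u).symm (hx v).symm]
    · rintro ⟨h2, h3⟩
      refine eq_of_comp (e := e) (fun x hx => ?_) (by rw [comp_swap_emb he, h3])
      rw [Function.comp_apply, Equiv.swap_apply_of_ne_of_ne (hx u).symm (hx v).symm]
      exact h2 x hx
  by_cases h2 : (∀ x, (∀ u, e u ≠ x) → σ x = τ x)
  · rw [if_pos h2]
    have h3 : (σ ∘ Equiv.swap (e u) (e v) = τ) ↔ (σ ∘ e) ∘ Equiv.swap u v = τ ∘ e :=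
      h1.trans ⟨fun h => h.2, fun h => ⟨h2, h⟩⟩
    exact if_congr h3.symm rfl rfl
  · rw [if_neg h2, if_neg (fun h => h2 (h1.1 h).1)]

theorem emb_hM {e : U → V} (he : Function.Injective e) (u v : U) :
    emb e (Vale.Agent.P361.LRO.Energy.hM u v) = Vale.Agent.P361.LRO.Energy.hM (e u) (e v) := by
  rw [Vale.Agent.P361.LRO.Energy.hM, Vale.Agent.P361.LRO.Energy.hM, emb_smul, emb_sub, emb_one, emb_swapM he]

/-! ### Splitting of the configurations -/

/-- configurations on `U` and on the rest -/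
def splitE (e : U → V) (he : Function.Injective e) :
    Cfg U × (({x // ∀ u, e u ≠ x}) → Fin 2) ≃ Cfg V where
  toFun p x := if h : ∀ u, e u ≠ x then p.2 ⟨x, h⟩ else
    p.1 (Classical.choose (not_forall_not.1 h))
  invFun σ := (σ ∘ e, fun x => σ x.1)
  left_inv := by
    rintro ⟨q, s⟩
    refine Prod.ext ?_ ?_
    · funext u
      have h : ¬ ∀ w, e w ≠ e u := fun h => h u rfl
      simp only [Function.comp_apply]
      rw [dif_neg h]
      congr 1
      exact he (Classical.choose_spec (not_forall_not.1 h))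
    · funext x
      simp only
      rw [dif_pos x.2]
  right_inv := by
    intro σ
    funext x
    simp only
    by_cases h : ∀ u, e u ≠ x
    · rw [dif_pos h]
    · rw [dif_neg h, Function.comp_apply, Classical.choose_spec (not_forall_not.1 h)]

theorem splitE_comp (e : U → V) (he : Function.Injective e) (q : Cfg U)
    (s : ({x // ∀ u, e u ≠ x}) → Fin 2) : (splitE e he (q, s)) ∘ e = q :=
  congrArg Prod.fst ((splitE e he).left_inv (q, s))

theorem splitE_out (e : U → V) (he : Function.Injective e) (q : Cfg U)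
    (s : ({x // ∀ u, e u ≠ x}) → Fin 2) {x : V} (hx : ∀ u, e u ≠ x) :
    splitE e he (q, s) x = s ⟨x, hx⟩ := by
  have := congrArg Prod.snd ((splitE e he).left_inv (q, s))
  exact congrFun this ⟨x, hx⟩

theorem emb_split (e : U → V) (he : Function.Injective e) (A : Matrix (Cfg U) (Cfg U) ℂ) :
    (emb e A).submatrix (splitE e he) (splitE e he) =
      A ⊗ₖ (1 : Matrix (({x // ∀ u, e u ≠ x}) → Fin 2) (({x // ∀ u, e u ≠ x}) → Fin 2) ℂ) := by
  ext ⟨q, s⟩ ⟨q', s'⟩
  rw [Matrix.submatrix_apply, emb, Matrix.of_apply, splitE_comp, splitE_comp,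
    Matrix.kroneckerMap_apply, Matrix.one_apply]
  have h : (∀ x, (∀ u, e u ≠ x) → splitE e he (q, s) x = splitE e he (q', s') x) ↔ s = s' := by
    constructor
    · intro h
      funext x
      have := h x.1 x.2
      rwa [splitE_out e he q s x.2, splitE_out e he q' s' x.2] at this
    · rintro rfl x hx
      rw [splitE_out e he q s hx, splitE_out e he q' s hx]
  simp only [h]
  split_ifs <;> simp

theorem off_split (e : U → V) (he : Function.Injective e) {A : Matrix (Cfg V) (Cfg V) ℂ}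
    (hA : Off e A) : A.submatrix (splitE e he) (splitE e he) =
      (1 : Matrix (Cfg U) (Cfg U) ℂ) ⊗ₖ
        (A.submatrix (fun s => splitE e he (0, s)) (fun s => splitE e he (0, s))) := by
  ext ⟨q, s⟩ ⟨q', s'⟩
  rw [Matrix.submatrix_apply, hA, splitE_comp, splitE_comp, Matrix.kroneckerMap_apply,
    Matrix.one_apply, Matrix.submatrix_apply]
  have key : ∀ (q : Cfg U) (s : ({x // ∀ u, e u ≠ x}) → Fin 2),
      (fun x => if ∃ u, e u = x then 0 else splitE e he (q, s) x) = splitE e he (0, s) := by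
    intro q s
    funext x
    by_cases h : ∃ u, e u = x
    · rw [if_pos h]
      obtain ⟨u, rfl⟩ := h
      exact (congrFun (splitE_comp e he 0 s) u).symm
    · rw [if_neg h]
      have h' : ∀ u, e u ≠ x := fun u hu => h ⟨u, hu⟩
      rw [splitE_out e he q s h', splitE_out e he 0 s h']
  rw [key, key]
  split_ifs <;> simp

/-- normalised log trace -/
def nlt (X : Matrix (Cfg V) (Cfg V) ℂ) : ℝ :=
  Real.log (trace (NormedSpace.exp X)).re - Fintype.card V * Real.log 2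

theorem card_rest (e : U → V) (he : Function.Injective e) :
    Fintype.card {x // ∀ u, e u ≠ x} + Fintype.card U = Fintype.card V := by
  have h1 : Fintype.card {x // ∀ u, e u ≠ x} + Fintype.card {x // ¬ ∀ u, e u ≠ x} = Fintype.card V := by
    rw [← Fintype.card_sum]
    exact Fintype.card_congr (Equiv.sumCompl _)
  have h2 : Fintype.card {x // ¬ ∀ u, e u ≠ x} = Fintype.card U := by
    refine (Fintype.card_congr (Equiv.ofBijective (fun u : U =>
      (⟨e u, fun h => h u rfl⟩ : {x // ¬ ∀ u, e u ≠ x})) ⟨?_, ?_⟩)).symm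
    · intro u v huv
      exact he (congrArg Subtype.val huv)
    · rintro ⟨x, hx⟩
      obtain ⟨u, hu⟩ := not_forall_not.1 hx
      exact ⟨u, Subtype.ext hu⟩
  rw [h2] at h1
  exact h1

/-- the normalised log trace of an embedded operator -/
theorem nlt_emb (e : U → V) (he : Function.Injective e) {A : Matrix (Cfg U) (Cfg U) ℂ}
    (hA : A.IsHermitian) : nlt (emb e A) = nlt A := by
  have h1 := tr_exp_kron_one (splitE e he) (emb_split e he A)
  have h2 := trace_exp_pos hA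
  unfold nlt
  rw [h1, Fintype.card_fun, Fintype.card_fin]
  push_cast
  rw [Real.log_mul (by positivity) h2.ne', Real.log_pow, ← card_rest e he]
  push_cast
  ring

/-- additivity over disjoint regions -/
theorem nlt_add (e : U → V) (he : Function.Injective e) {A : Matrix (Cfg V) (Cfg V) ℂ}
    (hA : Off e A) (hAh : A.IsHermitian) {B : Matrix (Cfg U) (Cfg U) ℂ} (hB : B.IsHermitian) :
    nlt (A + emb e B) = nlt A + nlt B := by
  have hA' : (A.submatrix (fun s => splitE e he (0, s)) (fun s => splitE e he (0, s))).IsHermitian :=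
    hAh.submatrix _
  set A' := A.submatrix (fun s => splitE e he (0, s)) (fun s => splitE e he (0, s)) with hA'def
  have h1 : (trace (NormedSpace.exp (A + emb e B))).re =
      (trace (NormedSpace.exp B)).re * (trace (NormedSpace.exp A')).re := by
    have e1 : (A + emb e B).submatrix (splitE e he) (splitE e he) =
        B ⊗ₖ (1 : Matrix (({x // ∀ u, e u ≠ x}) → Fin 2) (({x // ∀ u, e u ≠ x}) → Fin 2) ℂ) +
        (1 : Matrix (Cfg U) (Cfg U) ℂ) ⊗ₖ A' := by
      rw [Matrix.submatrix_add, Pi.add_apply, Pi.add_apply, emb_split, off_split e he hA, add_comm]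
    rw [← trace_exp_submatrix (splitE e he), e1,
      Vale.Agent.P361.B.trace_exp_kron hB hA', Complex.ofReal_re, trace_exp_re hB, trace_exp_re hA',
      Fintype.sum_prod_type, Finset.sum_mul_sum]
    simp only [Real.exp_add]
  have h2 : (trace (NormedSpace.exp A)).re =
      (2 : ℝ) ^ Fintype.card U * (trace (NormedSpace.exp A')).re := by
    have e1 : (A + emb e (0 : Matrix (Cfg U) (Cfg U) ℂ)).submatrix (splitE e he) (splitE e he) =
        (0 : Matrix (Cfg U) (Cfg U) ℂ) ⊗ₖ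
          (1 : Matrix (({x // ∀ u, e u ≠ x}) → Fin 2) (({x // ∀ u, e u ≠ x}) → Fin 2) ℂ) +
        (1 : Matrix (Cfg U) (Cfg U) ℂ) ⊗ₖ A' := by
      rw [Matrix.submatrix_add, Pi.add_apply, Pi.add_apply, emb_split, off_split e he hA, add_comm]
    have h0 : (0 : Matrix (Cfg U) (Cfg U) ℂ).IsHermitian := Matrix.isHermitian_zero
    have e2 : A = A + emb e (0 : Matrix (Cfg U) (Cfg U) ℂ) := by rw [emb_zero, add_zero]
    rw [e2, ← trace_exp_submatrix (splitE e he), e1,
      Vale.Agent.P361.B.trace_exp_kron h0 hA', Complex.ofReal_re, trace_exp_re hA',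
      Fintype.sum_prod_type]
    have e3 : ∀ i, h0.eigenvalues i = 0 := by
      intro i
      have := h0.eigenvalues_eq i
      simp at this
      exact this
    simp only [e3, zero_add]
    rw [Finset.sum_const, Finset.card_univ, nsmul_eq_mul, Fintype.card_fun, Fintype.card_fin]
    push_cast
    rfl
  have p1 := trace_exp_pos hB
  have p2 := trace_exp_pos hA'
  unfold nlt
  rw [h1, h2, Real.log_mul p1.ne' p2.ne', Real.log_mul (by positivity) p2.ne', Real.log_pow]
  ring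

end

end Vale.Agent.P361.LRO.Loc3
end

section

/-! # P361 LRO, block (7): from the complex matrices of `Energy` to the common definitions (helper348) -/

namespace Vale.Agent.P361.LRO.Energy

open Matrix Finset
open scoped ComplexOrder

set_option linter.unusedSectionVars false

noncomputable section

variable {ι : Type*} [Fintype ι] [DecidableEq ι]

/-- complexification -/
def cpx (A : Matrix ι ι ℝ) : Matrix ι ι ℂ := A.map Complex.ofReal

theorem cpx_exp (A : Matrix ι ι ℝ) : cpx (NormedSpace.exp A) = NormedSpace.exp (cpx A) := by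
  have hc : Continuous (Complex.ofRealHom.mapMatrix : Matrix ι ι ℝ →+* Matrix ι ι ℂ) :=
    Continuous.matrix_map continuous_id Complex.continuous_ofReal
  open scoped Matrix.Norms.Operator in
  exact NormedSpace.map_exp (Complex.ofRealHom.mapMatrix : Matrix ι ι ℝ →+* Matrix ι ι ℂ) hc A

theorem cpx_mul (A B : Matrix ι ι ℝ) : cpx (A * B) = cpx A * cpx B :=
  Matrix.map_mul (f := Complex.ofRealHom)

theorem cpx_trace (A : Matrix ι ι ℝ) : (trace (cpx A)).re = trace A := by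
  simp [cpx, Matrix.trace, Complex.re_sum]

theorem cpx_add (A B : Matrix ι ι ℝ) : cpx (A + B) = cpx A + cpx B := by
  ext i j; simp [cpx]

theorem cpx_sub (A B : Matrix ι ι ℝ) : cpx (A - B) = cpx A - cpx B := by
  ext i j; simp [cpx]

theorem cpx_smul (c : ℝ) (A : Matrix ι ι ℝ) : cpx (c • A) = (c : ℂ) • cpx A := by
  ext i j; simp [cpx]

theorem cpx_one : cpx (1 : Matrix ι ι ℝ) = 1 := by
  ext i j
  simp only [cpx, Matrix.map_apply, Matrix.one_apply]
  split_ifs <;> simp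

theorem cpx_sum {κ : Type*} (s : Finset κ) (A : κ → Matrix ι ι ℝ) :
    cpx (∑ k ∈ s, A k) = ∑ k ∈ s, cpx (A k) := by
  ext i j; simp [cpx, Matrix.sum_apply]

theorem cpx_ex (X A : Matrix ι ι ℝ) :
    ex (cpx X) (cpx A) = trace (NormedSpace.exp X * A) / trace (NormedSpace.exp X) := by
  unfold ex
  rw [← cpx_exp, ← cpx_mul, cpx_trace, cpx_trace]

variable {V : Type} [Fintype V] [DecidableEq V]

theorem cpx_swapM (x y : V) : cpx (LRO.swapM x y) = swapM x y := by
  ext σ τ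
  simp only [cpx, LRO.swapM, swapM, Matrix.map_apply, Matrix.of_apply]
  have h : (σ = τ ∘ Equiv.swap x y) ↔ (σ ∘ Equiv.swap x y = τ) := by
    constructor
    · rintro rfl; exact comp_swap_swap x y τ
    · rintro rfl; exact (comp_swap_swap x y σ).symm
  simp only [h]
  split_ifs <;> simp

theorem cpx_hM (x y : V) : cpx (LRO.hM x y) = hM x y := by
  rw [LRO.hM, hM, cpx_smul, cpx_sub, cpx_one, cpx_swapM]
  norm_num

theorem cpx_szM (x : V) : cpx (LRO.szM x) = (2 : ℂ) • szM x := by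
  ext σ τ
  by_cases h : σ = τ
  · subst h
    simp only [cpx, LRO.szM, szM, Matrix.map_apply, Matrix.diagonal_apply_eq, Matrix.smul_apply, smul_eq_mul]
    split_ifs <;> simp
  · simp [cpx, LRO.szM, szM, h]

theorem gib_eq (L : List (V × V)) (β : ℝ) (h : V → ℝ) (A : Matrix (V → Fin 2) (V → Fin 2) ℝ) :
    gib L β h A = ex (cpx (-β • ham L h)) (cpx A) := by
  rw [cpx_ex]
  rfl

theorem cpx_ham (L : List (V × V)) (β : ℝ) (h : V → ℝ) : cpx (-β • ham L h) =
    gibX β h (fun i : Fin L.length => (L.get i).1) (fun i => (L.get i).2) (fun _ => 1) := by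
  rw [ham, gibX, ← Fin.sum_univ_fun_getElem L (fun e => LRO.hM e.1 e.2), smul_sub, cpx_sub, cpx_smul,
    cpx_smul, cpx_sum, cpx_sum]
  simp only [cpx_smul, cpx_szM, cpx_hM, Finset.smul_sum, smul_smul]
  rw [sub_eq_add_neg, add_comm, sub_eq_add_neg, ← Finset.sum_neg_distrib, ← Finset.sum_neg_distrib]
  congr 1
  · refine Finset.sum_congr rfl fun x _ => ?_
    rw [← neg_smul]
    congr 1
    push_cast
    ring
  · refine Finset.sum_congr rfl fun x _ => ?_
    rw [← neg_smul]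
    congr 1
    push_cast
    ring

theorem gib_hM (L : List (V × V)) (β : ℝ) (h : V → ℝ) (x y : V) : gib L β h (LRO.hM x y) =
    ex (gibX β h (fun i : Fin L.length => (L.get i).1) (fun i => (L.get i).2) (fun _ => 1)) (hM x y) := by
  rw [gib_eq, cpx_ham, cpx_hM]

/-- **(7a)** for `Defs.gib` -/
theorem energy_list {β : ℝ} (hβ : 0 ≤ β) (L : List (V × V)) {h : V → ℝ} (Q : Finset V) (hh : ∀ x ∈ Q, 0 ≤ h x) :
    β * ∑ i : Fin L.length with ((L.get i).1 ∈ Q ∨ (L.get i).2 ∈ Q), gib L β h (LRO.hM (L.get i).1 (L.get i).2) ≤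
      Q.card * Real.log 2 + β * ((Finset.univ.filter fun i : Fin L.length =>
        ((L.get i).1 ∈ Q ∨ (L.get i).2 ∈ Q) ∧ ¬ ((L.get i).1 ∈ Q ∧ (L.get i).2 ∈ Q)).card : ℝ) := by
  have h1 := energy_le hβ h (fun i : Fin L.length => (L.get i).1) (fun i => (L.get i).2)
    (c := fun _ => 1) (fun _ => zero_le_one) Q hh
  simp only [one_mul, Finset.sum_const, nsmul_eq_mul, mul_one] at h1
  simpa only [gib_hM] using h1

end

end Vale.Agent.P361.LRO.Energy
end
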