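import Mathlib

set_option linter.all false

section

/-! (copy of the P367 file) the bounded Lie-Trotter product formula. -/

namespace Vale.Agent.P361TrotB

open Filter Topology NormedSpace

section powers

variable {𝔸 : Type*} [NormedRing 𝔸]

/-- telescoping estimate for powers -/
theorem norm_pow_sub_pow_le' {a b : 𝔸} {M : ℝ} (hM : 1 ≤ M) (ha : ‖a‖ ≤ M) (hb : ‖b‖ ≤ M) (m : ℕ)
    (h1 : ‖(1 : 𝔸)‖ ≤ 1) : ‖a ^ m - b ^ m‖ ≤ m * M ^ m * ‖a - b‖ := by
  have hpa : ∀ k : ℕ, ‖a ^ k‖ ≤ M ^ k := by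
    intro k
    induction k with
    | zero => simpa using h1
    | succ k ih =>
      rw [pow_succ, pow_succ]
      refine (norm_mul_le _ _).trans ?_
      gcongr
  induction m with
  | zero => simp
  | succ m ih =>
    have e : a ^ (m + 1) - b ^ (m + 1) = a ^ m * (a - b) + (a ^ m - b ^ m) * b := by
      rw [pow_succ, pow_succ]; noncomm_ring
    rw [e]
    have h2 : ‖a ^ m * (a - b)‖ ≤ M ^ m * ‖a - b‖ := by
      refine (norm_mul_le _ _).trans ?_
      gcongr
      exact hpa m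
    have h3 : ‖(a ^ m - b ^ m) * b‖ ≤ (m * M ^ m * ‖a - b‖) * M := by
      refine (norm_mul_le _ _).trans ?_
      gcongr
    have hM0 : 0 ≤ M := zero_le_one.trans hM
    calc ‖a ^ m * (a - b) + (a ^ m - b ^ m) * b‖
        ≤ M ^ m * ‖a - b‖ + (m * M ^ m * ‖a - b‖) * M := (norm_add_le _ _).trans (add_le_add h2 h3)
      _ ≤ (M ^ m * M) * ‖a - b‖ + (m * M ^ m * ‖a - b‖) * M := by
          gcongr
          exact le_mul_of_one_le_right (by positivity) hM
      _ = ((m + 1 : ℕ) : ℝ) * M ^ (m + 1) * ‖a - b‖ := by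
          push_cast
          ring

end powers

variable {𝔸 : Type*} [NormedRing 𝔸] [NormedAlgebra ℂ 𝔸] [CompleteSpace 𝔸]

omit [CompleteSpace 𝔸] in
/-- norm of the exponential -/
theorem norm_exp_le' (h1 : ‖(1 : 𝔸)‖ ≤ 1) (x : 𝔸) : ‖exp x‖ ≤ Real.exp ‖x‖ := by
  have h2 : ∀ n : ℕ, ‖((n.factorial : ℂ)⁻¹) • x ^ n‖ ≤ ‖x‖ ^ n / n.factorial := by
    intro n
    rw [norm_smul, norm_inv, Complex.norm_natCast, div_eq_inv_mul]
    gcongr
    rcases Nat.eq_zero_or_pos n with hn | hn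
    · subst hn; simpa using h1
    · exact norm_pow_le' x hn
  have hs : Summable fun n : ℕ => ‖x‖ ^ n / (n.factorial : ℝ) := Real.summable_pow_div_factorial _
  rw [exp_eq_tsum ℂ, Real.exp_eq_exp_ℝ, exp_eq_tsum_div]
  exact tsum_of_norm_bounded hs.hasSum h2

/-- first order remainder of the exponential -/
theorem norm_exp_sub_one_sub_le (_h1 : ‖(1 : 𝔸)‖ ≤ 1) (x : 𝔸) :
    ‖exp x - 1 - x‖ ≤ ‖x‖ ^ 2 * Real.exp ‖x‖ := by
  have h2 : ∀ n : ℕ, ‖(((n + 2).factorial : ℂ)⁻¹) • x ^ (n + 2)‖ ≤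
      ‖x‖ ^ 2 * (‖x‖ ^ n / n.factorial) := by
    intro n
    rw [norm_smul, norm_inv, Complex.norm_natCast]
    have h3 : ‖x ^ (n + 2)‖ ≤ ‖x‖ ^ (n + 2) := norm_pow_le' x (by omega)
    have h4 : ((n + 2).factorial : ℝ)⁻¹ ≤ (n.factorial : ℝ)⁻¹ := by
      apply inv_anti₀ (by positivity)
      exact_mod_cast Nat.factorial_le (by omega)
    calc ((n + 2).factorial : ℝ)⁻¹ * ‖x ^ (n + 2)‖ ≤ (n.factorial : ℝ)⁻¹ * ‖x‖ ^ (n + 2) := by
          gcongr
      _ = _ := by rw [pow_add]; ring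
  have hs : Summable fun n : ℕ => ‖x‖ ^ n / (n.factorial : ℝ) := Real.summable_pow_div_factorial _
  have hx : Summable fun n : ℕ => ((n.factorial : ℂ)⁻¹) • x ^ n := expSeries_summable' (𝕂 := ℂ) x
  have e : exp x - 1 - x = ∑' n : ℕ, (((n + 2).factorial : ℂ)⁻¹) • x ^ (n + 2) := by
    rw [exp_eq_tsum ℂ]
    have h5 := hx.sum_add_tsum_nat_add 2
    simp only [Finset.sum_range_succ, Finset.range_zero, Finset.sum_empty, zero_add,
      Nat.factorial_zero, Nat.cast_one, inv_one, pow_zero, one_smul, Nat.factorial_one,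
      pow_one] at h5
    show (∑' n : ℕ, ((n.factorial : ℂ)⁻¹) • x ^ n) - 1 - x = _
    rw [← h5]
    abel
  rw [e]
  have h6 : HasSum (fun n : ℕ => ‖x‖ ^ 2 * (‖x‖ ^ n / (n.factorial : ℝ))) (‖x‖ ^ 2 * Real.exp ‖x‖) := by
    have h7 := hs.hasSum.mul_left (‖x‖ ^ 2)
    rw [Real.exp_eq_exp_ℝ, exp_eq_tsum_div]
    exact h7
  exact tsum_of_norm_bounded h6 h2

/-- a product formula with second order defect -/
theorem trotter_of_defect (h1 : ‖(1 : 𝔸)‖ ≤ 1) {f : ℕ → 𝔸} {C : 𝔸} {c K : ℝ} (hc : 0 ≤ c)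
    (hC : ‖C‖ ≤ c) (hf : ∀ m : ℕ, 1 ≤ m → ‖f m‖ ≤ Real.exp (c / m))
    (hd : ∀ m : ℕ, 1 ≤ m → ‖f m - exp (((m : ℂ)⁻¹) • C)‖ ≤ K / (m : ℝ) ^ 2) :
    Tendsto (fun m : ℕ => f m ^ m) atTop (𝓝 (exp C)) := by
  rw [tendsto_iff_norm_sub_tendsto_zero]
  have hlim : Tendsto (fun m : ℕ => Real.exp c * K * (m : ℝ)⁻¹) atTop (𝓝 0) := by
    have := (tendsto_inv_atTop_nhds_zero_nat (𝕜 := ℝ)).const_mul (Real.exp c * K)
    simpa using this
  refine squeeze_zero' (Eventually.of_forall fun _ => norm_nonneg _) ?_ hlim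
  filter_upwards [eventually_ge_atTop 1] with m hm
  have hm0 : (m : ℝ) ≠ 0 := by positivity
  have hmc : (m : ℂ) ≠ 0 := by exact_mod_cast (by omega : m ≠ 0)
  have e1 : exp C = exp (((m : ℂ)⁻¹) • C) ^ m := by
    let _ : NormedAlgebra ℚ 𝔸 := NormedAlgebra.restrictScalars ℚ ℂ 𝔸
    rw [← exp_nsmul, ← Nat.cast_smul_eq_nsmul ℂ, smul_smul, mul_inv_cancel₀ hmc, one_smul]
  have hb : ‖exp (((m : ℂ)⁻¹) • C)‖ ≤ Real.exp (c / m) := by
    refine (norm_exp_le' h1 _).trans ?_
    rw [norm_smul, norm_inv, Complex.norm_natCast]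
    apply Real.exp_le_exp.2
    rw [div_eq_inv_mul]
    gcongr
  have hM : 1 ≤ Real.exp (c / m) := Real.one_le_exp (by positivity)
  rw [e1]
  refine (norm_pow_sub_pow_le' hM (hf m hm) hb m h1).trans ?_
  have e2 : Real.exp (c / m) ^ m = Real.exp c := by
    rw [← Real.exp_nat_mul]
    congr 1
    field_simp
  rw [e2]
  calc (m : ℝ) * Real.exp c * ‖f m - exp (((m : ℂ)⁻¹) • C)‖
      ≤ (m : ℝ) * Real.exp c * (K / (m : ℝ) ^ 2) := by
        gcongr
        exact hd m hm
    _ = Real.exp c * K * (m : ℝ)⁻¹ := by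
        field_simp

/-- products of exponentials, first order expansion -/
theorem prod_exp_expand (h1 : ‖(1 : 𝔸)‖ ≤ 1) (l : List 𝔸) :
    ∃ K : ℝ, 0 ≤ K ∧ ∀ t : ℝ, 0 ≤ t → t ≤ 1 →
      ‖(l.map fun A => exp ((t : ℂ) • A)).prod - 1 - (t : ℂ) • l.sum‖ ≤ K * t ^ 2 ∧
      ‖(l.map fun A => exp ((t : ℂ) • A)).prod‖ ≤ Real.exp (t * (l.map fun A => ‖A‖).sum) := by
  induction l with
  | nil =>
    refine ⟨0, le_rfl, fun t _ _ => ?_⟩
    simp [h1]
  | cons A l ih =>
    obtain ⟨K, hK, ih⟩ := ih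
    refine ⟨‖A‖ ^ 2 * Real.exp ‖A‖ * Real.exp ((l.map fun A => ‖A‖).sum) + K +
      ‖A‖ * (‖l.sum‖ + K), ?_, fun t ht0 ht1 => ?_⟩
    · positivity
    obtain ⟨h2, h3⟩ := ih t ht0 ht1
    set P := (l.map fun A => exp ((t : ℂ) • A)).prod with hP
    have htn : ‖(t : ℂ) • A‖ = t * ‖A‖ := by
      rw [norm_smul, Complex.norm_real, Real.norm_eq_abs, abs_of_nonneg ht0]
    have hSn : 0 ≤ (l.map fun A => ‖A‖).sum := List.sum_nonneg (by
      intro x hx
      obtain ⟨a, _, rfl⟩ := List.mem_map.1 hx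
      exact norm_nonneg _)
    have hE := norm_exp_sub_one_sub_le h1 ((t : ℂ) • A)
    rw [htn] at hE
    have hP1 : ‖P‖ ≤ Real.exp ((l.map fun A => ‖A‖).sum) := by
      refine h3.trans (Real.exp_le_exp.2 ?_)
      nlinarith
    have hPm : ‖P - 1‖ ≤ t * (‖l.sum‖ + K) := by
      have e : P - 1 = (P - 1 - (t : ℂ) • l.sum) + (t : ℂ) • l.sum := by abel
      rw [e]
      refine (norm_add_le _ _).trans ?_
      rw [norm_smul, Complex.norm_real, Real.norm_eq_abs, abs_of_nonneg ht0]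
      nlinarith [norm_nonneg l.sum, mul_nonneg hK (sq_nonneg t), mul_le_mul_of_nonneg_left ht1 (mul_nonneg hK ht0)]
    constructor
    · rw [List.map_cons, List.prod_cons, List.sum_cons, ← hP]
      have e : exp ((t : ℂ) • A) * P - 1 - (t : ℂ) • (A + l.sum)
          = (exp ((t : ℂ) • A) - 1 - (t : ℂ) • A) * P + (P - 1 - (t : ℂ) • l.sum)
            + ((t : ℂ) • A) * (P - 1) := by
        rw [smul_add]
        noncomm_ring
      rw [e]
      have n1 : ‖(exp ((t : ℂ) • A) - 1 - (t : ℂ) • A) * P‖ ≤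
          ‖A‖ ^ 2 * Real.exp ‖A‖ * Real.exp ((l.map fun A => ‖A‖).sum) * t ^ 2 := by
        refine (norm_mul_le _ _).trans ?_
        have h4 : (t * ‖A‖) ^ 2 * Real.exp (t * ‖A‖) ≤ ‖A‖ ^ 2 * Real.exp ‖A‖ * t ^ 2 := by
          have : Real.exp (t * ‖A‖) ≤ Real.exp ‖A‖ := Real.exp_le_exp.2 (by nlinarith [norm_nonneg A])
          calc (t * ‖A‖) ^ 2 * Real.exp (t * ‖A‖) ≤ (t * ‖A‖) ^ 2 * Real.exp ‖A‖ := by gcongr
            _ = _ := by ring
        calc _ ≤ (‖A‖ ^ 2 * Real.exp ‖A‖ * t ^ 2) * Real.exp ((l.map fun A => ‖A‖).sum) :=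
              mul_le_mul (hE.trans h4) hP1 (norm_nonneg _) (by positivity)
          _ = _ := by ring
      have n2 : ‖((t : ℂ) • A) * (P - 1)‖ ≤ ‖A‖ * (‖l.sum‖ + K) * t ^ 2 := by
        refine (norm_mul_le _ _).trans ?_
        rw [htn]
        calc t * ‖A‖ * ‖P - 1‖ ≤ t * ‖A‖ * (t * (‖l.sum‖ + K)) := by gcongr
          _ = _ := by ring
      calc _ ≤ ‖(exp ((t : ℂ) • A) - 1 - (t : ℂ) • A) * P‖ + ‖P - 1 - (t : ℂ) • l.sum‖
            + ‖((t : ℂ) • A) * (P - 1)‖ := norm_add₃_le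
        _ ≤ _ := by linarith
    · rw [List.map_cons, List.prod_cons, List.map_cons, List.sum_cons, ← hP]
      refine (norm_mul_le _ _).trans ?_
      rw [mul_add, Real.exp_add]
      have h5 := norm_exp_le' h1 ((t : ℂ) • A)
      rw [htn] at h5
      exact mul_le_mul h5 h3 (norm_nonneg _) (Real.exp_pos _).le

omit [NormedAlgebra ℂ 𝔸] [CompleteSpace 𝔸] in
theorem norm_list_sum_le' (l : List 𝔸) : ‖l.sum‖ ≤ (l.map fun A => ‖A‖).sum := by
  induction l with
  | nil => simp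
  | cons A l ih =>
    rw [List.sum_cons, List.map_cons, List.sum_cons]
    exact (norm_add_le _ _).trans (add_le_add le_rfl ih)

/-- Lie-Trotter product formula for a finite product -/
theorem lie_trotter_list (h1 : ‖(1 : 𝔸)‖ ≤ 1) (l : List 𝔸) :
    Tendsto (fun m : ℕ => ((l.map fun A => exp (((m : ℂ)⁻¹) • A)).prod) ^ m) atTop
      (𝓝 (exp l.sum)) := by
  obtain ⟨K, hK, h⟩ := prod_exp_expand h1 l
  have hS : ‖l.sum‖ ≤ (l.map fun A => ‖A‖).sum := norm_list_sum_le' l
  have hSn : 0 ≤ (l.map fun A => ‖A‖).sum := (norm_nonneg _).trans hS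
  refine trotter_of_defect h1 (c := (l.map fun A => ‖A‖).sum)
    (K := K + ‖l.sum‖ ^ 2 * Real.exp ‖l.sum‖) hSn hS ?_ ?_
  · intro m hm
    have hm1 : ((m : ℝ)⁻¹) ≤ 1 := inv_le_one_of_one_le₀ (by exact_mod_cast hm)
    have h2 := (h ((m : ℝ)⁻¹) (by positivity) hm1).2
    rw [Complex.ofReal_inv, Complex.ofReal_natCast] at h2
    rwa [div_eq_inv_mul]
  · intro m hm
    have hm1 : ((m : ℝ)⁻¹) ≤ 1 := inv_le_one_of_one_le₀ (by exact_mod_cast hm)
    have h2 := (h ((m : ℝ)⁻¹) (by positivity) hm1).1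
    rw [Complex.ofReal_inv, Complex.ofReal_natCast] at h2
    have h3 := norm_exp_sub_one_sub_le h1 (((m : ℂ)⁻¹) • l.sum)
    have h4 : ‖((m : ℂ)⁻¹) • l.sum‖ = (m : ℝ)⁻¹ * ‖l.sum‖ := by
      rw [norm_smul, norm_inv, Complex.norm_natCast]
    rw [h4] at h3
    have h5 : Real.exp ((m : ℝ)⁻¹ * ‖l.sum‖) ≤ Real.exp ‖l.sum‖ :=
      Real.exp_le_exp.2 (by nlinarith [norm_nonneg l.sum])
    have e : (l.map fun A => exp (((m : ℂ)⁻¹) • A)).prod - exp (((m : ℂ)⁻¹) • l.sum)
        = ((l.map fun A => exp (((m : ℂ)⁻¹) • A)).prod - 1 - ((m : ℂ)⁻¹) • l.sum)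
          - (exp (((m : ℂ)⁻¹) • l.sum) - 1 - ((m : ℂ)⁻¹) • l.sum) := by abel
    rw [e]
    refine (norm_sub_le _ _).trans ?_
    have h6 : ((m : ℝ)⁻¹ * ‖l.sum‖) ^ 2 * Real.exp ((m : ℝ)⁻¹ * ‖l.sum‖)
        ≤ ‖l.sum‖ ^ 2 * Real.exp ‖l.sum‖ * ((m : ℝ)⁻¹) ^ 2 := by
      calc ((m : ℝ)⁻¹ * ‖l.sum‖) ^ 2 * Real.exp ((m : ℝ)⁻¹ * ‖l.sum‖)
          ≤ ((m : ℝ)⁻¹ * ‖l.sum‖) ^ 2 * Real.exp ‖l.sum‖ := by gcongr
        _ = _ := by ring
    have e2 : (K + ‖l.sum‖ ^ 2 * Real.exp ‖l.sum‖) / (m : ℝ) ^ 2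
        = K * ((m : ℝ)⁻¹) ^ 2 + ‖l.sum‖ ^ 2 * Real.exp ‖l.sum‖ * ((m : ℝ)⁻¹) ^ 2 := by
      rw [div_eq_mul_inv, inv_pow]; ring
    rw [e2]
    linarith

/-- Lie-Trotter product formula for two bounded operators -/
theorem lie_trotter (h1 : ‖(1 : 𝔸)‖ ≤ 1) (A B : 𝔸) :
    Tendsto (fun m : ℕ => (exp (((m : ℂ)⁻¹) • A) * exp (((m : ℂ)⁻¹) • B)) ^ m) atTop
      (𝓝 (exp (A + B))) := by
  have h := lie_trotter_list h1 [A, B]
  simpa using h

end Vale.Agent.P361TrotB
end

section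

/-!
Hermitian forms of hemispheres on `ℂ²` and the two-site lemmas (P361, step (8)).
-/

namespace Vale.Agent.P361.LRO

open Complex

noncomputable section

/-- The Hermitian form of the hemisphere centred at the angle `g` in the (1,3) plane. -/
def Q (g : ℝ) (u : Fin 2 → ℂ) : ℝ :=
  Real.cos g * (normSq (u 0) - normSq (u 1)) +
    2 * Real.sin g * ((u 0).re * (u 1).re + (u 0).im * (u 1).im)

/-- The bilinear pairing on `ℂ²`. -/
def dot (u v : Fin 2 → ℂ) : ℂ := u 0 * v 0 + u 1 * v 1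

/-- The symplectic rotation `(v₁, -v₀)`. -/
def eps (v : Fin 2 → ℂ) : Fin 2 → ℂ := ![v 1, -v 0]

@[simp] lemma eps_zero (v : Fin 2 → ℂ) : eps v 0 = v 1 := rfl
@[simp] lemma eps_one (v : Fin 2 → ℂ) : eps v 1 = -v 0 := rfl

lemma Q_eps (g : ℝ) (v : Fin 2 → ℂ) : Q g (eps v) = -Q g v := by
  simp only [Q, eps_zero, eps_one, normSq_neg, neg_re, neg_im]; ring

lemma Q_smul (g : ℝ) (k : ℂ) (v : Fin 2 → ℂ) : Q g (k • v) = normSq k * Q g v := by
  simp only [Q, Pi.smul_apply, smul_eq_mul, normSq_mul, mul_re, mul_im]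
  rw [normSq_apply k]; ring

lemma Q_zero (g : ℝ) : Q g 0 = 0 := by simp [Q]

lemma ne_zero_of_Q_pos {g : ℝ} {v : Fin 2 → ℂ} (h : 0 < Q g v) : v ≠ 0 := by
  rintro rfl; rw [Q_zero] at h; exact lt_irrefl _ h

lemma eps_ne_zero {v : Fin 2 → ℂ} (h : v ≠ 0) : eps v ≠ 0 := by
  intro h0
  apply h
  funext i
  have h1 := congrFun h0 0
  have h2 := congrFun h0 1
  simp only [eps_zero, eps_one, Pi.zero_apply, neg_eq_zero] at h1 h2
  fin_cases i <;> simp [h1, h2]

lemma dot_eps (v : Fin 2 → ℂ) : dot (eps v) v = 0 := by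
  simp only [dot, eps_zero, eps_one]; ring

/-- Quadratic form identity. -/
lemma Q_comb (g a b : ℝ) (p q : Fin 2 → ℂ) :
    Q g ((a : ℂ) • p + (b : ℂ) • q) =
      a * (a + b) * Q g p + b * (a + b) * Q g q - a * b * Q g (p - q) := by
  simp only [Q, Pi.add_apply, Pi.sub_apply, Pi.smul_apply, smul_eq_mul, normSq_apply, add_re,
    add_im, sub_re, sub_im, mul_re, mul_im, ofReal_re, ofReal_im]
  ring

lemma dot_ne_zero {g : ℝ} {u w : Fin 2 → ℂ} (hu : 0 < Q g u) (hw : 0 ≤ Q g w) (hw0 : w ≠ 0) :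
    dot u w ≠ 0 := by
  intro h
  have hk : ∃ k : ℂ, w = k • eps u := by
    by_cases h0 : u 0 = 0
    · have h1 : u 1 ≠ 0 := by
        intro h1
        apply ne_zero_of_Q_pos hu
        funext i; fin_cases i <;> simp [h0, h1]
      have hw1 : w 1 = 0 := by
        have : u 1 * w 1 = 0 := by simpa [dot, h0] using h
        exact (mul_eq_zero.mp this).resolve_left h1
      refine ⟨w 0 / u 1, ?_⟩
      funext i
      fin_cases i
      · simp [h1]
      · simp [hw1, h0]
    · refine ⟨-(w 1) / u 0, ?_⟩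
      have e0 : w 0 = -(u 1 * w 1) / u 0 := by
        rw [eq_div_iff h0]
        have : u 0 * w 0 + u 1 * w 1 = 0 := h
        linear_combination this
      funext i
      fin_cases i
      · simp only [Fin.zero_eta, Pi.smul_apply, eps_zero, smul_eq_mul]
        rw [e0]; ring
      · simp only [Fin.mk_one, Pi.smul_apply, eps_one, smul_eq_mul]
        field_simp
  obtain ⟨k, rfl⟩ := hk
  have hk0 : k ≠ 0 := by
    rintro rfl; exact hw0 (zero_smul _ _)
  rw [Q_smul, Q_eps] at hw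
  have := normSq_pos.mpr hk0
  nlinarith [mul_pos this hu]

lemma dot_comm_cone (u w : Fin 2 → ℂ) : dot u w = dot w u := by simp only [dot]; ring

lemma dot_ne_zero' {g : ℝ} {u w : Fin 2 → ℂ} (hu : 0 ≤ Q g u) (hu0 : u ≠ 0) (hw : 0 < Q g w) :
    dot u w ≠ 0 := by
  rw [dot_comm_cone]; exact dot_ne_zero hw hu hu0

/-- `w` pairs nontrivially with the open cone: `w` is in the closed cone. -/
lemma mem_of_dot_open {g : ℝ} {w : Fin 2 → ℂ} (h : ∀ u, 0 < Q g u → dot u w ≠ 0)
    (hne : ∃ u, 0 < Q g u) : w ≠ 0 ∧ 0 ≤ Q g w := by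
  constructor
  · rintro rfl
    obtain ⟨u, hu⟩ := hne
    exact h u hu (by simp [dot])
  · by_contra hc
    rw [not_le] at hc
    exact h (eps w) (by rw [Q_eps]; linarith) (dot_eps w)

/-- `w` pairs nontrivially with the closed cone: `w` is in the open cone. -/
lemma mem_of_dot_closed {g : ℝ} {w : Fin 2 → ℂ} (h : ∀ u, u ≠ 0 → 0 ≤ Q g u → dot u w ≠ 0)
    (hne : ∃ u : Fin 2 → ℂ, u ≠ 0 ∧ 0 ≤ Q g u) : 0 < Q g w := by
  have hw0 : w ≠ 0 := by
    rintro rfl
    obtain ⟨u, hu0, hu⟩ := hne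
    exact h u hu0 hu (by simp [dot])
  by_contra hc
  rw [not_lt] at hc
  exact h (eps w) (eps_ne_zero hw0) (by rw [Q_eps]; linarith) (dot_eps w)

/-- A boundary vector of every cone. -/
def bd : Fin 2 → ℂ := ![1, I]

lemma bd_ne_zero : bd ≠ 0 := by
  intro h
  have := congrFun h 0
  simp [bd] at this

lemma Q_bd (g : ℝ) : Q g bd = 0 := by simp [Q, bd]

/-- Bilinear form of a `2 × 2` matrix. -/
def bil (M : Fin 2 → Fin 2 → ℂ) (u v : Fin 2 → ℂ) : ℂ :=
  ∑ s, ∑ t, M s t * u s * v t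

/-- `M v` and `Mᵀ v`. -/
def app (M : Fin 2 → Fin 2 → ℂ) (v : Fin 2 → ℂ) : Fin 2 → ℂ := fun s => M s 0 * v 0 + M s 1 * v 1

lemma bil_eq (M : Fin 2 → Fin 2 → ℂ) (u v : Fin 2 → ℂ) : bil M u v = dot u (app M v) := by
  simp only [bil, dot, app, Fin.sum_univ_two]; ring

lemma bil_swap (M : Fin 2 → Fin 2 → ℂ) (u v : Fin 2 → ℂ) :
    bil M v u = dot u (app (fun s t => M t s) v) := by
  simp only [bil, dot, app, Fin.sum_univ_two]; ring

lemma app_sub (M : Fin 2 → Fin 2 → ℂ) (v : Fin 2 → ℂ) :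
    app M v - app (fun s t => M t s) v = (M 0 1 - M 1 0) • eps v := by
  funext i
  fin_cases i
  · simp [app]; ring
  · simp [app]; ring

/-- The swap-gate lemma, open cones. -/
lemma swap_open {g : ℝ} {M : Fin 2 → Fin 2 → ℂ} {a b : ℝ} (ha : 0 ≤ a) (hb : 0 ≤ b)
    (hab : 0 < a + b) (h : ∀ u v, 0 < Q g u → 0 < Q g v → bil M u v ≠ 0)
    {u v : Fin 2 → ℂ} (hu : 0 < Q g u) (hv : 0 < Q g v) :
    (a : ℂ) * bil M u v + (b : ℂ) * bil M v u ≠ 0 := by
  set p := app M v with hp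
  set q := app (fun s t => M t s) v with hq
  have hP : p ≠ 0 ∧ 0 ≤ Q g p := mem_of_dot_open
    (fun w hw => by rw [hp, ← bil_eq]; exact h w v hw hv) ⟨u, hu⟩
  have hQ : q ≠ 0 ∧ 0 ≤ Q g q := mem_of_dot_open
    (fun w hw => by rw [hq, ← bil_swap]; exact h v w hv hw) ⟨u, hu⟩
  have key : (a : ℂ) * bil M u v + (b : ℂ) * bil M v u =
      dot u ((a : ℂ) • p + (b : ℂ) • q) := by
    rw [bil_eq, bil_swap]
    simp only [dot, Pi.add_apply, Pi.smul_apply, smul_eq_mul, hp, hq]; ring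
  have hsub : p - q = (M 0 1 - M 1 0) • eps v := by rw [hp, hq]; exact app_sub M v
  have hQc := Q_comb g a b p q
  rw [hsub, Q_smul, Q_eps] at hQc
  rw [key]
  by_cases hc : M 0 1 - M 1 0 = 0
  · have hpq : p = q := by
      have := hsub; rw [hc, zero_smul] at this; exact sub_eq_zero.mp this
    rw [← hpq, ← add_smul, show dot u (((a : ℂ) + b) • p) = ((a : ℂ) + b) * dot u p by
      simp only [dot, Pi.smul_apply, smul_eq_mul]; ring]
    refine mul_ne_zero ?_ (dot_ne_zero hu hP.2 hP.1)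
    intro h0
    have : ((a + b : ℝ) : ℂ) = 0 := by push_cast; exact h0
    rw [ofReal_eq_zero] at this
    linarith
  · rcases ha.eq_or_lt with ha0 | ha0
    · have : ((a : ℂ) • p + (b : ℂ) • q) = (b : ℂ) • q := by rw [← ha0]; simp
      rw [this, show dot u ((b : ℂ) • q) = (b : ℂ) * dot u q by
        simp only [dot, Pi.smul_apply, smul_eq_mul]; ring]
      refine mul_ne_zero ?_ (dot_ne_zero hu hQ.2 hQ.1)
      intro h0
      rw [ofReal_eq_zero] at h0
      linarith
    · rcases hb.eq_or_lt with hb0 | hb0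
      · have : ((a : ℂ) • p + (b : ℂ) • q) = (a : ℂ) • p := by rw [← hb0]; simp
        rw [this, show dot u ((a : ℂ) • p) = (a : ℂ) * dot u p by
          simp only [dot, Pi.smul_apply, smul_eq_mul]; ring]
        refine mul_ne_zero ?_ (dot_ne_zero hu hP.2 hP.1)
        intro h0
        rw [ofReal_eq_zero] at h0
        linarith
      · have hcp := normSq_pos.mpr hc
        have : 0 < Q g ((a : ℂ) • p + (b : ℂ) • q) := by
          rw [hQc]
          have h1 := mul_nonneg (mul_nonneg ha hab.le) hP.2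
          have h2 := mul_nonneg (mul_nonneg hb hab.le) hQ.2
          have h3 : 0 < a * b * (normSq (M 0 1 - M 1 0) * Q g v) := by positivity
          linarith
        exact dot_ne_zero hu this.le (ne_zero_of_Q_pos this)

/-- The swap-gate lemma, closed cones. -/
lemma swap_closed {g : ℝ} {M : Fin 2 → Fin 2 → ℂ} {a b : ℝ} (ha : 0 ≤ a) (hb : 0 ≤ b)
    (hab : 0 < a + b)
    (h : ∀ u v, u ≠ 0 → 0 ≤ Q g u → v ≠ 0 → 0 ≤ Q g v → bil M u v ≠ 0)
    {u v : Fin 2 → ℂ} (hu0 : u ≠ 0) (hu : 0 ≤ Q g u) (hv0 : v ≠ 0) (hv : 0 ≤ Q g v) :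
    (a : ℂ) * bil M u v + (b : ℂ) * bil M v u ≠ 0 := by
  set p := app M v with hp
  set q := app (fun s t => M t s) v with hq
  have hP : 0 < Q g p := mem_of_dot_closed
    (fun w hw0 hw => by rw [hp, ← bil_eq]; exact h w v hw0 hw hv0 hv) ⟨u, hu0, hu⟩
  have hQ : 0 < Q g q := mem_of_dot_closed
    (fun w hw0 hw => by rw [hq, ← bil_swap]; exact h v w hv0 hv hw0 hw) ⟨u, hu0, hu⟩
  have key : (a : ℂ) * bil M u v + (b : ℂ) * bil M v u =
      dot u ((a : ℂ) • p + (b : ℂ) • q) := by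
    rw [bil_eq, bil_swap]
    simp only [dot, Pi.add_apply, Pi.smul_apply, smul_eq_mul, hp, hq]; ring
  have hsub : p - q = (M 0 1 - M 1 0) • eps v := by rw [hp, hq]; exact app_sub M v
  have hQc := Q_comb g a b p q
  rw [hsub, Q_smul, Q_eps] at hQc
  rw [key]
  have : 0 < Q g ((a : ℂ) • p + (b : ℂ) • q) := by
    rw [hQc]
    have h3 : 0 ≤ a * b * (normSq (M 0 1 - M 1 0) * Q g v) :=
      mul_nonneg (mul_nonneg ha hb) (mul_nonneg (normSq_nonneg _) hv)
    rcases ha.eq_or_lt with ha0 | ha0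
    · have hb0 : 0 < b := by linarith
      have h2 := mul_pos (mul_pos hb0 hab) hQ
      have h1 := mul_nonneg (mul_nonneg ha hab.le) hP.le
      linarith
    · have h1 := mul_pos (mul_pos ha0 hab) hP
      have h2 := mul_nonneg (mul_nonneg hb hab.le) hQ.le
      linarith
  exact dot_ne_zero' hu hu0 this

/-- A matrix which is nonvanishing on closed cone × closed cone has nonzero trace. -/
lemma trace_ne_zero {g : ℝ} {M : Fin 2 → Fin 2 → ℂ}
    (h : ∀ u v, u ≠ 0 → 0 ≤ Q g u → v ≠ 0 → 0 ≤ Q g v → bil M u v ≠ 0) :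
    M 0 0 + M 1 1 ≠ 0 := by
  intro htr
  have hmap : ∀ v : Fin 2 → ℂ, v ≠ 0 → 0 ≤ Q g v → 0 < Q g (app M v) := fun v hv0 hv =>
    mem_of_dot_closed (fun w hw0 hw => by rw [← bil_eq]; exact h w v hw0 hw hv0 hv)
      ⟨v, hv0, hv⟩
  have h1 := hmap bd bd_ne_zero (Q_bd g).ge
  have h2 := hmap (app M bd) (ne_zero_of_Q_pos h1) h1.le
  have h3 : app M (app M bd) = (M 0 1 * M 1 0 - M 0 0 * M 1 1) • bd := by
    have e : M 1 1 = -M 0 0 := by linear_combination htr
    funext i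
    fin_cases i
    · simp only [app, Fin.zero_eta, Pi.smul_apply, smul_eq_mul, e]; ring
    · simp only [app, Fin.mk_one, Pi.smul_apply, smul_eq_mul, e]; ring
  rw [h3, Q_smul, Q_bd, mul_zero] at h2
  exact lt_irrefl _ h2

end

end Vale.Agent.P361.LRO
end

section

/-!
Stability of states on `V → Fin 2` with respect to a hemisphere, gates, nonvanishing trace
(P361, step (8)).
-/

namespace Vale.Agent.P361.LRO

open Complex Matrix

noncomputable section

variable {V : Type*} [Fintype V] [DecidableEq V]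

/-- The multilinear form with coefficients `ψ`. -/
def L {ι : Type*} [Fintype ι] (ψ : (V → ι) → ℂ) (k : V → ι → ℂ) : ℂ :=
  ∑ σ : V → ι, ψ σ * ∏ x, k x (σ x)

lemma prod_update_eq {ι : Type*} (k : V → ι → ℂ) (x : V) (m : ι → ℂ) (σ : V → ι) :
    ∏ y, (Function.update k x m) y (σ y) = m (σ x) * ∏ y ∈ Finset.univ.erase x, k y (σ y) := by
  rw [← Finset.mul_prod_erase Finset.univ _ (Finset.mem_univ x)]
  simp only [Function.update_self]
  congr 1
  refine Finset.prod_congr rfl fun y hy => ?_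
  rw [Function.update_of_ne (Finset.ne_of_mem_erase hy)]

lemma L_update {ι : Type*} [Fintype ι] [DecidableEq ι] (ψ : (V → ι) → ℂ) (k : V → ι → ℂ) (x : V)
    (m : ι → ℂ) :
    L ψ (Function.update k x m) = ∑ i, m i * L ψ (Function.update k x (Pi.single i 1)) := by
  simp only [L, prod_update_eq, Finset.mul_sum]
  rw [Finset.sum_comm]
  refine Finset.sum_congr rfl fun σ _ => ?_
  rw [Finset.sum_eq_single (σ x)]
  · simp only [Pi.single_eq_same]; ring
  · intro i _ hi
    rw [Pi.single_eq_of_ne (Ne.symm hi)]; ring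
  · intro h; exact absurd (Finset.mem_univ _) h

/-- Open stability. -/
def OSt (g : ℝ) (ψ : (V → Fin 2) → ℂ) : Prop :=
  ∀ z : V → Fin 2 → ℂ, (∀ x, 0 < Q g (z x)) → L ψ z ≠ 0

/-- Closed stability. -/
def SSt (g : ℝ) (ψ : (V → Fin 2) → ℂ) : Prop :=
  ∀ z : V → Fin 2 → ℂ, (∀ x, z x ≠ 0 ∧ 0 ≤ Q g (z x)) → L ψ z ≠ 0

lemma SSt.o {g : ℝ} {ψ : (V → Fin 2) → ℂ} (h : SSt g ψ) : OSt g ψ := fun z hz =>
  h z fun x => ⟨ne_zero_of_Q_pos (hz x), (hz x).le⟩

/-- Operators which preserve both stabilities. -/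
structure Good (g : ℝ) (A : Matrix (V → Fin 2) (V → Fin 2) ℂ) : Prop where
  o : ∀ ψ, OSt g ψ → OSt g (A *ᵥ ψ)
  s : ∀ ψ, SSt g ψ → SSt g (A *ᵥ ψ)

/-- Operators which improve the stability. -/
def Strict (g : ℝ) (A : Matrix (V → Fin 2) (V → Fin 2) ℂ) : Prop :=
  ∀ ψ, OSt g ψ → SSt g (A *ᵥ ψ)

/-- Operators which may spoil the stability. -/
def Weak (g : ℝ) (A : Matrix (V → Fin 2) (V → Fin 2) ℂ) : Prop :=
  ∀ ψ, SSt g ψ → OSt g (A *ᵥ ψ)

lemma Strict.good {g : ℝ} {A : Matrix (V → Fin 2) (V → Fin 2) ℂ} (h : Strict g A) : Good g A :=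
  ⟨fun ψ hψ => (h ψ hψ).o, fun ψ hψ => h ψ hψ.o⟩

lemma Good.one {g : ℝ} : Good g (1 : Matrix (V → Fin 2) (V → Fin 2) ℂ) :=
  ⟨fun ψ h => by rwa [one_mulVec], fun ψ h => by rwa [one_mulVec]⟩

lemma Good.mul {g : ℝ} {A B : Matrix (V → Fin 2) (V → Fin 2) ℂ} (hA : Good g A) (hB : Good g B) :
    Good g (A * B) :=
  ⟨fun ψ h => by rw [← mulVec_mulVec]; exact hA.o _ (hB.o _ h),
    fun ψ h => by rw [← mulVec_mulVec]; exact hA.s _ (hB.s _ h)⟩

lemma Good.pow {g : ℝ} {A : Matrix (V → Fin 2) (V → Fin 2) ℂ} (hA : Good g A) (n : ℕ) :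
    Good g (A ^ n) := by
  induction n with
  | zero => rw [pow_zero]; exact Good.one
  | succ n ih => rw [pow_succ]; exact ih.mul hA

lemma Good.list {g : ℝ} {l : List (Matrix (V → Fin 2) (V → Fin 2) ℂ)}
    (h : ∀ A ∈ l, Good g A) : Good g l.prod := by
  induction l with
  | nil => rw [List.prod_nil]; exact Good.one
  | cons a l ih =>
    rw [List.prod_cons]
    exact (h a (by simp)).mul (ih fun A hA => h A (by simp [hA]))

lemma Strict.mul_right {g : ℝ} {A B : Matrix (V → Fin 2) (V → Fin 2) ℂ} (hA : Strict g A)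
    (hB : Good g B) : Strict g (A * B) := fun ψ h => by
  rw [← mulVec_mulVec]; exact hA _ (hB.o _ h)

lemma Strict.mul_left {g : ℝ} {A B : Matrix (V → Fin 2) (V → Fin 2) ℂ} (hA : Good g A)
    (hB : Strict g B) : Strict g (A * B) := fun ψ h => by
  rw [← mulVec_mulVec]; exact hA.s _ (hB _ h)

lemma Strict.weak_strict {g : ℝ} {A R B : Matrix (V → Fin 2) (V → Fin 2) ℂ} (hA : Strict g A)
    (hR : Weak g R) (hB : Strict g B) : Strict g (A * R * B) := fun ψ h => by
  rw [← mulVec_mulVec, ← mulVec_mulVec]; exact hA _ (hR _ (hB _ h))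

/-- Product operators. -/
def prodMat (R : V → Matrix (Fin 2) (Fin 2) ℂ) : Matrix (V → Fin 2) (V → Fin 2) ℂ :=
  Matrix.of fun σ τ => ∏ y, R y (σ y) (τ y)

lemma L_prodMat (R : V → Matrix (Fin 2) (Fin 2) ℂ) (ψ : (V → Fin 2) → ℂ) (z : V → Fin 2 → ℂ) :
    L (prodMat R *ᵥ ψ) z = L ψ (fun y t => ∑ s, z y s * R y s t) := by
  have h1 : ∀ τ : V → Fin 2, ∏ x, ∑ s, z x s * R x s (τ x) =
      ∑ σ : V → Fin 2, ∏ x, z x (σ x) * R x (σ x) (τ x) := by
    intro τ
    rw [Finset.prod_univ_sum, Fintype.piFinset_univ]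
  simp only [L]
  simp_rw [h1, mulVec, dotProduct, prodMat, Matrix.of_apply, Finset.sum_mul, Finset.mul_sum]
  rw [Finset.sum_comm]
  refine Finset.sum_congr rfl fun τ _ => Finset.sum_congr rfl fun σ _ => ?_
  rw [Finset.prod_mul_distrib]; ring

/-- A product operator with all factors mapping the closed cone into the open cone. -/
lemma strict_prodMat {g : ℝ} {R : V → Matrix (Fin 2) (Fin 2) ℂ}
    (h : ∀ y (u : Fin 2 → ℂ), u ≠ 0 → 0 ≤ Q g u → 0 < Q g (fun t => ∑ s, u s * R y s t)) :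
    Strict g (prodMat R) := by
  intro ψ hψ z hz
  rw [L_prodMat]
  exact hψ _ fun x => h x (z x) (hz x).1 (hz x).2

/-- The swap of the spins at `x` and `y`. -/
def swapMat (x y : V) : Matrix (V → Fin 2) (V → Fin 2) ℂ :=
  Matrix.of fun σ τ => if τ = σ ∘ Equiv.swap x y then 1 else 0

lemma swapMat_mulVec (x y : V) (ψ : (V → Fin 2) → ℂ) :
    swapMat x y *ᵥ ψ = fun σ => ψ (σ ∘ Equiv.swap x y) := by
  funext σ
  simp only [mulVec, dotProduct, swapMat, Matrix.of_apply, ite_mul, one_mul, zero_mul,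
    Finset.sum_ite_eq', Finset.mem_univ, if_true]

lemma L_swap (x y : V) (ψ : (V → Fin 2) → ℂ) (z : V → Fin 2 → ℂ) :
    L (fun σ => ψ (σ ∘ Equiv.swap x y)) z = L ψ (z ∘ Equiv.swap x y) := by
  simp only [L]
  refine Fintype.sum_equiv (Equiv.arrowCongr (Equiv.swap x y) (Equiv.refl (Fin 2))) _ _ fun σ => ?_
  have e : (Equiv.arrowCongr (Equiv.swap x y) (Equiv.refl (Fin 2))) σ = σ ∘ Equiv.swap x y := by
    funext w; simp [Equiv.arrowCongr]
  rw [e]
  congr 1
  rw [← Equiv.prod_comp (Equiv.swap x y)]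
  rfl

omit [Fintype V] in
lemma comp_swap_eq {x y : V} (hxy : x ≠ y) (z : V → Fin 2 → ℂ) :
    z ∘ Equiv.swap x y = Function.update (Function.update z x (z y)) y (z x) := by
  funext w
  by_cases hy : w = y
  · subst hy; simp
  · rw [Function.update_of_ne hy]
    by_cases hx : w = x
    · subst hx; simp
    · rw [Function.update_of_ne hx]
      simp [Equiv.swap_apply_of_ne_of_ne hx hy]

lemma L_two {x y : V} (hxy : x ≠ y) (ψ : (V → Fin 2) → ℂ) (z : V → Fin 2 → ℂ)
    (u v : Fin 2 → ℂ) :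
    L ψ (Function.update (Function.update z x u) y v) =
      bil (fun s t => L ψ (Function.update (Function.update z x (Pi.single s 1)) y
        (Pi.single t 1))) u v := by
  rw [L_update]
  simp only [Function.update_comm hxy]
  simp only [L_update (m := u)]
  simp only [bil, Fin.sum_univ_two]
  ring

/-- The swap gate. -/
def gate (a b : ℝ) (x y : V) : Matrix (V → Fin 2) (V → Fin 2) ℂ :=
  (a : ℂ) • (1 : Matrix (V → Fin 2) (V → Fin 2) ℂ) + (b : ℂ) • swapMat x y

lemma L_gate (a b : ℝ) (x y : V) (ψ : (V → Fin 2) → ℂ) (z : V → Fin 2 → ℂ) :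
    L (gate a b x y *ᵥ ψ) z = (a : ℂ) * L ψ z + (b : ℂ) * L ψ (z ∘ Equiv.swap x y) := by
  rw [← L_swap]
  simp only [gate, add_mulVec, smul_mulVec, one_mulVec, swapMat_mulVec, L, Pi.add_apply,
    Pi.smul_apply, smul_eq_mul, Finset.mul_sum, ← Finset.sum_add_distrib]
  refine Finset.sum_congr rfl fun σ _ => ?_
  ring

lemma good_gate {g : ℝ} {a b : ℝ} (ha : 0 ≤ a) (hb : 0 ≤ b) (hab : 0 < a + b) (x y : V) :
    Good g (gate a b x y) := by
  by_cases hxy : x = y
  · subst hxy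
    have e : gate a b x x = ((a + b : ℝ) : ℂ) • (1 : Matrix (V → Fin 2) (V → Fin 2) ℂ) := by
      have : swapMat x x = (1 : Matrix (V → Fin 2) (V → Fin 2) ℂ) := by
        ext σ τ
        simp only [swapMat, Equiv.swap_self, Matrix.of_apply, Matrix.one_apply, Equiv.coe_refl,
          Function.comp_id, eq_comm]
      rw [gate, this, ← add_smul]; push_cast; rfl
    have h0 : (((a + b : ℝ) : ℂ)) ≠ 0 := by
      rw [Ne, ofReal_eq_zero]; exact hab.ne'
    have hL : ∀ (ψ : (V → Fin 2) → ℂ) (z : V → Fin 2 → ℂ),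
        L (gate a b x x *ᵥ ψ) z = ((a + b : ℝ) : ℂ) * L ψ z := by
      intro ψ z
      rw [e]
      simp only [smul_mulVec, one_mulVec, L, Pi.smul_apply, smul_eq_mul, Finset.mul_sum, mul_assoc]
    exact ⟨fun ψ hψ z hz => by rw [hL]; exact mul_ne_zero h0 (hψ z hz),
      fun ψ hψ z hz => by rw [hL]; exact mul_ne_zero h0 (hψ z hz)⟩
  · have hself : ∀ z : V → Fin 2 → ℂ, z = Function.update (Function.update z x (z x)) y (z y) := by
      intro z; simp
    constructor
    · intro ψ hψ z hz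
      rw [L_gate, comp_swap_eq hxy, L_two hxy]
      nth_rewrite 1 [hself z]
      rw [L_two hxy]
      refine swap_open ha hb hab (fun u v hu hv => ?_) (hz x) (hz y)
      rw [← L_two hxy]
      refine hψ _ fun w => ?_
      by_cases hy : w = y
      · subst hy; simpa using hv
      · rw [Function.update_of_ne hy]
        by_cases hx : w = x
        · subst hx; simpa using hu
        · rw [Function.update_of_ne hx]; exact hz w
    · intro ψ hψ z hz
      rw [L_gate, comp_swap_eq hxy, L_two hxy]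
      nth_rewrite 1 [hself z]
      rw [L_two hxy]
      refine swap_closed ha hb hab (fun u v hu0 hu hv0 hv => ?_) (hz x).1 (hz x).2 (hz y).1
        (hz y).2
      rw [← L_two hxy]
      refine hψ _ fun w => ?_
      by_cases hy : w = y
      · subst hy; simpa using ⟨hv0, hv⟩
      · rw [Function.update_of_ne hy]
        by_cases hx : w = x
        · subst hx; simpa using ⟨hu0, hu⟩
        · rw [Function.update_of_ne hx]; exact hz w

/-- Product states of the closed cone are open stable. -/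
lemma oSt_prod {g : ℝ} {w : V → Fin 2 → ℂ} (hw : ∀ x, w x ≠ 0 ∧ 0 ≤ Q g (w x)) :
    OSt g (fun τ => ∏ x, w x (τ x)) := by
  intro z hz
  have : L (fun τ => ∏ x, w x (τ x)) z = ∏ x, dot (z x) (w x) := by
    simp only [L, dot]
    have h2 : ∀ x, z x 0 * w x 0 + z x 1 * w x 1 = ∑ s, z x s * w x s := fun x => by
      rw [Fin.sum_univ_two]
    simp_rw [h2]
    rw [Finset.prod_univ_sum, Fintype.piFinset_univ]
    refine Finset.sum_congr rfl fun σ _ => ?_
    rw [Finset.prod_mul_distrib]; ring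
  rw [this]
  exact Finset.prod_ne_zero_iff.mpr fun x _ => dot_ne_zero (hz x) (hw x).2 (hw x).1

lemma sum_arrow (F : (V → Fin 2) → (V → Fin 2) → ℂ) :
    ∑ ρ : V → Fin 2 × Fin 2, F (fun x => (ρ x).1) (fun x => (ρ x).2) = ∑ σ, ∑ τ, F σ τ := by
  rw [← Fintype.sum_prod_type']
  exact Fintype.sum_equiv (Equiv.arrowProdEquivProdArrow V (fun _ => Fin 2) (fun _ => Fin 2)) _ _
    fun ρ => rfl

/-- A strict operator has nonzero trace. -/
theorem Strict.trace_ne_zero {g : ℝ} {A : Matrix (V → Fin 2) (V → Fin 2) ℂ} (hA : Strict g A) :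
    A.trace ≠ 0 := by
  set φ : (V → Fin 2 × Fin 2) → ℂ := fun ρ => A (fun x => (ρ x).1) (fun x => (ρ x).2) with hφ
  -- the kernel with the sites of `T` contracted
  let K : Finset V → (V → Fin 2 → ℂ) → (V → Fin 2 → ℂ) → V → Fin 2 × Fin 2 → ℂ :=
    fun T z w x i => if x ∈ T then (if i.1 = i.2 then 1 else 0) else z x i.1 * w x i.2
  have key : ∀ T : Finset V, ∀ z w : V → Fin 2 → ℂ, (∀ x, z x ≠ 0 ∧ 0 ≤ Q g (z x)) →
      (∀ x, w x ≠ 0 ∧ 0 ≤ Q g (w x)) → L φ (K T z w) ≠ 0 := by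
    intro T
    induction T using Finset.induction_on with
    | empty =>
      intro z w hz hw
      have e : L φ (K ∅ z w) = L (A *ᵥ fun τ => ∏ x, w x (τ x)) z := by
        have h1 : L φ (K ∅ z w) = ∑ σ, ∑ τ, A σ τ * ∏ x, (z x (σ x) * w x (τ x)) := by
          rw [← sum_arrow (fun σ τ => A σ τ * ∏ x, (z x (σ x) * w x (τ x)))]
          simp only [L, K, Finset.notMem_empty, if_false, hφ]
        rw [h1]
        simp only [L, mulVec, dotProduct, Finset.sum_mul]
        refine Finset.sum_congr rfl fun σ _ => Finset.sum_congr rfl fun τ _ => ?_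
        rw [Finset.prod_mul_distrib]
        ring
      rw [e]
      exact hA _ (oSt_prod hw) z hz
    | insert x T hx ih =>
      intro z w hz hw
      have hupd : ∀ u v : Fin 2 → ℂ, K T (Function.update z x u) (Function.update w x v) =
          Function.update (K T z w) x (fun i => u i.1 * v i.2) := by
        intro u v
        funext y i
        by_cases hy : y = x
        · subst hy; simp [K, hx]
        · simp [K, Function.update_of_ne hy]
      have hins : K (insert x T) z w =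
          Function.update (K T z w) x (fun i => if i.1 = i.2 then 1 else 0) := by
        funext y i
        by_cases hy : y = x
        · subst hy; simp [K]
        · simp [K, hy]
      set M : Fin 2 → Fin 2 → ℂ := fun s t =>
        L φ (Function.update (K T z w) x (Pi.single (s, t) 1)) with hM
      have hb : ∀ u v : Fin 2 → ℂ,
          L φ (K T (Function.update z x u) (Function.update w x v)) = bil M u v := by
        intro u v
        rw [hupd, L_update, Fintype.sum_prod_type]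
        simp only [bil, hM]
        refine Finset.sum_congr rfl fun s _ => Finset.sum_congr rfl fun t _ => ?_
        ring
      have ht : L φ (K (insert x T) z w) = M 0 0 + M 1 1 := by
        rw [hins, L_update, Fintype.sum_prod_type]
        simp [Fin.sum_univ_two, hM]
      rw [ht]
      refine LRO.trace_ne_zero (g := g) fun u v hu0 hu hv0 hv => ?_
      rw [← hb]
      refine ih _ _ (fun y => ?_) (fun y => ?_)
      · by_cases hy : y = x
        · subst hy; simpa using ⟨hu0, hu⟩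
        · rw [Function.update_of_ne hy]; exact hz y
      · by_cases hy : y = x
        · subst hy; simpa using ⟨hv0, hv⟩
        · rw [Function.update_of_ne hy]; exact hw y
  have hfin := key Finset.univ (fun _ => bd) (fun _ => bd)
    (fun _ => ⟨bd_ne_zero, (Q_bd g).ge⟩) (fun _ => ⟨bd_ne_zero, (Q_bd g).ge⟩)
  have e : L φ (K Finset.univ (fun _ => bd) (fun _ => bd)) = A.trace := by
    have h1 : L φ (K Finset.univ (fun _ => bd) (fun _ => bd)) =
        ∑ σ, ∑ τ, A σ τ * ∏ x, (if σ x = τ x then 1 else 0) := by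
      rw [← sum_arrow (fun σ τ => A σ τ * ∏ x, (if σ x = τ x then 1 else 0))]
      simp only [L, K, Finset.mem_univ, if_true, hφ]
    rw [h1]
    simp only [Matrix.trace, Matrix.diag_apply]
    refine Finset.sum_congr rfl fun σ _ => ?_
    rw [Finset.sum_eq_single σ]
    · simp
    · intro τ _ hτ
      have : ∃ x, σ x ≠ τ x := by
        by_contra hc
        exact hτ (funext fun x => (not_not.mp fun hx => hc ⟨x, hx⟩).symm)
      obtain ⟨x, hx⟩ := this
      rw [Finset.prod_eq_zero (Finset.mem_univ x) (if_neg hx), mul_zero]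
    · intro h; exact absurd (Finset.mem_univ _) h
  rwa [e] at hfin

end

end Vale.Agent.P361.LRO
end

section

/-!
Field layers, insertions, parity, and the zero-free region (P361, step (8)).
-/

namespace Vale.Agent.P361.LRO

open Complex Matrix

noncomputable section

variable {V : Type*} [Fintype V] [DecidableEq V]

lemma Q_eq (g : ℝ) (u : Fin 2 → ℂ) :
    Q g u = Real.cos g * (normSq (u 0) - normSq (u 1)) +
      2 * Real.sin g * ((starRingEnd ℂ) (u 0) * u 1).re := by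
  simp only [Q, mul_re, conj_re, conj_im]; ring

lemma osc_bound {b n0 n1 cr ci r : ℝ} (hr0 : 0 ≤ r) (hr2 : r ^ 2 = n0 * n1)
    (hc : n0 * n1 = cr ^ 2 + ci ^ 2) :
    |cr * (Real.cos (2 * b) - 1) + ci * Real.sin (2 * b)| ≤ 2 * |b| * r := by
  refine abs_le_of_sq_le_sq ?_ (by positivity)
  have hs : Real.sin b ^ 2 ≤ b ^ 2 := by
    have := Real.abs_sin_le_abs (x := b)
    exact sq_le_sq.mpr this
  have h1 : (Real.cos (2 * b) - 1) ^ 2 + Real.sin (2 * b) ^ 2 = 4 * Real.sin b ^ 2 := by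
    rw [Real.cos_two_mul, Real.sin_two_mul]
    have := Real.sin_sq_add_cos_sq b
    have hcb : Real.cos b ^ 2 = 1 - Real.sin b ^ 2 := by linarith
    have : (2 * Real.cos b ^ 2 - 1 - 1) ^ 2 + (2 * Real.sin b * Real.cos b) ^ 2 =
        (2 * Real.cos b ^ 2 - 2) ^ 2 + 4 * Real.sin b ^ 2 * Real.cos b ^ 2 := by ring
    rw [this, hcb]; ring
  set C := Real.cos (2 * b) - 1
  set S := Real.sin (2 * b)
  have h2 : (cr * C + ci * S) ^ 2 ≤ (cr ^ 2 + ci ^ 2) * (C ^ 2 + S ^ 2) := by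
    nlinarith [sq_nonneg (cr * S - ci * C)]
  calc (cr * C + ci * S) ^ 2
      ≤ (cr ^ 2 + ci ^ 2) * (4 * Real.sin b ^ 2) := by rw [← h1]; exact h2
    _ ≤ (cr ^ 2 + ci ^ 2) * (4 * b ^ 2) := by
        refine mul_le_mul_of_nonneg_left (by linarith) (by positivity)
    _ = (2 * |b| * r) ^ 2 := by rw [← hc, ← hr2, mul_pow, mul_pow, sq_abs]; ring

lemma field_aux {cg sg a b r X E Q0 : ℝ} (ha : 0 < a) (hab : |b| * |sg| < a * cg)
    (hXr : 4 * a * r ≤ X) (hX0 : 0 < X) (hE : |E| ≤ 2 * |b| * r) (hQ : 0 ≤ Q0) :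
    0 < Q0 + (cg * X + 2 * sg * E) := by
  have h1 : |2 * sg * E| ≤ |b| * |sg| * (4 * r) := by
    calc |2 * sg * E| = 2 * |sg| * |E| := by rw [abs_mul, abs_mul, abs_two]
      _ ≤ 2 * |sg| * (2 * |b| * r) := mul_le_mul_of_nonneg_left hE (by positivity)
      _ = |b| * |sg| * (4 * r) := by ring
  have h2 := neg_le_of_abs_le h1
  have h3 : |b| * |sg| * (4 * a * r) ≤ |b| * |sg| * X :=
    mul_le_mul_of_nonneg_left hXr (by positivity)
  have h4 : |b| * |sg| * X < a * cg * X := mul_lt_mul_of_pos_right hab hX0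
  have h5 : 0 < a * (cg * X - |b| * |sg| * (4 * r)) := by
    have : a * (cg * X - |b| * |sg| * (4 * r)) = a * cg * X - |b| * |sg| * (4 * a * r) := by ring
    rw [this]; linarith
  have h6 : 0 < cg * X - |b| * |sg| * (4 * r) := (mul_pos_iff_of_pos_left ha).mp h5
  linarith

lemma field_real {cg sg a b n0 n1 cr ci : ℝ} (hcg : 0 < cg) (hab : |b| * |sg| < a * cg)
    (hn0 : 0 ≤ n0) (hn1 : 0 ≤ n1) (hn : 0 < n0 + n1) (hc : n0 * n1 = cr ^ 2 + ci ^ 2)
    (hQ : 0 ≤ cg * (n0 - n1) + 2 * sg * cr) :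
    0 < cg * (Real.exp (2 * a) * n0 - Real.exp (-(2 * a)) * n1) +
      2 * sg * (cr * Real.cos (2 * b) + ci * Real.sin (2 * b)) := by
  have ha : 0 < a := by
    by_contra h
    rw [not_lt] at h
    have h1 : a * cg ≤ 0 := mul_nonpos_of_nonpos_of_nonneg h hcg.le
    have h2 : 0 ≤ |b| * |sg| := by positivity
    linarith
  obtain ⟨p, q, hp, hq⟩ : ∃ p q : ℝ, p = Real.exp a ∧ q = Real.exp (-a) := ⟨_, _, rfl, rfl⟩
  have hpq : p * q = 1 := by rw [hp, hq, ← Real.exp_add]; simp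
  have hp2 : Real.exp (2 * a) = p ^ 2 := by rw [hp, ← Real.exp_nat_mul]; norm_num
  have hq2 : Real.exp (-(2 * a)) = q ^ 2 := by
    rw [hq, ← Real.exp_nat_mul]; congr 1; push_cast; ring
  have hp0 : 0 < p := hp ▸ Real.exp_pos _
  have hq0 : 0 < q := hq ▸ Real.exp_pos _
  have hsinh : 2 * a ≤ p - q := by
    have := Real.self_le_sinh_iff.mpr ha.le
    rw [Real.sinh_eq, ← hp, ← hq] at this
    linarith
  obtain ⟨r, hr⟩ : ∃ r : ℝ, r = Real.sqrt (n0 * n1) := ⟨_, rfl⟩
  have hr0 : 0 ≤ r := hr ▸ Real.sqrt_nonneg _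
  have hr2 : r ^ 2 = n0 * n1 := by rw [hr]; exact Real.sq_sqrt (mul_nonneg hn0 hn1)
  obtain ⟨X, hX⟩ : ∃ X : ℝ, X = (p ^ 2 - 1) * n0 + (1 - q ^ 2) * n1 := ⟨_, rfl⟩
  have hX' : X = (p - q) * (p * n0 + q * n1) := by
    rw [hX]; linear_combination (n0 - n1) * hpq
  have hamgm : 2 * r ≤ p * n0 + q * n1 := by
    refine (abs_le_of_sq_le_sq' ?_ (by positivity)).2
    have : (2 * r) ^ 2 = 4 * (p * n0) * (q * n1) := by
      rw [mul_pow, hr2]; linear_combination (-(4 * n0 * n1)) * hpq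
    rw [this]
    nlinarith [sq_nonneg (p * n0 - q * n1)]
  have hXr : 4 * a * r ≤ X := by
    rw [hX']
    calc 4 * a * r = (2 * a) * (2 * r) := by ring
      _ ≤ (p - q) * (p * n0 + q * n1) := mul_le_mul hsinh hamgm (by positivity) (by linarith)
  have hX0 : 0 < X := by
    rw [hX']
    refine mul_pos (by linarith) ?_
    rcases hn0.eq_or_lt with h | h
    · have h1 : 0 < n1 := by linarith
      have h2 := mul_pos hq0 h1
      rw [← h]; linarith
    · have h1 := mul_pos hp0 h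
      have h2 := mul_nonneg hq0.le hn1
      linarith
  have hosc := osc_bound (b := b) hr0 hr2 hc
  have := field_aux ha hab hXr hX0 hosc hQ
  rw [hp2, hq2]
  convert this using 1
  rw [hX]; ring

/-- The factor of a field layer. -/
def fieldFac (s : ℂ) : Matrix (Fin 2) (Fin 2) ℂ := !![exp s, 0; 0, exp (-s)]

/-- The field layer `∏_x exp(s_x σ³_x)`. -/
def fieldMat (s : V → ℂ) : Matrix (V → Fin 2) (V → Fin 2) ℂ := prodMat fun y => fieldFac (s y)

lemma Q_field {g : ℝ} (hg : 0 < Real.cos g) {s : ℂ} (hs : |s.im| * |Real.sin g| < s.re * Real.cos g)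
    {u : Fin 2 → ℂ} (hu0 : u ≠ 0) (hu : 0 ≤ Q g u) :
    0 < Q g (fun t => ∑ i, u i * fieldFac s i t) := by
  have e0 : ∑ i, u i * fieldFac s i 0 = u 0 * exp s := by
    simp [fieldFac, Fin.sum_univ_two]
  have e1 : ∑ i, u i * fieldFac s i 1 = u 1 * exp (-s) := by
    simp [fieldFac, Fin.sum_univ_two]
  simp only [Q_eq, e0, e1]
  have hn : 0 < normSq (u 0) + normSq (u 1) := by
    have h0 := normSq_nonneg (u 0)
    have h1 := normSq_nonneg (u 1)
    rcases h0.eq_or_lt with h | h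
    · rcases h1.eq_or_lt with h' | h'
      · exfalso; apply hu0; funext i
        fin_cases i
        · exact normSq_eq_zero.mp h.symm
        · exact normSq_eq_zero.mp h'.symm
      · linarith
    · linarith
  have hc : normSq (u 0) * normSq (u 1) =
      ((starRingEnd ℂ) (u 0) * u 1).re ^ 2 + ((starRingEnd ℂ) (u 0) * u 1).im ^ 2 := by
    simp only [mul_re, mul_im, conj_re, conj_im, normSq_apply]; ring
  have key := field_real (ci := ((starRingEnd ℂ) (u 0) * u 1).im) hg hs (normSq_nonneg _)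
    (normSq_nonneg _) hn hc (by rw [← Q_eq]; exact hu)
  have n0 : normSq (u 0 * exp s) = Real.exp (2 * s.re) * normSq (u 0) := by
    rw [normSq_mul, normSq_eq_norm_sq (exp s), norm_exp, ← Real.exp_nat_mul, mul_comm]
    norm_num
  have n1 : normSq (u 1 * exp (-s)) = Real.exp (-(2 * s.re)) * normSq (u 1) := by
    rw [normSq_mul, normSq_eq_norm_sq (exp (-s)), norm_exp, ← Real.exp_nat_mul, mul_comm, neg_re]
    congr 2; push_cast; ring
  have nc : ((starRingEnd ℂ) (u 0 * exp s) * (u 1 * exp (-s))).re =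
      ((starRingEnd ℂ) (u 0) * u 1).re * Real.cos (2 * s.im) +
        ((starRingEnd ℂ) (u 0) * u 1).im * Real.sin (2 * s.im) := by
    have e2 : (starRingEnd ℂ) (u 0 * exp s) * (u 1 * exp (-s)) =
        ((starRingEnd ℂ) (u 0) * u 1) * exp ((-(2 * s.im) : ℝ) * I) := by
      rw [map_mul, ← exp_conj]
      have : exp ((starRingEnd ℂ) s) * exp (-s) = exp ((-(2 * s.im) : ℝ) * I) := by
        rw [← exp_add]
        congr 1
        apply Complex.ext
        · simp
        · simp; ring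
      linear_combination ((starRingEnd ℂ) (u 0) * u 1) * this
    rw [e2, mul_re, exp_ofReal_mul_I_re, exp_ofReal_mul_I_im, Real.cos_neg, Real.sin_neg]
    ring
  rw [n0, n1, nc]
  exact key

lemma strict_field {g : ℝ} (hg : 0 < Real.cos g) {s : V → ℂ}
    (hs : ∀ x, |(s x).im| * |Real.sin g| < (s x).re * Real.cos g) :
    Strict g (fieldMat s) :=
  strict_prodMat fun y _ hu0 hu => Q_field hg (hs y) hu0 hu

/-- Insertion of a one-site matrix. -/
def ins (x : V) (R : Matrix (Fin 2) (Fin 2) ℂ) : Matrix (V → Fin 2) (V → Fin 2) ℂ :=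
  prodMat fun y => if y = x then R else 1

lemma L_smul_update (ψ : (V → Fin 2) → ℂ) (z : V → Fin 2 → ℂ) (x : V) (k : ℂ) (m : Fin 2 → ℂ) :
    L ψ (Function.update z x (k • m)) = k * L ψ (Function.update z x m) := by
  rw [L_update, L_update (m := m), Finset.mul_sum]
  refine Finset.sum_congr rfl fun i _ => ?_
  simp only [Pi.smul_apply, smul_eq_mul]; ring

lemma L_ins_rank_one (x : V) (k : ℂ) (u : Fin 2 → ℂ) (ψ : (V → Fin 2) → ℂ) (z : V → Fin 2 → ℂ) :
    L (ins x (Matrix.of fun s t => k * (u s * u t)) *ᵥ ψ) z =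
      (k * dot (z x) u) * L ψ (Function.update z x u) := by
  rw [ins, L_prodMat, ← L_smul_update]
  congr 1
  funext y t
  by_cases hy : y = x
  · subst hy
    simp only [if_true, Function.update_self, Pi.smul_apply, smul_eq_mul, Matrix.of_apply, dot,
      Fin.sum_univ_two]
    ring
  · rw [Function.update_of_ne hy]
    simp [hy, Matrix.one_apply]

lemma good_ins {g : ℝ} (x : V) {k : ℂ} (hk : k ≠ 0) {u : Fin 2 → ℂ} (hu : 0 < Q g u) :
    Good g (ins x (Matrix.of fun s t => k * (u s * u t))) := by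
  constructor
  · intro ψ hψ z hz
    rw [L_ins_rank_one]
    refine mul_ne_zero (mul_ne_zero hk (dot_ne_zero (hz x) hu.le (ne_zero_of_Q_pos hu))) ?_
    refine hψ _ fun y => ?_
    by_cases hy : y = x
    · subst hy; simpa using hu
    · rw [Function.update_of_ne hy]; exact hz y
  · intro ψ hψ z hz
    rw [L_ins_rank_one]
    refine mul_ne_zero (mul_ne_zero hk (dot_ne_zero' (hz x).2 (hz x).1 hu)) ?_
    refine hψ _ fun y => ?_
    by_cases hy : y = x
    · subst hy; simpa using ⟨ne_zero_of_Q_pos hu, hu.le⟩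
    · rw [Function.update_of_ne hy]; exact hz y

lemma weak_ins {g : ℝ} (x : V) {k : ℂ} (hk : k ≠ 0) {u : Fin 2 → ℂ} (hu0 : u ≠ 0)
    (hu : 0 ≤ Q g u) :
    Weak g (ins x (Matrix.of fun s t => k * (u s * u t))) := by
  intro ψ hψ z hz
  rw [L_ins_rank_one]
  refine mul_ne_zero (mul_ne_zero hk (dot_ne_zero (hz x) hu hu0)) ?_
  refine hψ _ fun y => ?_
  by_cases hy : y = x
  · subst hy; simpa using ⟨hu0, hu⟩
  · rw [Function.update_of_ne hy]; exact ⟨ne_zero_of_Q_pos (hz y), (hz y).le⟩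

/-- Pauli matrices. -/
def s1 : Matrix (Fin 2) (Fin 2) ℂ := !![0, 1; 1, 0]
def s3 : Matrix (Fin 2) (Fin 2) ℂ := !![1, 0; 0, -1]

lemma ins_apply (x : V) (R : Matrix (Fin 2) (Fin 2) ℂ) (σ τ : V → Fin 2) :
    ins x R σ τ = R (σ x) (τ x) *
      ∏ y ∈ Finset.univ.erase x, (1 : Matrix (Fin 2) (Fin 2) ℂ) (σ y) (τ y) := by
  rw [ins, prodMat, Matrix.of_apply, ← Finset.mul_prod_erase Finset.univ _ (Finset.mem_univ x),
    if_pos rfl]
  congr 1
  refine Finset.prod_congr rfl fun y hy => ?_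
  rw [if_neg (Finset.ne_of_mem_erase hy)]

lemma ins_one (x : V) : ins x (1 : Matrix (Fin 2) (Fin 2) ℂ) = 1 := by
  ext σ τ
  simp only [ins, prodMat, Matrix.of_apply, ite_self, Matrix.one_apply]
  by_cases h : σ = τ
  · subst h; simp
  · rw [if_neg h]
    obtain ⟨y, hy⟩ := Function.ne_iff.mp h
    exact Finset.prod_eq_zero (Finset.mem_univ y) (if_neg hy)

lemma ins_comb (x : V) (a b c : ℂ) (R1 R2 R3 : Matrix (Fin 2) (Fin 2) ℂ) :
    ins x (a • R1 + b • R2 + c • R3) = a • ins x R1 + b • ins x R2 + c • ins x R3 := by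
  ext σ τ
  simp only [Matrix.add_apply, Matrix.smul_apply, smul_eq_mul, ins_apply]
  ring

/-- Parity. -/
def par : Matrix (V → Fin 2) (V → Fin 2) ℂ :=
  Matrix.diagonal fun σ => ∏ x, (if σ x = 0 then (1 : ℂ) else -1)

lemma par_sq : (par : Matrix (V → Fin 2) (V → Fin 2) ℂ) * par = 1 := by
  rw [par, Matrix.diagonal_mul_diagonal, ← Matrix.diagonal_one]
  congr 1
  funext σ
  rw [← Finset.prod_mul_distrib]
  refine Finset.prod_eq_one fun x _ => ?_
  split_ifs <;> norm_num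

lemma par_swap (x y : V) : par * swapMat x y = swapMat x y * par := by
  ext σ τ
  rw [par, Matrix.diagonal_mul, Matrix.mul_diagonal, swapMat, Matrix.of_apply]
  by_cases h : τ = σ ∘ Equiv.swap x y
  · rw [if_pos h, mul_one, one_mul, h]
    rw [← Equiv.prod_comp (Equiv.swap x y)]
    rfl
  · rw [if_neg h]; ring

omit [DecidableEq V] in
lemma fieldMat_eq_diagonal [DecidableEq V] (s : V → ℂ) :
    fieldMat s = Matrix.diagonal fun σ => ∏ y, fieldFac (s y) (σ y) (σ y) := by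
  ext σ τ
  rw [Matrix.diagonal_apply, fieldMat, prodMat, Matrix.of_apply]
  by_cases h : σ = τ
  · subst h; simp
  · rw [if_neg h]
    obtain ⟨y, hy⟩ := Function.ne_iff.mp h
    refine Finset.prod_eq_zero (Finset.mem_univ y) ?_
    have : ∀ i j : Fin 2, i ≠ j → fieldFac (s y) i j = 0 := by
      intro i j hij
      fin_cases i <;> fin_cases j <;> simp_all [fieldFac]
    exact this _ _ hy

lemma par_field (s : V → ℂ) : par * fieldMat s = fieldMat s * par := by
  rw [fieldMat_eq_diagonal, par, Matrix.diagonal_mul_diagonal, Matrix.diagonal_mul_diagonal]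
  congr 1
  funext σ
  ring

lemma par_gate (a b : ℝ) (x y : V) : par * gate a b x y = gate a b x y * par := by
  rw [gate, Matrix.mul_add, Matrix.add_mul, Matrix.mul_smul, Matrix.smul_mul, Matrix.mul_smul,
    Matrix.smul_mul, par_swap, Matrix.mul_one, Matrix.one_mul]

lemma par_s1 (x : V) : par * ins x s1 = -(ins x s1 * par) := by
  ext σ τ
  rw [Matrix.neg_apply, par, Matrix.diagonal_mul, Matrix.mul_diagonal, ins_apply]
  by_cases h : ∀ y ∈ Finset.univ.erase x, σ y = τ y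
  · rw [← Finset.mul_prod_erase Finset.univ (fun y => if σ y = 0 then (1 : ℂ) else -1)
      (Finset.mem_univ x),
      ← Finset.mul_prod_erase Finset.univ (fun y => if τ y = 0 then (1 : ℂ) else -1)
      (Finset.mem_univ x)]
    have e : ∏ y ∈ Finset.univ.erase x, (if σ y = 0 then (1 : ℂ) else -1) =
        ∏ y ∈ Finset.univ.erase x, (if τ y = 0 then (1 : ℂ) else -1) :=
      Finset.prod_congr rfl fun y hy => by rw [h y hy]
    rw [e]
    have k : ∀ i j : Fin 2, (if i = 0 then (1 : ℂ) else -1) * s1 i j =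
        -(s1 i j * (if j = 0 then (1 : ℂ) else -1)) := by
      intro i j
      fin_cases i <;> fin_cases j <;> simp [s1]
    linear_combination ((∏ y ∈ Finset.univ.erase x, (if τ y = 0 then (1 : ℂ) else -1)) *
      ∏ y ∈ Finset.univ.erase x, (1 : Matrix (Fin 2) (Fin 2) ℂ) (σ y) (τ y)) * k (σ x) (τ x)
  · simp only [not_forall] at h
    obtain ⟨y, hy, hne⟩ := h
    have : ∏ y ∈ Finset.univ.erase x, (1 : Matrix (Fin 2) (Fin 2) ℂ) (σ y) (τ y) = 0 :=
      Finset.prod_eq_zero hy (Matrix.one_apply_ne hne)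
    rw [this]; ring

lemma trace_s1 (x : V) {A : Matrix (V → Fin 2) (V → Fin 2) ℂ} (hA : par * A = A * par) :
    (ins x s1 * A).trace = 0 := by
  have h1 : (ins x s1 * A).trace = -(ins x s1 * A).trace := by
    calc (ins x s1 * A).trace = (par * par * (ins x s1 * A)).trace := by
          rw [par_sq, Matrix.one_mul]
      _ = (par * (ins x s1 * A) * par).trace := by
          rw [Matrix.mul_assoc par par, Matrix.trace_mul_comm]
      _ = -(ins x s1 * A).trace := by
          rw [← Matrix.mul_assoc, par_s1, Matrix.neg_mul, Matrix.neg_mul, Matrix.trace_neg]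
          congr 1
          rw [Matrix.mul_assoc (ins x s1), hA, ← Matrix.mul_assoc, Matrix.mul_assoc _ par par,
            par_sq, Matrix.mul_one]
  have h2 : (2 : ℂ) * (ins x s1 * A).trace = 0 := by linear_combination h1
  simpa using h2

/-- The vector of the insertion `1 + sin t σ¹ + cos t σ³`. -/
def uvec (t : ℂ) : Fin 2 → ℂ := ![cos (t / 2), sin (t / 2)]

lemma Q_uvec (g : ℝ) (t : ℂ) : Q g (uvec t) = Real.cos (t.re - g) := by
  have hc : cos (t / 2) = (Real.cos (t.re / 2) * Real.cosh (t.im / 2) : ℝ) -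
      (Real.sin (t.re / 2) * Real.sinh (t.im / 2) : ℝ) * I := by
    rw [cos_eq]
    have h1 : (t / 2).re = t.re / 2 := by simp
    have h2 : (t / 2).im = t.im / 2 := by simp
    rw [h1, h2]; push_cast; ring
  have hs : sin (t / 2) = (Real.sin (t.re / 2) * Real.cosh (t.im / 2) : ℝ) +
      (Real.cos (t.re / 2) * Real.sinh (t.im / 2) : ℝ) * I := by
    rw [sin_eq]
    have h1 : (t / 2).re = t.re / 2 := by simp
    have h2 : (t / 2).im = t.im / 2 := by simp
    rw [h1, h2]; push_cast; ring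
  have c0 : (uvec t 0) = cos (t / 2) := rfl
  have c1 : (uvec t 1) = sin (t / 2) := rfl
  have cre : (cos (t / 2)).re = Real.cos (t.re / 2) * Real.cosh (t.im / 2) := by
    rw [hc]; simp [-ofReal_mul, -ofReal_cos, -ofReal_cosh, -ofReal_sin, -ofReal_sinh]
  have cim : (cos (t / 2)).im = -(Real.sin (t.re / 2) * Real.sinh (t.im / 2)) := by
    rw [hc]; simp [-ofReal_mul, -ofReal_cos, -ofReal_cosh, -ofReal_sin, -ofReal_sinh]
  have sre : (sin (t / 2)).re = Real.sin (t.re / 2) * Real.cosh (t.im / 2) := by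
    rw [hs]; simp [-ofReal_mul, -ofReal_cos, -ofReal_cosh, -ofReal_sin, -ofReal_sinh]
  have sim : (sin (t / 2)).im = Real.cos (t.re / 2) * Real.sinh (t.im / 2) := by
    rw [hs]; simp [-ofReal_mul, -ofReal_cos, -ofReal_cosh, -ofReal_sin, -ofReal_sinh]
  simp only [Q, c0, c1, normSq_apply, cre, cim, sre, sim]
  have hh := Real.cosh_sq (t.im / 2)
  have h2 : t.re = 2 * (t.re / 2) := by ring
  rw [Real.cos_sub, h2, Real.cos_two_mul', Real.sin_two_mul]
  have h3 : 2 * (t.re / 2) / 2 = t.re / 2 := by ring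
  rw [h3]
  linear_combination (Real.cos g * (Real.cos (t.re / 2) ^ 2 - Real.sin (t.re / 2) ^ 2) +
    2 * Real.sin g * (Real.sin (t.re / 2) * Real.cos (t.re / 2))) * hh

lemma R_eq (t : ℂ) :
    (Matrix.of fun i j => (2 : ℂ) * (uvec t i * uvec t j)) =
      (1 : ℂ) • (1 : Matrix (Fin 2) (Fin 2) ℂ) + sin t • s1 + cos t • s3 := by
  have h2 : t = 2 * (t / 2) := by ring
  have hc : cos t = cos (t / 2) ^ 2 - sin (t / 2) ^ 2 := by
    conv_lhs => rw [h2, cos_two_mul']
  have hs : sin t = 2 * sin (t / 2) * cos (t / 2) := by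
    conv_lhs => rw [h2, sin_two_mul]
  have h1 := sin_sq_add_cos_sq (t / 2)
  rw [hc, hs]
  ext i j
  fin_cases i <;> fin_cases j
  · simp [uvec, s1, s3]; linear_combination h1
  · simp [uvec, s1, s3]; ring
  · simp [uvec, s1, s3]; ring
  · simp [uvec, s1, s3]; linear_combination h1

/-- Nonvanishing with an insertion. -/
theorem trace_ins_ne_zero {g : ℝ} (x : V) {t : ℂ} (ht : 0 < Real.cos (t.re - g))
    {A : Matrix (V → Fin 2) (V → Fin 2) ℂ} (hA : Strict g A) (hp : par * A = A * par) :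
    A.trace + cos t * (ins x s3 * A).trace ≠ 0 := by
  have h1 : Strict g (ins x (Matrix.of fun i j => (2 : ℂ) * (uvec t i * uvec t j)) * A) :=
    Strict.mul_left (good_ins x two_ne_zero (by rw [Q_uvec]; exact ht)) hA
  have h2 := h1.trace_ne_zero
  rw [R_eq, ins_comb, ins_one, Matrix.add_mul, Matrix.add_mul, Matrix.trace_add,
    Matrix.trace_add, Matrix.smul_mul, Matrix.smul_mul, Matrix.smul_mul, Matrix.trace_smul,
    Matrix.trace_smul, Matrix.trace_smul, trace_s1 x hp, Matrix.one_mul] at h2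
  simpa using h2

/-- The magnetization does not vanish. -/
theorem trace_s3_ne_zero {g : ℝ} (x : V) {A B : Matrix (V → Fin 2) (V → Fin 2) ℂ}
    (hA : Strict g A) (hB : Strict g B) (hp : par * (B * A) = (B * A) * par) :
    (ins x s3 * (B * A)).trace ≠ 0 := by
  have hw : Weak g (ins x (Matrix.of fun i j => (1 : ℂ) * (![1, -I] i * ![1, -I] j))) :=
    weak_ins x one_ne_zero (by
      intro h; have := congrFun h 0; simp at this) (by simp [Q])
  have h1 := (Strict.weak_strict hA hw hB).trace_ne_zero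
  have e : (Matrix.of fun i j => (1 : ℂ) * (![1, -I] i * ![1, -I] j)) =
      (0 : ℂ) • (1 : Matrix (Fin 2) (Fin 2) ℂ) + (-I) • s1 + (1 : ℂ) • s3 := by
    ext i j
    fin_cases i <;> fin_cases j <;> simp [s1, s3]
  rw [Matrix.mul_assoc, Matrix.trace_mul_comm, Matrix.mul_assoc, e, ins_comb, Matrix.add_mul,
    Matrix.add_mul, Matrix.trace_add, Matrix.trace_add, Matrix.smul_mul, Matrix.smul_mul,
    Matrix.smul_mul, Matrix.trace_smul, Matrix.trace_smul, Matrix.trace_smul,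
    trace_s1 x hp] at h1
  simpa using h1

/-- The region: from the zero-free strip to the half plane. -/
theorem region {Z W : ℂ} {al : ℝ} (hal0 : 0 ≤ al) (hal : al < Real.pi / 2) (hW : W ≠ 0)
    (h : ∀ t : ℂ, |t.re| < Real.pi - al → Z + cos t * W ≠ 0) :
    Real.cos al ≤ (Z / W).re := by
  by_contra hc
  rw [not_le] at hc
  obtain ⟨t0, ht0⟩ := cos_surjective (-(Z / W))
  set n : ℤ := round (t0.re / (2 * Real.pi)) with hn
  set t : ℂ := t0 - n * (2 * Real.pi) with ht
  have hct : cos t = -(Z / W) := by rw [ht, cos_sub_int_mul_two_pi, ht0]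
  have hre : t.re = t0.re - n * (2 * Real.pi) := by rw [ht]; simp
  have hpi := Real.pi_pos
  have hle : |t.re| ≤ Real.pi := by
    have h1 := abs_sub_round (t0.re / (2 * Real.pi))
    have h2 : t.re = 2 * Real.pi * (t0.re / (2 * Real.pi) - n) := by
      rw [hre]; field_simp
    rw [h2, abs_mul, abs_of_pos (by positivity : 0 < 2 * Real.pi)]
    calc 2 * Real.pi * |t0.re / (2 * Real.pi) - n| ≤ 2 * Real.pi * (1 / 2) :=
          mul_le_mul_of_nonneg_left h1 (by positivity)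
      _ = Real.pi := by ring
  have hz : Z + cos t * W = 0 := by rw [hct]; field_simp; ring
  have hlt : |t.re| < Real.pi - al := by
    by_contra hge
    rw [not_lt] at hge
    have hcos : Real.cos t.re ≤ -Real.cos al := by
      rw [← Real.cos_abs, ← Real.cos_pi_sub]
      exact Real.cos_le_cos_of_nonneg_of_le_pi (by linarith) hle hge
    have hcal : 0 < Real.cos al := Real.cos_pos_of_mem_Ioo ⟨by linarith, hal⟩
    have hre2 : (cos t).re = Real.cos t.re * Real.cosh t.im := by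
      rw [cos_eq]
      have : cos (t.re : ℂ) * cosh (t.im : ℂ) - sin (t.re : ℂ) * sinh (t.im : ℂ) * I =
          (Real.cos t.re * Real.cosh t.im : ℝ) - (Real.sin t.re * Real.sinh t.im : ℝ) * I := by
        push_cast; ring
      rw [this]; simp [-ofReal_mul, -ofReal_cos, -ofReal_cosh, -ofReal_sin, -ofReal_sinh]
    have h1 : (cos t).re = -(Z / W).re := by rw [hct, neg_re]
    have h2 := Real.one_le_cosh t.im
    rw [hre2] at h1
    nlinarith [mul_nonneg (sub_nonneg.mpr h2) hcal.le]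
  exact h t hlt hz

end

end Vale.Agent.P361.LRO
end

section

/-!
P361, stage 3: the direction of the block spin by Jensen's inequality (scalar part).

`w` is the joint law of `(J, M)`, `D = (J_max - J) / |b|`, `X = 1 - M / J`, `r = A_K(J) / A_K(J_max)`.
-/

namespace Vale.Agent.P361.LRO.S3

open Finset

variable {ι : Type*}

/-- Jensen: the exponential moment inequality gives a linear inequality between the means. -/
theorem jensen_dir (s : Finset ι) (w D X r : ι → ℝ) (hw : ∀ i ∈ s, 0 ≤ w i)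
    (hsum : ∑ i ∈ s, w i = 1) {K c : ℝ} (hK : 0 < K)
    (hr : ∀ i ∈ s, Real.exp (-(K * D i)) ≤ r i)
    (hE : ∑ i ∈ s, w i * (r i * Real.exp (c * K * X i)) ≤ 2 * ∑ i ∈ s, w i * r i) :
    c * ∑ i ∈ s, w i * X i ≤
      ∑ i ∈ s, w i * D i + (1 / K) * Real.log (2 * ∑ i ∈ s, w i * r i) := by
  have h1 : Real.exp (∑ i ∈ s, w i • (K * (c * X i - D i))) ≤
      ∑ i ∈ s, w i • Real.exp (K * (c * X i - D i)) :=
    convexOn_exp.map_sum_le hw hsum fun i _ => Set.mem_univ _
  have h2 : ∑ i ∈ s, w i • Real.exp (K * (c * X i - D i)) ≤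
      ∑ i ∈ s, w i * (r i * Real.exp (c * K * X i)) := by
    refine sum_le_sum fun i hi => ?_
    rw [smul_eq_mul]
    refine mul_le_mul_of_nonneg_left ?_ (hw i hi)
    have e : K * (c * X i - D i) = -(K * D i) + c * K * X i := by ring
    rw [e, Real.exp_add]
    exact mul_le_mul_of_nonneg_right (hr i hi) (Real.exp_pos _).le
  have h3 : Real.exp (∑ i ∈ s, w i • (K * (c * X i - D i))) ≤ 2 * ∑ i ∈ s, w i * r i :=
    h1.trans (h2.trans hE)
  have h4 : ∑ i ∈ s, w i • (K * (c * X i - D i)) ≤ Real.log (2 * ∑ i ∈ s, w i * r i) := by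
    rw [← Real.log_exp (∑ i ∈ s, w i • (K * (c * X i - D i)))]
    exact Real.log_le_log (Real.exp_pos _) h3
  have h5 : ∑ i ∈ s, w i • (K * (c * X i - D i)) =
      K * (c * ∑ i ∈ s, w i * X i - ∑ i ∈ s, w i * D i) := by
    simp only [smul_eq_mul, mul_sub, sum_sub_distrib, mul_sum]
    congr 1
    · exact sum_congr rfl fun i _ => by ring
    · exact sum_congr rfl fun i _ => by ring
  rw [h5] at h4
  have h6 : c * ∑ i ∈ s, w i * X i - ∑ i ∈ s, w i * D i ≤
      (1 / K) * Real.log (2 * ∑ i ∈ s, w i * r i) := by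
    rw [one_div, inv_mul_eq_div, le_div_iff₀ hK]
    linarith
  linarith

/-- Closure form: `r ≤ 1`. -/
theorem dir_closure (s : Finset ι) (w D X r : ι → ℝ) (hw : ∀ i ∈ s, 0 ≤ w i)
    (hsum : ∑ i ∈ s, w i = 1) {K c : ℝ} (hK : 0 < K)
    (hr : ∀ i ∈ s, Real.exp (-(K * D i)) ≤ r i) (hr1 : ∀ i ∈ s, r i ≤ 1)
    (hE : ∑ i ∈ s, w i * (r i * Real.exp (c * K * X i)) ≤ 2 * ∑ i ∈ s, w i * r i) :
    c * ∑ i ∈ s, w i * X i ≤ ∑ i ∈ s, w i * D i + 1 / K := by
  have h := jensen_dir s w D X r hw hsum hK hr hE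
  have hpos : 0 < ∑ i ∈ s, w i * r i := by
    obtain ⟨i, hi, hwi⟩ : ∃ i ∈ s, w i ≠ 0 := by
      by_contra hcon
      push Not at hcon
      rw [sum_eq_zero hcon] at hsum
      exact zero_ne_one hsum
    refine sum_pos' (fun j hj => mul_nonneg (hw j hj) ((Real.exp_pos _).le.trans (hr j hj)))
      ⟨i, hi, mul_pos (lt_of_le_of_ne (hw i hi) hwi.symm) ((Real.exp_pos _).trans_le (hr i hi))⟩
  have h1 : ∑ i ∈ s, w i * r i ≤ 1 := by
    rw [← hsum]
    exact sum_le_sum fun i hi => mul_le_of_le_one_right (hw i hi) (hr1 i hi)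
  have h2 : Real.log (2 * ∑ i ∈ s, w i * r i) ≤ 1 := by
    have := Real.log_le_sub_one_of_pos (show 0 < 2 * ∑ i ∈ s, w i * r i by positivity)
    linarith
  have h3 : (1 / K) * Real.log (2 * ∑ i ∈ s, w i * r i) ≤ 1 / K := by
    have : 0 ≤ 1 / K := by positivity
    nlinarith
  linarith

/-- Sharp form: the lower tail of `D` is negligible at the scale `exp (- K q)`. -/
theorem dir_sharp (s : Finset ι) (w D X r : ι → ℝ) (hw : ∀ i ∈ s, 0 ≤ w i)
    (hsum : ∑ i ∈ s, w i = 1) {K c q : ℝ} (hK : 0 < K)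
    (hr : ∀ i ∈ s, Real.exp (-(K * D i)) ≤ r i) (hr1 : ∀ i ∈ s, r i ≤ 1)
    (hr4 : ∀ i ∈ s, q ≤ D i → r i ≤ 4 * Real.exp (-(K * q)))
    (hE : ∑ i ∈ s, w i * (r i * Real.exp (c * K * X i)) ≤ 2 * ∑ i ∈ s, w i * r i)
    (htail : ∑ i ∈ s, (if D i < q then w i else 0) ≤ Real.exp (-(K * q))) :
    c * ∑ i ∈ s, w i * X i ≤ ∑ i ∈ s, w i * D i - q + 9 / K := by
  have h := jensen_dir s w D X r hw hsum hK hr hE
  have hpos : 0 < ∑ i ∈ s, w i * r i := by
    obtain ⟨i, hi, hwi⟩ : ∃ i ∈ s, w i ≠ 0 := by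
      by_contra hcon
      push Not at hcon
      rw [sum_eq_zero hcon] at hsum
      exact zero_ne_one hsum
    refine sum_pos' (fun j hj => mul_nonneg (hw j hj) ((Real.exp_pos _).le.trans (hr j hj)))
      ⟨i, hi, mul_pos (lt_of_le_of_ne (hw i hi) hwi.symm) ((Real.exp_pos _).trans_le (hr i hi))⟩
  have h1 : ∑ i ∈ s, w i * r i ≤ 5 * Real.exp (-(K * q)) := by
    have h2 : ∀ i ∈ s, w i * r i ≤ w i * (4 * Real.exp (-(K * q))) +
        (if D i < q then w i else 0) := by
      intro i hi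
      have hwi := hw i hi
      have he := (Real.exp_pos (-(K * q))).le
      split_ifs with hq
      · have := mul_le_of_le_one_right hwi (hr1 i hi)
        have := mul_nonneg hwi (by linarith : (0 : ℝ) ≤ 4 * Real.exp (-(K * q)))
        linarith
      · have := mul_le_mul_of_nonneg_left (hr4 i hi (not_lt.1 hq)) hwi
        linarith
    refine (sum_le_sum h2).trans ?_
    rw [sum_add_distrib, ← sum_mul, hsum]
    linarith
  have h2 : Real.log (2 * ∑ i ∈ s, w i * r i) ≤ 9 - K * q := by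
    have h3 : Real.log (2 * ∑ i ∈ s, w i * r i) ≤ Real.log (10 * Real.exp (-(K * q))) :=
      Real.log_le_log (by positivity) (by linarith)
    have h4 : Real.log (10 * Real.exp (-(K * q))) = Real.log 10 - K * q := by
      rw [Real.log_mul (by norm_num) (Real.exp_pos _).ne', Real.log_exp]
      ring
    have h5 : Real.log 10 ≤ 9 := by
      have := Real.log_le_sub_one_of_pos (show (0 : ℝ) < 10 by norm_num)
      linarith
    linarith
  have h3 : (1 / K) * Real.log (2 * ∑ i ∈ s, w i * r i) ≤ 9 / K - q := by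
    have h4 : (1 / K) * Real.log (2 * ∑ i ∈ s, w i * r i) ≤ (1 / K) * (9 - K * q) :=
      mul_le_mul_of_nonneg_left h2 (by positivity)
    have h5 : (1 / K) * (9 - K * q) = 9 / K - q := by
      field_simp
    linarith
  linarith

end Vale.Agent.P361.LRO.S3
end

section

/-! P361 LRO: uniform (quantitative) Lie-Trotter. -/

namespace Vale.Agent.P361.LRO.Trot

open Filter Topology NormedSpace

section powers

variable {𝔸 : Type*} [NormedRing 𝔸]

/-- telescoping estimate for powers -/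
theorem norm_pow_sub_pow_le {a b : 𝔸} {M : ℝ} (hM : 1 ≤ M) (ha : ‖a‖ ≤ M) (hb : ‖b‖ ≤ M) (m : ℕ)
    (h1 : ‖(1 : 𝔸)‖ ≤ 1) : ‖a ^ m - b ^ m‖ ≤ m * M ^ m * ‖a - b‖ := by
  have hpa : ∀ k : ℕ, ‖a ^ k‖ ≤ M ^ k := by
    intro k
    induction k with
    | zero => simpa using h1
    | succ k ih =>
      rw [pow_succ, pow_succ]
      refine (norm_mul_le _ _).trans ?_
      gcongr
  induction m with
  | zero => simp
  | succ m ih =>
    have e : a ^ (m + 1) - b ^ (m + 1) = a ^ m * (a - b) + (a ^ m - b ^ m) * b := by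
      rw [pow_succ, pow_succ]; noncomm_ring
    rw [e]
    have h2 : ‖a ^ m * (a - b)‖ ≤ M ^ m * ‖a - b‖ := by
      refine (norm_mul_le _ _).trans ?_
      gcongr
      exact hpa m
    have h3 : ‖(a ^ m - b ^ m) * b‖ ≤ (m * M ^ m * ‖a - b‖) * M := by
      refine (norm_mul_le _ _).trans ?_
      gcongr
    have hM0 : 0 ≤ M := zero_le_one.trans hM
    calc ‖a ^ m * (a - b) + (a ^ m - b ^ m) * b‖
        ≤ M ^ m * ‖a - b‖ + (m * M ^ m * ‖a - b‖) * M := (norm_add_le _ _).trans (add_le_add h2 h3)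
      _ ≤ (M ^ m * M) * ‖a - b‖ + (m * M ^ m * ‖a - b‖) * M := by
          gcongr
          exact le_mul_of_one_le_right (by positivity) hM
      _ = ((m + 1 : ℕ) : ℝ) * M ^ (m + 1) * ‖a - b‖ := by
          push_cast
          ring

end powers

variable {𝔸 : Type*} [NormedRing 𝔸] [NormedAlgebra ℝ 𝔸] [CompleteSpace 𝔸]

omit [CompleteSpace 𝔸] in
/-- norm of the exponential -/
theorem norm_exp_le (h1 : ‖(1 : 𝔸)‖ ≤ 1) (x : 𝔸) : ‖exp x‖ ≤ Real.exp ‖x‖ := by
  have h2 : ∀ n : ℕ, ‖((n.factorial : ℝ)⁻¹) • x ^ n‖ ≤ ‖x‖ ^ n / n.factorial := by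
    intro n
    rw [norm_smul, norm_inv, Real.norm_natCast, div_eq_inv_mul]
    gcongr
    rcases Nat.eq_zero_or_pos n with hn | hn
    · subst hn; simpa using h1
    · exact norm_pow_le' x hn
  have hs : Summable fun n : ℕ => ‖x‖ ^ n / (n.factorial : ℝ) := Real.summable_pow_div_factorial _
  rw [exp_eq_tsum ℝ, Real.exp_eq_exp_ℝ, exp_eq_tsum_div]
  exact tsum_of_norm_bounded hs.hasSum h2

/-- first order remainder of the exponential -/
theorem norm_exp_sub_one_sub_le (x : 𝔸) :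
    ‖exp x - 1 - x‖ ≤ Real.exp ‖x‖ - 1 - ‖x‖ := by
  have h2 : ∀ n : ℕ, ‖(((n + 2).factorial : ℝ)⁻¹) • x ^ (n + 2)‖ ≤
      ‖x‖ ^ (n + 2) / (n + 2).factorial := by
    intro n
    rw [norm_smul, norm_inv, Real.norm_natCast, div_eq_inv_mul]
    gcongr
    exact norm_pow_le' x (by omega)
  have hs : Summable fun n : ℕ => ‖x‖ ^ n / (n.factorial : ℝ) := Real.summable_pow_div_factorial _
  have hx : Summable fun n : ℕ => ((n.factorial : ℝ)⁻¹) • x ^ n := expSeries_summable' (𝕂 := ℝ) x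
  have e : exp x - 1 - x = ∑' n : ℕ, (((n + 2).factorial : ℝ)⁻¹) • x ^ (n + 2) := by
    rw [exp_eq_tsum ℝ]
    have h5 := hx.sum_add_tsum_nat_add 2
    simp only [Finset.sum_range_succ, Finset.range_zero, Finset.sum_empty, zero_add,
      Nat.factorial_zero, Nat.cast_one, inv_one, pow_zero, one_smul, Nat.factorial_one,
      pow_one] at h5
    show (∑' n : ℕ, ((n.factorial : ℝ)⁻¹) • x ^ n) - 1 - x = _
    rw [← h5]
    abel
  have e' : Real.exp ‖x‖ - 1 - ‖x‖ = ∑' n : ℕ, ‖x‖ ^ (n + 2) / ((n + 2).factorial : ℝ) := by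
    rw [Real.exp_eq_exp_ℝ, exp_eq_tsum_div]
    have h5 := hs.sum_add_tsum_nat_add 2
    simp only [Finset.sum_range_succ, Finset.range_zero, Finset.sum_empty, zero_add,
      Nat.factorial_zero, Nat.cast_one, div_one, pow_zero, Nat.factorial_one,
      pow_one] at h5
    show (∑' n : ℕ, ‖x‖ ^ n / (n.factorial : ℝ)) - 1 - ‖x‖ = _
    rw [← h5]
    ring
  rw [e, e']
  exact tsum_of_norm_bounded ((summable_nat_add_iff 2).2 hs).hasSum h2

/-- zeroth order remainder of the exponential -/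
theorem norm_exp_sub_one_le (x : 𝔸) : ‖exp x - 1‖ ≤ Real.exp ‖x‖ - 1 := by
  have h := norm_exp_sub_one_sub_le x
  have e : exp x - 1 = (exp x - 1 - x) + x := by abel
  rw [e]
  linarith [norm_add_le (exp x - 1 - x) x]

/-- (UT1) products of exponentials -/
theorem prod_exp_bounds (h1 : ‖(1 : 𝔸)‖ ≤ 1) (l : List 𝔸) :
    ‖(l.map exp).prod‖ ≤ Real.exp (l.map norm).sum ∧
    ‖(l.map exp).prod - 1‖ ≤ Real.exp (l.map norm).sum - 1 ∧
    ‖(l.map exp).prod - 1 - l.sum‖ ≤ Real.exp (l.map norm).sum - 1 - (l.map norm).sum := by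
  induction l with
  | nil => simp [h1]
  | cons A l ih =>
    obtain ⟨i1, i2, i3⟩ := ih
    set P := (l.map exp).prod with hP
    set s := (l.map norm).sum with hs
    have hs0 : 0 ≤ s := List.sum_nonneg (by
      intro x hx
      obtain ⟨a, _, rfl⟩ := List.mem_map.1 hx
      exact norm_nonneg _)
    simp only [List.map_cons, List.prod_cons, List.sum_cons, ← hP, ← hs]
    have j1 := norm_exp_le h1 A
    have j2 := norm_exp_sub_one_le A
    have j3 := norm_exp_sub_one_sub_le A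
    have hA0 : 0 ≤ Real.exp ‖A‖ - 1 := (norm_nonneg _).trans j2
    have hE0 : 0 ≤ Real.exp s - 1 := (norm_nonneg _).trans i2
    have k : ‖(exp A - 1) * (P - 1)‖ ≤ (Real.exp ‖A‖ - 1) * (Real.exp s - 1) :=
      (norm_mul_le _ _).trans (mul_le_mul j2 i2 (norm_nonneg _) hA0)
    refine ⟨?_, ?_, ?_⟩
    · rw [Real.exp_add]
      exact (norm_mul_le _ _).trans (mul_le_mul j1 i1 (norm_nonneg _) (Real.exp_pos _).le)
    · have e : exp A * P - 1 = (exp A - 1) * (P - 1) + (exp A - 1) + (P - 1) := by noncomm_ring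
      rw [e, Real.exp_add]
      refine norm_add₃_le.trans ?_
      nlinarith
    · have e : exp A * P - 1 - (A + l.sum)
          = (exp A - 1) * (P - 1) + (exp A - 1 - A) + (P - 1 - l.sum) := by noncomm_ring
      rw [e, Real.exp_add]
      refine norm_add₃_le.trans ?_
      nlinarith

/-- `e^x - 1 - x ≤ x² e^x`. -/
theorem exp_rem_le {x : ℝ} (hx : 0 ≤ x) : Real.exp x - 1 - x ≤ x ^ 2 * Real.exp x := by
  have h0 : 1 - x ≤ Real.exp (-x) := by
    have := Real.add_one_le_exp (-x)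
    linarith
  have h1 : Real.exp x - 1 ≤ x * Real.exp x := by
    have h2 : (1 - x) * Real.exp x ≤ Real.exp (-x) * Real.exp x :=
      mul_le_mul_of_nonneg_right h0 (Real.exp_pos _).le
    rw [← Real.exp_add, neg_add_cancel, Real.exp_zero] at h2
    linarith
  have h3 : x * (Real.exp x - 1) ≤ x * (x * Real.exp x) := mul_le_mul_of_nonneg_left h1 hx
  nlinarith

omit [CompleteSpace 𝔸] [NormedAlgebra ℝ 𝔸] in
theorem norm_list_sum_le (l : List 𝔸) : ‖l.sum‖ ≤ (l.map norm).sum := by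
  induction l with
  | nil => simp
  | cons A l ih =>
    rw [List.sum_cons, List.map_cons, List.sum_cons]
    exact (norm_add_le _ _).trans (add_le_add le_rfl ih)

/-- one step: the product of exponentials against the exponential of the sum -/
theorem prod_exp_sub_exp_sum_le (h1 : ‖(1 : 𝔸)‖ ≤ 1) (l : List 𝔸) {s : ℝ}
    (hs : (l.map norm).sum ≤ s) :
    ‖(l.map exp).prod - exp l.sum‖ ≤ 2 * (s ^ 2 * Real.exp s) := by
  obtain ⟨-, -, i3⟩ := prod_exp_bounds h1 l
  have j3 := norm_exp_sub_one_sub_le l.sum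
  have h0 : 0 ≤ (l.map norm).sum := List.sum_nonneg (by
      intro x hx
      obtain ⟨a, _, rfl⟩ := List.mem_map.1 hx
      exact norm_nonneg _)
  have mono : ∀ x : ℝ, 0 ≤ x → x ≤ s → Real.exp x - 1 - x ≤ s ^ 2 * Real.exp s := by
    intro x hx hxs
    refine (exp_rem_le hx).trans ?_
    gcongr
  have e : (l.map exp).prod - exp l.sum
      = ((l.map exp).prod - 1 - l.sum) - (exp l.sum - 1 - l.sum) := by abel
  rw [e]
  refine (norm_sub_le _ _).trans ?_
  have k1 := mono _ h0 hs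
  have k2 := mono _ (norm_nonneg l.sum) ((norm_list_sum_le l).trans hs)
  linarith

/-- (UT2) uniform Lie-Trotter at every intermediate slice -/
theorem trotter_uniform (h1 : ‖(1 : 𝔸)‖ ≤ 1) (l : List 𝔸) {c : ℝ}
    (hc : (l.map norm).sum ≤ c) {N k : ℕ} (hN : 1 ≤ N) (hk : k ≤ N) :
    ‖((l.map fun A => exp ((N : ℝ)⁻¹ • A)).prod) ^ k - exp (((k : ℝ) / N) • l.sum)‖
      ≤ 2 * c ^ 2 * Real.exp (2 * c) / N := by
  have hN0 : (0 : ℝ) < N := by exact_mod_cast hN
  have h0 : 0 ≤ (l.map norm).sum := List.sum_nonneg (by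
      intro x hx
      obtain ⟨a, _, rfl⟩ := List.mem_map.1 hx
      exact norm_nonneg _)
  have hc0 : 0 ≤ c := h0.trans hc
  set l' := l.map fun A => (N : ℝ)⁻¹ • A with hl'
  have hsum : l'.sum = (N : ℝ)⁻¹ • l.sum := by
    rw [hl', ← List.smul_sum]
  have hnorm : (l'.map norm).sum ≤ c / N := by
    have e : (l'.map norm) = (l.map norm).map (fun x => (N : ℝ)⁻¹ * x) := by
      rw [hl', List.map_map, List.map_map]
      apply List.map_congr_left
      intro A _
      simp [norm_smul]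
    rw [e, List.sum_map_mul_left, List.map_id', div_eq_inv_mul]
    gcongr
  have hmap : (l.map fun A => exp ((N : ℝ)⁻¹ • A)) = l'.map exp := by
    rw [hl', List.map_map]; rfl
  rw [hmap]
  have hstep := prod_exp_sub_exp_sum_le h1 l' hnorm
  obtain ⟨i1, -, -⟩ := prod_exp_bounds h1 l'
  have hw : ‖(l'.map exp).prod‖ ≤ Real.exp (c / N) := i1.trans (Real.exp_le_exp.2 hnorm)
  have ha : ‖exp l'.sum‖ ≤ Real.exp (c / N) :=
    (norm_exp_le h1 _).trans (Real.exp_le_exp.2 ((norm_list_sum_le l').trans hnorm))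
  have hM : 1 ≤ Real.exp (c / N) := Real.one_le_exp (by positivity)
  have epow : exp (((k : ℝ) / N) • l.sum) = exp l'.sum ^ k := by
    let _ : NormedAlgebra ℚ 𝔸 := NormedAlgebra.restrictScalars ℚ ℝ 𝔸
    rw [← exp_nsmul, ← Nat.cast_smul_eq_nsmul ℝ, hsum, smul_smul, div_eq_mul_inv]
  rw [epow]
  refine (norm_pow_sub_pow_le hM hw ha k h1).trans ?_
  have e2 : Real.exp (c / N) ^ k ≤ Real.exp c := by
    rw [← Real.exp_nat_mul]
    apply Real.exp_le_exp.2
    rw [mul_div_assoc', div_le_iff₀ hN0, mul_comm c]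
    gcongr
  have e3 : Real.exp (c / N) ≤ Real.exp c := by
    apply Real.exp_le_exp.2
    exact div_le_self hc0 (by exact_mod_cast hN)
  calc (k : ℝ) * Real.exp (c / N) ^ k * ‖(l'.map exp).prod - exp l'.sum‖
      ≤ (N : ℝ) * Real.exp c * (2 * ((c / N) ^ 2 * Real.exp c)) := by
        gcongr
        refine hstep.trans ?_
        gcongr
    _ = 2 * c ^ 2 * Real.exp (2 * c) / N := by
        rw [two_mul c, Real.exp_add]
        field_simp

end Vale.Agent.P361.LRO.Trot
end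

section

/-!
P361, block (1): `(A_N)^N → exp X` if `N (A_N - 1) → X`, and products.
-/

namespace Vale.Agent.P361.LRO.Trot

open Filter Topology NormedSpace

/-- first order of a product -/
theorem first_mul {R : Type*} [NormedRing R] [NormedAlgebra ℝ R] {a b : ℕ → R} {x y : R}
    (ha : Tendsto (fun N : ℕ => (N : ℝ) • (a N - 1)) atTop (𝓝 x))
    (hb : Tendsto (fun N : ℕ => (N : ℝ) • (b N - 1)) atTop (𝓝 y)) :
    Tendsto (fun N : ℕ => (N : ℝ) • (a N * b N - 1)) atTop (𝓝 (x + y)) := by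
  have hb1 : Tendsto b atTop (𝓝 1) := by
    have h1 : Tendsto (fun N : ℕ => (N : ℝ)⁻¹ • ((N : ℝ) • (b N - 1))) atTop (𝓝 ((0 : ℝ) • y)) :=
      (tendsto_inv_atTop_nhds_zero_nat (𝕜 := ℝ)).smul hb
    rw [zero_smul] at h1
    have h2 : Tendsto (fun N : ℕ => (N : ℝ)⁻¹ • ((N : ℝ) • (b N - 1)) + 1) atTop (𝓝 (0 + 1)) :=
      h1.add tendsto_const_nhds
    rw [zero_add] at h2
    refine h2.congr' ?_
    filter_upwards [eventually_gt_atTop 0] with N hN
    have hN' : (N : ℝ) ≠ 0 := by exact_mod_cast hN.ne'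
    rw [smul_smul, inv_mul_cancel₀ hN', one_smul]
    abel
  have h3 := (ha.mul hb1).add hb
  rw [mul_one] at h3
  refine h3.congr fun N => ?_
  rw [smul_mul_assoc, ← smul_add]
  congr 1
  noncomm_ring

theorem first_one {R : Type*} [NormedRing R] [NormedAlgebra ℝ R] :
    Tendsto (fun N : ℕ => (N : ℝ) • ((1 : R) - 1)) atTop (𝓝 0) := by
  simp

/-- first order of a product over a list -/
theorem first_list {R : Type*} [NormedRing R] [NormedAlgebra ℝ R] {ι : Type*} (L : List ι)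
    (a : ι → ℕ → R) (x : ι → R)
    (ha : ∀ i ∈ L, Tendsto (fun N : ℕ => (N : ℝ) • (a i N - 1)) atTop (𝓝 (x i))) :
    Tendsto (fun N : ℕ => (N : ℝ) • ((L.map fun i => a i N).prod - 1)) atTop
      (𝓝 (L.map x).sum) := by
  induction L with
  | nil => simp
  | cons i L ih =>
    simp only [List.map_cons, List.prod_cons, List.sum_cons]
    exact first_mul (ha i (by simp)) (ih fun j hj => ha j (by simp [hj]))

/-- first order of a product over a finite set (commutative) -/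
theorem first_prod {R : Type*} [NormedCommRing R] [NormedAlgebra ℝ R] {ι : Type*}
    (s : Finset ι) (a : ι → ℕ → R) (x : ι → R)
    (ha : ∀ i ∈ s, Tendsto (fun N : ℕ => (N : ℝ) • (a i N - 1)) atTop (𝓝 (x i))) :
    Tendsto (fun N : ℕ => (N : ℝ) • ((∏ i ∈ s, a i N) - 1)) atTop (𝓝 (∑ i ∈ s, x i)) := by
  classical
  induction s using Finset.induction_on with
  | empty => simp
  | insert i s hi ih =>
    simp only [Finset.prod_insert hi, Finset.sum_insert hi]
    exact first_mul (ha i (by simp)) (ih fun j hj => ha j (by simp [hj]))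

/-- **The limit of powers.** -/
theorem pow_tendsto_exp {𝔸 : Type*} [NormedRing 𝔸] [NormedAlgebra ℝ 𝔸] [CompleteSpace 𝔸]
    (h1 : ‖(1 : 𝔸)‖ ≤ 1) {a : ℕ → 𝔸} {x : 𝔸}
    (ha : Tendsto (fun N : ℕ => (N : ℝ) • (a N - 1)) atTop (𝓝 x)) :
    Tendsto (fun N : ℕ => a N ^ N) atTop (𝓝 (exp x)) := by
  set c : ℝ := ‖x‖ + 1 with hc
  have hc0 : 0 < c := by positivity
  -- norms of `a N`
  have hn : ∀ᶠ N : ℕ in atTop, ‖a N‖ ≤ Real.exp (c / N) := by
    have h2 : ∀ᶠ N : ℕ in atTop, ‖(N : ℝ) • (a N - 1)‖ < c :=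
      (ha.norm).eventually_lt_const (by rw [hc]; linarith)
    filter_upwards [h2, eventually_gt_atTop 0] with N hN hN0
    have hN' : (0 : ℝ) < N := by exact_mod_cast hN0
    rw [norm_smul, Real.norm_natCast] at hN
    have h3 : ‖a N - 1‖ ≤ c / N := by
      rw [le_div_iff₀ hN', mul_comm]
      exact hN.le
    calc ‖a N‖ = ‖(a N - 1) + 1‖ := by rw [sub_add_cancel]
      _ ≤ ‖a N - 1‖ + ‖(1 : 𝔸)‖ := norm_add_le _ _
      _ ≤ c / N + 1 := add_le_add h3 h1
      _ ≤ Real.exp (c / N) := Real.add_one_le_exp _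
  have he : ∀ᶠ N : ℕ in atTop, ‖exp ((N : ℝ)⁻¹ • x)‖ ≤ Real.exp (c / N) := by
    filter_upwards [eventually_gt_atTop 0] with N hN0
    have hN' : (0 : ℝ) < N := by exact_mod_cast hN0
    refine (norm_exp_le h1 _).trans (Real.exp_le_exp.2 ?_)
    rw [norm_smul, norm_inv, Real.norm_natCast, div_eq_inv_mul]
    gcongr
    rw [hc]
    linarith
  -- `N (exp (x/N) - 1) → x`
  have hx : Tendsto (fun N : ℕ => (N : ℝ) • (exp ((N : ℝ)⁻¹ • x) - 1)) atTop (𝓝 x) := by
    rw [tendsto_iff_norm_sub_tendsto_zero]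
    have hb : ∀ᶠ N : ℕ in atTop, ‖(N : ℝ) • (exp ((N : ℝ)⁻¹ • x) - 1) - x‖ ≤
        (‖x‖ ^ 2 * Real.exp ‖x‖) * (N : ℝ)⁻¹ := by
      filter_upwards [eventually_gt_atTop 0] with N hN0
      have hN' : (0 : ℝ) < N := by exact_mod_cast hN0
      have hN1 : (1 : ℝ) ≤ N := by exact_mod_cast hN0
      have e : (N : ℝ) • (exp ((N : ℝ)⁻¹ • x) - 1) - x =
          (N : ℝ) • (exp ((N : ℝ)⁻¹ • x) - 1 - (N : ℝ)⁻¹ • x) := by
        rw [smul_sub (N : ℝ) (exp ((N : ℝ)⁻¹ • x) - 1), smul_smul, mul_inv_cancel₀ hN'.ne',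
          one_smul]
      rw [e, norm_smul, Real.norm_natCast]
      have h3 := norm_exp_sub_one_sub_le ((N : ℝ)⁻¹ • x)
      have h4 : ‖(N : ℝ)⁻¹ • x‖ = (N : ℝ)⁻¹ * ‖x‖ := by
        rw [norm_smul, norm_inv, Real.norm_natCast]
      rw [h4] at h3
      have h5 := exp_rem_le (x := (N : ℝ)⁻¹ * ‖x‖) (by positivity)
      have h6 : Real.exp ((N : ℝ)⁻¹ * ‖x‖) ≤ Real.exp ‖x‖ := by
        apply Real.exp_le_exp.2
        have : (N : ℝ)⁻¹ ≤ 1 := inv_le_one_of_one_le₀ hN1
        nlinarith [norm_nonneg x]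
      calc (N : ℝ) * ‖exp ((N : ℝ)⁻¹ • x) - 1 - (N : ℝ)⁻¹ • x‖
          ≤ (N : ℝ) * (((N : ℝ)⁻¹ * ‖x‖) ^ 2 * Real.exp ‖x‖) := by
            gcongr
            exact h3.trans (h5.trans (by gcongr))
        _ = (‖x‖ ^ 2 * Real.exp ‖x‖) * (N : ℝ)⁻¹ := by
            field_simp
    have h0 : Tendsto (fun N : ℕ => (‖x‖ ^ 2 * Real.exp ‖x‖) * (N : ℝ)⁻¹) atTop (𝓝 0) := by
      have := (tendsto_inv_atTop_nhds_zero_nat (𝕜 := ℝ)).const_mul (‖x‖ ^ 2 * Real.exp ‖x‖)
      rwa [mul_zero] at this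
    exact squeeze_zero' (Eventually.of_forall fun N => norm_nonneg _) hb h0
  have hd : Tendsto (fun N : ℕ => (N : ℝ) * ‖a N - exp ((N : ℝ)⁻¹ • x)‖) atTop (𝓝 0) := by
    have h2 := (ha.sub hx).norm
    rw [sub_self, norm_zero] at h2
    refine h2.congr fun N => ?_
    rw [← smul_sub, norm_smul, Real.norm_natCast]
    congr 2
    abel
  rw [tendsto_iff_norm_sub_tendsto_zero]
  have hfin : ∀ᶠ N : ℕ in atTop, ‖a N ^ N - exp x‖ ≤
      Real.exp c * ((N : ℝ) * ‖a N - exp ((N : ℝ)⁻¹ • x)‖) := by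
    filter_upwards [hn, he, eventually_gt_atTop 0] with N hN1 hN2 hN0
    have hN' : (0 : ℝ) < N := by exact_mod_cast hN0
    have h2 : exp x = exp ((N : ℝ)⁻¹ • x) ^ N := by
      let _ : NormedAlgebra ℚ 𝔸 := NormedAlgebra.restrictScalars ℚ ℝ 𝔸
      rw [← NormedSpace.exp_nsmul, ← Nat.cast_smul_eq_nsmul ℝ, smul_smul,
        mul_inv_cancel₀ hN'.ne', one_smul]
    rw [h2]
    refine (norm_pow_sub_pow_le (Real.one_le_exp (by positivity)) hN1 hN2 N h1).trans
      (le_of_eq ?_)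
    rw [← Real.exp_nat_mul]
    have : (N : ℝ) * (c / N) = c := by field_simp
    rw [this]
    ring
  have h0 := hd.const_mul (Real.exp c)
  rw [mul_zero] at h0
  exact squeeze_zero' (Eventually.of_forall fun N => norm_nonneg _) hfin h0

end Vale.Agent.P361.LRO.Trot
end

section

/-!
Convexity of the hyperbolicity cone of a real stable homogeneous polynomial (Garding), in the form of
real-rootedness along all directions of the cone, and log-concavity at the points of the cone.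
-/

namespace Vale.Agent.P361.LRO.T1

open MvPolynomial

variable {σ : Type*} [Fintype σ]

/-- real stability: no zero with all coordinates in the open upper half plane -/
def RStable (f : MvPolynomial σ ℝ) : Prop :=
  ∀ z : σ → ℂ, (∀ i, 0 < (z i).im) → aeval z f ≠ 0

theorem aeval_smul_hom {f : MvPolynomial σ ℝ} {N : ℕ} (hf : f.IsHomogeneous N) (c : ℂ)
    (z : σ → ℂ) : aeval (fun i => c * z i) f = c ^ N * aeval z f := by
  rw [aeval_def, aeval_def, eval₂_eq', eval₂_eq', Finset.mul_sum]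
  refine Finset.sum_congr rfl fun m hm => ?_
  have h1 : ∏ i, (c * z i) ^ m i = c ^ N * ∏ i, z i ^ m i := by
    simp only [mul_pow]
    rw [Finset.prod_mul_distrib, Finset.prod_pow_eq_pow_sum]
    congr 2
    have h2 := hf (mem_support_iff.1 hm)
    rw [← h2, Finsupp.weight_apply, Finsupp.sum_fintype]
    · simp
    · simp
  rw [h1]
  ring

omit [Fintype σ] in
theorem aeval_conj (f : MvPolynomial σ ℝ) (z : σ → ℂ) :
    aeval (fun i => (starRingEnd ℂ) (z i)) f = (starRingEnd ℂ) (aeval z f) := by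
  have h := comp_aeval_apply (R := ℝ) (f := z) (Complex.conjAe : ℂ →ₐ[ℝ] ℂ) f
  exact h.symm

omit [Fintype σ] in
theorem continuous_aeval (f : MvPolynomial σ ℝ) : Continuous fun z : σ → ℂ => aeval z f := by
  have h : (fun z : σ → ℂ => aeval z f) = fun z => eval z (map (algebraMap ℝ ℂ) f) := by
    funext z
    rw [eval_map, aeval_def]
  rw [h]
  exact MvPolynomial.continuous_eval _

/-- the restriction to a line -/
noncomputable def line (f : MvPolynomial σ ℝ) (p q : σ → ℂ) : Polynomial ℂ :=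
  aeval (fun i => Polynomial.C (p i) + Polynomial.C (q i) * Polynomial.X) f

omit [Fintype σ] in
theorem line_eval (f : MvPolynomial σ ℝ) (p q : σ → ℂ) (u : ℂ) :
    (line f p q).eval u = aeval (fun i => p i + q i * u) f := by
  have h := comp_aeval_apply (R := ℝ)
    (f := fun i => Polynomial.C (p i) + Polynomial.C (q i) * Polynomial.X)
    ((Polynomial.aeval u : Polynomial ℂ →ₐ[ℂ] ℂ).restrictScalars ℝ) f
  rw [line]
  have h2 : ∀ P : Polynomial ℂ,
      ((Polynomial.aeval u : Polynomial ℂ →ₐ[ℂ] ℂ).restrictScalars ℝ) P = P.eval u := by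
    intro P
    rw [AlgHom.restrictScalars_apply, Polynomial.coe_aeval_eq_eval]
  rw [h2] at h
  rw [h]
  congr 2
  funext i
  rw [h2]
  simp

omit [Fintype σ] in
theorem prod_lin (p q : σ → ℂ) (m : σ → ℕ) (s : Finset σ) :
    (∏ i ∈ s, (Polynomial.C (p i) + Polynomial.C (q i) * Polynomial.X) ^ m i).natDegree ≤
        ∑ i ∈ s, m i ∧
      (∏ i ∈ s, (Polynomial.C (p i) + Polynomial.C (q i) * Polynomial.X) ^ m i).coeff
        (∑ i ∈ s, m i) = ∏ i ∈ s, q i ^ m i := by
  classical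
  have key : ∀ (i : σ) (k : ℕ),
      ((Polynomial.C (p i) + Polynomial.C (q i) * Polynomial.X) ^ k).natDegree ≤ k ∧
      ((Polynomial.C (p i) + Polynomial.C (q i) * Polynomial.X) ^ k).coeff k = q i ^ k := by
    intro i k
    have hd1 : (Polynomial.C (p i) + Polynomial.C (q i) * Polynomial.X).natDegree ≤ 1 := by
      rw [add_comm]
      exact Polynomial.natDegree_linear_le
    induction k with
    | zero => simp
    | succ k ih =>
      refine ⟨?_, ?_⟩
      · refine (Polynomial.natDegree_pow_le).trans ?_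
        calc (k + 1) * _ ≤ (k + 1) * 1 := Nat.mul_le_mul_left _ hd1
          _ = k + 1 := mul_one _
      · rw [pow_succ, Polynomial.coeff_mul_add_eq_of_natDegree_le ih.1 hd1, ih.2, pow_succ]
        simp
  induction s using Finset.induction_on with
  | empty => simp
  | insert i s hi ih =>
    rw [Finset.prod_insert hi, Finset.sum_insert hi, Finset.prod_insert hi]
    refine ⟨(Polynomial.natDegree_mul_le).trans (add_le_add (key i (m i)).1 ih.1), ?_⟩
    rw [Polynomial.coeff_mul_add_eq_of_natDegree_le (key i (m i)).1 ih.1, (key i (m i)).2, ih.2]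

theorem line_degree {f : MvPolynomial σ ℝ} {N : ℕ} (hf : f.IsHomogeneous N) (p q : σ → ℂ) :
    (line f p q).natDegree ≤ N ∧ (line f p q).coeff N = aeval q f := by
  classical
  have hsum : ∀ m ∈ f.support, ∑ i, m i = N := by
    intro m hm
    have h2 := hf (mem_support_iff.1 hm)
    rw [← h2, Finsupp.weight_apply, Finsupp.sum_fintype]
    · simp
    · simp
  rw [line, aeval_def, eval₂_eq']
  refine ⟨?_, ?_⟩
  · refine Polynomial.natDegree_sum_le_of_forall_le _ _ fun m hm => ?_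
    refine (Polynomial.natDegree_mul_le).trans ?_
    have h1 : (algebraMap ℝ (Polynomial ℂ) (coeff m f)).natDegree = 0 := by
      rw [IsScalarTower.algebraMap_apply ℝ ℂ (Polynomial ℂ), Polynomial.algebraMap_eq]
      exact Polynomial.natDegree_C _
    have h2 := (prod_lin p q m Finset.univ).1
    rw [hsum m hm] at h2
    rw [h1, zero_add]
    exact h2
  · rw [Polynomial.finsetSum_coeff, aeval_def, eval₂_eq']
    refine Finset.sum_congr rfl fun m hm => ?_
    have h2 := (prod_lin p q m Finset.univ).2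
    rw [hsum m hm] at h2
    rw [IsScalarTower.algebraMap_apply ℝ ℂ (Polynomial ℂ), Polynomial.algebraMap_eq,
      Polynomial.coeff_C_mul, h2]

theorem prod_norm_ge (u : ℂ) (hu : 0 ≤ u.im) (s : Multiset ℂ) (hs : ∀ r ∈ s, r.im ≤ 0) :
    u.im ^ s.card ≤ ‖(s.map fun a => u - a).prod‖ := by
  induction s using Multiset.induction_on with
  | empty => simp
  | cons a s ih =>
    rw [Multiset.card_cons, Multiset.map_cons, Multiset.prod_cons, norm_mul, pow_succ']
    refine mul_le_mul ?_ (ih fun r hr => hs r (Multiset.mem_cons_of_mem hr)) (by positivity)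
      (norm_nonneg _)
    have h1 : (u - a).im ≤ ‖u - a‖ := (le_abs_self _).trans (Complex.abs_im_le_norm _)
    have h2 := hs a (Multiset.mem_cons_self a s)
    rw [Complex.sub_im] at h1
    linarith

theorem eval_norm_ge (P : Polynomial ℂ) (N : ℕ) (hdeg : P.natDegree ≤ N) (hc : P.coeff N ≠ 0)
    (hroot : ∀ u : ℂ, 0 ≤ u.im → P.eval u ≠ 0) (u : ℂ) (hu : 0 ≤ u.im) :
    ‖P.coeff N‖ * u.im ^ N ≤ ‖P.eval u‖ := by
  have hN : P.natDegree = N := le_antisymm hdeg (Polynomial.le_natDegree_of_ne_zero hc)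
  have hsp := IsAlgClosed.splits P
  have hcard := hsp.natDegree_eq_card_roots
  rw [hsp.eval_eq_prod_roots u, norm_mul, Polynomial.leadingCoeff, hN]
  refine mul_le_mul_of_nonneg_left ?_ (norm_nonneg _)
  have h1 := prod_norm_ge u hu P.roots fun r hr => by
    by_contra h
    exact hroot r (not_le.1 h).le (Polynomial.isRoot_of_mem_roots hr)
  rw [← hcard, hN] at h1
  exact h1

/-- the point `b` lies in the hyperbolicity cone -/
def Cone (f : MvPolynomial σ ℝ) (b : σ → ℝ) : Prop :=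
  ∀ s : ℝ, 0 ≤ s → aeval (fun i => ((b i + s : ℝ) : ℂ)) f ≠ 0

omit [Fintype σ] in
theorem aeval_shift_ne {f : MvPolynomial σ ℝ} (hs : RStable f) {b : σ → ℝ} (hb : Cone f b) (s : ℂ)
    (hre : 0 ≤ s.re) : aeval (fun i => (b i : ℂ) + s) f ≠ 0 := by
  rcases lt_trichotomy s.im 0 with h | h | h
  · intro h0
    have h1 := aeval_conj f fun i => (b i : ℂ) + s
    rw [h0, map_zero] at h1
    refine hs _ (fun i => ?_) h1
    simp only [map_add, Complex.conj_ofReal, Complex.add_im, Complex.ofReal_im, Complex.conj_im]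
    linarith
  · have h1 : s = (s.re : ℂ) := by
      apply Complex.ext
      · simp
      · simp [h]
    have h2 := hb s.re hre
    rw [h1]
    intro h0
    apply h2
    rw [← h0]
    congr 2
    funext i
    push_cast
    rfl
  · refine hs _ fun i => ?_
    simp only [Complex.add_im, Complex.ofReal_im, zero_add]
    exact h

/-- **Homotopy.** -/
theorem garding_bound {f : MvPolynomial σ ℝ} {N : ℕ} (hf : f.IsHomogeneous N) (hs : RStable f)
    {b : σ → ℝ} (hb : Cone f b) (d : σ → ℝ) {δ : ℝ} (hδ : 0 < δ) (u : ℂ) (hu : 0 ≤ u.im) :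
    ‖aeval (fun i => (b i : ℂ)) f‖ * u.im ^ N ≤
      ‖aeval (fun i => ((d i : ℂ) + δ * Complex.I) + b i * u) f‖ := by
  classical
  set B : ℂ := aeval (fun i => (b i : ℂ)) f with hB
  have hB0 : B ≠ 0 := by
    have := hb 0 le_rfl
    simpa using this
  set G : ℝ → ℂ → ℂ := fun l u =>
    aeval (fun i => ((l * d i : ℝ) : ℂ) + δ * Complex.I + b i * u) f with hG
  have hGc : Continuous fun x : ℝ × ℂ => G x.1 x.2 := by
    refine (continuous_aeval f).comp (continuous_pi fun i => ?_)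
    fun_prop
  -- no real root
  have hreal : ∀ (l : ℝ) (u : ℂ), u.im = 0 → G l u ≠ 0 := by
    intro l u hu
    refine hs _ fun i => ?_
    simp [hu, hδ]
  -- the bound for the good parameters
  have hbd : ∀ l : ℝ, (∀ u : ℂ, 0 ≤ u.im → G l u ≠ 0) → ∀ u : ℂ, 0 ≤ u.im →
      ‖B‖ * u.im ^ N ≤ ‖G l u‖ := by
    intro l hl u hu
    obtain ⟨h1, h2⟩ := line_degree hf (fun i => ((l * d i : ℝ) : ℂ) + δ * Complex.I)
      (fun i => (b i : ℂ))
    have h3 := eval_norm_ge (line f (fun i => ((l * d i : ℝ) : ℂ) + δ * Complex.I)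
      (fun i => (b i : ℂ))) N h1 (by rw [h2]; exact hB0)
      (fun u hu => by rw [line_eval]; exact hl u hu) u hu
    rw [h2, line_eval] at h3
    exact h3
  -- a bound for the roots
  obtain ⟨R, hR⟩ : ∃ R : ℝ, ∀ l ∈ Set.Icc (0 : ℝ) 1, ∀ u : ℂ, G l u = 0 → ‖u‖ ≤ R := by
    have hc := (continuous_aeval f).continuousAt (x := fun i => (b i : ℂ))
    have h1 : ∀ᶠ z in nhds (fun i => (b i : ℂ)), aeval z f ≠ 0 := hc.eventually_ne hB0
    obtain ⟨ε, hε, h2⟩ := Metric.eventually_nhds_iff.1 h1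
    set D : ℝ := ∑ i, |d i| + δ with hD
    have hD0 : 0 < D := by
      have : 0 ≤ ∑ i, |d i| := Finset.sum_nonneg fun i _ => abs_nonneg _
      linarith
    refine ⟨D / ε * 2, fun l hl u h0 => ?_⟩
    by_contra hu
    rw [not_le] at hu
    have hun : 0 < ‖u‖ := lt_trans (by positivity) hu
    have hu0 : u ≠ 0 := norm_pos_iff.1 hun
    have h3 : G l u = u ^ N * aeval (fun i => (b i : ℂ) +
        (((l * d i : ℝ) : ℂ) + δ * Complex.I) / u) f := by
      rw [← aeval_smul_hom hf]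
      simp only [hG]
      congr 2
      funext i
      field_simp
      ring
    rw [h3] at h0
    rcases mul_eq_zero.1 h0 with h4 | h4
    · exact hu0 (eq_zero_of_pow_eq_zero h4)
    · refine h2 ?_ h4
      rw [dist_pi_lt_iff hε]
      intro i
      rw [Complex.dist_eq, add_sub_cancel_left, norm_div, div_lt_iff₀ hun]
      have h5 : ‖((l * d i : ℝ) : ℂ) + δ * Complex.I‖ ≤ D := by
        refine (norm_add_le _ _).trans ?_
        have e1 : ‖((l * d i : ℝ) : ℂ)‖ = l * |d i| := by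
          rw [Complex.norm_real, Real.norm_eq_abs, abs_mul, abs_of_nonneg hl.1]
        have e2 : ‖(δ : ℂ) * Complex.I‖ = δ := by
          rw [norm_mul, Complex.norm_real, Complex.norm_I, mul_one, Real.norm_eq_abs,
            abs_of_pos hδ]
        rw [e1, e2]
        have h6 : |d i| ≤ ∑ i, |d i| :=
          Finset.single_le_sum (f := fun i => |d i|) (fun i _ => abs_nonneg _) (Finset.mem_univ i)
        have h7 : l * |d i| ≤ |d i| := by
          have := abs_nonneg (d i)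
          nlinarith [hl.2]
        linarith
      have h6 : D < ε * ‖u‖ := by
        have h7 : D / ε * 2 < ‖u‖ := hu
        have h8 : D = ε * (D / ε) := by field_simp
        have h9 : 0 < D / ε := by positivity
        rw [h8]
        exact mul_lt_mul_of_pos_left (by linarith) hε
      linarith
  -- the two closed sets
  set T : Set ℝ := {l | l ∈ Set.Icc (0 : ℝ) 1 ∧ ∃ u : ℂ, 0 ≤ u.im ∧ G l u = 0} with hT
  set T' : Set ℝ := {l | ∀ u : ℂ, 0 ≤ u.im → ‖B‖ * u.im ^ N ≤ ‖G l u‖} with hT'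
  have hTc : IsClosed T := by
    have h1 : IsCompact ((Set.Icc (0 : ℝ) 1 ×ˢ Metric.closedBall (0 : ℂ) R) ∩
        {x : ℝ × ℂ | 0 ≤ x.2.im ∧ G x.1 x.2 = 0}) := by
      refine (isCompact_Icc.prod (isCompact_closedBall _ _)).inter_right ?_
      refine IsClosed.inter ?_ ?_
      · exact isClosed_le continuous_const (Complex.continuous_im.comp continuous_snd)
      · exact isClosed_eq hGc continuous_const
    have h2 : T = Prod.fst '' ((Set.Icc (0 : ℝ) 1 ×ˢ Metric.closedBall (0 : ℂ) R) ∩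
        {x : ℝ × ℂ | 0 ≤ x.2.im ∧ G x.1 x.2 = 0}) := by
      ext l
      constructor
      · rintro ⟨hl, u, hu, h0⟩
        refine ⟨(l, u), ⟨⟨hl, ?_⟩, hu, h0⟩, rfl⟩
        rw [mem_closedBall_zero_iff]
        exact hR l hl u h0
      · rintro ⟨⟨l', u⟩, ⟨⟨hl, -⟩, hu, h0⟩, rfl⟩
        exact ⟨hl, u, hu, h0⟩
    rw [h2]
    exact (h1.image continuous_fst).isClosed
  have hTc' : IsClosed T' := by
    have h1 : T' = ⋂ u : {u : ℂ // 0 ≤ u.im}, {l | ‖B‖ * u.1.im ^ N ≤ ‖G l u.1‖} := by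
      ext l
      simp only [hT', Set.mem_ofPred_eq, Set.mem_iInter, Subtype.forall]
    rw [h1]
    refine isClosed_iInter fun u => ?_
    refine isClosed_le continuous_const ?_
    exact (hGc.comp (continuous_id.prodMk continuous_const)).norm
  have hcov : Set.Icc (0 : ℝ) 1 ⊆ T ∪ T' := by
    intro l hl
    by_cases h : ∃ u : ℂ, 0 ≤ u.im ∧ G l u = 0
    · exact Or.inl ⟨hl, h⟩
    · push Not at h
      exact Or.inr (hbd l h)
  have h0T' : (0 : ℝ) ∈ T' := by
    refine hbd 0 fun u hu h0 => ?_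
    by_cases hu0 : u = 0
    · exact hreal 0 u (by rw [hu0]; rfl) h0
    · have h3 : G 0 u = u ^ N * aeval (fun i => (b i : ℂ) + δ * Complex.I / u) f := by
        rw [← aeval_smul_hom hf]
        simp only [hG]
        congr 2
        funext i
        field_simp
        push_cast
        ring
      rw [h3] at h0
      rcases mul_eq_zero.1 h0 with h4 | h4
      · exact hu0 (eq_zero_of_pow_eq_zero h4)
      · refine aeval_shift_ne hs hb (δ * Complex.I / u) ?_ h4
        rw [Complex.div_re]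
        simp only [Complex.mul_re, Complex.ofReal_re, Complex.I_re, mul_zero, Complex.ofReal_im,
          Complex.I_im, mul_one, sub_self, zero_mul, zero_div, Complex.mul_im, zero_add]
        have := Complex.normSq_nonneg u
        positivity
  have h1T' : (1 : ℝ) ∈ T' := by
    by_contra h1
    have h2 : (1 : ℝ) ∈ T := by
      rcases hcov ⟨zero_le_one, le_rfl⟩ with h | h
      · exact h
      · exact absurd h h1
    obtain ⟨l, -, hl, hl'⟩ := isPreconnected_closed_iff.1 isPreconnected_Icc T T' hTc hTc' hcov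
      ⟨1, ⟨zero_le_one, le_rfl⟩, h2⟩ ⟨0, ⟨le_rfl, zero_le_one⟩, h0T'⟩
    obtain ⟨-, u, hu, h0⟩ := hl
    rcases hu.lt_or_eq with h | h
    · have h3 := hl' u hu
      rw [h0, norm_zero] at h3
      have h4 : 0 < ‖B‖ * u.im ^ N := mul_pos (norm_pos_iff.2 hB0) (pow_pos h N)
      linarith
    · exact hreal l u h.symm h0
  have h5 := h1T' u hu
  simp only [hG] at h5
  refine h5.trans_eq ?_
  congr 3
  funext i
  push_cast
  ring

/-- real-rootedness along the directions of the cone -/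
theorem garding {f : MvPolynomial σ ℝ} {N : ℕ} (hf : f.IsHomogeneous N) (hs : RStable f)
    {b : σ → ℝ} (hb : Cone f b) (d : σ → ℝ) (u : ℂ) (hu : u.im ≠ 0) :
    aeval (fun i => (d i : ℂ) + b i * u) f ≠ 0 := by
  have hB0 : aeval (fun i => (b i : ℂ)) f ≠ 0 := by
    have := hb 0 le_rfl
    simpa using this
  have key : ∀ u : ℂ, 0 < u.im → aeval (fun i => (d i : ℂ) + b i * u) f ≠ 0 := by
    intro u hu h0
    have h1 : Filter.Tendsto (fun δ : ℝ =>
        ‖aeval (fun i => ((d i : ℂ) + δ * Complex.I) + b i * u) f‖) (nhdsWithin 0 (Set.Ioi 0))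
        (nhds ‖aeval (fun i => (d i : ℂ) + b i * u) f‖) := by
      have h2 : Continuous fun δ : ℝ =>
          ‖aeval (fun i => ((d i : ℂ) + δ * Complex.I) + b i * u) f‖ := by
        refine ((continuous_aeval f).comp (continuous_pi fun i => ?_)).norm
        fun_prop
      have h3 := (h2.tendsto 0).mono_left (nhdsWithin_le_nhds (s := Set.Ioi (0 : ℝ)))
      simpa using h3
    have h2 : ‖aeval (fun i => (b i : ℂ)) f‖ * u.im ^ N ≤
        ‖aeval (fun i => (d i : ℂ) + b i * u) f‖ := by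
      refine ge_of_tendsto h1 ?_
      filter_upwards [self_mem_nhdsWithin] with δ hδ
      exact garding_bound hf hs hb d hδ u hu.le
    rw [h0, norm_zero] at h2
    have h4 : 0 < ‖aeval (fun i => (b i : ℂ)) f‖ * u.im ^ N :=
      mul_pos (norm_pos_iff.2 hB0) (pow_pos hu N)
    linarith
  rcases lt_or_gt_of_ne hu with h | h
  · intro h0
    have h1 := aeval_conj f fun i => (d i : ℂ) + b i * u
    rw [h0, map_zero] at h1
    refine key ((starRingEnd ℂ) u) (by rw [Complex.conj_im]; linarith) ?_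
    rw [← h1]
    congr 2
    funext i
    simp
  · exact key u h

/-- a real polynomial with real zeros only is log-concave -/
theorem real_rooted_ineq (g : Polynomial ℝ)
    (hg : ∀ z : ℂ, z.im ≠ 0 → Polynomial.aeval z g ≠ 0) (x : ℝ) :
    g.eval x * g.derivative.derivative.eval x ≤ g.derivative.eval x ^ 2 := by
  induction hn : g.natDegree using Nat.strong_induction_on generalizing g with
  | _ n ih =>
    by_cases hd : g.natDegree = 0
    · rw [Polynomial.eq_C_of_natDegree_eq_zero hd]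
      simp
    · have h1 : (g.map (algebraMap ℝ ℂ)).degree ≠ 0 := by
        intro h
        rw [Polynomial.degree_map] at h
        exact hd (Polynomial.natDegree_eq_of_degree_eq_some h)
      obtain ⟨z, hz⟩ := IsAlgClosed.exists_root (g.map (algebraMap ℝ ℂ)) h1
      rw [Polynomial.IsRoot, Polynomial.eval_map_algebraMap] at hz
      have him : z.im = 0 := by
        by_contra h
        exact hg z h hz
      have hz2 : z = ((z.re : ℝ) : ℂ) := by
        apply Complex.ext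
        · simp
        · simp [him]
      have hroot : g.IsRoot z.re := by
        rw [hz2] at hz
        have h2 : Polynomial.aeval ((z.re : ℝ) : ℂ) g = ((g.eval z.re : ℝ) : ℂ) :=
          Polynomial.aeval_algebraMap_apply_eq_algebraMap_eval z.re g
        rw [h2] at hz
        exact_mod_cast hz
      obtain ⟨h, rfl⟩ := Polynomial.dvd_iff_isRoot.2 hroot
      have hh0 : h ≠ 0 := by
        rintro rfl
        rw [mul_zero, Polynomial.natDegree_zero] at hd
        exact hd rfl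
      have hlt : h.natDegree < n := by
        rw [← hn, Polynomial.natDegree_mul (Polynomial.X_sub_C_ne_zero _) hh0,
          Polynomial.natDegree_X_sub_C]
        omega
      have h3 := ih _ hlt h (fun w hw h0 => hg w hw (by rw [map_mul, h0, mul_zero])) rfl
      have e1 : ((Polynomial.X - Polynomial.C z.re) * h).derivative =
          h + (Polynomial.X - Polynomial.C z.re) * h.derivative := by
        rw [Polynomial.derivative_mul]
        simp
      have e2 : ((Polynomial.X - Polynomial.C z.re) * h).derivative.derivative =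
          2 * h.derivative + (Polynomial.X - Polynomial.C z.re) * h.derivative.derivative := by
        rw [e1, Polynomial.derivative_add, Polynomial.derivative_mul]
        simp
        ring
      rw [e2, e1]
      simp only [Polynomial.eval_mul, Polynomial.eval_add, Polynomial.eval_sub, Polynomial.eval_X,
        Polynomial.eval_C, Polynomial.eval_ofNat]
      nlinarith [sq_nonneg (h.eval x), sq_nonneg (x - z.re),
        mul_nonneg (sq_nonneg (x - z.re)) (sub_nonneg.2 h3)]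

/-- the real restriction to a line -/
noncomputable def lineR (f : MvPolynomial σ ℝ) (p q : σ → ℝ) : Polynomial ℝ :=
  aeval (fun i => Polynomial.C (p i) + Polynomial.C (q i) * Polynomial.X) f

omit [Fintype σ] in
theorem lineR_aeval (f : MvPolynomial σ ℝ) (p q : σ → ℝ) (u : ℂ) :
    Polynomial.aeval u (lineR f p q) = aeval (fun i => (p i : ℂ) + q i * u) f := by
  rw [lineR]
  have h := comp_aeval_apply (R := ℝ)
    (f := fun i => Polynomial.C (p i) + Polynomial.C (q i) * Polynomial.X)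
    (Polynomial.aeval u : Polynomial ℝ →ₐ[ℝ] ℂ) f
  rw [h]
  congr 2
  funext i
  simp

/-- **Log-concavity at the points of the cone.** -/
theorem garding_ineq {f : MvPolynomial σ ℝ} {N : ℕ} (hf : f.IsHomogeneous N) (hs : RStable f)
    {b : σ → ℝ} (hb : Cone f b) (d : σ → ℝ) :
    (lineR f b d).coeff 0 * (2 * (lineR f b d).coeff 2) ≤ (lineR f b d).coeff 1 ^ 2 := by
  have h := real_rooted_ineq (lineR f b d) (fun z hz h0 => by
    rw [lineR_aeval] at h0
    have hz0 : z ≠ 0 := by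
      rintro rfl
      exact hz rfl
    have h1 : aeval (fun i => (b i : ℂ) + d i * z) f =
        z ^ N * aeval (fun i => (d i : ℂ) + b i * z⁻¹) f := by
      rw [← aeval_smul_hom hf]
      congr 2
      funext i
      field_simp
      ring
    rw [h1] at h0
    rcases mul_eq_zero.1 h0 with h4 | h4
    · exact hz0 (eq_zero_of_pow_eq_zero h4)
    · refine garding hf hs hb d z⁻¹ ?_ h4
      rw [Complex.inv_im]
      exact div_ne_zero (neg_ne_zero.2 hz) (Complex.normSq_pos.2 hz0).ne') 0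
  rw [← Polynomial.coeff_zero_eq_eval_zero, ← Polynomial.coeff_zero_eq_eval_zero,
    ← Polynomial.coeff_zero_eq_eval_zero, Polynomial.coeff_derivative,
    Polynomial.coeff_derivative, Polynomial.coeff_derivative] at h
  norm_num at h
  linarith

end Vale.Agent.P361.LRO.T1
end

section

/-!
# Network ODE (note 9886, step (3)): abstract form

`c s x y` is a time dependent symmetric family of conductances on a finite set.  If the
derivative of the quadratic form is bounded below by the one-node inequality, then the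
capacity between two electrodes loses at most the factor `exp (-4 ε s*)` and an additive
`2 ε B exp (-s*)`.
-/

namespace P361.LRO

open Finset Set Filter Topology

variable {V : Type*} [Fintype V] [DecidableEq V]

/-- Dirichlet form of the (symmetric) weight `c`. -/
noncomputable def netK (c : V → V → ℝ) (a : V → ℝ) : ℝ :=
  (1 / 2) * ∑ x, ∑ y, c x y * (a x - a y) ^ 2

/-- `(K a)_z`. -/
noncomputable def netQ (c : V → V → ℝ) (a : V → ℝ) (z : V) : ℝ :=
  ∑ x, c z x * (a z - a x)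

/-- The star energy of the node `z`. -/
noncomputable def netStar (c : V → V → ℝ) (a : V → ℝ) (z : V) : ℝ :=
  ∑ x, c z x * (a x - a z) ^ 2

/-- Total conductance of the node `z`. -/
noncomputable def netV (c : V → V → ℝ) (z : V) : ℝ := ∑ x, c z x

/-- Admissible potentials. -/
def netAdm (E G : Set V) : Set (V → ℝ) :=
  {u | (∀ x, 0 ≤ u x ∧ u x ≤ 1) ∧ (∀ x ∈ E, u x = 1) ∧ (∀ x ∈ G, u x = 0)}

/-- Capacity between the electrodes `E` (potential one) and `G` (potential zero). -/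
noncomputable def netCap (c : V → V → ℝ) (E G : Set V) : ℝ :=
  sInf (netK c '' netAdm E G)

omit [DecidableEq V] in
theorem netK_nonneg {c : V → V → ℝ} (hc : ∀ x y, 0 ≤ c x y) (a : V → ℝ) : 0 ≤ netK c a := by
  unfold netK
  have : 0 ≤ ∑ x, ∑ y, c x y * (a x - a y) ^ 2 :=
    Finset.sum_nonneg fun x _ => Finset.sum_nonneg fun y _ => mul_nonneg (hc x y) (sq_nonneg _)
  linarith

omit [DecidableEq V] in
theorem netStar_nonneg {c : V → V → ℝ} (hc : ∀ x y, 0 ≤ c x y) (a : V → ℝ) (z : V) :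
    0 ≤ netStar c a z :=
  Finset.sum_nonneg fun x _ => mul_nonneg (hc z x) (sq_nonneg _)

omit [DecidableEq V] in
theorem sum_netStar (c : V → V → ℝ) (a : V → ℝ) : ∑ z, netStar c a z = 2 * netK c a := by
  unfold netStar netK
  have : ∀ z x : V, c z x * (a x - a z) ^ 2 = c z x * (a z - a x) ^ 2 := fun z x => by ring
  simp only [this]
  ring

omit [DecidableEq V] in
theorem netStar_le_netV {c : V → V → ℝ} (hc : ∀ x y, 0 ≤ c x y) {a : V → ℝ}
    (ha : ∀ x, 0 ≤ a x ∧ a x ≤ 1) (z : V) : netStar c a z ≤ netV c z := by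
  unfold netStar netV
  refine Finset.sum_le_sum fun x _ => ?_
  have h1 : (a x - a z) ^ 2 ≤ 1 := by
    have hx := ha x; have hz := ha z
    nlinarith [hx.1, hx.2, hz.1, hz.2]
  calc c z x * (a x - a z) ^ 2 ≤ c z x * 1 := mul_le_mul_of_nonneg_left h1 (hc z x)
    _ = c z x := mul_one _

omit [DecidableEq V] in
theorem netK_sub_abs_le (c d : V → V → ℝ) {a : V → ℝ} (ha : ∀ x, 0 ≤ a x ∧ a x ≤ 1) :
    |netK c a - netK d a| ≤ ∑ x, ∑ y, |c x y - d x y| := by
  have h : netK c a - netK d a = (1 / 2) * ∑ x, ∑ y, (c x y - d x y) * (a x - a y) ^ 2 := by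
    unfold netK
    rw [← mul_sub, ← Finset.sum_sub_distrib]
    congr 1
    refine Finset.sum_congr rfl fun x _ => ?_
    rw [← Finset.sum_sub_distrib]
    exact Finset.sum_congr rfl fun y _ => by ring
  rw [h, abs_mul]
  have h2 : |∑ x, ∑ y, (c x y - d x y) * (a x - a y) ^ 2| ≤ ∑ x, ∑ y, |c x y - d x y| := by
    refine (Finset.abs_sum_le_sum_abs _ _).trans (Finset.sum_le_sum fun x _ => ?_)
    refine (Finset.abs_sum_le_sum_abs _ _).trans (Finset.sum_le_sum fun y _ => ?_)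
    rw [abs_mul]
    have h1 : |(a x - a y) ^ 2| ≤ 1 := by
      rw [abs_of_nonneg (sq_nonneg _)]
      have hx := ha x; have hz := ha y
      nlinarith [hx.1, hx.2, hz.1, hz.2]
    calc |c x y - d x y| * |(a x - a y) ^ 2| ≤ |c x y - d x y| * 1 :=
          mul_le_mul_of_nonneg_left h1 (abs_nonneg _)
      _ = _ := mul_one _
  have h3 : |(1 / 2 : ℝ)| = 1 / 2 := abs_of_pos (by norm_num)
  rw [h3]
  have h4 : 0 ≤ ∑ x, ∑ y, |c x y - d x y| :=
    Finset.sum_nonneg fun x _ => Finset.sum_nonneg fun y _ => abs_nonneg _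
  linarith

omit [DecidableEq V] in
theorem netQ_sub_abs_le (c d : V → V → ℝ) {a : V → ℝ} (ha : ∀ x, 0 ≤ a x ∧ a x ≤ 1) (z : V) :
    |netQ c a z - netQ d a z| ≤ ∑ x, ∑ y, |c x y - d x y| := by
  have h : netQ c a z - netQ d a z = ∑ x, (c z x - d z x) * (a z - a x) := by
    unfold netQ
    rw [← Finset.sum_sub_distrib]
    exact Finset.sum_congr rfl fun x _ => by ring
  rw [h]
  have h2 : |∑ x, (c z x - d z x) * (a z - a x)| ≤ ∑ x, |c z x - d z x| := by
    refine (Finset.abs_sum_le_sum_abs _ _).trans (Finset.sum_le_sum fun x _ => ?_)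
    rw [abs_mul]
    have h1 : |a z - a x| ≤ 1 := by
      have hx := ha x; have hz := ha z
      rw [abs_le]; constructor <;> linarith [hx.1, hx.2, hz.1, hz.2]
    calc |c z x - d z x| * |a z - a x| ≤ |c z x - d z x| * 1 :=
          mul_le_mul_of_nonneg_left h1 (abs_nonneg _)
      _ = _ := mul_one _
  refine h2.trans ?_
  exact Finset.single_le_sum (f := fun x => ∑ y, |c x y - d x y|)
    (fun x _ => Finset.sum_nonneg fun y _ => abs_nonneg _) (Finset.mem_univ z)

omit [DecidableEq V] in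
theorem continuous_netK (c : V → V → ℝ) : Continuous (netK c) := by
  unfold netK
  fun_prop

omit [Fintype V] [DecidableEq V] in
theorem isCompact_netAdm (E G : Set V) : IsCompact (netAdm E G) := by
  have h : netAdm E G = (Set.pi Set.univ fun _ : V => Set.Icc (0 : ℝ) 1) ∩
      {u | (∀ x ∈ E, u x = 1) ∧ (∀ x ∈ G, u x = 0)} := by
    ext u
    simp only [netAdm, Set.mem_ofPred_eq, Set.mem_inter_iff, Set.mem_pi, Set.mem_univ,
      forall_true_left, Set.mem_Icc]
  rw [h]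
  refine (isCompact_univ_pi fun _ => isCompact_Icc).inter_right ?_
  have h1 : IsClosed {u : V → ℝ | ∀ x ∈ E, u x = 1} := by
    simp only [Set.ofPred_forall]
    exact isClosed_iInter fun x => isClosed_iInter fun _ =>
      isClosed_eq (continuous_apply x) continuous_const
  have h2 : IsClosed {u : V → ℝ | ∀ x ∈ G, u x = 0} := by
    simp only [Set.ofPred_forall]
    exact isClosed_iInter fun x => isClosed_iInter fun _ =>
      isClosed_eq (continuous_apply x) continuous_const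
  exact h1.inter h2

omit [Fintype V] [DecidableEq V] in
theorem nonempty_netAdm {E G : Set V} (hEG : Disjoint E G) : (netAdm E G).Nonempty := by
  classical
  refine ⟨fun x => if x ∈ E then 1 else 0, ?_, ?_, ?_⟩
  · intro x
    by_cases hx : x ∈ E <;> simp [hx]
  · intro x hx; simp [hx]
  · intro x hx
    have : x ∉ E := fun h => (Set.disjoint_left.mp hEG h) hx
    simp [this]

omit [DecidableEq V] in
theorem exists_min (c : V → V → ℝ) {E G : Set V} (hEG : Disjoint E G) :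
    ∃ u ∈ netAdm E G, netK c u = netCap c E G ∧ ∀ w ∈ netAdm E G, netK c u ≤ netK c w := by
  obtain ⟨u, hu, hmin⟩ := (isCompact_netAdm E G).exists_isMinOn (nonempty_netAdm hEG)
    (continuous_netK c).continuousOn
  have hm : ∀ w ∈ netAdm E G, netK c u ≤ netK c w := fun w hw => hmin hw
  refine ⟨u, hu, ?_, hm⟩
  unfold netCap
  refine le_antisymm ?_ ?_
  · refine le_csInf ⟨_, Set.mem_image_of_mem _ hu⟩ ?_
    rintro _ ⟨w, hw, rfl⟩
    exact hm w hw
  · refine csInf_le ⟨netK c u, ?_⟩ (Set.mem_image_of_mem _ hu)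
    rintro _ ⟨w, hw, rfl⟩
    exact hm w hw

omit [DecidableEq V] in
theorem netCap_le {c : V → V → ℝ} (hc : ∀ x y, 0 ≤ c x y) {E G : Set V} {w : V → ℝ}
    (hw : w ∈ netAdm E G) : netCap c E G ≤ netK c w := by
  unfold netCap
  refine csInf_le ⟨0, ?_⟩ (Set.mem_image_of_mem _ hw)
  rintro _ ⟨w, _, rfl⟩
  exact netK_nonneg hc w

omit [DecidableEq V] in
theorem netCap_nonneg {c : V → V → ℝ} (hc : ∀ x y, 0 ≤ c x y) {E G : Set V}
    (hEG : Disjoint E G) : 0 ≤ netCap c E G := by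
  obtain ⟨u, _, h, _⟩ := exists_min c hEG
  rw [← h]; exact netK_nonneg hc u

/-- Truncation to `[0,1]`. -/
noncomputable def trunc01 (a : V → ℝ) : V → ℝ := fun x => max 0 (min 1 (a x))

omit [Fintype V] [DecidableEq V] in
theorem trunc01_lip (s t : ℝ) : (max 0 (min 1 s) - max 0 (min 1 t)) ^ 2 ≤ (s - t) ^ 2 := by
  have h : |max 0 (min 1 s) - max 0 (min 1 t)| ≤ |s - t| := by
    have h1 : |max 0 (min 1 s) - max 0 (min 1 t)| ≤ |min 1 s - min 1 t| := by
      have := abs_max_sub_max_le_abs (min 1 s) (min 1 t) 0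
      simpa [max_comm] using this
    have h2 : |min 1 s - min 1 t| ≤ |s - t| := by
      have := abs_min_sub_min_le_max 1 s 1 t
      simpa using this
    exact h1.trans h2
  exact sq_le_sq.mpr h

omit [DecidableEq V] in
theorem netK_trunc01_le {c : V → V → ℝ} (hc : ∀ x y, 0 ≤ c x y) (a : V → ℝ) :
    netK c (trunc01 a) ≤ netK c a := by
  unfold netK trunc01
  have : ∑ x, ∑ y, c x y * (max 0 (min 1 (a x)) - max 0 (min 1 (a y))) ^ 2 ≤
      ∑ x, ∑ y, c x y * (a x - a y) ^ 2 :=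
    Finset.sum_le_sum fun x _ => Finset.sum_le_sum fun y _ =>
      mul_le_mul_of_nonneg_left (trunc01_lip _ _) (hc x y)
  linarith

omit [Fintype V] [DecidableEq V] in
theorem trunc01_mem {E G : Set V} {a : V → ℝ} (hE : ∀ x ∈ E, a x = 1) (hG : ∀ x ∈ G, a x = 0) :
    trunc01 a ∈ netAdm E G := by
  refine ⟨fun x => ⟨le_max_left _ _, ?_⟩, fun x hx => ?_, fun x hx => ?_⟩
  · exact max_le (by norm_num) (min_le_left _ _)
  · simp [trunc01, hE x hx]
  · simp [trunc01, hG x hx]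

omit [DecidableEq V] in
/-- the capacity is a lower bound without the restriction to `[0,1]`. -/
theorem netCap_le' {c : V → V → ℝ} (hc : ∀ x y, 0 ≤ c x y) {E G : Set V} {w : V → ℝ}
    (hE : ∀ x ∈ E, w x = 1) (hG : ∀ x ∈ G, w x = 0) : netCap c E G ≤ netK c w :=
  (netCap_le hc (trunc01_mem hE hG)).trans (netK_trunc01_le hc w)

theorem netK_add_single {c : V → V → ℝ} (hsymm : ∀ x y, c x y = c y x) (a : V → ℝ) (z : V)
    (t : ℝ) :
    netK c (a + Pi.single z t) = netK c a + 2 * t * netQ c a z + t ^ 2 * netK c (Pi.single z 1) := by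
  have hexp : netK c (a + Pi.single z t) = netK c a
      + t * ∑ x, ∑ y, c x y * ((a x - a y) * ((Pi.single z (1:ℝ) : V → ℝ) x - (Pi.single z (1:ℝ) : V → ℝ) y))
      + t ^ 2 * netK c (Pi.single z 1) := by
    unfold netK
    have hs : ∀ x, (a + (Pi.single z t : V → ℝ)) x = a x + t * (Pi.single z (1:ℝ) : V → ℝ) x := by
      intro x
      by_cases hx : x = z
      · subst hx; simp
      · simp [Pi.single_eq_of_ne hx]
    simp only [hs, Finset.mul_sum, ← Finset.sum_add_distrib]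
    refine Finset.sum_congr rfl fun x _ => Finset.sum_congr rfl fun y _ => ?_
    ring
  have hlin : ∑ x, ∑ y, c x y * ((a x - a y) * ((Pi.single z (1:ℝ) : V → ℝ) x - (Pi.single z (1:ℝ) : V → ℝ) y))
      = 2 * netQ c a z := by
    have h1 : ∑ x, ∑ y, c x y * ((a x - a y) * ((Pi.single z (1:ℝ) : V → ℝ) x - (Pi.single z (1:ℝ) : V → ℝ) y))
        = ∑ x, ∑ y, (Pi.single z (1:ℝ) : V → ℝ) x * (c x y * (a x - a y))
          + ∑ x, ∑ y, (Pi.single z (1:ℝ) : V → ℝ) y * (c x y * (a y - a x)) := by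
      rw [← Finset.sum_add_distrib]
      refine Finset.sum_congr rfl fun x _ => ?_
      rw [← Finset.sum_add_distrib]
      exact Finset.sum_congr rfl fun y _ => by ring
    have h2 : ∑ x, ∑ y, (Pi.single z (1:ℝ) : V → ℝ) x * (c x y * (a x - a y)) = netQ c a z := by
      unfold netQ
      rw [Finset.sum_eq_single z]
      · simp
      · intro x _ hx; simp [Pi.single_eq_of_ne hx]
      · intro h; exact absurd (Finset.mem_univ z) h
    have h3 : ∑ x, ∑ y, (Pi.single z (1:ℝ) : V → ℝ) y * (c x y * (a y - a x)) = netQ c a z := by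
      rw [Finset.sum_comm, ← h2]
      refine Finset.sum_congr rfl fun x _ => Finset.sum_congr rfl fun y _ => ?_
      rw [hsymm y x]
    rw [h1, h2, h3]; ring
  rw [hexp, hlin]; ring

theorem stationary {c : V → V → ℝ} (hc : ∀ x y, 0 ≤ c x y) (hsymm : ∀ x y, c x y = c y x)
    {E G : Set V} {u : V → ℝ} (hu : u ∈ netAdm E G) (hmin : netK c u = netCap c E G)
    {z : V} (hzE : z ∉ E) (hzG : z ∉ G) : netQ c u z = 0 := by
  have h : ∀ t : ℝ, 0 ≤ 2 * t * netQ c u z + t ^ 2 * netK c (Pi.single z 1) := by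
    intro t
    have h1 : netCap c E G ≤ netK c (u + Pi.single z t) := by
      refine netCap_le' hc (fun x hx => ?_) (fun x hx => ?_)
      · have : x ≠ z := fun h => hzE (h ▸ hx)
        simp [Pi.single_eq_of_ne this, hu.2.1 x hx]
      · have : x ≠ z := fun h => hzG (h ▸ hx)
        simp [Pi.single_eq_of_ne this, hu.2.2 x hx]
    rw [netK_add_single hsymm, ← hmin] at h1
    linarith
  set q := netQ c u z
  set k := netK c (Pi.single z 1)
  have hk : 0 ≤ k := netK_nonneg hc _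
  have h2 := h (-q / (k + 1))
  have hk1 : 0 < k + 1 := by linarith
  have h3 : 2 * (-q / (k + 1)) * q + (-q / (k + 1)) ^ 2 * k = - (q ^ 2 * (k + 2)) / (k + 1) ^ 2 := by
    field_simp
    ring
  rw [h3] at h2
  have h4 : 0 < (k + 1) ^ 2 := by positivity
  rw [le_div_iff₀ h4] at h2
  have h5 : q ^ 2 * (k + 2) ≤ 0 := by linarith
  have h6 : q ^ 2 ≤ 0 := by nlinarith [sq_nonneg q]
  exact pow_eq_zero_iff (two_ne_zero) |>.mp (le_antisymm h6 (sq_nonneg q))


/-- `ℓ¹` distance of two weights. -/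
noncomputable def netDist (c d : V → V → ℝ) : ℝ := ∑ x, ∑ y, |c x y - d x y|

omit [DecidableEq V] in
theorem netDist_nonneg (c d : V → V → ℝ) : 0 ≤ netDist c d :=
  Finset.sum_nonneg fun _ _ => Finset.sum_nonneg fun _ _ => abs_nonneg _

omit [DecidableEq V] in
theorem netDist_comm (c d : V → V → ℝ) : netDist c d = netDist d c := by
  unfold netDist
  exact Finset.sum_congr rfl fun x _ => Finset.sum_congr rfl fun y _ => abs_sub_comm _ _

omit [DecidableEq V] in
theorem netCap_sub_le {c d : V → V → ℝ} {E G : Set V} (hd : ∀ x y, 0 ≤ d x y)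
    (hEG : Disjoint E G) : netCap d E G - netCap c E G ≤ netDist d c := by
  obtain ⟨u, hu, huc, _⟩ := exists_min c hEG
  have h1 := netCap_le hd hu
  have h2 := netK_sub_abs_le d c hu.1
  have h3 := (abs_le.mp h2).2
  unfold netDist
  linarith

omit [DecidableEq V] in
theorem netCap_abs_sub_le {c d : V → V → ℝ} {E G : Set V} (hc : ∀ x y, 0 ≤ c x y)
    (hd : ∀ x y, 0 ≤ d x y) (hEG : Disjoint E G) :
    |netCap d E G - netCap c E G| ≤ netDist d c := by
  rw [abs_le]
  have h1 := netCap_sub_le (c := c) (d := d) hd hEG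
  have h2 := netCap_sub_le (c := d) (d := c) hc hEG
  rw [netDist_comm] at h2
  constructor <;> linarith

/-- One step of the Gronwall argument, evaluated at the NEW minimiser. -/
theorem one_step {c0 c1 c' : V → V → ℝ} {E G : Set V} (hEG : Disjoint E G)
    (h0 : ∀ x y, 0 ≤ c0 x y) (h1 : ∀ x y, 0 ≤ c1 x y) (hs1 : ∀ x y, c1 x y = c1 y x)
    {r : V → ℝ} (hr0 : ∀ z, 0 ≤ r z) (hr1 : ∀ z, r z ≤ 1) (hrE : ∀ z ∈ E, r z = 0)
    (hrG : ∀ z ∈ G, r z = 0) {ε : ℝ} (hε : 0 ≤ ε)
    (hbound : ∀ a : V → ℝ, - ∑ z, r z * ((netQ c0 a z) ^ 2 / netV c0 z + 2 * ε * netStar c0 a z)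
      ≤ netK c' a) {δ : ℝ} (hδ : 0 < δ) :
    δ⁻¹ * (netCap c0 E G - netCap c1 E G) ≤
      netDist (fun x y => δ⁻¹ * (c1 x y - c0 x y)) c'
        + (∑ z, (netV c0 z)⁻¹) * (netDist c1 c0) ^ 2
        + 2 * ε * min (2 * (netCap c0 E G + 2 * netDist c1 c0)) (∑ z, r z * netV c0 z) := by
  obtain ⟨u, hu, huc, _⟩ := exists_min c1 hEG
  set Δ := netDist c1 c0 with hΔ
  have hΔ0 : 0 ≤ Δ := netDist_nonneg _ _
  have hstep : netCap c0 E G - netCap c1 E G ≤ netK c0 u - netK c1 u := by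
    have := netCap_le h0 hu
    linarith
  have hlin : δ⁻¹ * (netK c0 u - netK c1 u) = - netK (fun x y => δ⁻¹ * (c1 x y - c0 x y)) u := by
    unfold netK
    have : ∑ x, ∑ y, δ⁻¹ * (c1 x y - c0 x y) * (u x - u y) ^ 2
        = δ⁻¹ * (∑ x, ∑ y, c1 x y * (u x - u y) ^ 2 - ∑ x, ∑ y, c0 x y * (u x - u y) ^ 2) := by
      rw [← Finset.sum_sub_distrib, Finset.mul_sum]
      refine Finset.sum_congr rfl fun x _ => ?_
      rw [← Finset.sum_sub_distrib, Finset.mul_sum]
      exact Finset.sum_congr rfl fun y _ => by ring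
    rw [this]; ring
  have hd := netK_sub_abs_le (fun x y => δ⁻¹ * (c1 x y - c0 x y)) c' hu.1
  have hd' : - netK (fun x y => δ⁻¹ * (c1 x y - c0 x y)) u ≤
      netDist (fun x y => δ⁻¹ * (c1 x y - c0 x y)) c' - netK c' u := by
    have := (abs_le.mp hd).1
    unfold netDist
    linarith
  have hb := hbound u
  have hq : ∀ z, r z * ((netQ c0 u z) ^ 2 / netV c0 z) ≤ (netV c0 z)⁻¹ * Δ ^ 2 := by
    intro z
    have hv : 0 ≤ (netV c0 z)⁻¹ := inv_nonneg.mpr (Finset.sum_nonneg fun x _ => h0 z x)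
    by_cases hz : z ∈ E
    · rw [hrE z hz, zero_mul]; positivity
    by_cases hz' : z ∈ G
    · rw [hrG z hz', zero_mul]; positivity
    have hst := stationary h1 hs1 hu huc hz hz'
    have hq1 := netQ_sub_abs_le c0 c1 hu.1 z
    rw [hst, sub_zero] at hq1
    have hq2 : |netQ c0 u z| ≤ Δ := by
      rw [hΔ, netDist_comm]; exact hq1
    have hq3 : (netQ c0 u z) ^ 2 ≤ Δ ^ 2 := by
      rw [← sq_abs]
      exact pow_le_pow_left₀ (abs_nonneg _) hq2 2
    rw [div_eq_mul_inv]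
    calc r z * ((netQ c0 u z) ^ 2 * (netV c0 z)⁻¹)
        ≤ 1 * ((netQ c0 u z) ^ 2 * (netV c0 z)⁻¹) :=
          mul_le_mul_of_nonneg_right (hr1 z) (mul_nonneg (sq_nonneg _) hv)
      _ = (netV c0 z)⁻¹ * (netQ c0 u z) ^ 2 := by ring
      _ ≤ (netV c0 z)⁻¹ * Δ ^ 2 := mul_le_mul_of_nonneg_left hq3 hv
  have hstar1 : ∑ z, r z * netStar c0 u z ≤ 2 * (netCap c0 E G + 2 * Δ) := by
    have e1 : ∑ z, r z * netStar c0 u z ≤ ∑ z, netStar c0 u z :=
      Finset.sum_le_sum fun z _ => by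
        have := mul_le_mul_of_nonneg_right (hr1 z) (netStar_nonneg h0 u z)
        linarith
    rw [sum_netStar] at e1
    have e2 := (abs_le.mp (netK_sub_abs_le c0 c1 hu.1)).2
    have e3 : ∑ x, ∑ y, |c0 x y - c1 x y| = Δ := by
      rw [hΔ, netDist_comm]; rfl
    have e4 := netCap_sub_le (c := c0) (d := c1) h1 hEG
    rw [e3] at e2
    linarith
  have hstar2 : ∑ z, r z * netStar c0 u z ≤ ∑ z, r z * netV c0 z :=
    Finset.sum_le_sum fun z _ =>
      mul_le_mul_of_nonneg_left (netStar_le_netV h0 hu.1 z) (hr0 z)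
  have hsum : ∑ z, r z * ((netQ c0 u z) ^ 2 / netV c0 z + 2 * ε * netStar c0 u z)
      ≤ (∑ z, (netV c0 z)⁻¹) * Δ ^ 2
        + 2 * ε * min (2 * (netCap c0 E G + 2 * Δ)) (∑ z, r z * netV c0 z) := by
    have e1 : ∑ z, r z * ((netQ c0 u z) ^ 2 / netV c0 z + 2 * ε * netStar c0 u z)
        = ∑ z, r z * ((netQ c0 u z) ^ 2 / netV c0 z) + 2 * ε * ∑ z, r z * netStar c0 u z := by
      rw [Finset.mul_sum, ← Finset.sum_add_distrib]
      exact Finset.sum_congr rfl fun z _ => by ring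
    rw [e1]
    have e2 : ∑ z, r z * ((netQ c0 u z) ^ 2 / netV c0 z) ≤ (∑ z, (netV c0 z)⁻¹) * Δ ^ 2 := by
      rw [Finset.sum_mul]
      exact Finset.sum_le_sum fun z _ => hq z
    have e3 : 2 * ε * ∑ z, r z * netStar c0 u z
        ≤ 2 * ε * min (2 * (netCap c0 E G + 2 * Δ)) (∑ z, r z * netV c0 z) :=
      mul_le_mul_of_nonneg_left (le_min hstar1 hstar2) (by positivity)
    linarith
  calc δ⁻¹ * (netCap c0 E G - netCap c1 E G) ≤ δ⁻¹ * (netK c0 u - netK c1 u) :=
        mul_le_mul_of_nonneg_left hstep (by positivity)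
    _ = - netK (fun x y => δ⁻¹ * (c1 x y - c0 x y)) u := hlin
    _ ≤ _ := by linarith

omit [DecidableEq V] in
theorem tendsto_netDist {c : ℝ → V → V → ℝ} {d : V → V → ℝ} {l : Filter ℝ}
    (h : ∀ x y, Tendsto (fun t => c t x y) l (𝓝 (d x y))) :
    Tendsto (fun t => netDist (c t) d) l (𝓝 0) := by
  unfold netDist
  have : (0 : ℝ) = ∑ x : V, ∑ y : V, (0 : ℝ) := by simp
  rw [this]
  refine tendsto_finsetSum _ fun x _ => tendsto_finsetSum _ fun y _ => ?_
  have h1 : Tendsto (fun t => c t x y - d x y) l (𝓝 (d x y - d x y)) :=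
    (h x y).sub tendsto_const_nhds
  rw [sub_self] at h1
  simpa using h1.abs

/-- The hypotheses of the network ODE. -/
structure NetFlow (c c' : ℝ → V → V → ℝ) (r : ℝ → V → ℝ) (E G : Set V) (ε : ℝ) : Prop where
  disj : Disjoint E G
  nn : ∀ s, 0 ≤ s → ∀ x y, 0 ≤ c s x y
  symm : ∀ s, 0 ≤ s → ∀ x y, c s x y = c s y x
  cont : ∀ x y, ContinuousOn (fun s => c s x y) (Set.Ici 0)
  der : ∀ s, 0 ≤ s → ∀ x y, HasDerivWithinAt (fun t => c t x y) (c' s x y) (Set.Ici s) s
  r0 : ∀ s, 0 ≤ s → ∀ z, 0 ≤ r s z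
  r1 : ∀ s, 0 ≤ s → ∀ z, r s z ≤ 1
  rE : ∀ s, 0 ≤ s → ∀ z ∈ E, r s z = 0
  rG : ∀ s, 0 ≤ s → ∀ z ∈ G, r s z = 0
  eps : 0 ≤ ε
  bound : ∀ s, 0 ≤ s → ∀ a : V → ℝ,
    - ∑ z, r s z * ((netQ (c s) a z) ^ 2 / netV (c s) z + 2 * ε * netStar (c s) a z)
      ≤ netK (c' s) a

theorem NetFlow.dini {c c' : ℝ → V → V → ℝ} {r : ℝ → V → ℝ} {E G : Set V} {ε : ℝ}
    (H : NetFlow c c' r E G ε) {s : ℝ} (hs : 0 ≤ s) {b : ℝ}
    (hb : 2 * ε * min (2 * netCap (c s) E G) (∑ z, r s z * netV (c s) z) < b) :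
    ∀ᶠ z in 𝓝[>] s, (z - s)⁻¹ * (netCap (c s) E G - netCap (c z) E G) < b := by
  have hslope : ∀ x y, Tendsto (fun z => (z - s)⁻¹ * (c z x y - c s x y)) (𝓝[>] s)
      (𝓝 (c' s x y)) := by
    intro x y
    have h := hasDerivWithinAt_iff_tendsto_slope.mp (H.der s hs x y)
    rw [Set.Ici_sdiff_left] at h
    refine h.congr fun z => ?_
    simp [slope_def_field, div_eq_inv_mul]
  have hval : ∀ x y, Tendsto (fun z => c z x y) (𝓝[>] s) (𝓝 (c s x y)) := by
    intro x y
    exact (H.der s hs x y).continuousWithinAt.tendsto.mono_left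
      (nhdsWithin_mono _ Set.Ioi_subset_Ici_self)
  have h1 := tendsto_netDist hslope
  have h2 := tendsto_netDist hval
  have hlim : Tendsto (fun z => netDist (fun x y => (z - s)⁻¹ * (c z x y - c s x y)) (c' s)
        + (∑ w, (netV (c s) w)⁻¹) * (netDist (c z) (c s)) ^ 2
        + 2 * ε * min (2 * (netCap (c s) E G + 2 * netDist (c z) (c s)))
            (∑ w, r s w * netV (c s) w)) (𝓝[>] s)
      (𝓝 (0 + (∑ w, (netV (c s) w)⁻¹) * 0 ^ 2
        + 2 * ε * min (2 * (netCap (c s) E G + 2 * 0)) (∑ w, r s w * netV (c s) w))) := by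
    refine (h1.add ((h2.pow 2).const_mul _)).add (Tendsto.const_mul _ ?_)
    exact Tendsto.min (((h2.const_mul 2).const_add _).const_mul 2) tendsto_const_nhds
  have hlt : 0 + (∑ w, (netV (c s) w)⁻¹) * 0 ^ 2
        + 2 * ε * min (2 * (netCap (c s) E G + 2 * 0)) (∑ w, r s w * netV (c s) w) < b := by
    simpa using hb
  have hev := hlim.eventually (gt_mem_nhds hlt)
  filter_upwards [hev, self_mem_nhdsWithin] with z hz hzs
  have hzs' : (0 : ℝ) < z - s := sub_pos.mpr hzs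
  have hz0 : 0 ≤ z := hs.trans (le_of_lt hzs)
  exact lt_of_le_of_lt (one_step H.disj (H.nn s hs) (H.nn z hz0) (H.symm z hz0) (H.r0 s hs)
    (H.r1 s hs) (H.rE s hs) (H.rG s hs) H.eps (H.bound s hs) hzs') hz

omit [DecidableEq V] in
theorem NetFlow.continuousOn_cap {c c' : ℝ → V → V → ℝ} {r : ℝ → V → ℝ} {E G : Set V} {ε : ℝ}
    (H : NetFlow c c' r E G ε) : ContinuousOn (fun s => netCap (c s) E G) (Set.Ici 0) := by
  intro s hs
  have hval : ∀ x y, Tendsto (fun z => c z x y) (𝓝[Set.Ici 0] s) (𝓝 (c s x y)) :=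
    fun x y => H.cont x y s hs
  have h2 := tendsto_netDist hval
  rw [ContinuousWithinAt, tendsto_iff_dist_tendsto_zero]
  refine squeeze_zero' (Eventually.of_forall fun _ => dist_nonneg) ?_ h2
  filter_upwards [self_mem_nhdsWithin] with z hz
  rw [Real.dist_eq]
  exact netCap_abs_sub_le (H.nn s hs) (H.nn z hz) H.disj

/-- Exponential loss. -/
theorem NetFlow.cap_exp {c c' : ℝ → V → V → ℝ} {r : ℝ → V → ℝ} {E G : Set V} {ε : ℝ}
    (H : NetFlow c c' r E G ε) {T : ℝ} (hT : 0 ≤ T) :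
    Real.exp (-(4 * ε * T)) * netCap (c 0) E G ≤ netCap (c T) E G := by
  have hf : ContinuousOn (fun s => - netCap (c s) E G) (Set.Icc 0 T) :=
    (H.continuousOn_cap.mono Set.Icc_subset_Ici_self).neg
  have key := le_gronwallBound_of_liminf_deriv_right_le (f := fun s => - netCap (c s) E G)
    (f' := fun s => 4 * ε * netCap (c s) E G) (δ := - netCap (c 0) E G) (K := -(4 * ε)) (ε := 0)
    (a := 0) (b := T) hf ?_ le_rfl ?_ T ⟨hT, le_rfl⟩
  · rw [gronwallBound_ε0, sub_zero] at key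
    have : -(4 * ε) * T = -(4 * ε * T) := by ring
    rw [this] at key
    linarith
  · intro s hs b hb
    have hb' : 2 * ε * min (2 * netCap (c s) E G) (∑ z, r s z * netV (c s) z) < b := by
      refine lt_of_le_of_lt ?_ hb
      calc 2 * ε * min (2 * netCap (c s) E G) (∑ z, r s z * netV (c s) z)
          ≤ 2 * ε * (2 * netCap (c s) E G) :=
            mul_le_mul_of_nonneg_left (min_le_left _ _) (by have := H.eps; positivity)
        _ = 4 * ε * netCap (c s) E G := by ring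
    have := H.dini hs.1 hb'
    refine Eventually.frequently (this.mono fun z hz => ?_)
    have e : -netCap (c z) E G - -netCap (c s) E G = netCap (c s) E G - netCap (c z) E G := by ring
    rw [e]; exact hz
  · intro s _
    have : -(4 * ε) * (-netCap (c s) E G) + 0 = 4 * ε * netCap (c s) E G := by ring
    rw [this]

/-- Additive loss. -/
theorem NetFlow.cap_add {c c' : ℝ → V → V → ℝ} {r : ℝ → V → ℝ} {E G : Set V} {ε : ℝ}
    (H : NetFlow c c' r E G ε) {B : ℝ}
    (hB : ∀ s, 0 ≤ s → ∑ z, r s z * netV (c s) z ≤ B * Real.exp (-s)) {S T : ℝ} (hS : 0 ≤ S)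
    (hT : S ≤ T) :
    netCap (c S) E G - 2 * ε * B * (Real.exp (-S) - Real.exp (-T)) ≤ netCap (c T) E G := by
  have hf : ContinuousOn (fun s => - netCap (c s) E G) (Set.Icc S T) :=
    (H.continuousOn_cap.mono fun s hs => hS.trans hs.1).neg
  have key := image_le_of_liminf_slope_right_le_deriv_boundary (f := fun s => - netCap (c s) E G)
    (a := S) (b := T) hf
    (B := fun s => - netCap (c S) E G + 2 * ε * B * (Real.exp (-S) - Real.exp (-s)))
    (B' := fun s => 2 * ε * B * Real.exp (-s)) ?_ ?_ ?_ ?_ (x := T) ⟨hT, le_rfl⟩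
  · linarith
  · simp
  · fun_prop
  · intro s _
    have h1 : HasDerivAt (fun s : ℝ => Real.exp (-s)) (-Real.exp (-s)) s := by
      have := (hasDerivAt_id s).neg.exp
      simpa using this
    have h2 := ((h1.const_sub (Real.exp (-S))).const_mul (2 * ε * B)).const_add
      (- netCap (c S) E G)
    simp only [neg_neg] at h2
    exact h2.hasDerivWithinAt
  · intro s hs b hb
    have hs0 : 0 ≤ s := hS.trans hs.1
    have hb' : 2 * ε * min (2 * netCap (c s) E G) (∑ z, r s z * netV (c s) z) < b := by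
      refine lt_of_le_of_lt ?_ hb
      calc 2 * ε * min (2 * netCap (c s) E G) (∑ z, r s z * netV (c s) z)
          ≤ 2 * ε * (B * Real.exp (-s)) :=
            mul_le_mul_of_nonneg_left ((min_le_right _ _).trans (hB s hs0))
              (by have := H.eps; positivity)
        _ = 2 * ε * B * Real.exp (-s) := by ring
    have := H.dini hs0 hb'
    refine Eventually.frequently (this.mono fun z hz => ?_)
    rw [slope_def_field, div_eq_inv_mul]
    have e : -netCap (c z) E G - -netCap (c s) E G = netCap (c s) E G - netCap (c z) E G := by ring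
    rw [e]; exact hz

/-- **Network ODE, primal form** (note 9886, step (3)). -/
theorem NetFlow.cap_lower {c c' : ℝ → V → V → ℝ} {r : ℝ → V → ℝ} {E G : Set V} {ε : ℝ}
    (H : NetFlow c c' r E G ε) {B : ℝ} (hB0 : 0 ≤ B)
    (hB : ∀ s, 0 ≤ s → ∑ z, r s z * netV (c s) z ≤ B * Real.exp (-s)) {S T : ℝ} (hS : 0 ≤ S)
    (hT : 0 ≤ T) :
    Real.exp (-(4 * ε * S)) * netCap (c 0) E G - 2 * ε * B * Real.exp (-S) ≤ netCap (c T) E G := by
  have hε := H.eps
  have hc0 : 0 ≤ netCap (c 0) E G := netCap_nonneg (H.nn 0 le_rfl) H.disj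
  rcases le_total S T with hST | hTS
  · have h1 := H.cap_exp hS
    have h2 := H.cap_add hB hS hST
    have h3 : 0 ≤ 2 * ε * B * Real.exp (-T) := by positivity
    nlinarith
  · have h1 := H.cap_exp hT
    have h2 : Real.exp (-(4 * ε * S)) ≤ Real.exp (-(4 * ε * T)) := by
      apply Real.exp_le_exp.mpr
      have : 4 * ε * T ≤ 4 * ε * S := mul_le_mul_of_nonneg_left hTS (by positivity)
      linarith
    have h3 := mul_le_mul_of_nonneg_right h2 hc0
    have h4 : 0 ≤ 2 * ε * B * Real.exp (-S) := by positivity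
    linarith

end P361.LRO
end

section

/-!
# P361 LRO, block (6): numerical lemmas for the ladder of scales
-/

namespace Vale.Agent.P361.LRO.Ind

private theorem nm_log_le {y : ℝ} (hy : 0 < y) : 5 * Real.log y ≤ 3 * y := by
  have h1 : Real.log (y / 2) ≤ y / 2 - 1 := Real.log_le_sub_one_of_pos (by positivity)
  rw [Real.log_div hy.ne' (by norm_num)] at h1
  have h2 := Real.log_two_lt_d9
  linarith

/-- the ground is out of reach of the bumps. -/
theorem num_ground : ∃ β0 : ℝ, 10 ≤ β0 ∧ ∀ (β h0 lam : ℝ) (s : ℕ), β0 ≤ β → 0 < h0 →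
    1 / β ≤ lam → β ^ 10 ≤ (3 : ℝ) ^ s → h0⁻¹ ≤ ((3 : ℝ) ^ s) ^ (5 / 2 : ℝ) →
    Real.exp (-(lam * (3 * (3 : ℝ) ^ s))) ≤ h0 := by
  refine ⟨10, le_refl _, ?_⟩
  intro β h0 lam s hβ hh0 hlam hs hh
  set X : ℝ := (3 : ℝ) ^ s with hX
  have hXpos : 0 < X := by positivity
  have hβpos : 0 < β := by linarith
  have hβ2 : β ^ 2 ≤ X := le_trans (pow_le_pow_right₀ (by linarith) (by norm_num)) hs
  have hβs : β ≤ Real.sqrt X := by
    rw [Real.le_sqrt hβpos.le hXpos.le]
    exact hβ2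
  have hsq : Real.sqrt X * Real.sqrt X = X := Real.mul_self_sqrt hXpos.le
  have hsqpos : 0 < Real.sqrt X := Real.sqrt_pos.2 hXpos
  have h1 : Real.sqrt X ≤ lam * X := by
    calc Real.sqrt X = (1 / β) * (β * Real.sqrt X) := by field_simp
      _ ≤ (1 / β) * (Real.sqrt X * Real.sqrt X) := by
          apply mul_le_mul_of_nonneg_left _ (by positivity)
          exact mul_le_mul_of_nonneg_right hβs hsqpos.le
      _ = (1 / β) * X := by rw [hsq]
      _ ≤ lam * X := mul_le_mul_of_nonneg_right hlam hXpos.le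
  have h2 : (5 / 2) * Real.log X ≤ 3 * Real.sqrt X := by
    have h3 := nm_log_le hsqpos
    rw [Real.log_sqrt hXpos.le] at h3
    linarith
  have h4 : Real.exp (-(5 / 2 * Real.log X)) ≤ h0 := by
    rw [Real.rpow_def_of_pos hXpos] at hh
    rw [Real.exp_neg]
    have h5 : h0⁻¹ ≤ Real.exp (5 / 2 * Real.log X) := by
      rw [mul_comm]; exact hh
    have := inv_anti₀ (inv_pos.2 hh0) h5
    rwa [inv_inv] at this
  refine le_trans (Real.exp_le_exp.2 ?_) h4
  have : lam * (3 * X) = 3 * (lam * X) := by ring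
  rw [this]
  linarith

/-- the ladder of scales `r0 * 4 ^ i`. -/
theorem num_ladder : ∃ β0 : ℝ, 10 ≤ β0 ∧ ∀ β : ℝ, β0 ≤ β → ∃ n0 : ℕ, ∀ (n : ℕ) (h0 : ℝ),
    n0 ≤ n → (n : ℝ) ^ (-(1 / 4 : ℝ)) ≤ h0 → h0 ≤ 1 →
    ∃ r0 I : ℕ, β ^ 10 ≤ (3 : ℝ) ^ r0 ∧ (3 : ℝ) ^ r0 ≤ 3 * β ^ 10 ∧
      h0⁻¹ ≤ ((3 : ℝ) ^ (4 ^ I * r0)) ^ (5 / 2 : ℝ) ∧ 8 * 3 ^ (4 ^ I * r0) < n := by
  refine ⟨10, le_refl _, ?_⟩
  intro β hβ
  have hβ1 : (1 : ℝ) ≤ β ^ 10 := one_le_pow₀ (by linarith)
  obtain ⟨k, hk1, hk2⟩ := exists_nat_pow_near hβ1 (show (1 : ℝ) < 3 by norm_num)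
  refine ⟨max (⌈24 * β ^ 10⌉₊ + 1) 100, ?_⟩
  intro n h0 hn hh0 hh1
  have hn1 : 24 * β ^ 10 < n := by
    have h1 : ⌈24 * β ^ 10⌉₊ + 1 ≤ n := le_trans (le_max_left _ _) hn
    have h2 : 24 * β ^ 10 ≤ (⌈24 * β ^ 10⌉₊ : ℝ) := Nat.le_ceil _
    have h3 : ((⌈24 * β ^ 10⌉₊ + 1 : ℕ) : ℝ) ≤ n := by exact_mod_cast h1
    push_cast at h3
    linarith
  have hn2 : 100 ≤ n := le_trans (le_max_right _ _) hn
  have hnpos : (0 : ℝ) < n := by
    have : (100 : ℝ) ≤ n := by exact_mod_cast hn2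
    linarith
  have hh0pos : 0 < h0 := lt_of_lt_of_le (Real.rpow_pos_of_pos hnpos _) hh0
  have hinv : h0⁻¹ ≤ (n : ℝ) ^ (1 / 4 : ℝ) := by
    have h1 := inv_anti₀ (Real.rpow_pos_of_pos hnpos _) hh0
    rwa [← Real.rpow_neg hnpos.le, neg_neg] at h1
  -- existence of a large rung
  have hex : ∃ I : ℕ, h0⁻¹ ≤ ((3 : ℝ) ^ (4 ^ I * (k + 1))) ^ (5 / 2 : ℝ) := by
    obtain ⟨I, hI⟩ := pow_unbounded_of_one_lt h0⁻¹ (show (1 : ℝ) < 3 by norm_num)
    refine ⟨I, ?_⟩
    have h1 : (3 : ℝ) ^ I ≤ (3 : ℝ) ^ (4 ^ I * (k + 1)) := by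
      apply pow_le_pow_right₀ (by norm_num)
      have h2 : I ≤ 4 ^ I := (Nat.lt_pow_self (by norm_num)).le
      calc I ≤ 4 ^ I := h2
        _ ≤ 4 ^ I * (k + 1) := Nat.le_mul_of_pos_right _ (by omega)
    have h3 : (1 : ℝ) ≤ (3 : ℝ) ^ (4 ^ I * (k + 1)) := one_le_pow₀ (by norm_num)
    calc h0⁻¹ ≤ (3 : ℝ) ^ I := hI.le
      _ ≤ (3 : ℝ) ^ (4 ^ I * (k + 1)) := h1
      _ = ((3 : ℝ) ^ (4 ^ I * (k + 1))) ^ (1 : ℝ) := (Real.rpow_one _).symm
      _ ≤ _ := Real.rpow_le_rpow_of_exponent_le h3 (by norm_num)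
  classical
  refine ⟨k + 1, Nat.find hex, hk2.le, ?_, Nat.find_spec hex, ?_⟩
  · rw [pow_succ]
    linarith
  · rcases hI : Nat.find hex with _ | J
    · rw [pow_zero, one_mul]
      have h1 : (8 * 3 ^ (k + 1) : ℝ) < n := by
        rw [pow_succ]
        linarith
      exact_mod_cast h1
    · have hJ := Nat.find_min hex (m := J) (by omega)
      push Not at hJ
      set Y : ℝ := (3 : ℝ) ^ (4 ^ J * (k + 1)) with hY
      have hYpos : 0 < Y := by positivity
      have h1 : Y ^ (5 / 2 : ℝ) < (n : ℝ) ^ (1 / 4 : ℝ) := lt_of_lt_of_le hJ hinv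
      have h2 : Y ^ 4 < (n : ℝ) ^ (2 / 5 : ℝ) := by
        have h3 := Real.rpow_lt_rpow (by positivity) h1 (show (0 : ℝ) < 8 / 5 by norm_num)
        rw [← Real.rpow_mul hYpos.le, ← Real.rpow_mul hnpos.le] at h3
        have e1 : (5 / 2 * (8 / 5) : ℝ) = ((4 : ℕ) : ℝ) := by norm_num
        have e2 : (1 / 4 * (8 / 5) : ℝ) = 2 / 5 := by norm_num
        rw [e1, e2, Real.rpow_natCast] at h3
        exact h3
      have h4 : 8 * (n : ℝ) ^ (2 / 5 : ℝ) ≤ n := by
        have h5 : (n : ℝ) = (n : ℝ) ^ (2 / 5 : ℝ) * (n : ℝ) ^ (3 / 5 : ℝ) := by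
          rw [← Real.rpow_add hnpos]; norm_num
        have h6 : (8 : ℝ) ≤ (n : ℝ) ^ (3 / 5 : ℝ) := by
          have h7 : (32 : ℝ) ≤ n := by
            have : (100 : ℝ) ≤ n := by exact_mod_cast hn2
            linarith
          have h8 := Real.rpow_le_rpow (by norm_num) h7 (show (0 : ℝ) ≤ 3 / 5 by norm_num)
          have h9 : (32 : ℝ) ^ (3 / 5 : ℝ) = 8 := by
            rw [show (32 : ℝ) = (2 : ℝ) ^ (5 : ℝ) by norm_num, ← Real.rpow_mul (by norm_num)]
            norm_num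
          linarith
        calc 8 * (n : ℝ) ^ (2 / 5 : ℝ) ≤ (n : ℝ) ^ (3 / 5 : ℝ) * (n : ℝ) ^ (2 / 5 : ℝ) :=
              mul_le_mul_of_nonneg_right h6 (by positivity)
          _ = n := by rw [mul_comm]; exact h5.symm
      have h10 : (3 : ℝ) ^ (4 ^ (J + 1) * (k + 1)) = Y ^ 4 := by
        rw [hY, ← pow_mul]
        congr 1
        ring
      have h11 : (8 * 3 ^ (4 ^ (J + 1) * (k + 1)) : ℝ) < n := by
        rw [h10]
        linarith
      exact_mod_cast h11

end Vale.Agent.P361.LRO.Ind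
end

section

/-!
# P361 LRO stage 3, network chapter: numerical lemmas for the ladder of scales
-/

namespace Vale.Agent.P361.LRO.Ind3

/-- the ground is out of reach of the bumps. -/
theorem num_ground3 : ∃ e0 : ℕ, 1 ≤ e0 ∧ ∀ (h0 lam : ℝ) (e s : ℕ), e0 ≤ e → 0 < h0 →
    1 / 3 ^ (10 * e) ≤ lam → 100 * e ≤ s → h0⁻¹ ≤ ((3 : ℝ) ^ s) ^ (5 / 2 : ℝ) →
    Real.exp (-(lam * (3 * (3 : ℝ) ^ s))) ≤ h0 := by
  obtain ⟨β0, hβ0, h⟩ := Vale.Agent.P361.LRO.Ind.num_ground
  obtain ⟨e0, he0⟩ := pow_unbounded_of_one_lt β0 (show (1 : ℝ) < 3 by norm_num)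
  refine ⟨e0 + 1, by omega, ?_⟩
  intro h0 lam e s he hh0 hlam hs hh
  have h3 : β0 ≤ (3 : ℝ) ^ (10 * e) := by
    refine he0.le.trans ?_
    exact pow_le_pow_right₀ (by norm_num) (by omega)
  refine h ((3 : ℝ) ^ (10 * e)) h0 lam s h3 hh0 hlam ?_ hh
  rw [← pow_mul]
  exact pow_le_pow_right₀ (by norm_num) (by omega)

/-- the ladder of scales `100 e 4 ^ i`. -/
theorem num_ladder3 : ∀ e : ℕ, 1 ≤ e → ∃ n0 : ℕ, ∀ (n : ℕ) (h0 : ℝ),
    n0 ≤ n → (n : ℝ) ^ (-(1 / 4 : ℝ)) ≤ h0 → h0 ≤ 1 →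
    ∃ I : ℕ, h0⁻¹ ≤ ((3 : ℝ) ^ (4 ^ I * (100 * e))) ^ (5 / 2 : ℝ) ∧
      8 * 3 ^ (4 ^ I * (100 * e)) < n := by
  intro e he
  refine ⟨max (8 * 3 ^ (100 * e) + 1) 100, ?_⟩
  intro n h0 hn hh0 hh1
  have hn1 : 8 * 3 ^ (100 * e) < n := by
    have h1 : 8 * 3 ^ (100 * e) + 1 ≤ n := le_trans (le_max_left _ _) hn
    omega
  have hn2 : 100 ≤ n := le_trans (le_max_right _ _) hn
  have hnpos : (0 : ℝ) < n := by
    have : (100 : ℝ) ≤ n := by exact_mod_cast hn2
    linarith
  have hh0pos : 0 < h0 := lt_of_lt_of_le (Real.rpow_pos_of_pos hnpos _) hh0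
  have hinv : h0⁻¹ ≤ (n : ℝ) ^ (1 / 4 : ℝ) := by
    have h1 := inv_anti₀ (Real.rpow_pos_of_pos hnpos _) hh0
    rwa [← Real.rpow_neg hnpos.le, neg_neg] at h1
  -- existence of a large rung
  have hex : ∃ I : ℕ, h0⁻¹ ≤ ((3 : ℝ) ^ (4 ^ I * (100 * e))) ^ (5 / 2 : ℝ) := by
    obtain ⟨I, hI⟩ := pow_unbounded_of_one_lt h0⁻¹ (show (1 : ℝ) < 3 by norm_num)
    refine ⟨I, ?_⟩
    have h1 : (3 : ℝ) ^ I ≤ (3 : ℝ) ^ (4 ^ I * (100 * e)) := by
      apply pow_le_pow_right₀ (by norm_num)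
      have h2 : I ≤ 4 ^ I := (Nat.lt_pow_self (by norm_num)).le
      calc I ≤ 4 ^ I := h2
        _ ≤ 4 ^ I * (100 * e) := Nat.le_mul_of_pos_right _ (by omega)
    have h3 : (1 : ℝ) ≤ (3 : ℝ) ^ (4 ^ I * (100 * e)) := one_le_pow₀ (by norm_num)
    calc h0⁻¹ ≤ (3 : ℝ) ^ I := hI.le
      _ ≤ (3 : ℝ) ^ (4 ^ I * (100 * e)) := h1
      _ = ((3 : ℝ) ^ (4 ^ I * (100 * e))) ^ (1 : ℝ) := (Real.rpow_one _).symm
      _ ≤ _ := Real.rpow_le_rpow_of_exponent_le h3 (by norm_num)
  classical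
  refine ⟨Nat.find hex, Nat.find_spec hex, ?_⟩
  rcases hI : Nat.find hex with _ | J
  · rw [pow_zero, one_mul]
    exact hn1
  · have hJ := Nat.find_min hex (m := J) (by omega)
    push Not at hJ
    set Y : ℝ := (3 : ℝ) ^ (4 ^ J * (100 * e)) with hY
    have hYpos : 0 < Y := by positivity
    have h1 : Y ^ (5 / 2 : ℝ) < (n : ℝ) ^ (1 / 4 : ℝ) := lt_of_lt_of_le hJ hinv
    have h2 : Y ^ 4 < (n : ℝ) ^ (2 / 5 : ℝ) := by
      have h3 := Real.rpow_lt_rpow (by positivity) h1 (show (0 : ℝ) < 8 / 5 by norm_num)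
      rw [← Real.rpow_mul hYpos.le, ← Real.rpow_mul hnpos.le] at h3
      have e1 : (5 / 2 * (8 / 5) : ℝ) = ((4 : ℕ) : ℝ) := by norm_num
      have e2 : (1 / 4 * (8 / 5) : ℝ) = 2 / 5 := by norm_num
      rw [e1, e2, Real.rpow_natCast] at h3
      exact h3
    have h4 : 8 * (n : ℝ) ^ (2 / 5 : ℝ) ≤ n := by
      have h5 : (n : ℝ) = (n : ℝ) ^ (2 / 5 : ℝ) * (n : ℝ) ^ (3 / 5 : ℝ) := by
        rw [← Real.rpow_add hnpos]; norm_num
      have h6 : (8 : ℝ) ≤ (n : ℝ) ^ (3 / 5 : ℝ) := by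
        have h7 : (32 : ℝ) ≤ n := by
          have : (100 : ℝ) ≤ n := by exact_mod_cast hn2
          linarith
        have h8 := Real.rpow_le_rpow (by norm_num) h7 (show (0 : ℝ) ≤ 3 / 5 by norm_num)
        have h9 : (32 : ℝ) ^ (3 / 5 : ℝ) = 8 := by
          rw [show (32 : ℝ) = (2 : ℝ) ^ (5 : ℝ) by norm_num, ← Real.rpow_mul (by norm_num)]
          norm_num
        linarith
      calc 8 * (n : ℝ) ^ (2 / 5 : ℝ) ≤ (n : ℝ) ^ (3 / 5 : ℝ) * (n : ℝ) ^ (2 / 5 : ℝ) :=
            mul_le_mul_of_nonneg_right h6 (by positivity)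
        _ = n := by rw [mul_comm]; exact h5.symm
    have h10 : (3 : ℝ) ^ (4 ^ (J + 1) * (100 * e)) = Y ^ 4 := by
      rw [hY, ← pow_mul]
      congr 1
      ring
    have h11 : (8 * 3 ^ (4 ^ (J + 1) * (100 * e)) : ℝ) < n := by
      rw [h10]
      linarith
    exact_mod_cast h11

end Vale.Agent.P361.LRO.Ind3
end

section

/-!
# Network ODE (note 9886, step (3)): dual form with a fixed charge
-/

namespace P361.LRO

open Finset Set Filter Topology

variable {V : Type*} [Fintype V] [DecidableEq V]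

omit [DecidableEq V] in
theorem netK_sub_abs_le_of_osc (c d : V → V → ℝ) {a : V → ℝ} {L : ℝ}
    (ha : ∀ x y, |a x - a y| ≤ L) : |netK c a - netK d a| ≤ L ^ 2 * netDist c d := by
  have h : netK c a - netK d a = (1 / 2) * ∑ x, ∑ y, (c x y - d x y) * (a x - a y) ^ 2 := by
    unfold netK
    rw [← mul_sub, ← Finset.sum_sub_distrib]
    congr 1
    refine Finset.sum_congr rfl fun x _ => ?_
    rw [← Finset.sum_sub_distrib]
    exact Finset.sum_congr rfl fun y _ => by ring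
  rw [h, abs_mul]
  have h2 : |∑ x, ∑ y, (c x y - d x y) * (a x - a y) ^ 2| ≤ L ^ 2 * netDist c d := by
    unfold netDist
    rw [Finset.mul_sum]
    refine (Finset.abs_sum_le_sum_abs _ _).trans (Finset.sum_le_sum fun x _ => ?_)
    rw [Finset.mul_sum]
    refine (Finset.abs_sum_le_sum_abs _ _).trans (Finset.sum_le_sum fun y _ => ?_)
    rw [abs_mul, mul_comm]
    refine mul_le_mul_of_nonneg_right ?_ (abs_nonneg _)
    rw [abs_of_nonneg (sq_nonneg _), ← sq_abs]
    exact pow_le_pow_left₀ (abs_nonneg _) (ha x y) 2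
  have h3 : |(1 / 2 : ℝ)| = 1 / 2 := abs_of_pos (by norm_num)
  rw [h3]
  have h4 := mul_nonneg (sq_nonneg L) (netDist_nonneg c d)
  linarith

omit [DecidableEq V] in
theorem netQ_sub_abs_le_of_osc (c d : V → V → ℝ) {a : V → ℝ} {L : ℝ} (hL : 0 ≤ L)
    (ha : ∀ x y, |a x - a y| ≤ L) (z : V) :
    |netQ c a z - netQ d a z| ≤ L * netDist c d := by
  have h : netQ c a z - netQ d a z = ∑ x, (c z x - d z x) * (a z - a x) := by
    unfold netQ
    rw [← Finset.sum_sub_distrib]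
    exact Finset.sum_congr rfl fun x _ => by ring
  rw [h]
  have h2 : |∑ x, (c z x - d z x) * (a z - a x)| ≤ L * ∑ x, |c z x - d z x| := by
    rw [Finset.mul_sum]
    refine (Finset.abs_sum_le_sum_abs _ _).trans (Finset.sum_le_sum fun x _ => ?_)
    rw [abs_mul, mul_comm]
    exact mul_le_mul_of_nonneg_right (ha z x) (abs_nonneg _)
  refine h2.trans (mul_le_mul_of_nonneg_left ?_ hL)
  exact Finset.single_le_sum (f := fun x => ∑ y, |c x y - d x y|)
    (fun x _ => Finset.sum_nonneg fun y _ => abs_nonneg _) (Finset.mem_univ z)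

omit [DecidableEq V] in
theorem sum_mul_netQ {c : V → V → ℝ} (hsymm : ∀ x y, c x y = c y x) (a : V → ℝ) :
    ∑ z, a z * netQ c a z = netK c a := by
  unfold netQ netK
  have h1 : ∑ z, a z * ∑ x, c z x * (a z - a x) = ∑ z, ∑ x, c z x * (a z * (a z - a x)) := by
    refine Finset.sum_congr rfl fun z _ => ?_
    rw [Finset.mul_sum]
    exact Finset.sum_congr rfl fun x _ => by ring
  have h2 : ∑ z, ∑ x, c z x * (a z * (a z - a x)) = ∑ z, ∑ x, c z x * (a x * (a x - a z)) := by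
    rw [Finset.sum_comm]
    refine Finset.sum_congr rfl fun x _ => Finset.sum_congr rfl fun z _ => ?_
    rw [hsymm z x]
  have h3 : ∑ x, ∑ y, c x y * (a x - a y) ^ 2 =
      ∑ z, ∑ x, c z x * (a z * (a z - a x)) + ∑ z, ∑ x, c z x * (a x * (a x - a z)) := by
    rw [← Finset.sum_add_distrib]
    refine Finset.sum_congr rfl fun x _ => ?_
    rw [← Finset.sum_add_distrib]
    exact Finset.sum_congr rfl fun y _ => by ring
  rw [h1, h3, ← h2]; ring

/-- Regularised dual functional. -/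
noncomputable def dualJ (c : V → V → ℝ) (q : V → ℝ) (l : ℝ) (u : V → ℝ) : ℝ :=
  2 * ∑ x, q x * u x - netK c u - l * ∑ x, u x ^ 2

/-- Potentials vanishing on the electrode. -/
def dualAdm (E : Set V) : Set (V → ℝ) := {u | ∀ x ∈ E, u x = 0}

/-- Regularised resistance of the charge `q` to the electrode `E`. -/
noncomputable def dualR (E : Set V) (c : V → V → ℝ) (q : V → ℝ) (l : ℝ) : ℝ :=
  sSup (dualJ c q l '' dualAdm E)

/-- A bound for the maximiser. -/
noncomputable def dualM (q : V → ℝ) (l : ℝ) : ℝ := 2 * (√(∑ x, q x ^ 2) / l)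

omit [DecidableEq V] in
theorem dualJ_le {c : V → V → ℝ} (hc : ∀ x y, 0 ≤ c x y) (q : V → ℝ) {l : ℝ} (hl : 0 < l)
    (u : V → ℝ) : dualJ c q l u ≤ (∑ x, q x ^ 2) / l - l * ∑ x, (u x - q x / l) ^ 2 := by
  have h : (∑ x, q x ^ 2) / l - l * ∑ x, (u x - q x / l) ^ 2
      = 2 * ∑ x, q x * u x - l * ∑ x, u x ^ 2 := by
    rw [Finset.sum_div, Finset.mul_sum, Finset.mul_sum, Finset.mul_sum, ← Finset.sum_sub_distrib,
      ← Finset.sum_sub_distrib]
    refine Finset.sum_congr rfl fun x _ => ?_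
    field_simp
    ring
  rw [h]
  unfold dualJ
  have := netK_nonneg hc u
  linarith

omit [DecidableEq V] in
theorem exists_max (E : Set V) {c : V → V → ℝ} (hc : ∀ x y, 0 ≤ c x y) (q : V → ℝ) {l : ℝ}
    (hl : 0 < l) :
    ∃ u ∈ dualAdm E, dualJ c q l u = dualR E c q l ∧
      (∀ w ∈ dualAdm E, dualJ c q l w ≤ dualJ c q l u) ∧
      ∀ x, |u x| ≤ dualM q l := by
  set Q := ∑ x, q x ^ 2 with hQ
  have hQ0 : 0 ≤ Q := Finset.sum_nonneg fun _ _ => sq_nonneg _
  have hbox : ∀ u : V → ℝ, 0 ≤ dualJ c q l u → ∀ x, |u x| ≤ dualM q l := by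
    intro u hu x
    have h1 := dualJ_le hc q hl u
    have h2 : l * ∑ x, (u x - q x / l) ^ 2 ≤ Q / l := by linarith
    have h3 : (u x - q x / l) ^ 2 ≤ ∑ x, (u x - q x / l) ^ 2 :=
      Finset.single_le_sum (f := fun x => (u x - q x / l) ^ 2) (fun _ _ => sq_nonneg _)
        (Finset.mem_univ x)
    have h4 : (u x - q x / l) ^ 2 ≤ Q / l / l := by
      rw [le_div_iff₀ hl]
      calc (u x - q x / l) ^ 2 * l ≤ (∑ x, (u x - q x / l) ^ 2) * l :=
            mul_le_mul_of_nonneg_right h3 hl.le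
        _ ≤ Q / l := by linarith
    have h5 : |u x - q x / l| ≤ √Q / l := by
      rw [← Real.sqrt_sq_eq_abs]
      calc √((u x - q x / l) ^ 2) ≤ √(Q / l / l) := Real.sqrt_le_sqrt h4
        _ = √Q / l := by
            rw [div_div, ← sq, Real.sqrt_div hQ0, Real.sqrt_sq hl.le]
    have h6 : |q x / l| ≤ √Q / l := by
      rw [abs_div, abs_of_pos hl]
      refine div_le_div_of_nonneg_right ?_ hl.le
      rw [← Real.sqrt_sq_eq_abs]
      refine Real.sqrt_le_sqrt ?_
      exact Finset.single_le_sum (f := fun x => q x ^ 2) (fun _ _ => sq_nonneg _)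
        (Finset.mem_univ x)
    have h7 : |u x| ≤ |u x - q x / l| + |q x / l| := by
      have := abs_add_le (u x - q x / l) (q x / l)
      simpa using this
    unfold dualM
    linarith
  have hcont : Continuous (dualJ c q l) := by
    unfold dualJ
    have := continuous_netK c
    fun_prop
  have hcl : IsClosed (dualAdm E : Set (V → ℝ)) := by
    have : (dualAdm E : Set (V → ℝ)) = ⋂ x ∈ E, {u : V → ℝ | u x = 0} := by
      ext u; simp [dualAdm]
    rw [this]
    exact isClosed_iInter fun x => isClosed_iInter fun _ =>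
      isClosed_eq (continuous_apply x) continuous_const
  have hcomp : IsCompact ((Set.pi Set.univ fun _ : V => Set.Icc (-dualM q l) (dualM q l)) ∩
      dualAdm E) :=
    (isCompact_univ_pi fun _ => isCompact_Icc).inter_right hcl
  have hM : 0 ≤ dualM q l := by unfold dualM; positivity
  have hJ0 : dualJ c q l 0 = 0 := by simp [dualJ, netK]
  have hmem0 : (0 : V → ℝ) ∈ (Set.pi Set.univ fun _ : V => Set.Icc (-dualM q l) (dualM q l)) ∩
      dualAdm E := by
    refine ⟨fun x _ => ?_, fun x _ => rfl⟩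
    simp [hM]
  obtain ⟨u, hu, hmax⟩ := hcomp.exists_isMaxOn ⟨0, hmem0⟩ hcont.continuousOn
  have hall : ∀ w ∈ dualAdm E, dualJ c q l w ≤ dualJ c q l u := by
    intro w hwE
    have h0 : 0 ≤ dualJ c q l u := by
      have := hmax hmem0
      simp only [Set.mem_ofPred_eq, hJ0] at this
      exact this
    by_cases hw : 0 ≤ dualJ c q l w
    · have hwm : w ∈ (Set.pi Set.univ fun _ : V => Set.Icc (-dualM q l) (dualM q l)) ∩
          dualAdm E := by
        refine ⟨fun x _ => ?_, hwE⟩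
        exact abs_le.mp (hbox w hw x)
      exact hmax hwm
    · linarith [not_le.mp hw]
  refine ⟨u, hu.2, ?_, hall, ?_⟩
  · unfold dualR
    refine le_antisymm ?_ ?_
    · refine le_csSup ⟨dualJ c q l u, ?_⟩ ⟨u, hu.2, rfl⟩
      rintro _ ⟨w, hw, rfl⟩
      exact hall w hw
    · refine csSup_le ⟨_, ⟨u, hu.2, rfl⟩⟩ ?_
      rintro _ ⟨w, hw, rfl⟩
      exact hall w hw
  · intro x
    exact abs_le.mpr (hu.1 x (Set.mem_univ x))

omit [DecidableEq V] in
theorem dualJ_le_dualR {E : Set V} {c : V → V → ℝ} (hc : ∀ x y, 0 ≤ c x y) (q : V → ℝ) {l : ℝ}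
    (hl : 0 < l) {w : V → ℝ} (hw : w ∈ dualAdm E) : dualJ c q l w ≤ dualR E c q l := by
  obtain ⟨u, _, hu, hmax, _⟩ := exists_max E hc q hl
  rw [← hu]; exact hmax w hw

theorem dual_stationary {E : Set V} {c : V → V → ℝ} (hc : ∀ x y, 0 ≤ c x y)
    (hsymm : ∀ x y, c x y = c y x)
    {q : V → ℝ} {l : ℝ} (hl : 0 < l) {u : V → ℝ} (hu : u ∈ dualAdm E)
    (hmax : ∀ w ∈ dualAdm E, dualJ c q l w ≤ dualJ c q l u)
    {z : V} (hz : z ∉ E) : netQ c u z + l * u z = q z := by
  have hsq : ∀ t : ℝ, ∑ x, (u + (Pi.single z t : V → ℝ)) x ^ 2 = ∑ x, u x ^ 2 + 2 * t * u z + t ^ 2 := by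
    intro t
    have h1 : ∀ x, (u + (Pi.single z t : V → ℝ)) x ^ 2
        = u x ^ 2 + (if x = z then 2 * t * u z + t ^ 2 else 0) := by
      intro x
      by_cases hx : x = z
      · subst hx; simp; ring
      · simp [hx]
    simp only [h1, Finset.sum_add_distrib]
    simp
    ring
  have hlin : ∀ t : ℝ, ∑ x, q x * (u + (Pi.single z t : V → ℝ)) x = ∑ x, q x * u x + t * q z := by
    intro t
    have h1 : ∀ x, q x * (u + (Pi.single z t : V → ℝ)) x
        = q x * u x + (if x = z then t * q z else 0) := by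
      intro x
      by_cases hx : x = z
      · subst hx; simp; ring
      · simp [hx]
    simp only [h1, Finset.sum_add_distrib]
    simp
  set g := q z - netQ c u z - l * u z with hg
  set k := netK c (Pi.single z 1) + l with hk
  have hk0 : 0 < k := by
    have := netK_nonneg hc (Pi.single z (1:ℝ) : V → ℝ)
    rw [hk]; linarith
  have h : ∀ t : ℝ, 2 * t * g - t ^ 2 * k ≤ 0 := by
    intro t
    have hm : u + (Pi.single z t : V → ℝ) ∈ dualAdm E := by
      intro x hx
      have hxz : x ≠ z := fun h => hz (h ▸ hx)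
      simp [Pi.single_eq_of_ne hxz, hu x hx]
    have h1 := hmax _ hm
    unfold dualJ at h1
    rw [hsq, hlin, netK_add_single hsymm] at h1
    rw [hg, hk]
    linarith
  have h2 := h (g / k)
  have h3 : 2 * (g / k) * g - (g / k) ^ 2 * k = g ^ 2 / k := by
    field_simp
    ring
  rw [h3] at h2
  have h4 : g ^ 2 ≤ 0 := by
    by_contra hcon
    have : 0 < g ^ 2 / k := div_pos (not_le.mp hcon) hk0
    linarith
  have h5 : g = 0 := pow_eq_zero_iff (two_ne_zero) |>.mp (le_antisymm h4 (sq_nonneg g))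
  rw [hg] at h5
  linarith

theorem dual_value {E : Set V} {c : V → V → ℝ} (hc : ∀ x y, 0 ≤ c x y)
    (hsymm : ∀ x y, c x y = c y x)
    {q : V → ℝ} {l : ℝ} (hl : 0 < l) {u : V → ℝ} (hu : u ∈ dualAdm E)
    (hmax : ∀ w ∈ dualAdm E, dualJ c q l w ≤ dualJ c q l u) :
    dualJ c q l u = netK c u + l * ∑ x, u x ^ 2 := by
  have h1 : ∑ z, q z * u z = netK c u + l * ∑ x, u x ^ 2 := by
    rw [← sum_mul_netQ hsymm u, Finset.mul_sum, ← Finset.sum_add_distrib]
    refine Finset.sum_congr rfl fun z _ => ?_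
    by_cases hz : z ∈ E
    · rw [hu z hz]; ring
    · rw [← dual_stationary hc hsymm hl hu hmax hz]; ring
  unfold dualJ
  rw [h1]; ring


omit [DecidableEq V] in
theorem dualR_sub_le (E : Set V) {c0 c1 : V → V → ℝ} (h0 : ∀ x y, 0 ≤ c0 x y)
    (h1 : ∀ x y, 0 ≤ c1 x y) (q : V → ℝ) {l : ℝ} (hl : 0 < l) :
    dualR E c1 q l - dualR E c0 q l ≤ (2 * dualM q l) ^ 2 * netDist c1 c0 := by
  obtain ⟨u, huE, hu, _, hM⟩ := exists_max E h1 q hl
  have hosc : ∀ x y, |u x - u y| ≤ 2 * dualM q l := by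
    intro x y
    have := abs_sub (u x) (u y)
    linarith [hM x, hM y]
  have e1 := dualJ_le_dualR h0 q hl huE
  have e2 := (abs_le.mp (netK_sub_abs_le_of_osc c1 c0 hosc)).1
  rw [← hu]
  unfold dualJ at *
  linarith

theorem dual_one_step {E : Set V} {c0 c1 c' : V → V → ℝ}
    (h0 : ∀ x y, 0 ≤ c0 x y) (h1 : ∀ x y, 0 ≤ c1 x y) (hs1 : ∀ x y, c1 x y = c1 y x)
    {r : V → ℝ} (hr0 : ∀ z, 0 ≤ r z) (hr1 : ∀ z, r z ≤ 1) (hrE : ∀ z ∈ E, r z = 0)
    {ε : ℝ} (hε : 0 ≤ ε)
    (hbound : ∀ a : V → ℝ, - ∑ z, r z * ((netQ c0 a z) ^ 2 / netV c0 z + 2 * ε * netStar c0 a z)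
      ≤ netK c' a) (q : V → ℝ) {l : ℝ} (hl : 0 < l) {η : ℝ} (hη : 0 < η) {δ : ℝ} (hδ : 0 < δ)
    {L : ℝ} (hL : L = 2 * dualM q l) :
    δ⁻¹ * (dualR E c1 q l - dualR E c0 q l) ≤
      L ^ 2 * netDist (fun x y => δ⁻¹ * (c1 x y - c0 x y)) c'
      + ((1 + η) * ∑ z, r z * (q z ^ 2 / netV c0 z)
         + (1 + η⁻¹) * (l * (dualR E c0 q l + L ^ 2 * netDist c1 c0) + l * L ^ 2 * netDist c1 c0
            + L ^ 2 * netDist c1 c0 ^ 2) * ∑ z, r z * (netV c0 z)⁻¹)
      + 4 * ε * (dualR E c0 q l + 2 * L ^ 2 * netDist c1 c0) := by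
  obtain ⟨u, huE, hu, hmax, hM⟩ := exists_max E h1 q hl
  set Δ := netDist c1 c0 with hΔ
  have hΔ0 : 0 ≤ Δ := netDist_nonneg _ _
  have hM0 : 0 ≤ dualM q l := by unfold dualM; positivity
  have hL0 : 0 ≤ L := by rw [hL]; positivity
  have hosc : ∀ x y, |u x - u y| ≤ L := by
    intro x y
    have := abs_sub (u x) (u y)
    rw [hL]
    linarith [hM x, hM y]
  -- value comparison
  have hR1 : dualR E c1 q l ≤ dualR E c0 q l + L ^ 2 * Δ := by
    have := dualR_sub_le E h0 h1 q hl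
    rw [← hL] at this
    linarith
  have hval := dual_value h1 hs1 hl huE hmax
  rw [hu] at hval
  have hK0 : 0 ≤ netK c1 u := netK_nonneg h1 u
  have hS0 : 0 ≤ ∑ x, u x ^ 2 := Finset.sum_nonneg fun _ _ => sq_nonneg _
  have hK1 : netK c1 u ≤ dualR E c1 q l := by nlinarith
  have hlu : ∀ z, l ^ 2 * u z ^ 2 ≤ l * (dualR E c0 q l + L ^ 2 * Δ) := by
    intro z
    have e1 : u z ^ 2 ≤ ∑ x, u x ^ 2 :=
      Finset.single_le_sum (f := fun x => u x ^ 2) (fun _ _ => sq_nonneg _) (Finset.mem_univ z)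
    have e2 : l * u z ^ 2 ≤ dualR E c1 q l := by nlinarith
    have e3 : l * (l * u z ^ 2) ≤ l * (dualR E c0 q l + L ^ 2 * Δ) :=
      mul_le_mul_of_nonneg_left (e2.trans hR1) hl.le
    linarith
  have hstep : dualR E c1 q l - dualR E c0 q l ≤ netK c0 u - netK c1 u := by
    have e1 := dualJ_le_dualR h0 q hl huE
    rw [← hu]
    unfold dualJ at *
    linarith
  have hlin : δ⁻¹ * (netK c0 u - netK c1 u) = - netK (fun x y => δ⁻¹ * (c1 x y - c0 x y)) u := by
    unfold netK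
    have : ∑ x, ∑ y, δ⁻¹ * (c1 x y - c0 x y) * (u x - u y) ^ 2
        = δ⁻¹ * (∑ x, ∑ y, c1 x y * (u x - u y) ^ 2 - ∑ x, ∑ y, c0 x y * (u x - u y) ^ 2) := by
      rw [← Finset.sum_sub_distrib, Finset.mul_sum]
      refine Finset.sum_congr rfl fun x _ => ?_
      rw [← Finset.sum_sub_distrib, Finset.mul_sum]
      exact Finset.sum_congr rfl fun y _ => by ring
    rw [this]; ring
  have hd := netK_sub_abs_le_of_osc (fun x y => δ⁻¹ * (c1 x y - c0 x y)) c' hosc
  have hd' := (abs_le.mp hd).1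
  have hb := hbound u
  set P := l * (dualR E c0 q l + L ^ 2 * Δ) + l * L ^ 2 * Δ + L ^ 2 * Δ ^ 2 with hP
  have hq : ∀ z ∉ E, (netQ c0 u z) ^ 2 ≤ (1 + η) * q z ^ 2 + (1 + η⁻¹) * P := by
    intro z hz
    have hst := dual_stationary h1 hs1 hl huE hmax hz
    set e := netQ c0 u z - netQ c1 u z with he
    have he1 : |e| ≤ L * Δ := by
      rw [he, hΔ, netDist_comm]
      exact netQ_sub_abs_le_of_osc c0 c1 hL0 hosc z
    have hqz : netQ c0 u z = q z + (e - l * u z) := by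
      rw [he]; linarith
    have hb2 : (e - l * u z) ^ 2 ≤ P := by
      have e1 : (e - l * u z) ^ 2 ≤ (|e| + l * |u z|) ^ 2 := by
        rw [← sq_abs (e - l * u z)]
        refine pow_le_pow_left₀ (abs_nonneg _) ?_ 2
        have := abs_sub e (l * u z)
        rwa [abs_mul, abs_of_pos hl] at this
      have e2 : |u z| ≤ L / 2 := by rw [hL]; linarith [hM z]
      have e3 := hlu z
      have e4 : |e| * (l * |u z|) ≤ (L * Δ) * (l * (L / 2)) :=
        mul_le_mul he1 (mul_le_mul_of_nonneg_left e2 hl.le) (by positivity) (by positivity)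
      have e5 : |e| ^ 2 ≤ (L * Δ) ^ 2 := pow_le_pow_left₀ (abs_nonneg _) he1 2
      have e6 : (l * |u z|) ^ 2 = l ^ 2 * u z ^ 2 := by rw [mul_pow, sq_abs]
      rw [hP]
      nlinarith
    have hy : 2 * (q z * (e - l * u z)) ≤ η * q z ^ 2 + η⁻¹ * (e - l * u z) ^ 2 := by
      have h1 : 0 ≤ η⁻¹ * (η * q z - (e - l * u z)) ^ 2 := by positivity
      have h2 : η⁻¹ * (η * q z - (e - l * u z)) ^ 2
          = η * q z ^ 2 - 2 * (q z * (e - l * u z)) + η⁻¹ * (e - l * u z) ^ 2 := by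
        field_simp
        ring
      linarith
    have hη' : 0 < 1 + η⁻¹ := by positivity
    have hfin := mul_le_mul_of_nonneg_left hb2 hη'.le
    rw [hqz]
    nlinarith
  have hrq : ∑ z, r z * ((netQ c0 u z) ^ 2 / netV c0 z) ≤
      (1 + η) * ∑ z, r z * (q z ^ 2 / netV c0 z) + (1 + η⁻¹) * P * ∑ z, r z * (netV c0 z)⁻¹ := by
    rw [Finset.mul_sum, Finset.mul_sum, ← Finset.sum_add_distrib]
    refine Finset.sum_le_sum fun z _ => ?_
    have hv : 0 ≤ (netV c0 z)⁻¹ := inv_nonneg.mpr (Finset.sum_nonneg fun x _ => h0 z x)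
    by_cases hz : z ∈ E
    · rw [hrE z hz]; simp
    have h2 := mul_le_mul_of_nonneg_right (hq z hz) (mul_nonneg (hr0 z) hv)
    rw [div_eq_mul_inv, div_eq_mul_inv]
    linarith
  have hstar : ∑ z, r z * netStar c0 u z ≤ 2 * (dualR E c0 q l + 2 * L ^ 2 * Δ) := by
    have e1 : ∑ z, r z * netStar c0 u z ≤ ∑ z, netStar c0 u z :=
      Finset.sum_le_sum fun z _ => by
        have := mul_le_mul_of_nonneg_right (hr1 z) (netStar_nonneg h0 u z)
        linarith
    rw [sum_netStar] at e1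
    have e2 := (abs_le.mp (netK_sub_abs_le_of_osc c0 c1 hosc)).2
    rw [netDist_comm, ← hΔ] at e2
    linarith
  have hsum : ∑ z, r z * ((netQ c0 u z) ^ 2 / netV c0 z + 2 * ε * netStar c0 u z)
      = ∑ z, r z * ((netQ c0 u z) ^ 2 / netV c0 z) + 2 * ε * ∑ z, r z * netStar c0 u z := by
    rw [Finset.mul_sum, ← Finset.sum_add_distrib]
    exact Finset.sum_congr rfl fun z _ => by ring
  have hstar2 : 2 * ε * ∑ z, r z * netStar c0 u z ≤ 2 * ε * (2 * (dualR E c0 q l + 2 * L ^ 2 * Δ)) :=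
    mul_le_mul_of_nonneg_left hstar (by positivity)
  have hfin := mul_le_mul_of_nonneg_left hstep (inv_nonneg.mpr hδ.le)
  rw [hlin] at hfin
  linarith

theorem NetFlow.dual_dini {c c' : ℝ → V → V → ℝ} {r : ℝ → V → ℝ} {E G : Set V} {ε : ℝ}
    (H : NetFlow c c' r E G ε) (q : V → ℝ) {l : ℝ} (hl : 0 < l) {η : ℝ} (hη : 0 < η)
    {s : ℝ} (hs : 0 ≤ s) {b : ℝ}
    (hb : ((1 + η) * ∑ z, r s z * (q z ^ 2 / netV (c s) z)
         + (1 + η⁻¹) * (l * dualR E (c s) q l) * ∑ z, r s z * (netV (c s) z)⁻¹)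
      + 4 * ε * dualR E (c s) q l < b) :
    ∀ᶠ z in 𝓝[>] s, (z - s)⁻¹ * (dualR E (c z) q l - dualR E (c s) q l) < b := by
  have hslope : ∀ x y, Tendsto (fun z => (z - s)⁻¹ * (c z x y - c s x y)) (𝓝[>] s)
      (𝓝 (c' s x y)) := by
    intro x y
    have h := hasDerivWithinAt_iff_tendsto_slope.mp (H.der s hs x y)
    rw [Set.Ici_sdiff_left] at h
    refine h.congr fun z => ?_
    simp [slope_def_field, div_eq_inv_mul]
  have hval : ∀ x y, Tendsto (fun z => c z x y) (𝓝[>] s) (𝓝 (c s x y)) := by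
    intro x y
    exact (H.der s hs x y).continuousWithinAt.tendsto.mono_left
      (nhdsWithin_mono _ Set.Ioi_subset_Ici_self)
  have h1 := tendsto_netDist hslope
  have h2 := tendsto_netDist hval
  set L := 2 * dualM q l with hL
  set R := dualR E (c s) q l with hR
  have hlim : Tendsto (fun z =>
      L ^ 2 * netDist (fun x y => (z - s)⁻¹ * (c z x y - c s x y)) (c' s)
      + ((1 + η) * ∑ w, r s w * (q w ^ 2 / netV (c s) w)
         + (1 + η⁻¹) * (l * (R + L ^ 2 * netDist (c z) (c s)) + l * L ^ 2 * netDist (c z) (c s)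
            + L ^ 2 * netDist (c z) (c s) ^ 2) * ∑ w, r s w * (netV (c s) w)⁻¹)
      + 4 * ε * (R + 2 * L ^ 2 * netDist (c z) (c s))) (𝓝[>] s)
      (𝓝 (L ^ 2 * 0
      + ((1 + η) * ∑ w, r s w * (q w ^ 2 / netV (c s) w)
         + (1 + η⁻¹) * (l * (R + L ^ 2 * 0) + l * L ^ 2 * 0
            + L ^ 2 * 0 ^ 2) * ∑ w, r s w * (netV (c s) w)⁻¹)
      + 4 * ε * (R + 2 * L ^ 2 * 0))) := by
    refine ((h1.const_mul _).add ?_).add (Tendsto.const_mul _ ?_)
    · refine Tendsto.const_add _ (Tendsto.mul_const _ (Tendsto.const_mul _ ?_))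
      refine ((Tendsto.const_mul _ ((h2.const_mul _).const_add _)).add (h2.const_mul _)).add ?_
      exact (h2.pow 2).const_mul _
    · exact (h2.const_mul _).const_add _
  have hlt : (L ^ 2 * 0
      + ((1 + η) * ∑ w, r s w * (q w ^ 2 / netV (c s) w)
         + (1 + η⁻¹) * (l * (R + L ^ 2 * 0) + l * L ^ 2 * 0
            + L ^ 2 * 0 ^ 2) * ∑ w, r s w * (netV (c s) w)⁻¹)
      + 4 * ε * (R + 2 * L ^ 2 * 0)) < b := by
    simpa using hb
  have hev := hlim.eventually (gt_mem_nhds hlt)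
  filter_upwards [hev, self_mem_nhdsWithin] with z hz hzs
  have hzs' : (0 : ℝ) < z - s := sub_pos.mpr hzs
  have hz0 : 0 ≤ z := hs.trans (le_of_lt hzs)
  exact lt_of_le_of_lt (dual_one_step (H.nn s hs) (H.nn z hz0) (H.symm z hz0) (H.r0 s hs)
    (H.r1 s hs) (H.rE s hs) H.eps (H.bound s hs) q hl hη hzs' hL) hz

omit [DecidableEq V] in
theorem NetFlow.continuousOn_dualR {c c' : ℝ → V → V → ℝ} {r : ℝ → V → ℝ} {E G : Set V} {ε : ℝ}
    (H : NetFlow c c' r E G ε) (q : V → ℝ) {l : ℝ} (hl : 0 < l) :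
    ContinuousOn (fun s => dualR E (c s) q l) (Set.Ici 0) := by
  intro s hs
  have hval : ∀ x y, Tendsto (fun z => c z x y) (𝓝[Set.Ici 0] s) (𝓝 (c s x y)) :=
    fun x y => H.cont x y s hs
  have h2 := (tendsto_netDist hval).const_mul ((2 * dualM q l) ^ 2)
  rw [mul_zero] at h2
  rw [ContinuousWithinAt, tendsto_iff_dist_tendsto_zero]
  refine squeeze_zero' (Eventually.of_forall fun _ => dist_nonneg) ?_ h2
  filter_upwards [self_mem_nhdsWithin] with z hz
  rw [Real.dist_eq, abs_le]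
  have e1 := dualR_sub_le E (H.nn s hs) (H.nn z hz) q hl
  have e2 := dualR_sub_le E (H.nn z hz) (H.nn s hs) q hl
  rw [netDist_comm] at e2
  constructor <;> linarith

theorem NetFlow.dual_upper_reg {c c' : ℝ → V → V → ℝ} {r : ℝ → V → ℝ} {E G : Set V} {ε : ℝ}
    (H : NetFlow c c' r E G ε) (q : V → ℝ) {T D W R0 : ℝ} (hT : 0 ≤ T) (hD : 0 ≤ D)
    (hW0 : 0 ≤ W) (hR00 : 0 ≤ R0)
    (hq : ∀ s, 0 ≤ s → s ≤ T → ∑ z, r s z * (q z ^ 2 / netV (c s) z) ≤ D * Real.exp s)
    (hW : ∀ s, 0 ≤ s → s ≤ T → ∑ z, r s z * (netV (c s) z)⁻¹ ≤ W)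
    (hR0 : ∀ u : V → ℝ, (∀ x ∈ E, u x = 0) → 2 * ∑ x, q x * u x - netK (c 0) u ≤ R0)
    {l : ℝ} (hl : 0 < l) {η : ℝ} (hη : 0 < η) :
    dualR E (c T) q l ≤ Real.exp ((4 * ε + (1 + η⁻¹) * l * W + η) * T)
      * (R0 + η + (1 + η) * D * (Real.exp T - 1)) := by
  set K := 4 * ε + (1 + η⁻¹) * l * W with hK
  have hε := H.eps
  have hK0 : 0 ≤ K := by rw [hK]; positivity
  have hf : ContinuousOn (fun s => dualR E (c s) q l) (Set.Icc 0 T) :=
    (H.continuousOn_dualR q hl).mono Set.Icc_subset_Ici_self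
  have hRnn : ∀ s, 0 ≤ s → 0 ≤ dualR E (c s) q l := by
    intro s hs
    have h0E : (0 : V → ℝ) ∈ dualAdm E := fun x _ => rfl
    have := dualJ_le_dualR (H.nn s hs) q hl h0E
    simpa [dualJ, netK] using this
  refine image_le_of_liminf_slope_right_lt_deriv_boundary' (f := fun s => dualR E (c s) q l)
    (f' := fun s => (1 + η) * (D * Real.exp s) + K * dualR E (c s) q l)
    (a := 0) (b := T) hf
    (B := fun s => Real.exp ((K + η) * s) * (R0 + η + (1 + η) * D * (Real.exp s - 1)))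
    (B' := fun s => (K + η) * (Real.exp ((K + η) * s) * (R0 + η + (1 + η) * D * (Real.exp s - 1)))
      + Real.exp ((K + η) * s) * ((1 + η) * D * Real.exp s)) ?_ ?_ ?_ ?_ ?_ (x := T) ⟨hT, le_rfl⟩
  · -- slope
    intro s hs b hb
    have hb' : ((1 + η) * ∑ z, r s z * (q z ^ 2 / netV (c s) z)
         + (1 + η⁻¹) * (l * dualR E (c s) q l) * ∑ z, r s z * (netV (c s) z)⁻¹)
      + 4 * ε * dualR E (c s) q l < b := by
      refine lt_of_le_of_lt ?_ hb
      have e1 := mul_le_mul_of_nonneg_left (hq s hs.1 hs.2.le) (by positivity : 0 ≤ 1 + η)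
      have hRs := hRnn s hs.1
      have e2 := mul_le_mul_of_nonneg_left (hW s hs.1 hs.2.le)
        (by positivity : 0 ≤ (1 + η⁻¹) * (l * dualR E (c s) q l))
      rw [hK]
      have e3 : (4 * ε + (1 + η⁻¹) * l * W) * dualR E (c s) q l
          = 4 * ε * dualR E (c s) q l + (1 + η⁻¹) * (l * dualR E (c s) q l) * W := by ring
      rw [e3]
      linarith
    have := H.dual_dini q hl hη hs.1 hb'
    refine Eventually.frequently (this.mono fun z hz => ?_)
    rw [slope_def_field, div_eq_inv_mul]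
    exact hz
  · -- initial value
    obtain ⟨u, huE, hu, _, _⟩ := exists_max E (H.nn 0 le_rfl) q hl
    have e1 := hR0 u huE
    have e2 : 0 ≤ l * ∑ x, u x ^ 2 := mul_nonneg hl.le (Finset.sum_nonneg fun _ _ => sq_nonneg _)
    simp only [mul_zero, Real.exp_zero, one_mul, sub_self, add_zero]
    rw [← hu]
    unfold dualJ
    linarith
  · fun_prop
  · intro s _
    have h1 : HasDerivAt (fun s : ℝ => Real.exp ((K + η) * s)) (Real.exp ((K + η) * s) * (K + η)) s := by
      have := ((hasDerivAt_id s).const_mul (K + η)).exp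
      simpa using this
    have h2 : HasDerivAt (fun s : ℝ => R0 + η + (1 + η) * D * (Real.exp s - 1))
        ((1 + η) * D * Real.exp s) s :=
      (((Real.hasDerivAt_exp s).sub_const 1).const_mul _).const_add _
    have h3 := h1.mul h2
    refine (h3.congr_deriv ?_).hasDerivWithinAt
    ring
  · intro s hs heq
    have hs0 := hs.1

    rw [heq]
    have hBpos : 0 < Real.exp ((K + η) * s) * (R0 + η + (1 + η) * D * (Real.exp s - 1)) := by
      have : 0 ≤ (1 + η) * D * (Real.exp s - 1) := by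
        have := Real.one_le_exp hs0
        have h' : 0 ≤ Real.exp s - 1 := by linarith
        positivity
      have h2 : 0 < R0 + η + (1 + η) * D * (Real.exp s - 1) := by linarith
      positivity
    have h1 : (1 + η) * (D * Real.exp s) ≤ Real.exp ((K + η) * s) * ((1 + η) * D * Real.exp s) := by
      have h2 : 1 ≤ Real.exp ((K + η) * s) := Real.one_le_exp (by positivity)
      have h3 : 0 ≤ (1 + η) * D * Real.exp s := by positivity
      nlinarith
    nlinarith [mul_pos hη hBpos]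

/-- **Network ODE, dual form** (note 9886, step (3)). -/
theorem NetFlow.dual_upper {c c' : ℝ → V → V → ℝ} {r : ℝ → V → ℝ} {E G : Set V} {ε : ℝ}
    (H : NetFlow c c' r E G ε) (q : V → ℝ) {T D W R0 : ℝ} (hT : 0 ≤ T) (hD : 0 ≤ D)
    (hq : ∀ s, 0 ≤ s → s ≤ T → ∑ z, r s z * (q z ^ 2 / netV (c s) z) ≤ D * Real.exp s)
    (hW : ∀ s, 0 ≤ s → s ≤ T → ∑ z, r s z * (netV (c s) z)⁻¹ ≤ W)
    (hR0 : ∀ u : V → ℝ, (∀ x ∈ E, u x = 0) → 2 * ∑ x, q x * u x - netK (c 0) u ≤ R0)
    {u : V → ℝ} (hu : ∀ x ∈ E, u x = 0) :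
    2 * ∑ x, q x * u x - netK (c T) u ≤ Real.exp (4 * ε * T) * (R0 + D * (Real.exp T - 1)) := by
  have hR00 : 0 ≤ R0 := by
    have := hR0 0 (fun _ _ => rfl)
    simpa [netK] using this
  have hW' : ∀ s, 0 ≤ s → s ≤ T → ∑ z, r s z * (netV (c s) z)⁻¹ ≤ max W 0 :=
    fun s h1 h2 => (hW s h1 h2).trans (le_max_left _ _)
  have hreg : ∀ t : ℝ, 0 < t → 2 * ∑ x, q x * u x - netK (c T) u - t ^ 2 * ∑ x, u x ^ 2 ≤
      Real.exp ((4 * ε + (t ^ 2 + t) * max W 0 + t) * T)
      * (R0 + t + (1 + t) * D * (Real.exp T - 1)) := by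
    intro t ht
    have h1 := H.dual_upper_reg q hT hD (le_max_right W 0) hR00 hq hW' hR0 (l := t ^ 2)
      (by positivity) ht
    have h2 := dualJ_le_dualR (H.nn T hT) q (l := t ^ 2) (by positivity) hu
    have h3 : (1 + t⁻¹) * t ^ 2 = t ^ 2 + t := by field_simp
    rw [h3] at h1
    unfold dualJ at h2
    exact h2.trans h1
  have hl1 : Tendsto (fun t : ℝ => 2 * ∑ x, q x * u x - netK (c T) u - t ^ 2 * ∑ x, u x ^ 2)
      (𝓝[>] 0) (𝓝 (2 * ∑ x, q x * u x - netK (c T) u - 0 ^ 2 * ∑ x, u x ^ 2)) := by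
    refine Tendsto.mono_left ?_ nhdsWithin_le_nhds
    exact (Continuous.tendsto (by fun_prop) 0)
  have hl2 : Tendsto (fun t : ℝ => Real.exp ((4 * ε + (t ^ 2 + t) * max W 0 + t) * T)
      * (R0 + t + (1 + t) * D * (Real.exp T - 1))) (𝓝[>] 0)
      (𝓝 (Real.exp ((4 * ε + (0 ^ 2 + 0) * max W 0 + 0) * T)
      * (R0 + 0 + (1 + 0) * D * (Real.exp T - 1)))) := by
    refine Tendsto.mono_left ?_ nhdsWithin_le_nhds
    have hc : Continuous (fun t : ℝ => Real.exp ((4 * ε + (t ^ 2 + t) * max W 0 + t) * T)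
      * (R0 + t + (1 + t) * D * (Real.exp T - 1))) := by fun_prop
    exact hc.tendsto 0
  have hle := le_of_tendsto_of_tendsto hl1 hl2
    (by filter_upwards [self_mem_nhdsWithin] with t ht using hreg t ht)
  simpa using hle

end P361.LRO
end

section

/-!
# Network ODE (note 9886, step (3)): the forms `LB` and `RB`
-/

namespace P361.LRO

open Finset Set Filter Topology

variable {V : Type*} [Fintype V] [DecidableEq V]

omit [DecidableEq V] in
theorem le_netCap_iff {c : V → V → ℝ} (hc : ∀ x y, 0 ≤ c x y) {E G : Set V} (hEG : Disjoint E G)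
    {C : ℝ} : C ≤ netCap c E G ↔
      ∀ a : V → ℝ, (∀ x ∈ E, a x = 1) → (∀ x ∈ G, a x = 0) → C ≤ netK c a := by
  constructor
  · intro h a hE hG
    exact h.trans (netCap_le' hc hE hG)
  · intro h
    obtain ⟨u, hu, huc, _⟩ := exists_min c hEG
    rw [← huc]
    exact h u hu.2.1 hu.2.2

/-- Primal ODE for lower bounds of the effective conductance. -/
theorem NetFlow.LB_lower {c c' : ℝ → V → V → ℝ} {r : ℝ → V → ℝ} {E G : Set V} {ε : ℝ}
    (H : NetFlow c c' r E G ε) {B : ℝ} (hB0 : 0 ≤ B)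
    (hB : ∀ s, 0 ≤ s → ∑ z, r s z * netV (c s) z ≤ B * Real.exp (-s)) {S T : ℝ} (hS : 0 ≤ S)
    (hT : 0 ≤ T) {C : ℝ}
    (h : ∀ a : V → ℝ, (∀ x ∈ E, a x = 1) → (∀ x ∈ G, a x = 0) → C ≤ netK (c 0) a)
    {a : V → ℝ} (haE : ∀ x ∈ E, a x = 1) (haG : ∀ x ∈ G, a x = 0) :
    Real.exp (-(4 * ε * S)) * C - 2 * ε * B * Real.exp (-S) ≤ netK (c T) a := by
  have h1 := (le_netCap_iff (H.nn 0 le_rfl) H.disj).mpr h
  have h2 := H.cap_lower hB0 hB hS hT
  have h3 := netCap_le' (H.nn T hT) haE haG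
  have h4 := mul_le_mul_of_nonneg_left h1 (Real.exp_nonneg (-(4 * ε * S)))
  linarith

omit [DecidableEq V] in
theorem sq_le_iff_quad {E : Set V} {c : V → V → ℝ} (hc : ∀ x y, 0 ≤ c x y) {q : V → ℝ} {R : ℝ}
    (hR : 0 ≤ R) :
    (∀ u : V → ℝ, (∀ x ∈ E, u x = 0) → (∑ x, q x * u x) ^ 2 ≤ R * netK c u) ↔
    (∀ u : V → ℝ, (∀ x ∈ E, u x = 0) → 2 * ∑ x, q x * u x - netK c u ≤ R) := by
  constructor
  · intro h u hu
    have h1 := h u hu
    have hK := netK_nonneg hc u
    nlinarith [sq_nonneg (R - netK c u), sq_nonneg (∑ x, q x * u x - (R + netK c u) / 2),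
      abs_le_of_sq_le_sq' (show (∑ x, q x * u x) ^ 2 ≤ ((R + netK c u) / 2) ^ 2 by
        nlinarith [sq_nonneg (R - netK c u)]) (by linarith)]
  · intro h u hu
    have hK := netK_nonneg hc u
    have hs : ∀ t : ℝ, 2 * t * ∑ x, q x * u x - t ^ 2 * netK c u ≤ R := by
      intro t
      have h1 := h (fun x => t * u x) (fun x hx => by rw [hu x hx, mul_zero])
      have h2 : ∑ x, q x * (t * u x) = t * ∑ x, q x * u x := by
        rw [Finset.mul_sum]
        exact Finset.sum_congr rfl fun x _ => by ring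
      have h3 : netK c (fun x => t * u x) = t ^ 2 * netK c u := by
        unfold netK
        have : ∀ x y, c x y * (t * u x - t * u y) ^ 2 = t ^ 2 * (c x y * (u x - u y) ^ 2) :=
          fun x y => by ring
        simp only [this, ← Finset.mul_sum]
        ring
      rw [h2, h3] at h1
      linarith
    set S := ∑ x, q x * u x with hS
    rcases hK.lt_or_eq with hK0 | hK0
    · have h1 := hs (S / netK c u)
      have h2 : 2 * (S / netK c u) * S - (S / netK c u) ^ 2 * netK c u = S ^ 2 / netK c u := by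
        field_simp
        ring
      rw [h2, div_le_iff₀ hK0] at h1
      exact h1
    · rw [← hK0, mul_zero]
      by_contra hcon
      have hS2 : 0 < S ^ 2 := not_le.mp hcon
      have hS0 : S ≠ 0 := fun h => by rw [h] at hS2; simp at hS2
      have h1 := hs ((R + 1) / (2 * S))
      rw [← hK0] at h1
      have h2 : 2 * ((R + 1) / (2 * S)) * S - ((R + 1) / (2 * S)) ^ 2 * 0 = R + 1 := by
        field_simp
        ring
      rw [h2] at h1
      linarith

/-- Dual ODE for upper bounds of the resistance, `u = 0` on the electrode. -/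
theorem NetFlow.RB_lower0 {c c' : ℝ → V → V → ℝ} {r : ℝ → V → ℝ} {E G : Set V} {ε : ℝ}
    (H : NetFlow c c' r E G ε) (q : V → ℝ) {T D W R : ℝ} (hT : 0 ≤ T) (hD : 0 ≤ D) (hR : 0 ≤ R)
    (hq : ∀ s, 0 ≤ s → s ≤ T → ∑ z, r s z * (q z ^ 2 / netV (c s) z) ≤ D * Real.exp s)
    (hW : ∀ s, 0 ≤ s → s ≤ T → ∑ z, r s z * (netV (c s) z)⁻¹ ≤ W)
    (hR0 : ∀ u : V → ℝ, (∀ x ∈ E, u x = 0) → (∑ x, q x * u x) ^ 2 ≤ R * netK (c 0) u)
    {u : V → ℝ} (hu : ∀ x ∈ E, u x = 0) :
    (∑ x, q x * u x) ^ 2 ≤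
      (Real.exp (4 * ε * T) * (R + D * (Real.exp T - 1))) * netK (c T) u := by
  have hRT : 0 ≤ Real.exp (4 * ε * T) * (R + D * (Real.exp T - 1)) := by
    have : 0 ≤ Real.exp T - 1 := by linarith [Real.one_le_exp hT]
    positivity
  refine (sq_le_iff_quad (H.nn T hT) hRT).mpr ?_ u hu
  intro u hu
  exact H.dual_upper q hT hD hq hW ((sq_le_iff_quad (H.nn 0 le_rfl) hR).mp hR0) hu

omit [DecidableEq V] in
theorem netK_one_sub (c : V → V → ℝ) (a : V → ℝ) : netK c (fun x => 1 - a x) = netK c a := by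
  unfold netK
  congr 1
  exact Finset.sum_congr rfl fun x _ => Finset.sum_congr rfl fun y _ => by ring

/-- Dual ODE for upper bounds of the resistance, `a = 1` on the electrode, unit charge `q`. -/
theorem NetFlow.RB_lower {c c' : ℝ → V → V → ℝ} {r : ℝ → V → ℝ} {E G : Set V} {ε : ℝ}
    (H : NetFlow c c' r E G ε) (q : V → ℝ) (hq1 : ∑ x, q x = 1)
    {T D W R : ℝ} (hT : 0 ≤ T) (hD : 0 ≤ D) (hR : 0 ≤ R)
    (hq : ∀ s, 0 ≤ s → s ≤ T → ∑ z, r s z * (q z ^ 2 / netV (c s) z) ≤ D * Real.exp s)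
    (hW : ∀ s, 0 ≤ s → s ≤ T → ∑ z, r s z * (netV (c s) z)⁻¹ ≤ W)
    (hR0 : ∀ a : V → ℝ, (∀ x ∈ E, a x = 1) → (1 - ∑ x, q x * a x) ^ 2 ≤ R * netK (c 0) a)
    {a : V → ℝ} (ha : ∀ x ∈ E, a x = 1) :
    (1 - ∑ x, q x * a x) ^ 2 ≤
      (Real.exp (4 * ε * T) * (R + D * (Real.exp T - 1))) * netK (c T) a := by
  have hconv : ∀ a : V → ℝ, ∑ x, q x * (1 - a x) = 1 - ∑ x, q x * a x := by
    intro a
    have h1 : ∑ x, q x * (1 - a x) = ∑ x, q x - ∑ x, q x * a x := by
      rw [← Finset.sum_sub_distrib]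
      exact Finset.sum_congr rfl fun x _ => by ring
    rw [h1, hq1]
  have h := H.RB_lower0 q hT hD hR hq hW (fun u hu => by
    have h1 := hR0 (fun x => 1 - u x) (fun x hx => by simp [hu x hx])
    rw [netK_one_sub] at h1
    have h2 := hconv (fun x => 1 - u x)
    simp only [sub_sub_cancel] at h2
    rw [h2]
    exact h1) (u := fun x => 1 - a x) (fun x hx => by simp [ha x hx])
  rw [netK_one_sub, hconv] at h
  exact h

end P361.LRO
end

section

/-! P361 LRO: uniform Lie-Trotter for products of factors `1 + A / N`, with an inserted factor. -/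

namespace Vale.Agent.P361.LRO.Trot

open Filter Topology NormedSpace

variable {𝔸 : Type*} [NormedRing 𝔸] [NormedAlgebra ℝ 𝔸]

omit [NormedAlgebra ℝ 𝔸] in
/-- products of factors `1 + A` -/
theorem prod_lin_bounds (h1 : ‖(1 : 𝔸)‖ ≤ 1) (l : List 𝔸) :
    ‖(l.map fun A => 1 + A).prod‖ ≤ Real.exp (l.map norm).sum ∧
    ‖(l.map fun A => 1 + A).prod - 1‖ ≤ Real.exp (l.map norm).sum - 1 ∧
    ‖(l.map fun A => 1 + A).prod - 1 - l.sum‖ ≤
      Real.exp (l.map norm).sum - 1 - (l.map norm).sum := by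
  induction l with
  | nil => simp [h1]
  | cons A l ih =>
    obtain ⟨i1, i2, i3⟩ := ih
    set P := (l.map fun A => 1 + A).prod with hP
    set s := (l.map norm).sum with hs
    have hs0 : 0 ≤ s := List.sum_nonneg (by
      intro x hx
      obtain ⟨a, _, rfl⟩ := List.mem_map.1 hx
      exact norm_nonneg _)
    simp only [List.map_cons, List.prod_cons, List.sum_cons, ← hP, ← hs]
    have hA0 := norm_nonneg A
    have ja : 1 + ‖A‖ ≤ Real.exp ‖A‖ := by
      have := Real.add_one_le_exp ‖A‖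
      linarith
    have j1 : ‖1 + A‖ ≤ Real.exp ‖A‖ := by
      refine (norm_add_le _ _).trans ?_
      linarith
    have hE0 : 0 ≤ Real.exp s - 1 := (norm_nonneg _).trans i2
    have k : ‖A * (P - 1)‖ ≤ ‖A‖ * (Real.exp s - 1) :=
      (norm_mul_le _ _).trans (mul_le_mul_of_nonneg_left i2 hA0)
    have k2 : ‖A‖ * (Real.exp s - 1) ≤ (Real.exp ‖A‖ - 1) * (Real.exp s - 1) :=
      mul_le_mul_of_nonneg_right (by linarith) hE0
    refine ⟨?_, ?_, ?_⟩
    · rw [Real.exp_add]
      exact (norm_mul_le _ _).trans (mul_le_mul j1 i1 (norm_nonneg _) (Real.exp_pos _).le)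
    · have e : (1 + A) * P - 1 = A * (P - 1) + A + (P - 1) := by noncomm_ring
      rw [e, Real.exp_add]
      refine norm_add₃_le.trans ?_
      nlinarith
    · have e : (1 + A) * P - 1 - (A + l.sum) = A * (P - 1) + (P - 1 - l.sum) := by noncomm_ring
      rw [e, Real.exp_add]
      refine (norm_add_le _ _).trans ?_
      nlinarith

variable [CompleteSpace 𝔸]

omit [CompleteSpace 𝔸] in
/-- The exponential of `t S`. -/
theorem norm_exp_smul_le (h1 : ‖(1 : 𝔸)‖ ≤ 1) {S : 𝔸} {c t : ℝ} (hS : ‖S‖ ≤ c) (ht : 0 ≤ t)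
    (ht1 : t ≤ 1) : ‖exp (t • S)‖ ≤ Real.exp c := by
  refine (norm_exp_le h1 _).trans (Real.exp_le_exp.2 ?_)
  rw [norm_smul, Real.norm_of_nonneg ht]
  have h0 := norm_nonneg S
  nlinarith

/-- Continuity of the exponential in `t`. -/
theorem norm_exp_smul_sub_le (h1 : ‖(1 : 𝔸)‖ ≤ 1) {S : 𝔸} {c t d : ℝ} (hS : ‖S‖ ≤ c) (ht : 0 ≤ t)
    (ht1 : t ≤ 1) (hd : 0 ≤ d) (hd1 : d ≤ 1) :
    ‖exp ((t + d) • S) - exp (t • S)‖ ≤ d * (c * Real.exp (2 * c)) := by
  have hc : 0 ≤ c := (norm_nonneg S).trans hS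
  have e : exp ((t + d) • S) = exp (t • S) * exp (d • S) := by
    let _ : NormedAlgebra ℚ 𝔸 := NormedAlgebra.restrictScalars ℚ ℝ 𝔸
    rw [add_smul]
    exact exp_add_of_commute (Commute.smul_left (Commute.smul_right (Commute.refl S) d) t)
  have e2 : exp ((t + d) • S) - exp (t • S) = exp (t • S) * (exp (d • S) - 1) := by
    rw [e, mul_sub, mul_one]
  rw [e2]
  refine (norm_mul_le _ _).trans ?_
  have h2 := norm_exp_smul_le h1 hS ht ht1
  have h3 : ‖exp (d • S) - 1‖ ≤ d * (c * Real.exp c) := by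
    refine (norm_exp_sub_one_le _).trans ?_
    have h4 : ‖d • S‖ ≤ d * c := by
      rw [norm_smul, Real.norm_of_nonneg hd]
      exact mul_le_mul_of_nonneg_left hS hd
    have h5 : Real.exp ‖d • S‖ ≤ Real.exp (d * c) := Real.exp_le_exp.2 h4
    have h6 : Real.exp (d * c) - 1 ≤ d * c * Real.exp (d * c) := by
      have h7 := Real.add_one_le_exp (-(d * c))
      have h8 : (1 - d * c) * Real.exp (d * c) ≤ Real.exp (-(d * c)) * Real.exp (d * c) :=
        mul_le_mul_of_nonneg_right (by linarith) (Real.exp_pos _).le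
      rw [← Real.exp_add, neg_add_cancel, Real.exp_zero] at h8
      linarith
    have h9 : Real.exp (d * c) ≤ Real.exp c := Real.exp_le_exp.2 (by nlinarith)
    have h10 : d * c * Real.exp (d * c) ≤ d * c * Real.exp c :=
      mul_le_mul_of_nonneg_left h9 (mul_nonneg hd hc)
    linarith
  calc ‖exp (t • S)‖ * ‖exp (d • S) - 1‖ ≤ Real.exp c * (d * (c * Real.exp c)) :=
        mul_le_mul h2 h3 (norm_nonneg _) (Real.exp_pos _).le
    _ = d * (c * Real.exp (2 * c)) := by rw [two_mul, Real.exp_add]; ring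

/-- Uniform Lie-Trotter at every intermediate slice, for factors `1 + A / N`. -/
theorem trotter_lin (h1 : ‖(1 : 𝔸)‖ ≤ 1) (l : List 𝔸) {c : ℝ}
    (hc : (l.map norm).sum ≤ c) {N k : ℕ} (hN : 1 ≤ N) (hk : k ≤ N) :
    ‖((l.map fun A => 1 + (N : ℝ)⁻¹ • A).prod) ^ k - exp (((k : ℝ) / N) • l.sum)‖
      ≤ 2 * c ^ 2 * Real.exp (2 * c) / N ∧
    ‖((l.map fun A => 1 + (N : ℝ)⁻¹ • A).prod) ^ k‖ ≤ Real.exp c := by
  have hN0 : (0 : ℝ) < N := by exact_mod_cast hN
  have h0 : 0 ≤ (l.map norm).sum := List.sum_nonneg (by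
      intro x hx
      obtain ⟨a, _, rfl⟩ := List.mem_map.1 hx
      exact norm_nonneg _)
  have hc0 : 0 ≤ c := h0.trans hc
  set l' := l.map fun A => (N : ℝ)⁻¹ • A with hl'
  have hsum : l'.sum = (N : ℝ)⁻¹ • l.sum := by
    rw [hl', ← List.smul_sum]
  have hnorm : (l'.map norm).sum ≤ c / N := by
    have e : (l'.map norm) = (l.map norm).map (fun x => (N : ℝ)⁻¹ * x) := by
      rw [hl', List.map_map, List.map_map]
      apply List.map_congr_left
      intro A _
      simp [norm_smul]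
    rw [e, List.sum_map_mul_left, List.map_id', div_eq_inv_mul]
    gcongr
  have hmap : (l.map fun A => 1 + (N : ℝ)⁻¹ • A) = l'.map fun A => 1 + A := by
    rw [hl', List.map_map]; rfl
  rw [hmap]
  obtain ⟨i1, -, i3⟩ := prod_lin_bounds h1 l'
  have h0' : 0 ≤ (l'.map norm).sum := List.sum_nonneg (by
      intro x hx
      obtain ⟨a, _, rfl⟩ := List.mem_map.1 hx
      exact norm_nonneg _)
  have mono : ∀ x : ℝ, 0 ≤ x → x ≤ c / N →
      Real.exp x - 1 - x ≤ (c / N) ^ 2 * Real.exp (c / N) := by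
    intro x hx hxs
    refine (exp_rem_le hx).trans ?_
    gcongr
  have hstep : ‖(l'.map fun A => 1 + A).prod - exp l'.sum‖ ≤
      2 * ((c / N) ^ 2 * Real.exp (c / N)) := by
    have j3 := norm_exp_sub_one_sub_le l'.sum
    have e : (l'.map fun A => 1 + A).prod - exp l'.sum
        = ((l'.map fun A => 1 + A).prod - 1 - l'.sum) - (exp l'.sum - 1 - l'.sum) := by abel
    rw [e]
    refine (norm_sub_le _ _).trans ?_
    have k1 := mono _ h0' hnorm
    have k2 := mono _ (norm_nonneg l'.sum) ((norm_list_sum_le l').trans hnorm)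
    linarith
  have hw : ‖(l'.map fun A => 1 + A).prod‖ ≤ Real.exp (c / N) :=
    i1.trans (Real.exp_le_exp.2 hnorm)
  have ha : ‖exp l'.sum‖ ≤ Real.exp (c / N) :=
    (norm_exp_le h1 _).trans (Real.exp_le_exp.2 ((norm_list_sum_le l').trans hnorm))
  have hM : 1 ≤ Real.exp (c / N) := Real.one_le_exp (by positivity)
  have epow : exp (((k : ℝ) / N) • l.sum) = exp l'.sum ^ k := by
    let _ : NormedAlgebra ℚ 𝔸 := NormedAlgebra.restrictScalars ℚ ℝ 𝔸
    rw [← exp_nsmul, ← Nat.cast_smul_eq_nsmul ℝ, hsum, smul_smul, div_eq_mul_inv]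
  have e2 : Real.exp (c / N) ^ k ≤ Real.exp c := by
    rw [← Real.exp_nat_mul]
    apply Real.exp_le_exp.2
    rw [mul_div_assoc', div_le_iff₀ hN0, mul_comm c]
    gcongr
  have e3 : Real.exp (c / N) ≤ Real.exp c := by
    apply Real.exp_le_exp.2
    exact div_le_self hc0 (by exact_mod_cast hN)
  refine ⟨?_, ?_⟩
  · rw [epow]
    refine (norm_pow_sub_pow_le hM hw ha k h1).trans ?_
    calc (k : ℝ) * Real.exp (c / N) ^ k * ‖(l'.map fun A => 1 + A).prod - exp l'.sum‖
        ≤ (N : ℝ) * Real.exp c * (2 * ((c / N) ^ 2 * Real.exp c)) := by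
          gcongr
          refine hstep.trans ?_
          gcongr
      _ = 2 * c ^ 2 * Real.exp (2 * c) / N := by
          rw [two_mul c, Real.exp_add]
          field_simp
  · refine le_trans ?_ e2
    rcases Nat.eq_zero_or_pos k with hk0 | hk0
    · subst hk0
      simpa using h1
    · exact (norm_pow_le' _ hk0).trans (pow_le_pow_left₀ (norm_nonneg _) hw k)

/-- The constant of `insert_lin`. -/
noncomputable def cI (c C : ℝ) : ℝ :=
  (2 * c ^ 2 * Real.exp (2 * c)) * (1 + C) * Real.exp c + Real.exp c * C * Real.exp c +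
    Real.exp c * (2 * c ^ 2 * Real.exp (2 * c) + c * Real.exp (2 * c))

/-- An inserted factor. -/
theorem insert_lin (h1 : ‖(1 : 𝔸)‖ ≤ 1) (l : List 𝔸) {c C : ℝ}
    (hc : (l.map norm).sum ≤ c) (hC : 0 ≤ C) {N k : ℕ} (hk : 1 ≤ k) (hkN : k ≤ N) {M O : 𝔸}
    (hO : ‖O‖ ≤ 1) (hM : ‖M - O‖ ≤ C / N) :
    ‖((l.map fun A => 1 + (N : ℝ)⁻¹ • A).prod) ^ (N - k) * M *
        ((l.map fun A => 1 + (N : ℝ)⁻¹ • A).prod) ^ (k - 1) -
      exp ((1 - (k : ℝ) / N) • l.sum) * O * exp (((k : ℝ) / N) • l.sum)‖ ≤ cI c C / N := by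
  have hN : 1 ≤ N := hk.trans hkN
  have hN0 : (0 : ℝ) < N := by exact_mod_cast hN
  have hN1 : (1 : ℝ) ≤ N := by exact_mod_cast hN
  have h0 : 0 ≤ (l.map norm).sum := List.sum_nonneg (by
      intro x hx
      obtain ⟨a, _, rfl⟩ := List.mem_map.1 hx
      exact norm_nonneg _)
  have hc0 : 0 ≤ c := h0.trans hc
  have hS : ‖l.sum‖ ≤ c := (norm_list_sum_le l).trans hc
  obtain ⟨a1, -⟩ := trotter_lin h1 l hc hN (show N - k ≤ N by omega)
  obtain ⟨b1, b2⟩ := trotter_lin h1 l hc hN (show k - 1 ≤ N by omega)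
  have ec1 : (((N - k : ℕ) : ℝ) / N) = 1 - (k : ℝ) / N := by
    rw [Nat.cast_sub hkN]
    field_simp
  rw [ec1] at a1
  set P := ((l.map fun A => 1 + (N : ℝ)⁻¹ • A).prod) with hP
  set E1 := exp ((1 - (k : ℝ) / N) • l.sum) with hE1
  set E2 := exp (((k : ℝ) / N) • l.sum) with hE2
  have hkN' : (k : ℝ) ≤ N := by exact_mod_cast hkN
  have hk' : (1 : ℝ) ≤ k := by exact_mod_cast hk
  have hd : (k : ℝ) / N ≤ 1 := (div_le_one hN0).2 hkN'
  have hd0 : 0 ≤ (k : ℝ) / N := by positivity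
  have n1 : ‖E1‖ ≤ Real.exp c := norm_exp_smul_le h1 hS (by linarith) (by linarith)
  have hMn : ‖M‖ ≤ 1 + C := by
    have e : M = O + (M - O) := by abel
    have h2 : C / N ≤ C := div_le_self hC hN1
    calc ‖M‖ = ‖O + (M - O)‖ := by rw [← e]
      _ ≤ ‖O‖ + ‖M - O‖ := norm_add_le _ _
      _ ≤ 1 + C := by linarith
  have b3 : ‖P ^ (k - 1) - E2‖ ≤ (2 * c ^ 2 * Real.exp (2 * c) + c * Real.exp (2 * c)) / N := by
    have ec2 : (((k - 1 : ℕ) : ℝ) / N) + 1 / N = (k : ℝ) / N := by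
      rw [Nat.cast_sub hk]
      push_cast
      field_simp
      ring
    have hd1 : (1 : ℝ) / N ≤ 1 := (div_le_one hN0).2 hN1
    have hd10 : (0 : ℝ) ≤ 1 / N := by positivity
    have hd2 : 0 ≤ (((k - 1 : ℕ) : ℝ) / N) := by positivity
    have h3 := norm_exp_smul_sub_le h1 (t := (((k - 1 : ℕ) : ℝ) / N)) (d := 1 / N) hS hd2
      (by linarith) hd10 hd1
    rw [ec2] at h3
    have e : P ^ (k - 1) - E2 = (P ^ (k - 1) - exp ((((k - 1 : ℕ) : ℝ) / N) • l.sum)) -
        (E2 - exp ((((k - 1 : ℕ) : ℝ) / N) • l.sum)) := by abel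
    rw [e]
    refine (norm_sub_le _ _).trans ?_
    refine (add_le_add b1 h3).trans (le_of_eq ?_)
    field_simp
  have e : P ^ (N - k) * M * P ^ (k - 1) - E1 * O * E2 =
      (P ^ (N - k) - E1) * M * P ^ (k - 1) + E1 * (M - O) * P ^ (k - 1) +
        E1 * O * (P ^ (k - 1) - E2) := by noncomm_ring
  rw [e]
  refine norm_add₃_le.trans ?_
  have t1 : ‖(P ^ (N - k) - E1) * M * P ^ (k - 1)‖ ≤
      (2 * c ^ 2 * Real.exp (2 * c) / N) * (1 + C) * Real.exp c := by
    refine (norm_mul_le _ _).trans (mul_le_mul ?_ b2 (norm_nonneg _) (by positivity))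
    exact (norm_mul_le _ _).trans (mul_le_mul a1 hMn (norm_nonneg _) (by positivity))
  have t2 : ‖E1 * (M - O) * P ^ (k - 1)‖ ≤ Real.exp c * (C / N) * Real.exp c := by
    refine (norm_mul_le _ _).trans (mul_le_mul ?_ b2 (norm_nonneg _) (by positivity))
    exact (norm_mul_le _ _).trans (mul_le_mul n1 hM (norm_nonneg _) (by positivity))
  have t3 : ‖E1 * O * (P ^ (k - 1) - E2)‖ ≤
      Real.exp c * 1 * ((2 * c ^ 2 * Real.exp (2 * c) + c * Real.exp (2 * c)) / N) := by
    refine (norm_mul_le _ _).trans (mul_le_mul ?_ b3 (norm_nonneg _) (by positivity))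
    exact (norm_mul_le _ _).trans (mul_le_mul n1 hO (norm_nonneg _) (by positivity))
  refine (add_le_add (add_le_add t1 t2) t3).trans (le_of_eq ?_)
  unfold cI
  field_simp

end Vale.Agent.P361.LRO.Trot
end

section

/-!
P361, stage R2/R3: the one-particle walk through `r` layers of gates against the continuous time
walk: `T ^ r` and `exp (r p G)`, `T = ∏_{e ∈ L} (1 + p G_e)`, uniformly in `r ≤ N`; and the total
mass with weight `s` for every move.
-/

namespace Vale.Agent.P361.LRO.Bloch.Disc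

open Finset Matrix NormedSpace

attribute [local instance] Matrix.linftyOpNormedRing Matrix.linftyOpNormedAlgebra

noncomputable section

section ring

variable {𝔸 : Type*} [NormedRing 𝔸]

lemma prod_one_add_bounds (h1 : ‖(1 : 𝔸)‖ ≤ 1) (l : List 𝔸) :
    ‖(l.map fun x => 1 + x).prod‖ ≤ Real.exp (l.map norm).sum ∧
    ‖(l.map fun x => 1 + x).prod - 1‖ ≤ Real.exp (l.map norm).sum - 1 ∧
    ‖(l.map fun x => 1 + x).prod - 1 - l.sum‖ ≤
      Real.exp (l.map norm).sum - 1 - (l.map norm).sum := by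
  induction l with
  | nil => simp [h1]
  | cons x l ih =>
    obtain ⟨ih1, ih2, ih3⟩ := ih
    simp only [List.map_cons, List.prod_cons, List.sum_cons]
    set P := (l.map fun x => 1 + x).prod with hP
    set σ := (l.map norm).sum with hσ
    set S := l.sum with hS
    have hσ0 : 0 ≤ σ := by
      rw [hσ]
      apply List.sum_nonneg
      intro r hr
      rw [List.mem_map] at hr
      obtain ⟨y, _, rfl⟩ := hr
      exact norm_nonneg _
    have hx := norm_nonneg x
    have he : (1 + ‖x‖) * Real.exp σ ≤ Real.exp (‖x‖ + σ) := by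
      rw [Real.exp_add]
      exact mul_le_mul_of_nonneg_right (by linarith [Real.add_one_le_exp ‖x‖])
        (Real.exp_pos _).le
    refine ⟨?_, ?_, ?_⟩
    · calc ‖(1 + x) * P‖ = ‖P + x * P‖ := by rw [add_mul, one_mul]
        _ ≤ ‖P‖ + ‖x‖ * ‖P‖ := (norm_add_le _ _).trans (by gcongr; exact norm_mul_le _ _)
        _ ≤ Real.exp σ + ‖x‖ * Real.exp σ := by gcongr
        _ = (1 + ‖x‖) * Real.exp σ := by ring
        _ ≤ _ := he
    · calc ‖(1 + x) * P - 1‖ = ‖(P - 1) + x * P‖ := by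
            congr 1; noncomm_ring
        _ ≤ ‖P - 1‖ + ‖x‖ * ‖P‖ := (norm_add_le _ _).trans (by gcongr; exact norm_mul_le _ _)
        _ ≤ (Real.exp σ - 1) + ‖x‖ * Real.exp σ := by gcongr
        _ = (1 + ‖x‖) * Real.exp σ - 1 := by ring
        _ ≤ _ := by linarith
    · calc ‖(1 + x) * P - 1 - (x + S)‖ = ‖(P - 1 - S) + x * (P - 1)‖ := by
            congr 1; noncomm_ring
        _ ≤ ‖P - 1 - S‖ + ‖x‖ * ‖P - 1‖ :=
            (norm_add_le _ _).trans (by gcongr; exact norm_mul_le _ _)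
        _ ≤ (Real.exp σ - 1 - σ) + ‖x‖ * (Real.exp σ - 1) := by gcongr
        _ = (1 + ‖x‖) * Real.exp σ - 1 - (‖x‖ + σ) := by ring
        _ ≤ _ := by linarith

lemma norm_sum_le (l : List 𝔸) : ‖l.sum‖ ≤ (l.map norm).sum := by
  induction l with
  | nil => simp
  | cons x l ih =>
    simp only [List.map_cons, List.sum_cons]
    exact (norm_add_le _ _).trans (by gcongr)

variable [NormedAlgebra ℝ 𝔸] [CompleteSpace 𝔸]

/-- Powers of a product of `1 + p B` against the exponential. -/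
theorem disc_bound (h1 : ‖(1 : 𝔸)‖ ≤ 1) (l : List 𝔸) {c p : ℝ} (hp : 0 ≤ p)
    (hc : (l.map norm).sum ≤ c) (r : ℕ) :
    ‖(l.map fun x => 1 + p • x).prod ^ r - exp ((r * p : ℝ) • l.sum)‖ ≤
      2 * r * (p * c) ^ 2 * Real.exp ((r + 1) * (p * c)) := by
  set T := (l.map fun x => 1 + p • x).prod with hT
  have hmap : (l.map fun x => 1 + p • x) = ((l.map fun x => p • x).map fun x => 1 + x) := by
    rw [List.map_map]; rfl
  have hsum : (l.map fun x => p • x).sum = p • l.sum := by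
    rw [List.smul_sum]
  have hnorm : ((l.map fun x => p • x).map norm).sum = p * (l.map norm).sum := by
    rw [List.map_map, ← List.sum_map_mul_left]
    congr 1
    refine List.map_congr_left fun x _ => ?_
    simp only [Function.comp]
    rw [norm_smul, Real.norm_eq_abs, abs_of_nonneg hp]
  set σ := p * (l.map norm).sum with hσ
  have hσ0 : 0 ≤ σ := by
    refine mul_nonneg hp (List.sum_nonneg ?_)
    intro r hr
    rw [List.mem_map] at hr
    obtain ⟨y, _, rfl⟩ := hr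
    exact norm_nonneg _
  have hσc : σ ≤ p * c := mul_le_mul_of_nonneg_left hc hp
  have hb := prod_one_add_bounds h1 (l.map fun x => p • x)
  rw [← hmap, hnorm, hsum] at hb
  obtain ⟨b1, _, b3⟩ := hb
  have hE : ‖p • l.sum‖ ≤ σ := by
    rw [norm_smul, Real.norm_eq_abs, abs_of_nonneg hp]
    exact mul_le_mul_of_nonneg_left (norm_sum_le l) hp
  have hmono : Real.exp ‖p • l.sum‖ - 1 - ‖p • l.sum‖ ≤ σ ^ 2 * Real.exp σ := by
    refine (Trot.exp_rem_le (norm_nonneg _)).trans ?_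
    have := norm_nonneg (p • l.sum)
    gcongr
  have h2 : ‖exp (p • l.sum) - 1 - p • l.sum‖ ≤ σ ^ 2 * Real.exp σ :=
    (Trot.norm_exp_sub_one_sub_le _).trans hmono
  have h3 : ‖T - exp (p • l.sum)‖ ≤ 2 * (σ ^ 2 * Real.exp σ) := by
    have e : T - exp (p • l.sum) = (T - 1 - p • l.sum) - (exp (p • l.sum) - 1 - p • l.sum) := by
      noncomm_ring
    rw [e]
    have b4 := b3.trans (Trot.exp_rem_le hσ0)
    calc _ ≤ ‖T - 1 - p • l.sum‖ + ‖exp (p • l.sum) - 1 - p • l.sum‖ := norm_sub_le _ _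
      _ ≤ _ := by linarith
  have hM : 1 ≤ Real.exp (p * c) := Real.one_le_exp (hσ0.trans hσc)
  have hTn : ‖T‖ ≤ Real.exp (p * c) := b1.trans (Real.exp_le_exp.2 hσc)
  have hEn : ‖exp (p • l.sum)‖ ≤ Real.exp (p * c) :=
    (Trot.norm_exp_le h1 _).trans (Real.exp_le_exp.2 (hE.trans hσc))
  have h4 := Trot.norm_pow_sub_pow_le hM hTn hEn r h1
  have e5 : exp ((r * p : ℝ) • l.sum) = exp (p • l.sum) ^ r := by
    let _ : NormedAlgebra ℚ 𝔸 := NormedAlgebra.restrictScalars ℚ ℝ 𝔸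
    rw [← NormedSpace.exp_nsmul, ← smul_assoc, nsmul_eq_mul]
  rw [e5]
  refine h4.trans ?_
  have h6 : 2 * (σ ^ 2 * Real.exp σ) ≤ 2 * ((p * c) ^ 2 * Real.exp (p * c)) := by gcongr
  calc (r : ℝ) * Real.exp (p * c) ^ r * ‖T - exp (p • l.sum)‖
      ≤ r * Real.exp (p * c) ^ r * (2 * ((p * c) ^ 2 * Real.exp (p * c))) := by
        gcongr; exact h3.trans h6
    _ = 2 * r * (p * c) ^ 2 * (Real.exp (p * c) ^ r * Real.exp (p * c)) := by ring
    _ = _ := by
      rw [← Real.exp_nat_mul, ← Real.exp_add]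
      ring_nf

end ring

section mat

variable {V : Type} [Fintype V] [DecidableEq V]

lemma entry_le_norm (A : Matrix V V ℝ) (x y : V) : |A x y| ≤ ‖A‖ := by
  rw [Matrix.linfty_opNorm_def]
  have h1 : ‖A x y‖₊ ≤ ∑ j, ‖A x j‖₊ :=
    Finset.single_le_sum (f := fun j => ‖A x j‖₊) (fun _ _ => zero_le) (mem_univ y)
  have h2 : ∑ j, ‖A x j‖₊ ≤ (Finset.univ : Finset V).sup fun i => ∑ j, ‖A i j‖₊ :=
    Finset.le_sup (f := fun i => ∑ j, ‖A i j‖₊) (mem_univ x)
  have h3 := h1.trans h2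
  rw [← Real.norm_eq_abs]
  exact_mod_cast h3

lemma norm_one_le : ‖(1 : Matrix V V ℝ)‖ ≤ 1 := by
  rw [Matrix.linfty_opNorm_def]
  have : ((Finset.univ : Finset V).sup fun i => ∑ j, ‖(1 : Matrix V V ℝ) i j‖₊) ≤ 1 := by
    refine Finset.sup_le fun i _ => ?_
    rw [Finset.sum_eq_single i]
    · simp
    · intro j _ hj; simp [Ne.symm hj]
    · simp
  exact_mod_cast this

/-- Generator of one gate, a move has weight `s`. -/
def genE (s : ℝ) (e : V × V) : Matrix V V ℝ := Matrix.of fun x y =>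
  if x = e.1 ∨ x = e.2 then
    (if y = Equiv.swap e.1 e.2 x then s else 0) - (if y = x then 1 else 0) else 0

/-- Generator of the walk. -/
def genL (s : ℝ) (L : List (V × V)) : Matrix V V ℝ := (L.map (genE s)).sum

/-- One layer of gates. -/
def layW (s p : ℝ) (L : List (V × V)) : Matrix V V ℝ :=
  (L.map fun e => 1 + p • genE s e).prod

lemma norm_genE {s : ℝ} (hs : 0 ≤ s) (e : V × V) : ‖genE s e‖ ≤ s + 1 := by
  rw [Matrix.linfty_opNorm_def]
  have key : ∀ i, ∑ j, ‖genE s e i j‖ ≤ s + 1 := by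
    intro i
    by_cases h : i = e.1 ∨ i = e.2
    · have h1 : ∀ j, ‖genE s e i j‖ ≤ (if j = Equiv.swap e.1 e.2 i then s else 0) +
          (if j = i then 1 else 0) := by
        intro j
        simp only [genE, Matrix.of_apply, if_pos h]
        refine (norm_sub_le _ _).trans ?_
        apply add_le_add
        · split_ifs
          · rw [Real.norm_eq_abs, abs_of_nonneg hs]
          · simp
        · split_ifs <;> simp
      refine (Finset.sum_le_sum fun j _ => h1 j).trans ?_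
      rw [Finset.sum_add_distrib]
      simp
    · have h1 : ∀ j, ‖genE s e i j‖ = 0 := by
        intro j
        simp [genE, h]
      simp only [h1, Finset.sum_const_zero]
      linarith
  have h5 : ((Finset.univ : Finset V).sup fun i => ∑ j, ‖genE s e i j‖₊) ≤
      (s + 1).toNNReal := by
    refine Finset.sup_le fun i _ => ?_
    rw [Real.le_toNNReal_iff_coe_le (by linarith)]
    push_cast
    exact key i
  have h6 := NNReal.coe_le_coe.2 h5
  rw [Real.coe_toNNReal _ (by linarith)] at h6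
  exact h6

/-- **Discrete walk against the continuous one**, uniformly in `r`. -/
theorem layW_pow (s p : ℝ) (hs : 0 ≤ s) (hp : 0 ≤ p) (L : List (V × V)) (r : ℕ) (x y : V) :
    |(layW s p L ^ r) x y - (exp ((r * p : ℝ) • genL s L)) x y| ≤
      2 * r * (p * ((s + 1) * L.length)) ^ 2 *
        Real.exp ((r + 1) * (p * ((s + 1) * L.length))) := by
  have hc : ((L.map (genE s)).map norm).sum ≤ (s + 1) * L.length := by
    rw [List.map_map]
    induction L with
    | nil => simp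
    | cons e L ih =>
      simp only [List.map_cons, List.sum_cons, Function.comp, List.length_cons]
      push_cast
      have := norm_genE hs e
      linarith
  have h := disc_bound (norm_one_le (V := V)) (L.map (genE s)) hp hc r
  have e1 : ((L.map (genE s)).map fun x => 1 + p • x).prod = layW s p L := by
    unfold layW
    rw [List.map_map]
    rfl
  rw [e1] at h
  have h2 := entry_le_norm (layW s p L ^ r - exp ((r * p : ℝ) • (L.map (genE s)).sum)) x y
  rw [Matrix.sub_apply] at h2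
  exact h2.trans h

end mat

end

end Vale.Agent.P361.LRO.Bloch.Disc
end

section

/-!
# P361, long range order, block SR: the derivative of the stiffness in the slice parameters

Omega-form: `W : Ω → ℝ` is the law at `θ = 1`, `n : Ω → V → ℕ` the exponents, `j = n - 1` the
charges; the law at `θ` has the weight `W ω * ∏ x, if n ω x = 1 then 1 else θ x`.
-/

namespace Vale.Agent.P361.LRO.SR

open Finset
open scoped BigOperators

noncomputable section

variable {Ω V : Type*} [Fintype Ω] [Fintype V] [DecidableEq V]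

/-- charge -/
def jc (n : Ω → V → ℕ) (ω : Ω) (x : V) : ℝ := (n ω x : ℝ) - 1

/-- weight at `θ` -/
def wθ (W : Ω → ℝ) (n : Ω → V → ℕ) (θ : V → ℝ) (ω : Ω) : ℝ :=
  W ω * ∏ x, (if n ω x = 1 then 1 else θ x)

/-- partition function at `θ` -/
def Zθ (W : Ω → ℝ) (n : Ω → V → ℕ) (θ : V → ℝ) : ℝ := ∑ ω, wθ W n θ ω

/-- expectation at `θ` -/
def Eθ (W : Ω → ℝ) (n : Ω → V → ℕ) (θ : V → ℝ) (f : Ω → ℝ) : ℝ :=
  (∑ ω, wθ W n θ ω * f ω) / Zθ W n θ

/-- conductances `- E[j_x j_y]` -/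
def cθ (W : Ω → ℝ) (n : Ω → V → ℕ) (θ : V → ℝ) (x y : V) : ℝ :=
  - Eθ W n θ (fun ω => jc n ω x * jc n ω y)

/-- `v_z = E[j_z^2]`. -/
def vθ (W : Ω → ℝ) (n : Ω → V → ℕ) (θ : V → ℝ) (z : V) : ℝ :=
  Eθ W n θ (fun ω => jc n ω z ^ 2)

/-- `K(a) = E[(a.j)^2]` -/
def Kθ (W : Ω → ℝ) (n : Ω → V → ℕ) (θ : V → ℝ) (a : V → ℝ) : ℝ :=
  Eθ W n θ (fun ω => (∑ x, a x * jc n ω x) ^ 2)

section Deriv

variable (W : Ω → ℝ) (n : Ω → V → ℕ)

lemma jc_sq (hn : ∀ ω x, n ω x ≤ 2) (ω : Ω) (x : V) :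
    jc n ω x ^ 2 = if n ω x = 1 then 0 else 1 := by
  have h := hn ω x
  unfold jc
  interval_cases hh : n ω x <;> norm_num

/-- derivative of a single weight. -/
lemma wθ_deriv (hn : ∀ ω x, n ω x ≤ 2) (θ : ℝ → V → ℝ) (r : V → ℝ) (s : ℝ)
    (hθ : ∀ x, HasDerivAt (fun t => θ t x) (-(r x * θ s x)) s) (ω : Ω) :
    HasDerivAt (fun t => wθ W n (θ t) ω)
      (-∑ z, r z * (wθ W n (θ s) ω * jc n ω z ^ 2)) s := by
  have h1 : ∀ x ∈ (Finset.univ : Finset V),
      HasDerivAt (fun t => (if n ω x = 1 then (1:ℝ) else θ t x))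
        (-(r x * jc n ω x ^ 2 * (if n ω x = 1 then (1:ℝ) else θ s x))) s := by
    intro x _
    rw [jc_sq n hn]
    by_cases h : n ω x = 1
    · simp only [h, if_true]
      simpa using hasDerivAt_const s (1:ℝ)
    · simp only [h, if_false]
      simpa using hθ x
  have h2 := (HasDerivAt.fun_finsetProd h1).const_mul (W ω)
  refine h2.congr_deriv ?_
  unfold wθ
  rw [← Finset.sum_neg_distrib, Finset.mul_sum]
  refine Finset.sum_congr rfl fun z _ => ?_
  rw [← Finset.mul_prod_erase Finset.univ (fun x => (if n ω x = 1 then (1:ℝ) else θ s x))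
    (Finset.mem_univ z)]
  simp only [smul_eq_mul]
  ring

/-- (D1) derivative of an expectation. -/
theorem Eθ_deriv (hn : ∀ ω x, n ω x ≤ 2) (θ : ℝ → V → ℝ) (r : V → ℝ) (s : ℝ)
    (hθ : ∀ x, HasDerivAt (fun t => θ t x) (-(r x * θ s x)) s)
    (hZ : Zθ W n (θ s) ≠ 0) (f : Ω → ℝ) :
    HasDerivAt (fun t => Eθ W n (θ t) f)
      (-∑ z, r z * (Eθ W n (θ s) (fun ω => jc n ω z ^ 2 * f ω)
        - Eθ W n (θ s) (fun ω => jc n ω z ^ 2) * Eθ W n (θ s) f)) s := by
  have hN : HasDerivAt (fun t => ∑ ω, wθ W n (θ t) ω * f ω)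
      (∑ ω, (-∑ z, r z * (wθ W n (θ s) ω * jc n ω z ^ 2)) * f ω) s :=
    HasDerivAt.fun_sum fun ω _ => (wθ_deriv W n hn θ r s hθ ω).mul_const (f ω)
  have hD : HasDerivAt (fun t => Zθ W n (θ t))
      (∑ ω, (-∑ z, r z * (wθ W n (θ s) ω * jc n ω z ^ 2))) s :=
    HasDerivAt.fun_sum fun ω _ => (wθ_deriv W n hn θ r s hθ ω)
  have h := hN.fun_div hD hZ
  refine h.congr_deriv ?_
  have e1 : ∑ ω, (-∑ z, r z * (wθ W n (θ s) ω * jc n ω z ^ 2)) * f ω
      = -∑ z, r z * (∑ ω, wθ W n (θ s) ω * (jc n ω z ^ 2 * f ω)) := by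
    simp only [neg_mul, Finset.sum_mul, Finset.sum_neg_distrib, Finset.mul_sum]
    rw [Finset.sum_comm]
    congr 1
    refine Finset.sum_congr rfl fun z _ => Finset.sum_congr rfl fun ω _ => ?_
    ring
  have e2 : ∑ ω, (-∑ z, r z * (wθ W n (θ s) ω * jc n ω z ^ 2))
      = -∑ z, r z * (∑ ω, wθ W n (θ s) ω * jc n ω z ^ 2) := by
    simp only [Finset.sum_neg_distrib, Finset.mul_sum]
    rw [Finset.sum_comm]
  rw [e1, e2]
  have e3 : ∀ (Z N0 : ℝ), ∑ z, r z * ((∑ ω, wθ W n (θ s) ω * (jc n ω z ^ 2 * f ω)) / Z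
      - (∑ ω, wθ W n (θ s) ω * jc n ω z ^ 2) / Z * (N0 / Z))
      = (∑ z, r z * (∑ ω, wθ W n (θ s) ω * (jc n ω z ^ 2 * f ω))) / Z
        - (∑ z, r z * (∑ ω, wθ W n (θ s) ω * jc n ω z ^ 2)) / Z * (N0 / Z) := by
    intro Z N0
    rw [Finset.sum_div, Finset.sum_div, Finset.sum_mul, ← Finset.sum_sub_distrib]
    refine Finset.sum_congr rfl fun z _ => ?_
    ring
  unfold Eθ
  rw [e3]
  field_simp
  ring

end Deriv

section OneNode

variable (W : Ω → ℝ) (n : Ω → V → ℕ)

/-- sum over the event `A = {j_z ≠ 0}` with the slice parameter at `z` set to `1`. -/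
def QA (θ : V → ℝ) (z : V) (X : Ω → ℝ) : ℝ :=
  ∑ ω, if n ω z = 1 then 0 else wθ W n (Function.update θ z 1) ω * X ω

/-- sum over the event `B = {j_z = 0}`. -/
def QB (θ : V → ℝ) (z : V) (X : Ω → ℝ) : ℝ :=
  ∑ ω, if n ω z = 1 then wθ W n (Function.update θ z 1) ω * X ω else 0

lemma wθ_update (θ : V → ℝ) (z : V) (ω : Ω) :
    wθ W n θ ω = (if n ω z = 1 then 1 else θ z) * wθ W n (Function.update θ z 1) ω := by
  unfold wθ
  rw [← Finset.mul_prod_erase Finset.univ (fun x => (if n ω x = 1 then (1:ℝ) else θ x))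
    (Finset.mem_univ z),
    ← Finset.mul_prod_erase Finset.univ
      (fun x => (if n ω x = 1 then (1:ℝ) else Function.update θ z 1 x)) (Finset.mem_univ z)]
  have h : ∏ x ∈ Finset.univ.erase z, (if n ω x = 1 then (1:ℝ) else Function.update θ z 1 x)
      = ∏ x ∈ Finset.univ.erase z, (if n ω x = 1 then (1:ℝ) else θ x) := by
    refine Finset.prod_congr rfl fun x hx => ?_
    rw [Function.update_of_ne (Finset.ne_of_mem_erase hx)]
  rw [h]
  simp only [Function.update_self, ite_self]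
  ring

lemma sum_split (θ : V → ℝ) (z : V) (X : Ω → ℝ) :
    ∑ ω, wθ W n θ ω * X ω = QB W n θ z X + θ z * QA W n θ z X := by
  unfold QA QB
  rw [Finset.mul_sum, ← Finset.sum_add_distrib]
  refine Finset.sum_congr rfl fun ω _ => ?_
  rw [wθ_update W n θ z ω]
  split_ifs <;> ring

lemma Zθ_split (θ : V → ℝ) (z : V) :
    Zθ W n θ = QB W n θ z (fun _ => 1) + θ z * QA W n θ z (fun _ => 1) := by
  rw [← sum_split]
  unfold Zθ
  simp

lemma sum_jsq (hn : ∀ ω x, n ω x ≤ 2) (θ : V → ℝ) (z : V) (X : Ω → ℝ) :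
    ∑ ω, wθ W n θ ω * (jc n ω z ^ 2 * X ω) = θ z * QA W n θ z X := by
  unfold QA
  rw [Finset.mul_sum]
  refine Finset.sum_congr rfl fun ω _ => ?_
  rw [wθ_update W n θ z ω, jc_sq n hn]
  split_ifs <;> ring

lemma sum_jz (hn : ∀ ω x, n ω x ≤ 2) (θ : V → ℝ) (z : V) (X : Ω → ℝ) :
    ∑ ω, wθ W n θ ω * (jc n ω z * X ω) = θ z * QA W n θ z (fun ω => jc n ω z * X ω) := by
  rw [← sum_jsq W n hn]
  refine Finset.sum_congr rfl fun ω _ => ?_
  have h : jc n ω z ^ 2 * (jc n ω z * X ω) = jc n ω z * X ω := by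
    have h := jc_sq n hn ω z
    by_cases h1 : n ω z = 1
    · have : jc n ω z = 0 := by simp [jc, h1]
      rw [this]; ring
    · rw [if_neg h1] at h
      rw [h, one_mul]
  rw [h]

/-- (D2) the one-node inequality in covariance form, from Theorem 1 of note 8371
(hypothesis `hT1`: `E_A - E_B ≤ abar² + δ (L - abar²)` with `π x = E_A[-j_z j_x]`). -/
theorem cov_le (hn : ∀ ω x, n ω x ≤ 2) (θ : V → ℝ) (z : V) (a : V → ℝ) (δ : ℝ)
    (hθ : 0 ≤ θ z) (hA : 0 ≤ QA W n θ z (fun _ => 1)) (hB : 0 < QB W n θ z (fun _ => 1))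
    (hA0 : QA W n θ z (fun _ => 1) = 0 → ∀ X, QA W n θ z X = 0)
    (hT1 : 0 < QA W n θ z (fun _ => 1) →
      QA W n θ z (fun ω => (∑ x, a x * jc n ω x) ^ 2) / QA W n θ z (fun _ => 1)
        - QB W n θ z (fun ω => (∑ x, a x * jc n ω x) ^ 2) / QB W n θ z (fun _ => 1)
      ≤ (∑ x, QA W n θ z (fun ω => - (jc n ω z * jc n ω x)) / QA W n θ z (fun _ => 1)
            * (a x - a z)) ^ 2
        + δ * (∑ x, QA W n θ z (fun ω => - (jc n ω z * jc n ω x)) / QA W n θ z (fun _ => 1)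
            * (a x - a z) ^ 2
          - (∑ x, QA W n θ z (fun ω => - (jc n ω z * jc n ω x)) / QA W n θ z (fun _ => 1)
            * (a x - a z)) ^ 2)) :
    Eθ W n θ (fun ω => jc n ω z ^ 2 * (∑ x, a x * jc n ω x) ^ 2)
      - Eθ W n θ (fun ω => jc n ω z ^ 2) * Eθ W n θ (fun ω => (∑ x, a x * jc n ω x) ^ 2)
    ≤ (1 - vθ W n θ z) * ((1 - δ) * ((∑ x, cθ W n θ z x * (a x - a z)) ^ 2 / vθ W n θ z)
        + δ * ∑ x, cθ W n θ z x * (a x - a z) ^ 2) := by
  set wA := QA W n θ z (fun _ => 1) with hwA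
  set wB := QB W n θ z (fun _ => 1) with hwB
  set t := θ z with ht
  set P := QA W n θ z (fun ω => (∑ x, a x * jc n ω x) ^ 2) with hP
  set R := QB W n θ z (fun ω => (∑ x, a x * jc n ω x) ^ 2) with hR
  have hZ : Zθ W n θ = wB + t * wA := Zθ_split W n θ z
  have hZpos : 0 < wB + t * wA := by positivity
  have e1 : Eθ W n θ (fun ω => jc n ω z ^ 2 * (∑ x, a x * jc n ω x) ^ 2) = t * P / (wB + t * wA) := by
    unfold Eθ; rw [sum_jsq W n hn, hZ]
  have e2 : Eθ W n θ (fun ω => jc n ω z ^ 2) = t * wA / (wB + t * wA) := by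
    unfold Eθ
    have := sum_jsq W n hn θ z (fun _ => 1)
    simp only [mul_one] at this
    rw [this, hZ]
  have e3 : Eθ W n θ (fun ω => (∑ x, a x * jc n ω x) ^ 2) = (R + t * P) / (wB + t * wA) := by
    unfold Eθ; rw [sum_split W n θ z, hZ]
  have e4 : ∀ x, cθ W n θ z x
      = t * QA W n θ z (fun ω => - (jc n ω z * jc n ω x)) / (wB + t * wA) := by
    intro x
    unfold cθ Eθ
    rw [sum_jz W n hn, hZ, ← neg_div]
    congr 1
    have : QA W n θ z (fun ω => - (jc n ω z * jc n ω x)) = - QA W n θ z (fun ω => jc n ω z * jc n ω x) := by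
      unfold QA
      rw [← Finset.sum_neg_distrib]
      refine Finset.sum_congr rfl fun ω _ => ?_
      split_ifs <;> ring
    rw [this]; ring
  have ev : vθ W n θ z = t * wA / (wB + t * wA) := by
    unfold vθ; exact e2
  rcases hA.eq_or_lt with hA' | hA'
  · -- wA = 0
    have hz := hA0 hA'.symm
    have hP0 : P = 0 := hz _
    have hc0 : ∀ x, cθ W n θ z x = 0 := by
      intro x; rw [e4, hz]; simp
    rw [e1, e2, hP0, ← hA']
    simp [hc0]
  rcases hθ.eq_or_lt with ht' | ht'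
  · have hc0 : ∀ x, cθ W n θ z x = 0 := by
      intro x; rw [e4, ← ht']; simp
    rw [e1, e2, ← ht']
    simp [hc0]
  · have hT := hT1 hA'
    set π : V → ℝ := fun x => QA W n θ z (fun ω => - (jc n ω z * jc n ω x)) / wA with hπ
    have hc : ∀ x, cθ W n θ z x = (t * wA / (wB + t * wA)) * π x := by
      intro x; rw [e4, hπ]; field_simp
    have hF : ∑ x, cθ W n θ z x * (a x - a z) = (t * wA / (wB + t * wA)) * ∑ x, π x * (a x - a z) := by
      rw [Finset.mul_sum]; refine Finset.sum_congr rfl fun x _ => ?_; rw [hc]; ring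
    have hS : ∑ x, cθ W n θ z x * (a x - a z) ^ 2
        = (t * wA / (wB + t * wA)) * ∑ x, π x * (a x - a z) ^ 2 := by
      rw [Finset.mul_sum]; refine Finset.sum_congr rfl fun x _ => ?_; rw [hc]; ring
    rw [e1, e2, e3, ev, hF, hS]
    set ab := ∑ x, π x * (a x - a z)
    set L := ∑ x, π x * (a x - a z) ^ 2
    set v := t * wA / (wB + t * wA) with hv
    have hv0 : 0 < v := by positivity
    have h1v : 1 - v = wB / (wB + t * wA) := by rw [hv]; field_simp; ring
    have hlhs : t * P / (wB + t * wA) - v * ((R + t * P) / (wB + t * wA))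
        = (1 - v) * v * (P / wA - R / wB) := by
      rw [h1v, hv]; field_simp; ring
    have hrhs : (1 - v) * ((1 - δ) * ((v * ab) ^ 2 / v) + δ * (v * L))
        = (1 - v) * v * (ab ^ 2 + δ * (L - ab ^ 2)) := by
      field_simp; ring
    rw [hlhs, hrhs]
    apply mul_le_mul_of_nonneg_left hT
    have : 0 ≤ 1 - v := by rw [h1v]; positivity
    positivity

end OneNode

end

end Vale.Agent.P361.LRO.SR
end

section

/-!
The one-node inequality for symmetric homogeneous stable laws (star-mesh inequality), from the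
convexity of the hyperbolicity cone.
-/

namespace Vale.Agent.P361.LRO.T1

open MvPolynomial

section coeffs

/-- the first coefficients of a product of linear polynomials -/
def J3 (P : Polynomial ℝ) (e q : ℝ) : Prop :=
  P.coeff 0 = 1 ∧ P.coeff 1 = e ∧ 2 * P.coeff 2 = e ^ 2 - q

theorem coeff_two_mul (P Q : Polynomial ℝ) :
    (P * Q).coeff 2 = P.coeff 0 * Q.coeff 2 + P.coeff 1 * Q.coeff 1 + P.coeff 2 * Q.coeff 0 := by
  rw [Polynomial.coeff_mul, Finset.Nat.sum_antidiagonal_eq_sum_range_succ_mk,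
    Finset.sum_range_succ, Finset.sum_range_succ, Finset.sum_range_one]

theorem coeff_one_mul' (P Q : Polynomial ℝ) :
    (P * Q).coeff 1 = P.coeff 0 * Q.coeff 1 + P.coeff 1 * Q.coeff 0 := by
  rw [Polynomial.mul_coeff_one]

theorem J3.mul {P Q : Polynomial ℝ} {e q e' q' : ℝ} (h : J3 P e q) (h' : J3 Q e' q') :
    J3 (P * Q) (e + e') (q + q') := by
  obtain ⟨h0, h1, h2⟩ := h
  obtain ⟨g0, g1, g2⟩ := h'
  refine ⟨by rw [Polynomial.mul_coeff_zero, h0, g0, one_mul], ?_, ?_⟩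
  · rw [coeff_one_mul', h0, h1, g0, g1]
    ring
  · rw [coeff_two_mul, h0, h1, g0, g1]
    linarith [h2, g2]

theorem J3.one : J3 1 0 0 := by
  refine ⟨by simp, ?_, ?_⟩
  · rw [Polynomial.coeff_one]
    simp
  · rw [Polynomial.coeff_one]
    simp

theorem J3.lin (a : ℝ) : J3 (Polynomial.C 1 + Polynomial.C a * Polynomial.X) a (a ^ 2) := by
  refine ⟨by simp, by simp [Polynomial.coeff_one], ?_⟩
  simp [Polynomial.coeff_one]

theorem J3.pow {P : Polynomial ℝ} {e q : ℝ} (h : J3 P e q) (n : ℕ) :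
    J3 (P ^ n) (n * e) (n * q) := by
  induction n with
  | zero => simpa using J3.one
  | succ n ih =>
    rw [pow_succ]
    have h1 := ih.mul h
    have e1 : (n : ℝ) * e + e = ((n + 1 : ℕ) : ℝ) * e := by push_cast; ring
    have e2 : (n : ℝ) * q + q = ((n + 1 : ℕ) : ℝ) * q := by push_cast; ring
    rwa [e1, e2] at h1

theorem J3.prod {V : Type*} (s : Finset V) (a : V → ℝ) (m : V → ℕ) :
    J3 (∏ x ∈ s, (Polynomial.C 1 + Polynomial.C (a x) * Polynomial.X) ^ m x)
      (∑ x ∈ s, m x * a x) (∑ x ∈ s, m x * a x ^ 2) := by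
  classical
  induction s using Finset.induction_on with
  | empty => simpa using J3.one
  | insert i s hi ih =>
    rw [Finset.prod_insert hi, Finset.sum_insert hi, Finset.sum_insert hi]
    exact ((J3.lin (a i)).pow (m i)).mul ih

end coeffs

section real

/-- the limit `τ → s` -/
theorem one_node_real (w0 w1 al E2 E0 la S S2 c s : ℝ) (hw1 : 0 < w1) (hs0 : 0 < s)
    (hs1 : s ≤ 1) (hs : w1 * (1 + s ^ 2) = w0 * s) (hcw : c * w1 = s * al)
    (hfun : ∀ τ : ℝ, 0 ≤ τ → τ < s →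
      (w1 - τ * w0 + τ ^ 2 * w1) *
        ((S ^ 2 - S2) * (w1 - τ * w0 + τ ^ 2 * w1) - 2 * S * al * (1 - τ ^ 2) +
          E2 * (1 + τ ^ 2) - τ * E0 - la * (1 - τ ^ 2) + 2 * c * S * (w0 - 2 * τ * w1) +
          2 * c ^ 2 * w1 - 4 * τ * c * al) ≤
      (S * (w1 - τ * w0 + τ ^ 2 * w1) - al * (1 - τ ^ 2) + c * (w0 - 2 * τ * w1)) ^ 2) :
    E2 * (1 + s ^ 2) - s * E0 - la * (1 - s ^ 2) - 2 * s ^ 2 * al ^ 2 / w1 ≤ 0 := by
  have hphi : ∀ τ : ℝ, s * (w1 - τ * w0 + τ ^ 2 * w1) = w1 * ((s - τ) * (1 - s * τ)) := by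
    intro τ
    linear_combination τ * hs
  have hcw0 : c * w0 = al * (1 + s ^ 2) := by
    have h1 : w1 * (c * w0) = w1 * (al * (1 + s ^ 2)) := by
      linear_combination w0 * hcw - al * hs
    exact mul_left_cancel₀ hw1.ne' h1
  set B : ℝ := |S| + |al| / w1 with hB
  set F : ℝ → ℝ := fun τ =>
    (S ^ 2 - S2) * (w1 - τ * w0 + τ ^ 2 * w1) - 2 * S * al * (1 - τ ^ 2) +
      E2 * (1 + τ ^ 2) - τ * E0 - la * (1 - τ ^ 2) + 2 * c * S * (w0 - 2 * τ * w1) +
      2 * c ^ 2 * w1 - 4 * τ * c * al - B ^ 2 * (w1 - τ * w0 + τ ^ 2 * w1)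
    with hF
  have hFle : ∀ τ : ℝ, 0 ≤ τ → τ < s → F τ ≤ 0 := by
    intro τ hτ0 hτs
    have h1 := hfun τ hτ0 hτs
    set φ : ℝ := w1 - τ * w0 + τ ^ 2 * w1 with hφ
    have h2 := hphi τ
    have hδ : 0 < s - τ := sub_pos.2 hτs
    have h3 : w1 * (s - τ) ^ 2 ≤ φ := by
      have h4 : s * (w1 * (s - τ) ^ 2) ≤ s * φ := by
        rw [h2]
        have h6 : s * (s - τ) ≤ 1 - s * τ := by
          have : s ^ 2 ≤ 1 := by
            have := pow_le_one₀ (n := 2) hs0.le hs1
            exact this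
          linarith
        have h7 := mul_le_mul_of_nonneg_left h6 (mul_nonneg hw1.le hδ.le)
        linarith
      exact le_of_mul_le_mul_left h4 hs0
    have h4 : 0 < φ := lt_of_lt_of_le (by positivity) h3
    have h5 : S * φ - al * (1 - τ ^ 2) + c * (w0 - 2 * τ * w1) = S * φ + al * (s - τ) ^ 2 := by
      linear_combination hcw0 - 2 * τ * hcw
    rw [h5] at h1
    have h6 : |S * φ + al * (s - τ) ^ 2| ≤ B * φ := by
      have a1 : (s - τ) ^ 2 ≤ φ / w1 := by
        rw [le_div_iff₀ hw1]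
        linarith
      calc |S * φ + al * (s - τ) ^ 2| ≤ |S * φ| + |al * (s - τ) ^ 2| := abs_add_le _ _
        _ = |S| * φ + |al| * (s - τ) ^ 2 := by
          rw [abs_mul, abs_mul, abs_of_pos h4, abs_of_nonneg (sq_nonneg (s - τ))]
        _ ≤ |S| * φ + |al| * (φ / w1) :=
          add_le_add le_rfl (mul_le_mul_of_nonneg_left a1 (abs_nonneg _))
        _ = B * φ := by
          rw [hB]
          ring
    have h7 : (S * φ + al * (s - τ) ^ 2) ^ 2 ≤ (B * φ) ^ 2 :=
      sq_le_sq.2 (h6.trans (le_abs_self _))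
    have h8 : φ * F τ ≤ 0 := by
      have h9 : φ * F τ = φ * ((S ^ 2 - S2) * φ - 2 * S * al * (1 - τ ^ 2) +
          E2 * (1 + τ ^ 2) - τ * E0 - la * (1 - τ ^ 2) + 2 * c * S * (w0 - 2 * τ * w1) +
          2 * c ^ 2 * w1 - 4 * τ * c * al) - (B * φ) ^ 2 := by
        simp only [hF]
        ring
      rw [h9]
      exact sub_nonpos.2 (h1.trans h7)
    by_contra h9
    exact absurd (mul_pos h4 (not_le.1 h9)) (not_lt.2 h8)
  have hFs : F s ≤ 0 := by
    have hc : Continuous F := by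
      simp only [hF]
      fun_prop
    have h1 : Filter.Tendsto F (nhdsWithin s (Set.Iio s)) (nhds (F s)) :=
      (hc.tendsto s).mono_left nhdsWithin_le_nhds
    refine le_of_tendsto h1 ?_
    have h2 : ∀ᶠ τ in nhdsWithin s (Set.Iio s), 0 < τ :=
      (eventually_gt_nhds hs0).filter_mono nhdsWithin_le_nhds
    filter_upwards [self_mem_nhdsWithin, h2] with τ hτ hτ0
    exact hFle τ hτ0.le hτ
  have h0 : w1 - s * w0 + s ^ 2 * w1 = 0 := by linear_combination hs
  have hcal : c * al = s * al ^ 2 / w1 := by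
    rw [eq_div_iff hw1.ne']
    linear_combination al * hcw
  have h1 : F s = E2 * (1 + s ^ 2) - s * E0 - la * (1 - s ^ 2) - 2 * s ^ 2 * al ^ 2 / w1 := by
    simp only [hF]
    rw [h0]
    have h2 : 2 * s ^ 2 * al ^ 2 / w1 = 2 * s * (c * al) := by
      rw [hcal]
      ring
    rw [h2]
    linear_combination (2 * S) * hcw0 + (2 * c - 4 * S * s) * hcw
  rw [← h1]
  exact hFs

end real

section law

variable {Om V : Type*} [Fintype Om] [Fintype V] [DecidableEq V]

/-- the generating polynomial of a law -/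
noncomputable def gen (W : Om → ℝ) (n : Om → V → ℕ) : MvPolynomial V ℝ :=
  ∑ w, C (W w) * ∏ x, X x ^ n w x

omit [DecidableEq V] in
theorem gen_aeval (W : Om → ℝ) (n : Om → V → ℕ) (y : V → ℂ) :
    aeval y (gen W n) = ∑ w, (W w : ℂ) * ∏ x, y x ^ n w x := by
  rw [gen, map_sum]
  refine Finset.sum_congr rfl fun w _ => ?_
  rw [map_mul, map_prod, aeval_C]
  congr 1
  refine Finset.prod_congr rfl fun x _ => ?_
  rw [map_pow, aeval_X]

omit [DecidableEq V] in
theorem gen_hom {W : Om → ℝ} {n : Om → V → ℕ} {N : ℕ}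
    (hdeg : ∀ w, W w ≠ 0 → ∑ x, n w x = N) : (gen W n).IsHomogeneous N := by
  refine IsHomogeneous.sum _ _ _ fun w _ => ?_
  by_cases hw : W w = 0
  · rw [hw, C_0, zero_mul]
    exact isHomogeneous_zero _ _ _
  · have h1 := (isHomogeneous_C V (W w)).mul (IsHomogeneous.prod Finset.univ
      (fun x => (X x : MvPolynomial V ℝ) ^ n w x) (fun x => n w x) (fun x _ => by
        have := (isHomogeneous_X ℝ x).pow (n w x)
        rwa [one_mul] at this))
    rwa [zero_add, hdeg w hw] at h1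

omit [DecidableEq V] in
theorem gen_lineR (W : Om → ℝ) (n : Om → V → ℕ) (b d : V → ℝ) :
    lineR (gen W n) b d = ∑ w, Polynomial.C (W w) *
      ∏ x, (Polynomial.C (b x) + Polynomial.C (d x) * Polynomial.X) ^ n w x := by
  rw [lineR, gen, map_sum]
  refine Finset.sum_congr rfl fun w _ => ?_
  rw [map_mul, map_prod, aeval_C]
  congr 1
  refine Finset.prod_congr rfl fun x _ => ?_
  rw [map_pow, aeval_X]

/-- sums over the configurations with `k` particles at `z` -/
noncomputable def Sk (W : Om → ℝ) (n : Om → V → ℕ) (z : V) (k : ℕ) (F : Om → ℝ) : ℝ :=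
  ∑ w, if n w z = k then W w * F w else 0

omit [Fintype V] [DecidableEq V] in
theorem Sk_add (W : Om → ℝ) (n : Om → V → ℕ) (z : V) (k : ℕ) (F G : Om → ℝ) :
    Sk W n z k (fun w => F w + G w) = Sk W n z k F + Sk W n z k G := by
  rw [Sk, Sk, Sk, ← Finset.sum_add_distrib]
  refine Finset.sum_congr rfl fun w _ => ?_
  split_ifs
  · ring
  · ring

omit [Fintype V] [DecidableEq V] in
theorem Sk_smul (W : Om → ℝ) (n : Om → V → ℕ) (z : V) (k : ℕ) (c : ℝ) (F : Om → ℝ) :
    Sk W n z k (fun w => c * F w) = c * Sk W n z k F := by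
  rw [Sk, Sk, Finset.mul_sum]
  refine Finset.sum_congr rfl fun w _ => ?_
  split_ifs
  · ring
  · ring

omit [Fintype V] [DecidableEq V] in
theorem Sk_split {W : Om → ℝ} {n : Om → V → ℕ} (hn : ∀ w x, n w x ≤ 2) (z : V)
    (F : ℕ → Om → ℝ) : ∑ w, W w * F (n w z) w =
      Sk W n z 0 (F 0) + Sk W n z 1 (F 1) + Sk W n z 2 (F 2) := by
  rw [Sk, Sk, Sk, ← Finset.sum_add_distrib, ← Finset.sum_add_distrib]
  refine Finset.sum_congr rfl fun w _ => ?_
  have h := hn w z
  interval_cases h1 : n w z <;> simp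

/-- the values of the polynomial, its first and second derivatives on the line through
`(1,…,1,-τ)` in the direction `(a, c)` -/
theorem line_coeffs {W : Om → ℝ} {n : Om → V → ℕ} (hn : ∀ w x, n w x ≤ 2) (z : V) (a : V → ℝ)
    (ha : a z = 0) (τ c : ℝ) :
    let P := lineR (gen W n) (fun x => if x = z then -τ else 1)
      (fun x => if x = z then c else a x)
    let e : Om → ℝ := fun w => ∑ x, n w x * a x
    let q : Om → ℝ := fun w => ∑ x, n w x * a x ^ 2
    P.coeff 0 = Sk W n z 0 (fun _ => 1) - τ * Sk W n z 1 (fun _ => 1) +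
        τ ^ 2 * Sk W n z 2 (fun _ => 1) ∧
    P.coeff 1 = Sk W n z 0 e + (c * Sk W n z 1 (fun _ => 1) - τ * Sk W n z 1 e) +
        (-2 * τ * c * Sk W n z 2 (fun _ => 1) + τ ^ 2 * Sk W n z 2 e) ∧
    2 * P.coeff 2 = Sk W n z 0 (fun w => e w ^ 2 - q w) +
        (2 * c * Sk W n z 1 e - τ * Sk W n z 1 (fun w => e w ^ 2 - q w)) +
        (2 * c ^ 2 * Sk W n z 2 (fun _ => 1) - 4 * τ * c * Sk W n z 2 e +
          τ ^ 2 * Sk W n z 2 (fun w => e w ^ 2 - q w)) := by
  intro P e q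
  have hP : P = ∑ w, Polynomial.C (W w) *
      ((Polynomial.C (-τ) + Polynomial.C c * Polynomial.X) ^ n w z *
        ∏ x ∈ Finset.univ.erase z,
          (Polynomial.C 1 + Polynomial.C (a x) * Polynomial.X) ^ n w x) := by
    change lineR (gen W n) _ _ = _
    rw [gen_lineR]
    refine Finset.sum_congr rfl fun w _ => ?_
    congr 1
    rw [← Finset.mul_prod_erase Finset.univ _ (Finset.mem_univ z), if_pos rfl, if_pos rfl]
    congr 1
    refine Finset.prod_congr rfl fun x hx => ?_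
    rw [if_neg (Finset.ne_of_mem_erase hx), if_neg (Finset.ne_of_mem_erase hx)]
  have hJ : ∀ w, J3 (∏ x ∈ Finset.univ.erase z,
      (Polynomial.C 1 + Polynomial.C (a x) * Polynomial.X) ^ n w x) (e w) (q w) := by
    intro w
    have h := J3.prod (Finset.univ.erase z) a (n w)
    have e1 : ∑ x ∈ Finset.univ.erase z, (n w x : ℝ) * a x = e w := by
      change _ = ∑ x, (n w x : ℝ) * a x
      rw [← Finset.add_sum_erase Finset.univ _ (Finset.mem_univ z), ha, mul_zero, zero_add]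
    have e2 : ∑ x ∈ Finset.univ.erase z, (n w x : ℝ) * a x ^ 2 = q w := by
      change _ = ∑ x, (n w x : ℝ) * a x ^ 2
      rw [← Finset.add_sum_erase Finset.univ _ (Finset.mem_univ z), ha]
      simp
    rwa [e1, e2] at h
  have hA : ∀ k : ℕ, P.coeff k = ∑ w, W w *
      ((Polynomial.C (-τ) + Polynomial.C c * Polynomial.X) ^ n w z *
        ∏ x ∈ Finset.univ.erase z,
          (Polynomial.C 1 + Polynomial.C (a x) * Polynomial.X) ^ n w x).coeff k := by
    intro k
    rw [hP, Polynomial.finsetSum_coeff]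
    refine Finset.sum_congr rfl fun w _ => ?_
    rw [Polynomial.coeff_C_mul]
  -- coefficients of the powers of the node factor
  have hN : ∀ m : ℕ, m ≤ 2 →
      ((Polynomial.C (-τ) + Polynomial.C c * Polynomial.X) ^ m).coeff 0 = (-τ) ^ m ∧
      ((Polynomial.C (-τ) + Polynomial.C c * Polynomial.X) ^ m).coeff 1 =
        (if m = 0 then 0 else if m = 1 then c else -2 * τ * c) ∧
      ((Polynomial.C (-τ) + Polynomial.C c * Polynomial.X) ^ m).coeff 2 =
        (if m = 2 then c ^ 2 else 0) := by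
    intro m hm
    have l0 : (Polynomial.C (-τ) + Polynomial.C c * Polynomial.X).coeff 0 = -τ := by simp
    have l1 : (Polynomial.C (-τ) + Polynomial.C c * Polynomial.X).coeff 1 = c := by
      rw [Polynomial.coeff_add, Polynomial.coeff_C_mul, Polynomial.coeff_X_one,
        Polynomial.coeff_C_of_ne_zero one_ne_zero]
      ring
    have l2 : (Polynomial.C (-τ) + Polynomial.C c * Polynomial.X).coeff 2 = 0 := by
      rw [Polynomial.coeff_add, Polynomial.coeff_C_mul, Polynomial.coeff_X,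
        Polynomial.coeff_C_of_ne_zero two_ne_zero]
      norm_num
    interval_cases m
    · simp [Polynomial.coeff_one]
    · simp only [pow_one]
      rw [l0, l1, l2]
      simp
    · rw [pow_two, Polynomial.mul_coeff_zero, coeff_one_mul', coeff_two_mul, l0, l1, l2]
      refine ⟨by ring, ?_, ?_⟩
      · simp
        ring
      · simp
        ring
  refine ⟨?_, ?_, ?_⟩
  · rw [hA 0]
    have h1 : ∀ w, ((Polynomial.C (-τ) + Polynomial.C c * Polynomial.X) ^ n w z *
        ∏ x ∈ Finset.univ.erase z,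
          (Polynomial.C 1 + Polynomial.C (a x) * Polynomial.X) ^ n w x).coeff 0 =
        (-τ) ^ n w z := by
      intro w
      rw [Polynomial.mul_coeff_zero, (hJ w).1, (hN _ (hn w z)).1, mul_one]
    simp only [h1]
    rw [Sk_split hn z (fun k _ => (-τ) ^ k)]
    have e0 : Sk W n z 0 (fun _ => (-τ) ^ 0) = Sk W n z 0 (fun _ => 1) := by simp
    have e1 : Sk W n z 1 (fun _ => (-τ) ^ 1) = -τ * Sk W n z 1 (fun _ => 1) := by
      rw [← Sk_smul]
      simp
    have e2 : Sk W n z 2 (fun _ => (-τ) ^ 2) = τ ^ 2 * Sk W n z 2 (fun _ => 1) := by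
      rw [← Sk_smul]
      simp
    rw [e0, e1, e2]
    ring
  · rw [hA 1]
    have h1 : ∀ w, ((Polynomial.C (-τ) + Polynomial.C c * Polynomial.X) ^ n w z *
        ∏ x ∈ Finset.univ.erase z,
          (Polynomial.C 1 + Polynomial.C (a x) * Polynomial.X) ^ n w x).coeff 1 =
        (-τ) ^ n w z * e w +
          (if n w z = 0 then 0 else if n w z = 1 then c else -2 * τ * c) := by
      intro w
      rw [coeff_one_mul', (hJ w).1, (hJ w).2.1, (hN _ (hn w z)).1, (hN _ (hn w z)).2.1, mul_one]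
    simp only [h1]
    rw [Sk_split hn z (fun k w => (-τ) ^ k * e w +
      (if k = 0 then 0 else if k = 1 then c else -2 * τ * c))]
    have e0 : Sk W n z 0 (fun w => (-τ) ^ 0 * e w +
        (if (0 : ℕ) = 0 then 0 else if (0 : ℕ) = 1 then c else -2 * τ * c)) = Sk W n z 0 e := by
      simp
    have e1 : Sk W n z 1 (fun w => (-τ) ^ 1 * e w +
        (if (1 : ℕ) = 0 then 0 else if (1 : ℕ) = 1 then c else -2 * τ * c)) =
        -τ * Sk W n z 1 e + c * Sk W n z 1 (fun _ => 1) := by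
      rw [← Sk_smul, ← Sk_smul, ← Sk_add]
      simp
    have e2 : Sk W n z 2 (fun w => (-τ) ^ 2 * e w +
        (if (2 : ℕ) = 0 then 0 else if (2 : ℕ) = 1 then c else -2 * τ * c)) =
        τ ^ 2 * Sk W n z 2 e + (-2 * τ * c) * Sk W n z 2 (fun _ => 1) := by
      rw [← Sk_smul, ← Sk_smul, ← Sk_add]
      simp
    rw [e0, e1, e2]
    ring
  · rw [hA 2, Finset.mul_sum]
    have h1 : ∀ w, 2 * (W w * ((Polynomial.C (-τ) + Polynomial.C c * Polynomial.X) ^ n w z *
        ∏ x ∈ Finset.univ.erase z,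
          (Polynomial.C 1 + Polynomial.C (a x) * Polynomial.X) ^ n w x).coeff 2) =
        W w * ((-τ) ^ n w z * (e w ^ 2 - q w) +
          2 * (if n w z = 0 then 0 else if n w z = 1 then c else -2 * τ * c) * e w +
          2 * (if n w z = 2 then c ^ 2 else 0)) := by
      intro w
      rw [coeff_two_mul, (hJ w).1, (hJ w).2.1, (hN _ (hn w z)).1, (hN _ (hn w z)).2.1,
        (hN _ (hn w z)).2.2, ← (hJ w).2.2]
      ring
    simp only [h1]
    rw [Sk_split hn z (fun k w => (-τ) ^ k * (e w ^ 2 - q w) +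
          2 * (if k = 0 then 0 else if k = 1 then c else -2 * τ * c) * e w +
          2 * (if k = 2 then c ^ 2 else 0))]
    have e0 : Sk W n z 0 (fun w => (-τ) ^ 0 * (e w ^ 2 - q w) +
          2 * (if (0 : ℕ) = 0 then 0 else if (0 : ℕ) = 1 then c else -2 * τ * c) * e w +
          2 * (if (0 : ℕ) = 2 then c ^ 2 else 0)) = Sk W n z 0 (fun w => e w ^ 2 - q w) := by
      simp
    have e1 : Sk W n z 1 (fun w => (-τ) ^ 1 * (e w ^ 2 - q w) +
          2 * (if (1 : ℕ) = 0 then 0 else if (1 : ℕ) = 1 then c else -2 * τ * c) * e w +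
          2 * (if (1 : ℕ) = 2 then c ^ 2 else 0)) =
        -τ * Sk W n z 1 (fun w => e w ^ 2 - q w) + 2 * c * Sk W n z 1 e := by
      rw [← Sk_smul, ← Sk_smul, ← Sk_add]
      simp
    have e2 : Sk W n z 2 (fun w => (-τ) ^ 2 * (e w ^ 2 - q w) +
          2 * (if (2 : ℕ) = 0 then 0 else if (2 : ℕ) = 1 then c else -2 * τ * c) * e w +
          2 * (if (2 : ℕ) = 2 then c ^ 2 else 0)) =
        τ ^ 2 * Sk W n z 2 (fun w => e w ^ 2 - q w) + (2 * (-2 * τ * c)) * Sk W n z 2 e +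
          2 * c ^ 2 * Sk W n z 2 (fun _ => 1) := by
      rw [← Sk_smul, ← Sk_smul, ← Sk_smul, ← Sk_add, ← Sk_add]
      simp
    rw [e0, e1, e2]
    ring

/-- **One node**, in terms of the weights. -/
theorem one_node_core {W : Om → ℝ} {n : Om → V → ℕ} (hn : ∀ w x, n w x ≤ 2) {N : ℕ}
    (hdeg : ∀ w, W w ≠ 0 → ∑ x, n w x = N) (hst : RStable (gen W n)) (z : V) (a : V → ℝ)
    (ha : a z = 0) (w0 w1 al E2 E0 la : ℝ) (hw1 : 0 < w1)
    (h00 : Sk W n z 0 (fun _ => 1) = w1) (h20 : Sk W n z 2 (fun _ => 1) = w1)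
    (h10 : Sk W n z 1 (fun _ => 1) = w0)
    (h0A : Sk W n z 0 (fun w => ∑ x, ((n w x : ℝ) - 1) * a x) = -al)
    (h1A : Sk W n z 1 (fun w => ∑ x, ((n w x : ℝ) - 1) * a x) = 0)
    (h2A : Sk W n z 2 (fun w => ∑ x, ((n w x : ℝ) - 1) * a x) = al)
    (h0E : Sk W n z 0 (fun w => (∑ x, ((n w x : ℝ) - 1) * a x) ^ 2) = E2)
    (h1E : Sk W n z 1 (fun w => (∑ x, ((n w x : ℝ) - 1) * a x) ^ 2) = E0)
    (h2E : Sk W n z 2 (fun w => (∑ x, ((n w x : ℝ) - 1) * a x) ^ 2) = E2)
    (h0L : Sk W n z 0 (fun w => ∑ x, ((n w x : ℝ) - 1) * a x ^ 2) = la)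
    (h1L : Sk W n z 1 (fun w => ∑ x, ((n w x : ℝ) - 1) * a x ^ 2) = 0)
    (h2L : Sk W n z 2 (fun w => ∑ x, ((n w x : ℝ) - 1) * a x ^ 2) = -la)
    (s : ℝ) (hs0 : 0 < s) (hs1 : s ≤ 1) (hs : w1 * (1 + s ^ 2) = w0 * s) :
    E2 * (1 + s ^ 2) - s * E0 - la * (1 - s ^ 2) - 2 * s ^ 2 * al ^ 2 / w1 ≤ 0 := by
  set S : ℝ := ∑ x, a x with hS
  set S2 : ℝ := ∑ x, a x ^ 2 with hS2
  have he : ∀ w, ∑ x, (n w x : ℝ) * a x = S + ∑ x, ((n w x : ℝ) - 1) * a x := by
    intro w
    rw [hS, ← Finset.sum_add_distrib]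
    exact Finset.sum_congr rfl fun x _ => by ring
  have hq : ∀ w, ∑ x, (n w x : ℝ) * a x ^ 2 = S2 + ∑ x, ((n w x : ℝ) - 1) * a x ^ 2 := by
    intro w
    rw [hS2, ← Finset.sum_add_distrib]
    exact Finset.sum_congr rfl fun x _ => by ring
  -- the sums of `e` and of `e ^ 2 - q`
  have he' : ∀ k, Sk W n z k (fun w => ∑ x, (n w x : ℝ) * a x) =
      S * Sk W n z k (fun _ => 1) + Sk W n z k (fun w => ∑ x, ((n w x : ℝ) - 1) * a x) := by
    intro k
    rw [← Sk_smul, ← Sk_add]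
    congr 1
    funext w
    rw [he]
    ring
  have hq' : ∀ k, Sk W n z k (fun w => (∑ x, (n w x : ℝ) * a x) ^ 2 -
      ∑ x, (n w x : ℝ) * a x ^ 2) =
      (S ^ 2 - S2) * Sk W n z k (fun _ => 1) +
      (2 * S * Sk W n z k (fun w => ∑ x, ((n w x : ℝ) - 1) * a x) +
      (Sk W n z k (fun w => (∑ x, ((n w x : ℝ) - 1) * a x) ^ 2) +
      (-1) * Sk W n z k (fun w => ∑ x, ((n w x : ℝ) - 1) * a x ^ 2))) := by
    intro k
    rw [← Sk_smul, ← Sk_smul, ← Sk_smul, ← Sk_add, ← Sk_add, ← Sk_add]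
    congr 1
    funext w
    rw [he, hq]
    ring
  set c : ℝ := s * al / w1 with hc
  have hcw : c * w1 = s * al := by
    rw [hc]
    field_simp
  -- the three functions of `τ`
  have hfun : ∀ τ : ℝ, 0 ≤ τ → τ < s →
      (w1 - τ * w0 + τ ^ 2 * w1) *
        ((S ^ 2 - S2) * (w1 - τ * w0 + τ ^ 2 * w1) - 2 * S * al * (1 - τ ^ 2) +
          E2 * (1 + τ ^ 2) - τ * E0 - la * (1 - τ ^ 2) + 2 * c * S * (w0 - 2 * τ * w1) +
          2 * c ^ 2 * w1 - 4 * τ * c * al) ≤
      (S * (w1 - τ * w0 + τ ^ 2 * w1) - al * (1 - τ ^ 2) + c * (w0 - 2 * τ * w1)) ^ 2 := by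
    intro τ hτ0 hτs
    have hcone : Cone (gen W n) (fun x => if x = z then -τ else 1) := by
      intro r hr h0
      -- value at the shifted point
      have hval : aeval (fun i => (((if i = z then -τ else (1 : ℝ)) + r : ℝ) : ℂ)) (gen W n) =
          (((1 + r) ^ N * (w1 + w0 * ((r - τ) / (1 + r)) +
            w1 * ((r - τ) / (1 + r)) ^ 2) : ℝ) : ℂ) := by
        have h1r : (1 + r : ℝ) ≠ 0 := by positivity
        rw [gen_aeval]
        have h2 : ∀ w, (W w : ℂ) * ∏ x, (((if x = z then -τ else (1 : ℝ)) + r : ℝ) : ℂ) ^ n w x =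
            ((W w * ((1 + r) ^ N * ((r - τ) / (1 + r)) ^ n w z) : ℝ) : ℂ) := by
          intro w
          by_cases hw : W w = 0
          · rw [hw]
            simp
          · have h3 : ∏ x, ((if x = z then -τ else (1 : ℝ)) + r) ^ n w x =
                (1 + r) ^ N * ((r - τ) / (1 + r)) ^ n w z := by
              rw [← hdeg w hw, ← Finset.prod_pow_eq_pow_sum,
                ← Finset.mul_prod_erase Finset.univ _ (Finset.mem_univ z),
                ← Finset.mul_prod_erase Finset.univ (fun x => (1 + r) ^ n w x)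
                  (Finset.mem_univ z), if_pos rfl]
              have h4 : ∏ x ∈ Finset.univ.erase z, ((if x = z then -τ else (1 : ℝ)) + r) ^ n w x =
                  ∏ x ∈ Finset.univ.erase z, (1 + r) ^ n w x := by
                refine Finset.prod_congr rfl fun x hx => ?_
                rw [if_neg (Finset.ne_of_mem_erase hx)]
              rw [h4, div_pow]
              field_simp
              ring
            rw [← h3]
            push_cast
            rfl
        simp only [h2]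
        rw [← Complex.ofReal_sum]
        congr 1
        rw [Sk_split hn z (fun k _ => (1 + r) ^ N * ((r - τ) / (1 + r)) ^ k)]
        have e0 : ∀ k : ℕ, Sk W n z k (fun _ => (1 + r) ^ N * ((r - τ) / (1 + r)) ^ k) =
            ((1 + r) ^ N * ((r - τ) / (1 + r)) ^ k) * Sk W n z k (fun _ => 1) := by
          intro k
          rw [← Sk_smul]
          simp
        rw [e0, e0, e0, h00, h10, h20]
        ring
      rw [hval] at h0
      have h1 : (1 + r) ^ N * (w1 + w0 * ((r - τ) / (1 + r)) +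
            w1 * ((r - τ) / (1 + r)) ^ 2) = 0 := by exact_mod_cast h0
      have h1r : (0 : ℝ) < 1 + r := by positivity
      rcases mul_eq_zero.1 h1 with h2 | h2
      · exact (pow_pos h1r N).ne' h2
      · set t : ℝ := (r - τ) / (1 + r) with ht
        have ht1 : -s < t := by
          rw [ht, lt_div_iff₀ h1r]
          nlinarith
        have h3 : s * (w1 + w0 * t + w1 * t ^ 2) = w1 * ((t + s) * (1 + s * t)) := by
          linear_combination (-t) * hs
        have h4 : 0 < 1 + s * t := by nlinarith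
        have h5 : 0 < w1 * ((t + s) * (1 + s * t)) := by
          have : 0 < t + s := by linarith
          positivity
        rw [h2, mul_zero] at h3
        linarith
    have h := garding_ineq (gen_hom hdeg) hst hcone (fun x => if x = z then c else a x)
    obtain ⟨l0, l1, l2⟩ := line_coeffs (W := W) hn z a ha τ c
    rw [l2, l1, l0, he', he', he', hq', hq', hq', h00, h10, h20, h0A, h1A, h2A, h0E, h1E, h2E,
      h0L, h1L, h2L] at h
    refine le_trans (le_of_eq ?_) (h.trans (le_of_eq ?_))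
    · ring
    · ring
  exact one_node_real w0 w1 al E2 E0 la S S2 c s hw1 hs0 hs1 hs hcw hfun

end law

end Vale.Agent.P361.LRO.T1
end
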