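import Mathlib
import Vale.Agent.P361.Bdl.B1
import Vale.Agent.P361.Bdl.B3
import Vale.Agent.P361.Bdl.B2

set_option linter.all false

section

/-!
P361, block (1): the limit `N → ∞` of the twist inequality.
-/

namespace Vale.Agent.P361.LRO

open Finset Matrix Filter Topology

noncomputable section

variable {V : Type} [Fintype V] [DecidableEq V]

section lim

set_option linter.unusedSectionVars false

open scoped Matrix.Norms.Operator

theorem norm_one_le_real {m : Type} [Fintype m] [DecidableEq m] : ‖(1 : Matrix m m ℝ)‖ ≤ 1 := by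
  rcases isEmpty_or_nonempty m with h | h
  · have : (1 : Matrix m m ℝ) = 0 := Subsingleton.elim _ _
    rw [this, norm_zero]
    exact zero_le_one
  · rw [norm_one]

theorem gate_first (x y : V) (β : ℝ) :
    Tendsto (fun N : ℕ => (N : ℝ) • (((1 - β / (2 * N)) •
      (1 : Matrix (V → Fin 2) (V → Fin 2) ℝ) + (β / (2 * N)) • swapM x y) - 1)) atTop
      (𝓝 (-β • hM x y)) := by
  refine Tendsto.congr' ?_ tendsto_const_nhds
  filter_upwards [eventually_gt_atTop 0] with N hN
  have hN' : (N : ℝ) ≠ 0 := by exact_mod_cast hN.ne'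
  ext σ τ
  simp only [hM, Matrix.smul_apply, Matrix.add_apply, Matrix.sub_apply, smul_eq_mul]
  field_simp
  ring

theorem slice_first (β : ℝ) (h : V → ℝ) :
    Tendsto (fun N : ℕ => (N : ℝ) • ((Matrix.diagonal fun σ : V → Fin 2 =>
      ∏ x, (1 + β * h x / (2 * N) * if σ x = 0 then 1 else -1)) - 1)) atTop
      (𝓝 (β • ∑ x, (h x / 2) • szM x)) := by
  have key : ∀ σ : V → Fin 2, Tendsto (fun N : ℕ => (N : ℝ) *
      ((∏ x, (1 + β * h x / (2 * N) * if σ x = 0 then (1 : ℝ) else -1)) - 1)) atTop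
      (𝓝 (∑ x, β * (h x / 2) * if σ x = 0 then (1 : ℝ) else -1)) := by
    intro σ
    have h1 := Trot.first_prod (R := ℝ) Finset.univ
      (fun (x : V) (N : ℕ) => 1 + β * h x / (2 * N) * if σ x = 0 then (1 : ℝ) else -1)
      (fun x => β * (h x / 2) * if σ x = 0 then (1 : ℝ) else -1) (fun x _ => by
        refine Tendsto.congr' ?_ tendsto_const_nhds
        filter_upwards [eventually_gt_atTop 0] with N hN
        have hN' : (N : ℝ) ≠ 0 := by exact_mod_cast hN.ne'
        simp only [smul_eq_mul]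
        field_simp
        ring)
    simpa only [smul_eq_mul] using h1
  have hlim : (β • ∑ x, (h x / 2) • szM x : Matrix (V → Fin 2) (V → Fin 2) ℝ) =
      Matrix.diagonal fun σ : V → Fin 2 => ∑ x, β * (h x / 2) * if σ x = 0 then (1 : ℝ) else -1 := by
    ext σ τ
    simp only [Matrix.smul_apply, Matrix.sum_apply, szM, Matrix.diagonal_apply, smul_eq_mul]
    by_cases hst : σ = τ
    · simp only [hst, if_true]
      rw [Finset.mul_sum]
      refine Finset.sum_congr rfl fun x _ => ?_
      ring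
    · simp [hst]
  rw [hlim]
  have hfun : (fun N : ℕ => (N : ℝ) • ((Matrix.diagonal fun σ : V → Fin 2 =>
      ∏ x, (1 + β * h x / (2 * N) * if σ x = 0 then (1 : ℝ) else -1)) - 1)) =
      fun N : ℕ => Matrix.diagonal fun σ : V → Fin 2 => (N : ℝ) *
      ((∏ x, (1 + β * h x / (2 * N) * if σ x = 0 then (1 : ℝ) else -1)) - 1) := by
    funext N
    ext σ τ
    simp only [Matrix.smul_apply, Matrix.sub_apply, Matrix.diagonal_apply, smul_eq_mul,
      Matrix.one_apply]
    split_ifs <;> simp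
  rw [hfun]
  have hcont : Continuous (fun d : (V → Fin 2) → ℝ => Matrix.diagonal d) :=
    continuous_id.matrix_diagonal
  exact (hcont.tendsto _).comp (tendsto_pi_nhds.2 key)

theorem stepM_first (L : List (V × V)) (β : ℝ) (h : V → ℝ) :
    Tendsto (fun N : ℕ => (N : ℝ) • (stepM L β h N - 1)) atTop (𝓝 (-β • ham L h)) := by
  have h1 := Trot.first_list (R := Matrix (V → Fin 2) (V → Fin 2) ℝ) L
    (fun e N => (1 - β / (2 * N)) • (1 : Matrix (V → Fin 2) (V → Fin 2) ℝ) +
    (β / (2 * N)) • swapM e.1 e.2) (fun e => -β • hM e.1 e.2) fun e _ => gate_first e.1 e.2 β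
  have h2 := Trot.first_mul h1 (slice_first β h)
  have h4 : ∀ M : List (V × V), (M.map fun e => -β • hM e.1 e.2).sum =
      -β • (M.map fun e => hM e.1 e.2).sum := by
    intro M
    induction M with
    | nil => simp
    | cons e M ih => rw [List.map_cons, List.sum_cons, ih, List.map_cons, List.sum_cons, smul_add]
  have h3 : (L.map fun e => -β • hM e.1 e.2).sum + (β • ∑ x, (h x / 2) • szM x) =
      -β • ham L h := by
    rw [h4, ham, smul_sub, sub_eq_add_neg, ← neg_smul (-β), neg_neg]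
  rw [h3] at h2
  exact h2

/-- **The word converges to the Gibbs operator.** -/
theorem stepM_tendsto (L : List (V × V)) (β : ℝ) (h : V → ℝ) :
    Tendsto (fun N : ℕ => stepM L β h N ^ N) atTop (𝓝 (NormedSpace.exp (-β • ham L h))) :=
  Trot.pow_tendsto_exp norm_one_le_real (stepM_first L β h)

end lim

/-- The twisted weight. -/
def ZTw (W : Matrix (V → Fin 2) (V → Fin 2) ℝ) (b : Finset V) (θ φ : ℝ) : ℝ :=
  Matrix.trace (W * rotT b θ φ)

theorem continuous_rotM (θ : ℝ) (i j : Fin 2) : Continuous fun φ : ℝ => rotM θ φ i j := by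
  fin_cases i <;> fin_cases j <;> simp only [rotM] <;> simp <;> fun_prop

theorem continuous_rotT (b : Finset V) (θ : ℝ) (σ τ : V → Fin 2) :
    Continuous fun φ : ℝ => rotT b θ φ σ τ := by
  unfold rotT
  simp only [Matrix.of_apply]
  refine continuous_finsetProd _ fun x _ => ?_
  by_cases hx : x ∈ b
  · simp only [hx, if_true]
    exact continuous_rotM θ (σ x) (τ x)
  · simp only [hx, if_false]
    exact continuous_const

theorem ZTw_eq (W : Matrix (V → Fin 2) (V → Fin 2) ℝ) (b : Finset V) (θ φ : ℝ) :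
    ZTw W b θ φ = ∑ σ, ∑ τ, W σ τ * rotT b θ φ τ σ := by
  simp only [ZTw, Matrix.trace, Matrix.diag_apply, Matrix.mul_apply]

theorem int_ZTw (W : Matrix (V → Fin 2) (V → Fin 2) ℝ) (b : Finset V) (θ : ℝ) {g : ℝ → ℝ}
    (hg : Continuous g) :
    (∫ φ in (0 : ℝ)..Real.pi, g φ * ZTw W b θ φ) =
      ∑ σ, ∑ τ, W σ τ * ∫ φ in (0 : ℝ)..Real.pi, g φ * rotT b θ φ τ σ := by
  have h1 : ∀ σ τ, Continuous fun φ => g φ * (W σ τ * rotT b θ φ τ σ) := fun σ τ =>
    hg.mul (continuous_const.mul (continuous_rotT b θ τ σ))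
  have h2 : ∀ σ, Continuous fun φ => ∑ τ, g φ * (W σ τ * rotT b θ φ τ σ) := fun σ =>
    continuous_finsetSum _ fun τ _ => h1 σ τ
  have h3 : (fun φ => g φ * ZTw W b θ φ) = fun φ => ∑ σ, ∑ τ, g φ * (W σ τ * rotT b θ φ τ σ) := by
    funext φ
    rw [ZTw_eq, Finset.mul_sum]
    exact Finset.sum_congr rfl fun σ _ => Finset.mul_sum _ _ _
  rw [h3, intervalIntegral.integral_finsetSum fun σ _ => (h2 σ).intervalIntegrable _ _]
  refine Finset.sum_congr rfl fun σ _ => ?_
  rw [intervalIntegral.integral_finsetSum fun τ _ => (h1 σ τ).intervalIntegrable _ _]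
  refine Finset.sum_congr rfl fun τ _ => ?_
  rw [← intervalIntegral.integral_const_mul]
  refine intervalIntegral.integral_congr fun φ _ => ?_
  ring

theorem tendsto_int_ZTw {W : ℕ → Matrix (V → Fin 2) (V → Fin 2) ℝ}
    {W0 : Matrix (V → Fin 2) (V → Fin 2) ℝ} (hW : Tendsto W atTop (𝓝 W0)) (b : Finset V) (θ : ℝ)
    {g : ℝ → ℝ} (hg : Continuous g) :
    Tendsto (fun N => ∫ φ in (0 : ℝ)..Real.pi, g φ * ZTw (W N) b θ φ) atTop
      (𝓝 (∫ φ in (0 : ℝ)..Real.pi, g φ * ZTw W0 b θ φ)) := by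
  simp only [int_ZTw _ b θ hg]
  refine tendsto_finsetSum _ fun σ _ => tendsto_finsetSum _ fun τ _ => ?_
  refine Tendsto.mul_const _ ?_
  have h1 := tendsto_pi_nhds.1 hW σ
  exact tendsto_pi_nhds.1 h1 τ

/-- **The limit of the twist inequality.** -/
theorem twist_limit {W : ℕ → Matrix (V → Fin 2) (V → Fin 2) ℝ}
    {W0 : Matrix (V → Fin 2) (V → Fin 2) ℝ} (hW : Tendsto W atTop (𝓝 W0)) (b : Finset V) (θ : ℝ)
    {k : ℕ → ℝ} {κ : ℝ} (hk : ∃ᶠ N in atTop, κ ≤ k N)
    (hpos : ∀ᶠ N in atTop, ∀ φ, 0 ≤ ZTw (W N) b θ φ)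
    (hin : ∀ᶠ N in atTop, k N * (∫ φ in (0 : ℝ)..Real.pi,
        Real.sin φ * (1 - Real.cos φ) * ZTw (W N) b θ φ) ≤
      ∫ φ in (0 : ℝ)..Real.pi, Real.sin φ * ZTw (W N) b θ φ) :
    κ * (∫ φ in (0 : ℝ)..Real.pi, Real.sin φ * (1 - Real.cos φ) * ZTw W0 b θ φ) ≤
      ∫ φ in (0 : ℝ)..Real.pi, Real.sin φ * ZTw W0 b θ φ := by
  have h1 := (tendsto_int_ZTw hW b θ (g := fun φ => Real.sin φ * (1 - Real.cos φ))
    (by fun_prop)).const_mul κ
  have h2 := tendsto_int_ZTw hW b θ (g := Real.sin) (by fun_prop)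
  refine le_of_tendsto_of_tendsto_of_frequently h1 h2 ?_
  refine (hk.and_eventually (hpos.and hin)).mono fun N hN => ?_
  obtain ⟨h3, h4, h5⟩ := hN
  refine le_trans (mul_le_mul_of_nonneg_right h3 ?_) h5
  refine intervalIntegral.integral_nonneg Real.pi_pos.le fun φ hφ => ?_
  have h6 := Real.sin_nonneg_of_nonneg_of_le_pi hφ.1 hφ.2
  have h7 : 0 ≤ 1 - Real.cos φ := by linarith [Real.cos_le_one φ]
  exact mul_nonneg (mul_nonneg h6 h7) (h4 φ)

end

end Vale.Agent.P361.LRO
end

section

/-! P361 LRO, dictionary: permutation network <-> products of matrices, definitions. -/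

namespace Vale.Agent.P361.LRO.Dict

open Finset Matrix

noncomputable section

variable {R : Type*} [CommRing R] [Algebra ℝ R]

section A

variable {X : Type} [Fintype X] [DecidableEq X]

/-- Loop sum of a random permutation with a general `2 × 2` matrix at every node. -/
def NZ (μ : Equiv.Perm X → ℝ) (A : X → Matrix (Fin 2) (Fin 2) R) : R :=
  ∑ π, μ π • ∑ s : X → Fin 2, ∏ z, A z (s z) (s (π z))

end A

section B

variable {V : Type} [Fintype V] [DecidableEq V]

/-- tensor product of one-site matrices -/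
def layM (A : V → Matrix (Fin 2) (Fin 2) R) : Matrix (V → Fin 2) (V → Fin 2) R :=
  Matrix.of fun σ τ => ∏ x, A x (σ x) (τ x)

/-- the swap, with entries in `R` (`= swapM` for `R = ℝ`) -/
def swapR (x y : V) : Matrix (V → Fin 2) (V → Fin 2) R :=
  Matrix.of fun σ τ => if σ = τ ∘ Equiv.swap x y then 1 else 0

theorem swapR_real (x y : V) : (swapR x y : Matrix (V → Fin 2) (V → Fin 2) ℝ) = swapM x y := rfl

/-- one gate -/
def gatR (x y : V) (p : ℝ) : Matrix (V → Fin 2) (V → Fin 2) R :=
  (1 - p) • (1 : Matrix (V → Fin 2) (V → Fin 2) R) + p • swapR x y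

/-- all gates between two layers -/
def gatM (L : List (V × V)) (p : ℝ) : Matrix (V → Fin 2) (V → Fin 2) R :=
  (L.reverse.map fun e => gatR e.1 e.2 p).prod

/-- `down f n = f n * f (n-1) * ⋯ * f 1`. -/
def down {M : Type*} [Monoid M] (f : ℕ → M) : ℕ → M
  | 0 => 1
  | n + 1 => f (n + 1) * down f n

end B

end

end Vale.Agent.P361.LRO.Dict
end

section

/-!
P361, bridge between the charge networks and words of matrices: tensor products, permutation
matrices, the sum over the random permutation.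
-/

namespace Vale.Agent.P361.LRO.Br

open Finset Matrix

noncomputable section

section tens

set_option linter.unusedSectionVars false

variable {X : Type} [Fintype X] [DecidableEq X] {R : Type*} [CommRing R]

/-- Tensor product of the matrices `A x`. -/
def tens (A : X → Matrix (Fin 2) (Fin 2) R) : Matrix (X → Fin 2) (X → Fin 2) R :=
  Matrix.of fun s t => ∏ x, A x (s x) (t x)

theorem tens_apply (A : X → Matrix (Fin 2) (Fin 2) R) (s t : X → Fin 2) :
    tens A s t = ∏ x, A x (s x) (t x) := rfl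

theorem tens_mul (A B : X → Matrix (Fin 2) (Fin 2) R) :
    tens A * tens B = tens fun x => A x * B x := by
  ext s t
  rw [Matrix.mul_apply, tens_apply]
  simp only [tens_apply, Matrix.mul_apply]
  rw [Finset.prod_univ_sum, Fintype.piFinset_univ]
  exact Finset.sum_congr rfl fun u _ => (Finset.prod_mul_distrib).symm

theorem tens_one : tens (fun _ : X => (1 : Matrix (Fin 2) (Fin 2) R)) = 1 := by
  ext s t
  rw [tens_apply]
  by_cases h : s = t
  · subst h
    simp
  · rw [Matrix.one_apply_ne h]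
    obtain ⟨x, hx⟩ := Function.ne_iff.1 h
    exact Finset.prod_eq_zero (Finset.mem_univ x) (Matrix.one_apply_ne hx)

/-- Permutation matrix. -/
def permM (σ : Equiv.Perm X) : Matrix (X → Fin 2) (X → Fin 2) R :=
  Matrix.of fun s t => if s = t ∘ σ then 1 else 0

theorem permM_apply (σ : Equiv.Perm X) (s t : X → Fin 2) :
    (permM σ : Matrix (X → Fin 2) (X → Fin 2) R) s t = if s = t ∘ σ then 1 else 0 := rfl

theorem mul_permM (M : Matrix (X → Fin 2) (X → Fin 2) R) (σ : Equiv.Perm X) (s t : X → Fin 2) :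
    (M * (permM σ : Matrix (X → Fin 2) (X → Fin 2) R)) s t = M s (t ∘ σ) := by
  rw [Matrix.mul_apply]
  simp only [permM_apply, mul_ite, mul_one, mul_zero]
  rw [Finset.sum_ite_eq' Finset.univ (t ∘ σ) (fun u => M s u), if_pos (Finset.mem_univ _)]

theorem permM_mul_apply (M : Matrix (X → Fin 2) (X → Fin 2) R) (σ : Equiv.Perm X)
    (s t : X → Fin 2) : ((permM σ : Matrix (X → Fin 2) (X → Fin 2) R) * M) s t =
      M (s ∘ (σ⁻¹ : Equiv.Perm X)) t := by
  rw [Matrix.mul_apply]
  simp only [permM_apply, ite_mul, one_mul, zero_mul]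
  have h : ∀ u : X → Fin 2, s = u ∘ σ ↔ u = s ∘ (σ⁻¹ : Equiv.Perm X) := by
    intro u
    constructor
    · rintro rfl
      funext x
      simp
    · rintro rfl
      funext x
      simp
  simp only [h]
  rw [Finset.sum_ite_eq' Finset.univ (s ∘ ⇑σ⁻¹) (fun u => M u t), if_pos (Finset.mem_univ _)]

theorem permM_mul (σ τ : Equiv.Perm X) :
    (permM σ * permM τ : Matrix (X → Fin 2) (X → Fin 2) R) = permM (τ * σ) := by
  ext s t
  rw [mul_permM, permM_apply, permM_apply]
  rfl

theorem permM_one : (permM 1 : Matrix (X → Fin 2) (X → Fin 2) R) = 1 := by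
  ext s t
  rw [permM_apply, Matrix.one_apply]
  rfl

/-- Permutations move the factors. -/
theorem permM_tens (σ : Equiv.Perm X) (A : X → Matrix (Fin 2) (Fin 2) R) :
    (permM σ : Matrix (X → Fin 2) (X → Fin 2) R) * tens A =
      tens (fun x => A (σ x)) * permM σ := by
  ext s t
  rw [permM_mul_apply, mul_permM, tens_apply, tens_apply]
  refine (Fintype.prod_equiv σ _ _ fun x => ?_).symm
  simp

/-- All nodes in the same basis. -/
theorem permM_comm (σ : Equiv.Perm X) (U : Matrix (Fin 2) (Fin 2) R) :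
    (permM σ : Matrix (X → Fin 2) (X → Fin 2) R) * tens (fun _ => U) =
      tens (fun _ => U) * permM σ := permM_tens σ _

theorem trace_perm (A : X → Matrix (Fin 2) (Fin 2) R) (π : Equiv.Perm X) :
    Matrix.trace (tens A * permM π) = ∑ s : X → Fin 2, ∏ z, A z (s z) (s (π z)) := by
  rw [Matrix.trace]
  refine Finset.sum_congr rfl fun s _ => ?_
  rw [Matrix.diag_apply, mul_permM, tens_apply]
  rfl

variable [Algebra ℝ R]

/-- The partition function with the node matrices `A`. -/
def NZ (μ : Equiv.Perm X → ℝ) (A : X → Matrix (Fin 2) (Fin 2) R) : R :=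
  ∑ π, μ π • ∑ s : X → Fin 2, ∏ z, A z (s z) (s (π z))

/-- The average of the permutation matrices. -/
def avM (μ : Equiv.Perm X → ℝ) : Matrix (X → Fin 2) (X → Fin 2) R := ∑ π, μ π • permM π

theorem NZ_eq (μ : Equiv.Perm X → ℝ) (A : X → Matrix (Fin 2) (Fin 2) R) :
    NZ μ A = Matrix.trace (tens A * avM μ) := by
  unfold NZ avM
  rw [Matrix.mul_sum, Matrix.trace_sum]
  refine Finset.sum_congr rfl fun π _ => ?_
  rw [Matrix.mul_smul, Matrix.trace_smul, trace_perm]

theorem avM_comm (μ : Equiv.Perm X → ℝ) (U : Matrix (Fin 2) (Fin 2) R) :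
    avM μ * tens (fun _ : X => U) = tens (fun _ => U) * avM μ := by
  unfold avM
  rw [Matrix.sum_mul, Matrix.mul_sum]
  refine Finset.sum_congr rfl fun π _ => ?_
  rw [Matrix.smul_mul, Matrix.mul_smul, permM_comm]

/-- **Change of basis.** -/
theorem NZ_conj (μ : Equiv.Perm X → ℝ) (A : X → Matrix (Fin 2) (Fin 2) R)
    {U W : Matrix (Fin 2) (Fin 2) R} (h : W * U = 1) :
    NZ μ (fun x => U * A x * W) = NZ μ A := by
  rw [NZ_eq, NZ_eq, ← tens_mul, ← tens_mul, Matrix.mul_assoc, ← avM_comm, ← Matrix.mul_assoc,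
    Matrix.trace_mul_comm, ← Matrix.mul_assoc, ← Matrix.mul_assoc, tens_mul]
  simp only [h]
  rw [tens_one, Matrix.one_mul]

/-- A gate. -/
def gM (g : X × X × ℝ) : Matrix (X → Fin 2) (X → Fin 2) R :=
  (1 - g.2.2) • (1 : Matrix (X → Fin 2) (X → Fin 2) R) +
    g.2.2 • (permM (Equiv.swap g.1 g.2.1) : Matrix (X → Fin 2) (X → Fin 2) R)

theorem avM_law (l : List (X × X × ℝ)) (σ : Equiv.Perm X) :
    (avM (law l σ) : Matrix (X → Fin 2) (X → Fin 2) R) =
      permM σ * ((l.map fun g => (gM g : Matrix (X → Fin 2) (X → Fin 2) R)).reverse).prod := by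
  induction l with
  | nil =>
    unfold avM law
    rw [Finset.sum_eq_single σ]
    · simp
    · intro π _ h
      simp [h]
    · intro h
      exact absurd (Finset.mem_univ σ) h
  | cons g l ih =>
    have h1 : (avM (law (g :: l) σ) : Matrix (X → Fin 2) (X → Fin 2) R) =
        avM (law l σ) * gM g := by
      unfold avM gM
      rw [Matrix.mul_add, Matrix.mul_smul, Matrix.mul_smul, Matrix.mul_one, Matrix.sum_mul,
        Finset.smul_sum, Finset.smul_sum]
      have h2 : ∀ π : Equiv.Perm X, law (g :: l) σ π =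
          (1 - g.2.2) * law l σ π + g.2.2 * law l σ (Equiv.swap g.1 g.2.1 * π) := fun π => rfl
      simp only [h2, add_smul, mul_smul]
      rw [Finset.sum_add_distrib]
      congr 1
      refine Fintype.sum_equiv (Equiv.mulLeft (Equiv.swap g.1 g.2.1)) _ _ fun π => ?_
      rw [Equiv.coe_mulLeft, Matrix.smul_mul, permM_mul, ← mul_assoc, Equiv.swap_mul_self, one_mul]
    rw [h1, ih, List.map_cons, List.reverse_cons, List.prod_append, List.prod_singleton,
      Matrix.mul_assoc]

/-- **Traces of words on the large space.** -/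
theorem NZ_law (l : List (X × X × ℝ)) (σ : Equiv.Perm X) (A : X → Matrix (Fin 2) (Fin 2) R) :
    NZ (law l σ) A = Matrix.trace (tens A * permM σ *
      ((l.map fun g => (gM g : Matrix (X → Fin 2) (X → Fin 2) R)).reverse).prod) := by
  rw [NZ_eq, avM_law, Matrix.mul_assoc]

end tens

end

end Vale.Agent.P361.LRO.Br
end

section

/-!
P361, block (1): the twisted dictionary. `∑ μ wt cos (φ Q_B)` is the loop sum with the
slices `1 + θ (cos φ σ³ + sin φ σ¹)` on `B` and `1 + θ σ³` off `B`.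
-/

namespace Vale.Agent.P361.LRO

open Finset Matrix

noncomputable section

variable {X : Type} [Fintype X] [DecidableEq X]

/-- The slice in the charge picture with the twist `c = e^{iφ}`. -/
def chA (θ : ℝ) (c d : ℂ) : Matrix (Fin 2) (Fin 2) ℂ := !![1, θ * d; θ * c, 1]

theorem chA_apply (θ φ : ℝ) (a b : Fin 2) :
    chA θ (Complex.exp (φ * Complex.I)) (Complex.exp (-(φ * Complex.I))) a b =
      ((if a = b then 1 else θ : ℝ) : ℂ) *
        Complex.exp ((φ * (((a : ℕ) : ℝ) - ((b : ℕ) : ℝ)) : ℝ) * Complex.I) := by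
  fin_cases a <;> fin_cases b <;> simp [chA] 

theorem chA_apply_one (θ : ℝ) (a b : Fin 2) :
    chA θ 1 1 a b = ((if a = b then 1 else θ : ℝ) : ℂ) := by
  fin_cases a <;> fin_cases b <;> simp [chA]

def rotU : Matrix (Fin 2) (Fin 2) ℂ := !![1, 1; Complex.I, -Complex.I]
def rotW : Matrix (Fin 2) (Fin 2) ℂ := !![1 / 2, -Complex.I / 2; 1 / 2, Complex.I / 2]

theorem rotW_mul_rotU : rotW * rotU = 1 := by
  unfold rotW rotU
  ext i j
  fin_cases i <;> fin_cases j <;> simp [Matrix.mul_apply, Fin.sum_univ_two] <;> ring_nf <;>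
    simp [Complex.I_sq] <;> norm_num

theorem rotU_chA (θ φ : ℝ) :
    rotU * chA θ (Complex.exp (φ * Complex.I)) (Complex.exp (-(φ * Complex.I))) * rotW =
      (rotM θ φ).map (algebraMap ℝ ℂ) := by
  have h1 : Complex.exp (φ * Complex.I) = Complex.cos φ + Complex.sin φ * Complex.I := by
    rw [Complex.exp_mul_I]
  have h2 : Complex.exp (-(φ * Complex.I)) = Complex.cos φ - Complex.sin φ * Complex.I := by
    rw [← neg_mul, Complex.exp_mul_I, Complex.cos_neg, Complex.sin_neg]
    ring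
  rw [h1, h2]
  unfold rotU rotW chA rotM
  ext i j
  fin_cases i <;> fin_cases j <;>
    simp [Matrix.mul_apply, Fin.sum_univ_two] <;> ring_nf <;> simp [Complex.I_sq] <;> ring

theorem rotU_chA_one (θ : ℝ) :
    rotU * chA θ 1 1 * rotW = (rotM θ 0).map (algebraMap ℝ ℂ) := by
  have h := rotU_chA θ 0
  simpa using h

/-- The slices in the spin picture. -/
def spA (θ : X → ℝ) (B : Finset X) (φ : ℝ) (z : X) : Matrix (Fin 2) (Fin 2) ℝ :=
  if z ∈ B then rotM (θ z) φ else rotM (θ z) 0

/-- The slices in the charge picture. -/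
def caA (θ : X → ℝ) (B : Finset X) (φ : ℝ) (z : X) : Matrix (Fin 2) (Fin 2) ℂ :=
  if z ∈ B then chA (θ z) (Complex.exp (φ * Complex.I)) (Complex.exp (-(φ * Complex.I)))
  else chA (θ z) 1 1

omit [Fintype X] in
theorem rotU_caA (θ : X → ℝ) (B : Finset X) (φ : ℝ) (z : X) :
    rotU * caA θ B φ z * rotW = (spA θ B φ z).map (algebraMap ℝ ℂ) := by
  unfold caA spA
  split_ifs
  · exact rotU_chA _ _
  · exact rotU_chA_one _

theorem prod_caA (θ : X → ℝ) (B : Finset X) (φ : ℝ) (π : Equiv.Perm X) (s : X → Fin 2) :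
    ∏ z, caA θ B φ z (s z) (s (π z)) =
      (wt θ π s : ℂ) * Complex.exp ((φ * ∑ z ∈ B, jj π s z : ℝ) * Complex.I) := by
  have h1 : ∀ z, caA θ B φ z (s z) (s (π z)) =
      ((if s z = s (π z) then 1 else θ z : ℝ) : ℂ) *
        (if z ∈ B then Complex.exp ((φ * jj π s z : ℝ) * Complex.I) else 1) := by
    intro z
    unfold caA jj
    by_cases hz : z ∈ B
    · rw [if_pos hz, if_pos hz, chA_apply]
    · rw [if_neg hz, if_neg hz, chA_apply_one, mul_one]
  simp only [h1, Finset.prod_mul_distrib]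
  congr 1
  · unfold wt
    push_cast
    rfl
  · rw [Finset.prod_ite_mem, Finset.univ_inter, ← Complex.exp_sum]
    congr 1
    rw [Finset.mul_sum]
    push_cast
    rw [Finset.sum_mul]

/-- **Twisted dictionary**: `∑ μ wt cos (φ Q_B)` in the spin picture. -/
theorem Zf_eq_NZ (μ : Equiv.Perm X → ℝ) (θ : X → ℝ) (B : Finset X) (φ : ℝ) :
    Zf μ θ B φ = Dict.NZ μ (spA θ B φ) := by
  have h1 : (Br.NZ μ (caA θ B φ)) = Br.NZ μ (fun z => (spA θ B φ z).map (algebraMap ℝ ℂ)) := by
    rw [← Br.NZ_conj μ (caA θ B φ) rotW_mul_rotU]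
    congr 1
    funext z
    exact rotU_caA θ B φ z
  have h2 : Br.NZ μ (fun z => (spA θ B φ z).map (algebraMap ℝ ℂ)) =
      ((Dict.NZ μ (spA θ B φ) : ℝ) : ℂ) := by
    unfold Br.NZ Dict.NZ
    push_cast
    refine Finset.sum_congr rfl fun π _ => ?_
    rw [smul_eq_mul, Complex.ofReal_mul, Complex.real_smul]
    congr 1
    push_cast
    rfl
  have h3 : (Br.NZ μ (caA θ B φ)).re = Zf μ θ B φ := by
    unfold Br.NZ Zf
    rw [Complex.re_sum]
    refine Finset.sum_congr rfl fun π _ => ?_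
    rw [Complex.real_smul, Complex.re_ofReal_mul, Complex.re_sum, Finset.mul_sum]
    refine Finset.sum_congr rfl fun s _ => ?_
    rw [prod_caA, Complex.re_ofReal_mul, Complex.exp_ofReal_mul_I_re]
    ring
  rw [← h3, h1, h2, Complex.ofReal_re]

end

end Vale.Agent.P361.LRO
end

section

/-! P361 LRO, dictionary: layers and the trace formula. -/

namespace Vale.Agent.P361.LRO.Dict

open Finset Matrix

noncomputable section

variable {R : Type*} [CommRing R] [Algebra ℝ R]

section B

variable {V : Type} [Fintype V] [DecidableEq V] {N : ℕ}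

/-- tensor product over the layers -/
def tens (A : Fin (N + 1) → Matrix (V → Fin 2) (V → Fin 2) R)
    (s t : Fin (N + 1) × V → Fin 2) : R :=
  ∏ k, A k (fun x => s (k, x)) (fun x => t (k, x))

omit [Algebra ℝ R] in
theorem swapR_mul_apply (x y : V) (A : Matrix (V → Fin 2) (V → Fin 2) R) (σ τ : V → Fin 2) :
    (swapR x y * A : Matrix (V → Fin 2) (V → Fin 2) R) σ τ = A (σ ∘ Equiv.swap x y) τ := by
  rw [Matrix.mul_apply, Finset.sum_eq_single (σ ∘ Equiv.swap x y)]
  · have : σ = (σ ∘ Equiv.swap x y) ∘ Equiv.swap x y := by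
      funext z; simp
    rw [swapR, Matrix.of_apply, if_pos this, one_mul]
  · intro ρ _ hρ
    rw [swapR, Matrix.of_apply, if_neg, zero_mul]
    intro h
    apply hρ
    rw [h]; funext z; simp
  · simp

theorem gateOp_tens (k : Fin (N + 1)) (x y : V) (p : ℝ)
    (A : Fin (N + 1) → Matrix (V → Fin 2) (V → Fin 2) R) :
    gateOp ((k, x), (k, y), p) (tens A) = tens (Function.update A k (gatR x y p * A k)) := by
  funext s t
  have hprod : ∀ (B : Fin (N + 1) → Matrix (V → Fin 2) (V → Fin 2) R)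
      (s : Fin (N + 1) × V → Fin 2), tens B s t
      = B k (fun x => s (k, x)) (fun x => t (k, x)) *
        ∏ j ∈ Finset.univ.erase k, B j (fun x => s (j, x)) (fun x => t (j, x)) := by
    intro B s
    exact (Finset.mul_prod_erase Finset.univ
      (fun j => B j (fun x => s (j, x)) (fun x => t (j, x))) (Finset.mem_univ k)).symm
  have h1 : (fun z => (s ∘ Equiv.swap (k, x) (k, y)) (k, z))
      = (fun z => s (k, z)) ∘ Equiv.swap x y := by
    funext z
    simp only [Function.comp_apply]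
    congr 1
    rcases eq_or_ne z x with rfl | hx
    · simp
    · rcases eq_or_ne z y with rfl | hy
      · simp
      · rw [Equiv.swap_apply_of_ne_of_ne hx hy, Equiv.swap_apply_of_ne_of_ne]
        · simpa using hx
        · simpa using hy
  have h2 : ∀ j ∈ Finset.univ.erase k, (fun z => (s ∘ Equiv.swap (k, x) (k, y)) (j, z))
      = (fun z => s (j, z)) := by
    intro j hj
    have hjk : j ≠ k := Finset.ne_of_mem_erase hj
    funext z
    simp only [Function.comp_apply]
    rw [Equiv.swap_apply_of_ne_of_ne]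
    · simp [hjk]
    · simp [hjk]
  have e2 : ∏ j ∈ Finset.univ.erase k, A j (fun x_1 => (s ∘ Equiv.swap (k, x) (k, y)) (j, x_1))
        (fun x => t (j, x)) = ∏ j ∈ Finset.univ.erase k, A j (fun x => s (j, x)) (fun x => t (j, x)) :=
    Finset.prod_congr rfl fun j hj => by rw [h2 j hj]
  have e3 : ∏ j ∈ Finset.univ.erase k, (Function.update A k (gatR x y p * A k)) j
      (fun x => s (j, x)) (fun x => t (j, x))
      = ∏ j ∈ Finset.univ.erase k, A j (fun x => s (j, x)) (fun x => t (j, x)) :=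
    Finset.prod_congr rfl fun j hj => by rw [Function.update_of_ne (Finset.ne_of_mem_erase hj)]
  simp only [gateOp]
  rw [hprod A s, hprod A (s ∘ _), hprod (Function.update A k _) s, h1, e2, e3,
    Function.update_self, gatR, Matrix.add_mul, Matrix.add_apply, Matrix.smul_mul, Matrix.smul_mul,
    Matrix.smul_apply, Matrix.smul_apply, one_mul, swapR_mul_apply, add_mul, smul_mul_assoc,
    smul_mul_assoc]

/-- the gates of the layer `k` -/
theorem actL_layer (k : Fin (N + 1)) (L : List (V × V)) (p : ℝ)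
    (A : Fin (N + 1) → Matrix (V → Fin 2) (V → Fin 2) R) :
    actL (L.map fun e => ((k, e.1), (k, e.2), p)) (tens A)
      = tens (Function.update A k (gatM L p * A k)) := by
  induction L generalizing A with
  | nil =>
    have : gatM (R := R) ([] : List (V × V)) p = 1 := rfl
    rw [this, one_mul, Function.update_eq_self]
    rfl
  | cons e L ih =>
    have h1 : actL ((e :: L).map fun e => ((k, e.1), (k, e.2), p)) (tens A)
        = actL (L.map fun e => ((k, e.1), (k, e.2), p))
          (gateOp ((k, e.1), (k, e.2), p) (tens A)) := rfl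
    have h2 : gatM (R := R) (e :: L) p = gatM L p * gatR e.1 e.2 p := by
      simp [gatM, List.reverse_cons, List.map_append, List.prod_append]
    rw [h1, gateOp_tens, ih, Function.update_self, Function.update_idem, h2, mul_assoc]

theorem actL_append {X : Type} [Fintype X] [DecidableEq X] (l₁ l₂ : List (X × X × ℝ))
    (T : (X → Fin 2) → (X → Fin 2) → R) : actL (l₁ ++ l₂) T = actL l₂ (actL l₁ T) := by
  simp [actL, List.foldl_append]

theorem actL_layers (ks : List (Fin (N + 1))) (hks : ks.Nodup) (L : List (V × V)) (p : ℝ)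
    (A : Fin (N + 1) → Matrix (V → Fin 2) (V → Fin 2) R) :
    actL (ks.flatMap fun k => L.map fun e => ((k, e.1), (k, e.2), p)) (tens A)
      = tens (fun k => if k ∈ ks then gatM L p * A k else A k) := by
  induction ks generalizing A with
  | nil => simp [actL]
  | cons k ks ih =>
    rw [List.flatMap_cons, actL_append, actL_layer, ih (List.nodup_cons.1 hks).2]
    congr 1
    funext j
    have hk := (List.nodup_cons.1 hks).1
    by_cases hj : j = k
    · subst hj
      simp [hk]
    · simp [hj, Function.update_of_ne hj]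

theorem actL_gates (L : List (V × V)) (p : ℝ)
    (A : Fin (N + 1) → Matrix (V → Fin 2) (V → Fin 2) R) :
    actL (gates L N p) (tens A)
      = tens (fun k => if k = Fin.last N then A k else gatM L p * A k) := by
  have h1 : gates L N p = ((List.finRange N).map Fin.castSucc).flatMap
      fun k => L.map fun e => ((k, e.1), (k, e.2), p) := by
    rw [gates, List.flatMap_map]
  rw [h1, actL_layers _ ((List.nodup_finRange N).map (Fin.castSucc_injective N))]
  congr 1
  funext k
  by_cases hk : k = Fin.last N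
  · subst hk
    simp [Fin.castSucc_ne_last]
  · obtain ⟨j, rfl⟩ := Fin.exists_castSucc_eq.2 hk
    simp [hk, List.mem_finRange]

end B

end

end Vale.Agent.P361.LRO.Dict
end

section

/-! P361 LRO, dictionary (D2): the trace formula of the physical circuit. -/

namespace Vale.Agent.P361.LRO.Dict

open Finset Matrix

noncomputable section

section down

variable {M : Type*} [Monoid M]

theorem reverse_prod_eq_down (n : ℕ) (f : ℕ → M) :
    ((List.ofFn fun k : Fin n => f (k + 1)).reverse).prod = down f n := by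
  induction n with
  | zero => simp [down]
  | succ n ih =>
    rw [List.ofFn_succ', List.concat_eq_append, List.reverse_append, List.reverse_singleton,
      List.singleton_append, List.prod_cons]
    simp only [Fin.val_last, Fin.val_castSucc]
    rw [ih]; rfl

theorem down_swap (G : M) (T : ℕ → M) (n : ℕ) :
    down (fun k => G * T k) n * G = G * down (fun k => T k * G) n := by
  induction n with
  | zero => simp [down]
  | succ n ih =>
    simp only [down]
    rw [mul_assoc (G * T (n + 1)), ih]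
    simp only [mul_assoc]

theorem down_congr {f g : ℕ → M} {n : ℕ} (h : ∀ k, 1 ≤ k → k ≤ n → f k = g k) :
    down f n = down g n := by
  induction n with
  | zero => rfl
  | succ n ih =>
    simp only [down]
    rw [ih fun k h1 h2 => h k h1 (by omega), h (n + 1) (by omega) le_rfl]

theorem down_const (a : M) (n : ℕ) : down (fun _ => a) n = a ^ n := by
  induction n with
  | zero => simp [down]
  | succ n ih => simp only [down]; rw [ih, pow_succ']

theorem down_split (f : ℕ → M) (m n : ℕ) :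
    down f (m + n) = down (fun k => f (n + k)) m * down f n := by
  induction m with
  | zero => simp [down]
  | succ m ih =>
    have : m + 1 + n = (m + n) + 1 := by omega
    rw [this]
    simp only [down]
    rw [ih, mul_assoc]
    congr 2
    omega

end down

variable {R : Type} [CommRing R] [Algebra ℝ R]

section B

variable {V : Type} [Fintype V] [DecidableEq V] {N : ℕ}

omit [Algebra ℝ R] in
theorem sum_tens_base (B : Fin (N + 1) → Matrix (V → Fin 2) (V → Fin 2) R) :
    ∑ s : Fin (N + 1) × V → Fin 2, tens B s (s ∘ base N)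
      = Matrix.trace (B 0 * ((List.ofFn fun k : Fin N => B k.succ).reverse).prod) := by
  classical
  rw [← Br.cyclic, ← (Equiv.curry (Fin (N + 1)) V (Fin 2)).sum_comp]
  rfl

/-- (D2) The trace formula. -/
theorem NZ_phys (L : List (V × V)) (β : ℝ) (N : ℕ)
    (A : Fin (N + 1) × V → Matrix (Fin 2) (Fin 2) R) :
    NZ (phys L β N) A = Matrix.trace
      (down (fun k => layM (fun x => A (Fin.ofNat (N + 1) k, x)) * gatM L (β / (2 * N))) N *
        layM (fun x => A (0, x))) := by
  set p : ℝ := β / (2 * N) with hp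
  set T : Fin (N + 1) → Matrix (V → Fin 2) (V → Fin 2) R := fun k => layM fun x => A (k, x)
    with hT
  have h0 : NZ (phys L β N) A
      = ∑ π, law (gates L N p) (base N) π • ∑ s : Fin (N + 1) × V → Fin 2, tens T s (s ∘ π) := by
    rw [NZ, phys]
    refine Finset.sum_congr rfl fun π _ => ?_
    congr 1
    refine Finset.sum_congr rfl fun s _ => ?_
    rw [tens, Fintype.prod_prod_type]
    rfl
  rw [h0, law_sum, actL_gates, sum_tens_base]
  rcases N with _ | n
  · simp [down, hT]
  · have e0 : (if (0 : Fin (n + 1 + 1)) = Fin.last (n + 1) then T 0 else gatM L p * T 0)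
        = gatM L p * T 0 := by
      rw [if_neg]
      exact (Fin.last_pos).ne
    have e1 : ((List.ofFn fun k : Fin (n + 1) => (fun k : Fin (n + 1 + 1) =>
        if k = Fin.last (n + 1) then T k else gatM L p * T k) k.succ).reverse).prod
        = T (Fin.last (n + 1)) * down (fun k => gatM L p * T (Fin.ofNat (n + 1 + 1) k)) n := by
      rw [List.ofFn_succ', List.concat_eq_append, List.reverse_append, List.reverse_singleton,
        List.singleton_append, List.prod_cons]
      congr 1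
      · simp
      · rw [← reverse_prod_eq_down]
        congr 3
        funext k
        have hk : k.castSucc.succ ≠ Fin.last (n + 1) := by
          intro h
          have := congrArg Fin.val h
          simp at this
          omega
        have hk' : k.castSucc.succ = Fin.ofNat (n + 1 + 1) ((k : ℕ) + 1) := by
          apply Fin.ext
          rw [Fin.val_ofNat, Nat.mod_eq_of_lt (by omega)]
          simp
        simp only [if_neg hk]
        rw [hk']
    have elast : Fin.ofNat (n + 1 + 1) (n + 1) = Fin.last (n + 1) := by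
      apply Fin.ext
      rw [Fin.val_ofNat, Nat.mod_eq_of_lt (by omega)]
      simp
    simp only [e0] at *
    rw [e1]
    rw [Matrix.trace_mul_comm (gatM L p * T 0)]
    have e2 : T (Fin.last (n + 1)) * down (fun k => gatM L p * T (Fin.ofNat (n + 1 + 1) k)) n *
        (gatM L p * T 0)
        = down (fun k => T (Fin.ofNat (n + 1 + 1) k) * gatM L p) (n + 1) * T 0 := by
      rw [← mul_assoc, mul_assoc (T (Fin.last (n + 1))), down_swap, ← mul_assoc, down, elast]
      
    rw [e2]

end B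

end

end Vale.Agent.P361.LRO.Dict
end

section

/-!
P361, block (1): the twisted partition function of the physical circuit is
`Tr (stepM ^ N * rotT)`.
-/

namespace Vale.Agent.P361.LRO

open Finset Matrix

noncomputable section

variable {V : Type} [Fintype V] [DecidableEq V]

theorem rotM_zero_zero : rotM 0 0 = 1 := by
  unfold rotM
  ext i j
  fin_cases i <;> fin_cases j <;> simp

theorem rotM_zero_apply (θ : ℝ) (a b : Fin 2) :
    rotM θ 0 a b = if a = b then 1 + θ * (if a = 0 then 1 else -1) else 0 := by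
  unfold rotM
  fin_cases a <;> fin_cases b <;> simp <;> ring

theorem rotM_symm (θ φ : ℝ) (a b : Fin 2) : rotM θ φ a b = rotM θ φ b a := by
  unfold rotM
  fin_cases a <;> fin_cases b <;> simp

/-- The diagonal slice. -/
def diaM (β : ℝ) (h : V → ℝ) (N : ℕ) : Matrix (V → Fin 2) (V → Fin 2) ℝ :=
  Matrix.diagonal fun σ : V → Fin 2 => ∏ x, (1 + β * h x / (2 * N) * if σ x = 0 then 1 else -1)

theorem layM_phys (K β : ℝ) (h : V → ℝ) (b : Finset V) (N : ℕ) (φ : ℝ) {k : ℕ} (h1 : 1 ≤ k)
    (h2 : k ≤ N) :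
    Dict.layM (fun x => spA (th β N h (blk K b)) (hatb N b) φ (Fin.ofNat (N + 1) k, x)) =
      diaM β h N := by
  have hk : Fin.ofNat (N + 1) k ≠ 0 := by
    intro h0
    have h3 := congrArg Fin.val h0
    simp only [Fin.ofNat, Fin.val_zero] at h3
    rw [Nat.mod_eq_of_lt (by omega)] at h3
    omega
  ext σ τ
  unfold Dict.layM diaM
  rw [Matrix.of_apply, Matrix.diagonal_apply]
  have h4 : ∀ x, spA (th β N h (blk K b)) (hatb N b) φ (Fin.ofNat (N + 1) k, x) (σ x) (τ x) =
      if σ x = τ x then 1 + β * h x / (2 * N) * (if σ x = 0 then 1 else -1) else 0 := by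
    intro x
    unfold spA hatb
    rw [if_neg (by
      simp only [Finset.mem_product, Finset.mem_singleton, not_and]
      exact fun h5 => absurd h5 hk)]
    rw [rotM_zero_apply]
    unfold th
    simp only [if_neg hk]
  simp only [h4]
  by_cases hst : σ = τ
  · subst hst
    simp
  · rw [if_neg hst]
    obtain ⟨x, hx⟩ := Function.ne_iff.1 hst
    exact Finset.prod_eq_zero (Finset.mem_univ x) (if_neg hx)

theorem layM_zero (K β : ℝ) (h : V → ℝ) (b : Finset V) (N : ℕ) (φ : ℝ) :
    Dict.layM (fun x => spA (th β N h (blk K b)) (hatb N b) φ (0, x)) =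
      rotT b (Real.tanh (K / (2 * b.card))) φ := by
  ext σ τ
  unfold Dict.layM rotT
  rw [Matrix.of_apply, Matrix.of_apply]
  refine Finset.prod_congr rfl fun x _ => ?_
  unfold spA hatb th blk
  by_cases hx : x ∈ b
  · simp [hx]
  · simp only [Finset.mem_product, Finset.mem_singleton, hx, and_false, if_false, if_true]
    rw [rotM_zero_zero, Matrix.one_apply]

theorem swapM_transposeR (x y : V) : (swapM x y)ᵀ = swapM x y := by
  ext σ τ
  unfold swapM
  rw [Matrix.transpose_apply, Matrix.of_apply, Matrix.of_apply]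
  congr 1
  apply propext
  constructor
  · rintro rfl
    funext z
    simp
  · rintro rfl
    funext z
    simp

theorem gatM_transpose (L : List (V × V)) (p : ℝ) :
    (Dict.gatM L p : Matrix (V → Fin 2) (V → Fin 2) ℝ)ᵀ =
      (L.map fun e => (1 - p) • (1 : Matrix (V → Fin 2) (V → Fin 2) ℝ) + p • swapM e.1 e.2).prod := by
  unfold Dict.gatM
  rw [Matrix.transpose_list_prod]
  congr 1
  rw [List.map_map, ← List.map_reverse, List.reverse_reverse]
  refine List.map_congr_left fun e _ => ?_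
  simp only [Function.comp_apply]
  unfold Dict.gatR
  rw [Dict.swapR_real, Matrix.transpose_add, Matrix.transpose_smul, Matrix.transpose_smul,
    Matrix.transpose_one, swapM_transposeR]

theorem rotT_transpose (b : Finset V) (t φ : ℝ) : (rotT b t φ)ᵀ = rotT b t φ := by
  ext σ τ
  unfold rotT
  rw [Matrix.transpose_apply, Matrix.of_apply, Matrix.of_apply]
  refine Finset.prod_congr rfl fun x _ => ?_
  split_ifs with h1 h2 h3
  · exact rotM_symm _ _ _ _
  · rfl
  · exact absurd h2.symm h3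
  · rename_i h4
    exact absurd h4.symm h2
  · rfl

/-- **Twisted dictionary for the physical circuit.** -/
theorem Zf_phys (L : List (V × V)) (β : ℝ) (h : V → ℝ) (K : ℝ) (b : Finset V) (N : ℕ) (φ : ℝ) :
    Zf (phys L β N) (th β N h (blk K b)) (hatb N b) φ =
      Matrix.trace (stepM L β h N ^ N * rotT b (Real.tanh (K / (2 * b.card))) φ) := by
  rw [Zf_eq_NZ, Dict.NZ_phys, layM_zero]
  rw [Dict.down_congr (g := fun _ => diaM β h N * Dict.gatM L (β / (2 * N))) (fun k h1 h2 => by
    rw [layM_phys K β h b N φ h1 h2]), Dict.down_const]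
  rw [← Matrix.trace_transpose, Matrix.transpose_mul, Matrix.transpose_pow, Matrix.transpose_mul,
    gatM_transpose, rotT_transpose, Matrix.trace_mul_comm]
  unfold diaM
  rw [Matrix.diagonal_transpose]
  rfl

end

end Vale.Agent.P361.LRO
end

section

/-!
P361, block (1): assembly.
-/

namespace Vale.Agent.P361.LRO

open Finset Matrix Filter Topology

noncomputable section

variable {V : Type} [Fintype V] [DecidableEq V]

theorem Zf_nonneg {X : Type} [Fintype X] [DecidableEq X] {μ : Equiv.Perm X → ℝ} {θ : X → ℝ}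
    (hμ : ∀ π, 0 ≤ μ π) (hθ : ∀ x, 0 ≤ θ x) (hZ : 0 < ZZ μ θ) (hst : Stable μ θ) (b : Finset X)
    (φ : ℝ) : 0 ≤ Zf μ θ b φ := by
  obtain ⟨ι, hι, p, hp0, hp1, hF⟩ := exists_factor (FP μ θ b) (by rw [FP_eval_one]; exact hZ)
    (FP_roots hμ hθ hZ hst b)
  rw [← FP_eval_cos, hF]
  exact zt_nonneg (by rw [FP_eval_one]; exact hZ.le) hp0 hp1 (Real.neg_one_le_cos φ)

/-- The law of the physical circuit. -/
theorem isLaw_phys' (L : List (V × V)) {β : ℝ} (hβ : 0 ≤ β) {N : ℕ} (hN : β ≤ N) :
    IsLaw (phys L β N) := by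
  refine ⟨_, _, ?_, rfl⟩
  intro g hg
  unfold gates at hg
  rw [List.mem_flatMap] at hg
  obtain ⟨k, -, hk⟩ := hg
  rw [List.mem_map] at hk
  obtain ⟨e, -, rfl⟩ := hk
  rcases Nat.eq_zero_or_pos N with h0 | h0
  · subst h0
    simp
  · have hN' : (0 : ℝ) < N := by exact_mod_cast h0
    constructor
    · positivity
    · show β / (2 * N) ≤ 1 / 2
      rw [div_le_iff₀ (by positivity)]
      linarith

/-- **Block twist for the Gibbs state.** -/
theorem twist_gibbs (hSR : ∀ (X : Type) [Fintype X] [DecidableEq X] (μ : Equiv.Perm X → ℝ)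
      (θ : X → ℝ), IsLaw μ → (∀ x, 0 ≤ θ x ∧ θ x ≤ 1) → Stable μ θ)
    (L : List (V × V)) {β : ℝ} (hβ : 0 < β) {h : V → ℝ} (hh : ∀ x, 0 ≤ h x) {K κ : ℝ}
    (hK : 0 ≤ K) (b : Finset V) (hκ : ∃ᶠ N : ℕ in atTop, κ ≤ kap L β N h K b) :
    κ * (∫ φ in (0 : ℝ)..Real.pi, Real.sin φ * (1 - Real.cos φ) *
        ZTw (NormedSpace.exp (-β • ham L h)) b (Real.tanh (K / (2 * b.card))) φ) ≤
      ∫ φ in (0 : ℝ)..Real.pi, Real.sin φ *
        ZTw (NormedSpace.exp (-β • ham L h)) b (Real.tanh (K / (2 * b.card))) φ := by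
  have hT : 0 ≤ Real.tanh (K / (2 * b.card)) := by
    rw [Real.tanh_eq_sinh_div_cosh]
    exact div_nonneg (Real.sinh_nonneg_iff.2 (by positivity)) (Real.cosh_pos _).le
  have hT1 : Real.tanh (K / (2 * b.card)) ≤ 1 := (Real.tanh_lt_one _).le
  have hgood : ∀ᶠ N : ℕ in atTop, IsLaw (phys L β N) ∧
      ∀ z, 0 ≤ th β N h (blk K b) z ∧ th β N h (blk K b) z ≤ 1 := by
    have h1 : ∀ᶠ N : ℕ in atTop, β ≤ N := eventually_atTop.2 (by
      obtain ⟨n, hn⟩ := exists_nat_ge β
      exact ⟨n, fun m hm => hn.trans (by exact_mod_cast hm)⟩)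
    have h2 : ∀ᶠ N : ℕ in atTop, β * (∑ x, h x) / 2 ≤ N := eventually_atTop.2 (by
      obtain ⟨n, hn⟩ := exists_nat_ge (β * (∑ x, h x) / 2)
      exact ⟨n, fun m hm => hn.trans (by exact_mod_cast hm)⟩)
    filter_upwards [h1, h2, eventually_gt_atTop 0] with N hN1 hN2 hN0
    have hN' : (0 : ℝ) < N := by exact_mod_cast hN0
    refine ⟨isLaw_phys' L hβ.le hN1, fun z => ?_⟩
    unfold th
    split_ifs with hz
    · unfold blk
      split_ifs
      · exact ⟨hT, hT1⟩
      · exact ⟨le_rfl, zero_le_one⟩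
    · constructor
      · exact div_nonneg (mul_nonneg hβ.le (hh _)) (by positivity)
      · rw [div_le_one (by positivity)]
        have h3 : h z.2 ≤ ∑ x, h x := Finset.single_le_sum (fun x _ => hh x) (Finset.mem_univ _)
        have h4 : β * h z.2 ≤ β * ∑ x, h x := mul_le_mul_of_nonneg_left h3 hβ.le
        linarith
  refine twist_limit (stepM_tendsto L β h) b _ hκ ?_ ?_
  · filter_upwards [hgood] with N hN φ
    obtain ⟨hl, ht⟩ := hN
    unfold ZTw
    rw [← Zf_phys]
    exact Zf_nonneg hl.nonneg (fun z => (ht z).1) (ZZ_pos hl fun z => (ht z).1)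
      (hSR _ _ _ hl ht) _ φ
  · filter_upwards [hgood] with N hN
    obtain ⟨hl, ht⟩ := hN
    unfold ZTw
    simp only [← Zf_phys]
    exact kap_int hl.nonneg (fun z => (ht z).1) (ZZ_pos hl fun z => (ht z).1) (hSR _ _ _ hl ht) _

end

end Vale.Agent.P361.LRO
end

section

/-!
P361, stage R1/R2, block (1'): moments of the block twist, scalar part.
-/

namespace Vale.Agent.P361.LRO.Bloch

open Finset MeasureTheory intervalIntegral

/-- One step: `κ ∫ (1-t)^(m+1) Z ≤ (m+1) ∫ (1-t)^m Z`. -/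
theorem zint_step {ι : Type*} [Fintype ι] {c : ℝ} {p : ι → ℝ} (hc : 0 ≤ c)
    (hp0 : ∀ j, 0 ≤ p j) (hp1 : ∀ j, p j ≤ 1 / 2) (m : ℕ) :
    (∑ j, p j) * ∫ t in (-1 : ℝ)..1, (1 - t) ^ (m + 1) * zt c p t ≤
      (m + 1 : ℕ) * ∫ t in (-1 : ℝ)..1, (1 - t) ^ m * zt c p t := by
  classical
  have hcz := continuous_zt c p
  set D : ℝ → ℝ := fun t => c * ∑ j, (∏ i ∈ univ.erase j, (1 - p i * (1 - t))) * p j with hD
  have hcD : Continuous D := by
    rw [hD]
    refine continuous_const.mul (continuous_finsetSum _ fun j _ => ?_)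
    exact (continuous_finsetProd _ fun i _ => by fun_prop).mul continuous_const
  have hder : ∀ t, HasDerivAt (zt c p) (D t) t := fun t => hasDerivAt_zt c p t
  have hge : ∀ t ∈ Set.Icc (-1 : ℝ) 1, (∑ j, p j) * zt c p t ≤ D t := by
    intro t ht
    rw [hD]
    simp only
    unfold zt
    rw [← mul_assoc, mul_comm (∑ j, p j) c, mul_assoc]
    refine mul_le_mul_of_nonneg_left ?_ hc
    rw [sum_mul]
    refine sum_le_sum fun j _ => ?_
    rw [← mul_prod_erase univ _ (mem_univ j)]
    have hf : ∀ i, 0 ≤ 1 - p i * (1 - t) := by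
      intro i
      have := hp0 i
      have := hp1 i
      have := ht.1
      have := ht.2
      nlinarith
    have hprod : 0 ≤ ∏ i ∈ univ.erase j, (1 - p i * (1 - t)) := prod_nonneg fun i _ => hf i
    have hle : 1 - p j * (1 - t) ≤ 1 := by
      have := hp0 j
      have := ht.2
      nlinarith
    have := mul_le_mul_of_nonneg_right hle hprod
    nlinarith [hp0 j]
  have hpow : ∀ t : ℝ, HasDerivAt (fun t : ℝ => (1 - t) ^ (m + 1))
      (-((m + 1 : ℕ) * (1 - t) ^ m)) t := by
    intro t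
    have h1 : HasDerivAt (fun t : ℝ => 1 - t) (-1) t := by
      simpa using (hasDerivAt_id t).const_sub 1
    have h2 := h1.pow (m + 1)
    have h3 : -((m + 1 : ℕ) * (1 - t) ^ m) = ((m + 1 : ℕ) : ℝ) * (1 - t) ^ (m + 1 - 1) * -1 := by
      rw [Nat.add_sub_cancel]; ring
    rw [h3]
    exact h2
  have hparts : ∫ t in (-1 : ℝ)..1, ((-((m + 1 : ℕ) * (1 - t) ^ m)) * zt c p t +
      (1 - t) ^ (m + 1) * D t) =
      (1 - 1) ^ (m + 1) * zt c p 1 - (1 - (-1)) ^ (m + 1) * zt c p (-1) := by
    have h : ∀ t ∈ Set.uIcc (-1 : ℝ) 1, HasDerivAt (fun t => (1 - t) ^ (m + 1) * zt c p t)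
        ((-((m + 1 : ℕ) * (1 - t) ^ m)) * zt c p t + (1 - t) ^ (m + 1) * D t) t := by
      intro t _
      exact (hpow t).mul (hder t)
    have hint : IntervalIntegrable (fun t => (-((m + 1 : ℕ) * (1 - t) ^ m)) * zt c p t +
        (1 - t) ^ (m + 1) * D t) volume (-1) 1 := by
      apply Continuous.intervalIntegrable
      fun_prop
    exact intervalIntegral.integral_eq_sub_of_hasDerivAt h hint
  have i1 : IntervalIntegrable (fun t => (-((m + 1 : ℕ) * (1 - t) ^ m)) * zt c p t)
      volume (-1) 1 := by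
    apply Continuous.intervalIntegrable; fun_prop
  have i2 : IntervalIntegrable (fun t => (1 - t) ^ (m + 1) * D t) volume (-1) 1 := by
    apply Continuous.intervalIntegrable; fun_prop
  rw [intervalIntegral.integral_add i1 i2] at hparts
  have e1 : ∫ t in (-1 : ℝ)..1, (-((m + 1 : ℕ) * (1 - t) ^ m)) * zt c p t =
      -((m + 1 : ℕ) * ∫ t in (-1 : ℝ)..1, (1 - t) ^ m * zt c p t) := by
    rw [← intervalIntegral.integral_const_mul, ← intervalIntegral.integral_neg]
    congr 1
    funext t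
    ring
  rw [e1] at hparts
  have hmono : ∫ t in (-1 : ℝ)..1, (∑ j, p j) * ((1 - t) ^ (m + 1) * zt c p t) ≤
      ∫ t in (-1 : ℝ)..1, (1 - t) ^ (m + 1) * D t := by
    refine intervalIntegral.integral_mono_on (by norm_num) ?_ i2 ?_
    · apply Continuous.intervalIntegrable; fun_prop
    · intro t ht
      have h1 := hge t ht
      have h2 : 0 ≤ (1 - t) ^ (m + 1) := pow_nonneg (by linarith [ht.2]) _
      nlinarith [mul_le_mul_of_nonneg_left h1 h2]
  rw [intervalIntegral.integral_const_mul] at hmono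
  have hz : 0 ≤ zt c p (-1) := zt_nonneg hc hp0 hp1 le_rfl
  have hz2 : 0 ≤ (1 - (-1 : ℝ)) ^ (m + 1) * zt c p (-1) := mul_nonneg (by norm_num) hz
  have hz3 : (1 - (1 : ℝ)) ^ (m + 1) * zt c p 1 = 0 := by simp
  linarith

/-- `κ^m ∫ (1-t)^m Z ≤ m! ∫ Z`. -/
theorem zint_pow {ι : Type*} [Fintype ι] {c : ℝ} {p : ι → ℝ} (hc : 0 ≤ c)
    (hp0 : ∀ j, 0 ≤ p j) (hp1 : ∀ j, p j ≤ 1 / 2) (m : ℕ) :
    (∑ j, p j) ^ m * ∫ t in (-1 : ℝ)..1, (1 - t) ^ m * zt c p t ≤
      (m.factorial : ℝ) * ∫ t in (-1 : ℝ)..1, zt c p t := by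
  induction m with
  | zero => simp
  | succ m ih =>
    have hk : 0 ≤ ∑ j, p j := sum_nonneg fun j _ => hp0 j
    have h1 := zint_step hc hp0 hp1 m
    have h2 := mul_le_mul_of_nonneg_left h1 (pow_nonneg hk m)
    have h3 := mul_le_mul_of_nonneg_left ih (Nat.cast_nonneg (α := ℝ) (m + 1))
    calc (∑ j, p j) ^ (m + 1) * ∫ t in (-1 : ℝ)..1, (1 - t) ^ (m + 1) * zt c p t
        = (∑ j, p j) ^ m * ((∑ j, p j) * ∫ t in (-1 : ℝ)..1, (1 - t) ^ (m + 1) * zt c p t) := by
          rw [pow_succ]; ring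
      _ ≤ (∑ j, p j) ^ m * ((m + 1 : ℕ) * ∫ t in (-1 : ℝ)..1, (1 - t) ^ m * zt c p t) := h2
      _ = ((m + 1 : ℕ) : ℝ) * ((∑ j, p j) ^ m * ∫ t in (-1 : ℝ)..1, (1 - t) ^ m * zt c p t) := by
          ring
      _ ≤ ((m + 1 : ℕ) : ℝ) * ((m.factorial : ℝ) * ∫ t in (-1 : ℝ)..1, zt c p t) := h3
      _ = ((m + 1).factorial : ℝ) * ∫ t in (-1 : ℝ)..1, zt c p t := by
          rw [Nat.factorial_succ]; push_cast; ring

variable {X : Type} [Fintype X] [DecidableEq X]

/-- **Moments of the block twist, `t`-form.** -/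
theorem kap_int_t_pow {μ : Equiv.Perm X → ℝ} {θ : X → ℝ} (hμ : ∀ π, 0 ≤ μ π)
    (hθ : ∀ x, 0 ≤ θ x) (hZ : 0 < ZZ μ θ) (hst : Stable μ θ) (b : Finset X) (m : ℕ) :
    KK μ θ (fun z => if z ∈ b then 1 else 0) ^ m *
        (∫ t in (-1 : ℝ)..1, (1 - t) ^ m * (FP μ θ b).eval t) ≤
      (m.factorial : ℝ) * ∫ t in (-1 : ℝ)..1, (FP μ θ b).eval t := by
  classical
  obtain ⟨ι, hι, p, hp0, hp1, hF⟩ := exists_factor (FP μ θ b) (by rw [FP_eval_one]; exact hZ)
    (FP_roots hμ hθ hZ hst b)
  rw [FP_eval_one] at hF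
  have hd1 : HasDerivAt (fun t => (FP μ θ b).eval t) ((FP μ θ b).derivative.eval 1) 1 :=
    (FP μ θ b).hasDerivAt 1
  have hd2 := hasDerivAt_zt (ZZ μ θ) p 1
  have hfun : (fun t => (FP μ θ b).eval t) = zt (ZZ μ θ) p := funext hF
  rw [hfun] at hd1
  have hd3 := hd1.unique hd2
  have hsum : ∑ j, p j = KK μ θ (fun z => if z ∈ b then 1 else 0) := by
    rw [KK_block, ← FP_deriv_one, hd3, eq_div_iff hZ.ne', mul_comm]
    congr 1
    refine sum_congr rfl fun j _ => ?_
    simp
  have h := zint_pow hZ.le hp0 hp1 m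
  rw [hsum] at h
  simp only [← hF] at h
  exact h

/-- **Moments of the block twist, angle form.** -/
theorem kap_int_pow {μ : Equiv.Perm X → ℝ} {θ : X → ℝ} (hμ : ∀ π, 0 ≤ μ π)
    (hθ : ∀ x, 0 ≤ θ x) (hZ : 0 < ZZ μ θ) (hst : Stable μ θ) (b : Finset X) (m : ℕ) :
    KK μ θ (fun z => if z ∈ b then 1 else 0) ^ m *
        (∫ φ in (0 : ℝ)..Real.pi, Real.sin φ * (1 - Real.cos φ) ^ m * Zf μ θ b φ) ≤
      (m.factorial : ℝ) * ∫ φ in (0 : ℝ)..Real.pi, Real.sin φ * Zf μ θ b φ := by
  have hsub : ∀ g : ℝ → ℝ, Continuous g →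
      (∫ φ in (0 : ℝ)..Real.pi, Real.sin φ * g (Real.cos φ)) = ∫ t in (-1 : ℝ)..1, g t := by
    intro g hg
    have h := integral_comp_mul_deriv (a := 0) (b := Real.pi) (f := Real.cos)
      (f' := fun φ => -Real.sin φ) (g := g) (fun x _ => Real.hasDerivAt_cos x)
      (by fun_prop) hg
    rw [Real.cos_zero, Real.cos_pi, integral_symm (-1 : ℝ) 1] at h
    have h2 : (∫ φ in (0 : ℝ)..Real.pi, (g ∘ Real.cos) φ * -Real.sin φ) =
        - ∫ φ in (0 : ℝ)..Real.pi, Real.sin φ * g (Real.cos φ) := by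
      rw [← intervalIntegral.integral_neg]
      refine integral_congr fun φ _ => ?_
      simp only [Function.comp]
      ring
    rw [h2] at h
    linarith
  have hc : Continuous fun t : ℝ => (FP μ θ b).eval t := (FP μ θ b).continuous
  have h1 := hsub (fun t => (FP μ θ b).eval t) hc
  have h2 := hsub (fun t => (1 - t) ^ m * (FP μ θ b).eval t) (by fun_prop)
  simp only [FP_eval_cos] at h1 h2
  have h3 := kap_int_t_pow hμ hθ hZ hst b m
  rw [← h1, ← h2] at h3
  simpa only [mul_assoc] using h3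

end Vale.Agent.P361.LRO.Bloch
end

section

/-!
# Closed hemisphere calculus (P361, block SR)

Pairs `u : Fin 2 → ℂ`; `Dc u`: `u ≠ 0` and `0 ≤ Re (u 0 * conj (u 1))` (closed hemisphere);
`Do u`: strict inequality.
* `pair_ne`: the pairing of an open and a closed point does not vanish;
* `gate_two`: the partial swap of a bilinear form which does not vanish on `Dc × Dc`;
* `trace_ne`: its trace does not vanish;
* `node_open`: a node with `θ > 0`, `Re z > 0` maps closed to open.
-/

namespace Vale.Agent.P361.LRO.SR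

open Complex

/-- closed hemisphere -/
def Dc (u : Fin 2 → ℂ) : Prop := u ≠ 0 ∧ 0 ≤ (u 0 * (starRingEnd ℂ) (u 1)).re

/-- open hemisphere -/
def Do (u : Fin 2 → ℂ) : Prop := 0 < (u 0 * (starRingEnd ℂ) (u 1)).re

theorem re_mul_conj (a b : ℂ) : (a * (starRingEnd ℂ) b).re = a.re * b.re + a.im * b.im := by
  simp [Complex.mul_re]

theorem Do.dc {u : Fin 2 → ℂ} (h : Do u) : Dc u := by
  refine ⟨?_, h.le⟩
  rintro rfl
  simp [Do] at h

/-- pairing of a closed and an open point -/
theorem pair_ne {w u : Fin 2 → ℂ} (hw : Do w) (hu : Dc u) : w 0 * u 0 + w 1 * u 1 ≠ 0 := by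
  intro h
  obtain ⟨h0, h1⟩ := hu
  have hw1 : w 1 ≠ 0 := by
    intro h2; rw [Do, h2] at hw; simp at hw
  have hw0 : w 0 ≠ 0 := by
    intro h2; rw [Do, h2] at hw; simp at hw
  have hu0 : u 0 ≠ 0 := by
    intro h2
    rw [h2, mul_zero, zero_add] at h
    have h3 : u 1 = 0 := (mul_eq_zero.1 h).resolve_left hw1
    exact h0 (by funext i; fin_cases i <;> simp [h2, h3])
  have h4 : u 1 = - (w 0 * u 0) / w 1 := by
    field_simp
    linear_combination h
  have h5 : (u 0 * (starRingEnd ℂ) (u 1)) * (w 0 * (starRingEnd ℂ) (w 0)) * 0 = 0 := by ring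
  have h6 : u 0 * (starRingEnd ℂ) (u 1) * (w 1 * (starRingEnd ℂ) (w 1)) =
      - (u 0 * (starRingEnd ℂ) (u 0)) * ((starRingEnd ℂ) (w 0) * w 1) := by
    rw [h4]
    have hc : (starRingEnd ℂ) (w 1) ≠ 0 := by simpa using hw1
    rw [map_div₀, map_neg, map_mul]
    field_simp
  have h7 := congrArg Complex.re h6
  rw [Complex.mul_conj, Complex.mul_conj] at h7
  have h8 : (starRingEnd ℂ) (w 0) * w 1 = (starRingEnd ℂ) (w 0 * (starRingEnd ℂ) (w 1)) := by
    simp
  rw [h8] at h7
  simp only [Complex.re_mul_ofReal, neg_mul, Complex.neg_re, Complex.re_ofReal_mul,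
    Complex.conj_re] at h7
  have h9 : 0 < normSq (u 0) := normSq_pos.2 hu0
  have h10 : 0 < normSq (w 1) := normSq_pos.2 hw1
  have h11 : 0 < normSq (u 0) * (w 0 * (starRingEnd ℂ) (w 1)).re := mul_pos h9 hw
  have h12 : 0 ≤ (u 0 * (starRingEnd ℂ) (u 1)).re * normSq (w 1) := mul_nonneg h1 h10.le
  linarith

/-- the bilinear form of `C` -/
def bil (C : Fin 2 → Fin 2 → ℂ) (u w : Fin 2 → ℂ) : ℂ :=
  ∑ i, ∑ k, C i k * u i * w k

theorem bil_eq (C : Fin 2 → Fin 2 → ℂ) (u w : Fin 2 → ℂ) :
    bil C u w = (C 0 0 * u 0 + C 1 0 * u 1) * w 0 + (C 0 1 * u 0 + C 1 1 * u 1) * w 1 := by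
  simp only [bil, Fin.sum_univ_two]
  ring

theorem open_of_bil {C : Fin 2 → Fin 2 → ℂ} {u : Fin 2 → ℂ}
    (h : ∀ w, Dc w → bil C u w ≠ 0) :
    0 < ((C 0 0 * u 0 + C 1 0 * u 1) * (starRingEnd ℂ) (C 0 1 * u 0 + C 1 1 * u 1)).re := by
  set A := C 0 0 * u 0 + C 1 0 * u 1
  set B := C 0 1 * u 0 + C 1 1 * u 1
  by_contra hn
  rw [not_lt] at hn
  by_cases hAB : A = 0 ∧ B = 0
  · refine h ![1, 1] ⟨?_, by simp⟩ ?_
    · intro h0
      have := congrFun h0 0
      simp at this
    · rw [bil_eq]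
      change A * _ + B * _ = 0
      rw [hAB.1, hAB.2]; ring
  · refine h ![B, -A] ⟨?_, ?_⟩ ?_
    · intro h0
      have e0 := congrFun h0 0
      have e1 := congrFun h0 1
      simp at e0 e1
      exact hAB ⟨e1, e0⟩
    · rw [re_mul_conj] at hn ⊢
      simp only [Matrix.cons_val_zero, Matrix.cons_val_one, Complex.neg_re, Complex.neg_im]
      linarith
    · rw [bil_eq]
      change A * B + B * (-A) = 0
      ring

/-- **two-site gate lemma** -/
theorem gate_two {C : Fin 2 → Fin 2 → ℂ} (h : ∀ u w, Dc u → Dc w → bil C u w ≠ 0) {p : ℝ}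
    (hp0 : 0 ≤ p) (hp1 : p ≤ 1) {u w : Fin 2 → ℂ} (hu : Dc u) (hw : Dc w) :
    (1 - p) * bil C u w + p * bil C w u ≠ 0 := by
  have h0 := open_of_bil (C := C) (u := u) fun w hw => h u w hu hw
  have h1 := open_of_bil (C := fun i k => C k i) (u := u) fun w hw => by
    have e : bil (fun i k => C k i) u w = bil C w u := by
      rw [bil_eq, bil_eq]; ring
    rw [e]
    exact h w u hw hu
  have hopen : Do ![C 0 0 * u 0 + ((1 - p) * C 1 0 + p * C 0 1) * u 1,
      ((1 - p) * C 0 1 + p * C 1 0) * u 0 + C 1 1 * u 1] := by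
    rw [Do]
    simp only [Matrix.cons_val_zero, Matrix.cons_val_one]
    have key : ((C 0 0 * u 0 + ((1 - p) * C 1 0 + p * C 0 1) * u 1) *
        (starRingEnd ℂ) (((1 - p) * C 0 1 + p * C 1 0) * u 0 + C 1 1 * u 1)).re =
        (1 - p) * ((C 0 0 * u 0 + C 1 0 * u 1) *
          (starRingEnd ℂ) (C 0 1 * u 0 + C 1 1 * u 1)).re +
        p * ((C 0 0 * u 0 + C 0 1 * u 1) *
          (starRingEnd ℂ) (C 1 0 * u 0 + C 1 1 * u 1)).re +
        p * (1 - p) * normSq (C 1 0 - C 0 1) * (u 0 * (starRingEnd ℂ) (u 1)).re := by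
      simp only [re_mul_conj]
      simp only [normSq_apply, Complex.add_re, Complex.add_im, Complex.mul_re,
        Complex.mul_im, Complex.sub_re, Complex.sub_im, Complex.ofReal_re, Complex.ofReal_im,
        Complex.one_re, Complex.one_im]
      ring
    rw [key]
    have hp2 : 0 ≤ 1 - p := by linarith
    have t3 : 0 ≤ p * (1 - p) * normSq (C 1 0 - C 0 1) * (u 0 * (starRingEnd ℂ) (u 1)).re :=
      mul_nonneg (mul_nonneg (mul_nonneg hp0 hp2) (normSq_nonneg _)) hu.2
    rcases hp0.eq_or_lt with h2 | h2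
    · rw [← h2] at t3 ⊢
      simp only [sub_zero, one_mul, zero_mul, add_zero]
      exact h0
    · have t2 := mul_pos h2 h1
      have t1 : 0 ≤ (1 - p) * ((C 0 0 * u 0 + C 1 0 * u 1) *
          (starRingEnd ℂ) (C 0 1 * u 0 + C 1 1 * u 1)).re := mul_nonneg hp2 h0.le
      linarith
  have h2 := pair_ne hopen hw
  intro h3
  apply h2
  rw [bil_eq, bil_eq] at h3
  simp only [Matrix.cons_val_zero, Matrix.cons_val_one]
  linear_combination h3

theorem exists_root_re (c : ℂ) : ∃ t : ℂ, t ^ 2 = c ∧ 0 ≤ t.re := by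
  obtain ⟨t, ht⟩ := IsAlgClosed.exists_pow_nat_eq c (n := 2) (by norm_num)
  rcases le_total 0 t.re with h | h
  · exact ⟨t, ht, h⟩
  · exact ⟨-t, by rw [neg_sq, ht], by rw [Complex.neg_re]; linarith⟩

/-- **trace lemma** -/
theorem trace_ne {C : Fin 2 → Fin 2 → ℂ} (h : ∀ u w, Dc u → Dc w → bil C u w ≠ 0) :
    C 0 0 + C 1 1 ≠ 0 := by
  intro h0
  by_cases h1 : C 1 0 = 0
  · refine h ![0, 1] ![1, 0] ⟨?_, ?_⟩ ⟨?_, ?_⟩ ?_
    · intro e
      have := congrFun e 1
      simp at this
    · simp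
    · intro e
      have := congrFun e 0
      simp at this
    · simp
    · rw [bil_eq]
      simp [h1]
  · obtain ⟨t, ht, htr⟩ := exists_root_re (-(C 0 1) / C 1 0)
    refine h ![1, t] ![t, 1] ⟨?_, ?_⟩ ⟨?_, ?_⟩ ?_
    · intro e
      have := congrFun e 0
      simp at this
    · rw [re_mul_conj]
      simpa using htr
    · intro e
      have := congrFun e 1
      simp at this
    · rw [re_mul_conj]
      simpa using htr
    · rw [bil_eq]
      simp only [Matrix.cons_val_zero, Matrix.cons_val_one]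
      have h2 : C 1 0 * t ^ 2 = - C 0 1 := by
        rw [ht]; field_simp
      linear_combination h2 + t * h0

/-- a node with `θ > 0`, `Re z > 0` maps the closed hemisphere into the open one -/
theorem node_open {θ : ℝ} {z : ℂ} (h0 : 0 < θ) (h1 : θ ≤ 1) (hz : 0 < z.re) {u : Fin 2 → ℂ}
    (hu : Dc u) : Do ![u 0 * z + u 1 * (θ * z ^ 2), u 0 * θ + u 1 * z] := by
  obtain ⟨hne, hm⟩ := hu
  rw [Do]
  simp only [Matrix.cons_val_zero, Matrix.cons_val_one]
  rw [re_mul_conj] at hm ⊢
  have key : (u 0 * z + u 1 * (θ * z ^ 2)).re * (u 0 * θ + u 1 * z).re +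
      (u 0 * z + u 1 * (θ * z ^ 2)).im * (u 0 * θ + u 1 * z).im =
      θ * z.re * (((u 0).re - θ * z.im * (u 1).im) ^ 2 + ((u 0).im + θ * z.im * (u 1).re) ^ 2 +
        ((u 1).re ^ 2 + (u 1).im ^ 2) * (z.re ^ 2 + z.im ^ 2 * (1 - θ ^ 2))) +
      ((u 0).re * (u 1).re + (u 0).im * (u 1).im) *
        (z.re ^ 2 * (1 + θ ^ 2) + z.im ^ 2 * (1 - θ ^ 2)) := by
    simp only [Complex.add_re, Complex.add_im, Complex.mul_re, Complex.mul_im,
      Complex.ofReal_re, Complex.ofReal_im, pow_two]
    ring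
  rw [key]
  have hθ2 : 0 ≤ 1 - θ ^ 2 := by nlinarith
  have t2 : 0 ≤ ((u 0).re * (u 1).re + (u 0).im * (u 1).im) *
        (z.re ^ 2 * (1 + θ ^ 2) + z.im ^ 2 * (1 - θ ^ 2)) := by positivity
  have t3 : 0 < ((u 0).re - θ * z.im * (u 1).im) ^ 2 + ((u 0).im + θ * z.im * (u 1).re) ^ 2 +
        ((u 1).re ^ 2 + (u 1).im ^ 2) * (z.re ^ 2 + z.im ^ 2 * (1 - θ ^ 2)) := by
    by_cases hb : u 1 = 0
    · have ha : u 0 ≠ 0 := by
        intro ha
        exact hne (by funext i; fin_cases i <;> simp [ha, hb])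
      have h3 : 0 < (u 0).re ^ 2 + (u 0).im ^ 2 := by
        have := normSq_pos.2 ha
        rw [normSq_apply] at this
        nlinarith
      simpa [hb] using h3
    · have h3 : 0 < (u 1).re ^ 2 + (u 1).im ^ 2 := by
        have := normSq_pos.2 hb
        rw [normSq_apply] at this
        nlinarith
      have h4 : 0 < z.re ^ 2 + z.im ^ 2 * (1 - θ ^ 2) := by
        have : 0 < z.re ^ 2 := by positivity
        have : 0 ≤ z.im ^ 2 * (1 - θ ^ 2) := by positivity
        linarith
      positivity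
  have t1 := mul_pos (mul_pos h0 hz) t3
  linarith

end Vale.Agent.P361.LRO.SR
end

section

/-!
# Strong Rayleigh property of the charge law (P361, block SR)

`stable_of_isLaw_pos`: the generating polynomial of the charges of a law `IsLaw μ` with
`0 < θ ≤ 1` does not vanish when all variables are in the open upper half plane.
-/

namespace Vale.Agent.P361.LRO.SR

open Finset

variable {X : Type} [Fintype X] [DecidableEq X]

/-- evaluation of a vector at a family of pairs -/
noncomputable def ev (ψ : (X → Fin 2) → ℂ) (ζ : X → Fin 2 → ℂ) : ℂ := ∑ s, ψ s * ∏ x, ζ x (s x)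

/-- strict stability -/
def SSt (ψ : (X → Fin 2) → ℂ) : Prop := ∀ ζ : X → Fin 2 → ℂ, (∀ x, Dc (ζ x)) → ev ψ ζ ≠ 0

theorem prod_upd (ζ : X → Fin 2 → ℂ) (a : X) (u : Fin 2 → ℂ) (s : X → Fin 2) :
    ∏ x, Function.update ζ a u x (s x) = u (s a) * ∏ x ∈ univ \ {a}, ζ x (s x) := by
  have h : (fun x => Function.update ζ a u x (s x)) =
      Function.update (fun x => ζ x (s x)) a (u (s a)) := by
    funext x
    exact Function.apply_update (fun x (v : Fin 2 → ℂ) => v (s x)) ζ a u x
  rw [show (∏ x, Function.update ζ a u x (s x)) =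
    ∏ x, (fun x => Function.update ζ a u x (s x)) x from rfl, h]
  exact Finset.prod_update_of_mem (mem_univ a) _ _

theorem ev_update (ψ : (X → Fin 2) → ℂ) (ζ : X → Fin 2 → ℂ) (a : X) (u : Fin 2 → ℂ) :
    ev ψ (Function.update ζ a u) =
      ∑ i, u i * ev ψ (Function.update ζ a (Pi.single i 1)) := by
  simp only [ev, prod_upd, Finset.mul_sum]
  rw [Finset.sum_comm]
  refine Finset.sum_congr rfl fun s _ => ?_
  have h : u (s a) = ∑ i, u i * (Pi.single i (1 : ℂ) : Fin 2 → ℂ) (s a) := by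
    simp [Pi.single_apply]
  conv_lhs => rw [h]
  rw [Finset.sum_mul, Finset.mul_sum]
  exact Finset.sum_congr rfl fun i _ => by ring

theorem ev_prod (φ : X → Fin 2 → ℂ) (ζ : X → Fin 2 → ℂ) :
    ev (fun s => ∏ x, φ x (s x)) ζ = ∏ x, ∑ i, φ x i * ζ x i := by
  rw [ev, Finset.prod_univ_sum]
  simp only [Fintype.piFinset_univ, Finset.prod_mul_distrib]

theorem ev_comp (ψ : (X → Fin 2) → ℂ) (τ : Equiv.Perm X) (ζ : X → Fin 2 → ℂ) :
    ev (fun s => ψ (s ∘ τ)) ζ = ev ψ (ζ ∘ τ) := by
  rw [ev, ev]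
  refine Fintype.sum_equiv (Equiv.arrowCongr τ.symm (Equiv.refl (Fin 2))) _ _ fun s => ?_
  have h : ((Equiv.arrowCongr τ.symm (Equiv.refl (Fin 2))) s) = s ∘ τ := by
    funext x
    simp [Equiv.arrowCongr]
  rw [h]
  congr 1
  rw [← Equiv.prod_comp τ]
  rfl

theorem sst_prod {φ : X → Fin 2 → ℂ} (hφ : ∀ x, Do (φ x)) : SSt (fun s => ∏ x, φ x (s x)) := by
  intro ζ hζ
  rw [ev_prod]
  refine Finset.prod_ne_zero_iff.2 fun x _ => ?_
  rw [Fin.sum_univ_two]
  exact pair_ne (hφ x) (hζ x)

theorem sst_comp {ψ : (X → Fin 2) → ℂ} (h : SSt ψ) (τ : Equiv.Perm X) :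
    SSt (fun s => ψ (s ∘ τ)) := by
  intro ζ hζ
  rw [ev_comp]
  exact h _ fun x => hζ _

theorem sst_gate {ψ : (X → Fin 2) → ℂ} (h : SSt ψ) (a b : X) {p : ℝ} (hp0 : 0 ≤ p) (hp1 : p ≤ 1) :
    SSt (fun s => (1 - (p : ℂ)) * ψ s + (p : ℂ) * ψ (s ∘ Equiv.swap a b)) := by
  intro ζ hζ
  have h1 : ev (fun s => (1 - (p : ℂ)) * ψ s + (p : ℂ) * ψ (s ∘ Equiv.swap a b)) ζ =
      (1 - (p : ℂ)) * ev ψ ζ + (p : ℂ) * ev ψ (ζ ∘ Equiv.swap a b) := by
    rw [← ev_comp]
    simp only [ev, Finset.mul_sum, ← Finset.sum_add_distrib]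
    exact Finset.sum_congr rfl fun s _ => by ring
  rw [h1]
  by_cases hab : a = b
  · subst hab
    have : ζ ∘ Equiv.swap a a = ζ := by
      funext x; simp
    rw [this]
    have h2 := h ζ hζ
    intro h3
    apply h2
    linear_combination h3
  · set C : Fin 2 → Fin 2 → ℂ := fun i k =>
      ev ψ (Function.update (Function.update ζ a (Pi.single i 1)) b (Pi.single k 1)) with hC
    have key : ∀ u w : Fin 2 → ℂ,
        ev ψ (Function.update (Function.update ζ a u) b w) = bil C u w := by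
      intro u w
      rw [ev_update, bil]
      rw [Finset.sum_comm]
      refine Finset.sum_congr rfl fun k _ => ?_
      rw [Function.update_comm hab, ev_update, Finset.mul_sum]
      refine Finset.sum_congr rfl fun i _ => ?_
      have e : C i k = ev ψ (Function.update (Function.update ζ b (Pi.single k 1)) a
          (Pi.single i 1)) := by
        rw [hC]
        simp only
        rw [Function.update_comm hab]
      rw [e]
      ring
    have hCne : ∀ u w, Dc u → Dc w → bil C u w ≠ 0 := by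
      intro u w hu hw
      rw [← key]
      refine h _ fun x => ?_
      by_cases hxb : x = b
      · subst hxb; simpa using hw
      · rw [Function.update_of_ne hxb]
        by_cases hxa : x = a
        · subst hxa; simpa using hu
        · rw [Function.update_of_ne hxa]; exact hζ x
    have e1 : ev ψ ζ = bil C (ζ a) (ζ b) := by
      rw [← key]
      simp
    have e2 : ev ψ (ζ ∘ Equiv.swap a b) = bil C (ζ b) (ζ a) := by
      rw [← key]
      congr 1
      funext x
      by_cases hxb : x = b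
      · subst hxb; simp
      · rw [Function.update_of_ne hxb]
        by_cases hxa : x = a
        · subst hxa; simp
        · rw [Function.update_of_ne hxa]
          simp [Equiv.swap_apply_of_ne_of_ne hxa hxb]
    rw [e1, e2]
    exact gate_two hCne hp0 hp1 (hζ a) (hζ b)

/-- the vector obtained from a product vector by a law of permutations -/
noncomputable def lv (μ : Equiv.Perm X → ℝ) (φ : X → Fin 2 → ℂ) (s : X → Fin 2) : ℂ :=
  ∑ π : Equiv.Perm X, (μ π : ℂ) * ∏ x, φ x (s (π x))

theorem sst_law (l : List (X × X × ℝ)) (σ : Equiv.Perm X)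
    (hl : ∀ g ∈ l, 0 ≤ g.2.2 ∧ g.2.2 ≤ 1) {φ : X → Fin 2 → ℂ} (hφ : ∀ x, Do (φ x)) :
    SSt (lv (law l σ) φ) := by
  induction l with
  | nil =>
    have h : lv (law [] σ) φ = fun s => (fun s => ∏ x, φ x (s x)) (s ∘ σ) := by
      funext s
      rw [lv, Finset.sum_eq_single σ]
      · simp [law]
      · intro π _ hπ
        simp [law, Pi.single_eq_of_ne hπ]
      · intro h; exact absurd (mem_univ σ) h
    rw [h]
    exact sst_comp (sst_prod hφ) σ
  | cons g l ih =>
    have ih' := ih fun g' hg' => hl g' (List.mem_cons_of_mem _ hg')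
    obtain ⟨h0, h1⟩ := hl g List.mem_cons_self
    have h : lv (law (g :: l) σ) φ = fun s => (1 - (g.2.2 : ℂ)) * lv (law l σ) φ s +
        (g.2.2 : ℂ) * lv (law l σ) φ (s ∘ Equiv.swap g.1 g.2.1) := by
      funext s
      have e2 : lv (law l σ) φ (s ∘ Equiv.swap g.1 g.2.1) =
          ∑ π : Equiv.Perm X, (law l σ (Equiv.swap g.1 g.2.1 * π) : ℂ) * ∏ x, φ x (s (π x)) := by
        rw [lv]
        refine (Fintype.sum_equiv (Equiv.mulLeft (Equiv.swap g.1 g.2.1)) _ _ fun π => ?_).symm
        simp only [Equiv.coe_mulLeft, Function.comp, Equiv.Perm.mul_apply, Equiv.swap_apply_self]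
      rw [e2, lv, lv, Finset.mul_sum, Finset.mul_sum, ← Finset.sum_add_distrib]
      refine Finset.sum_congr rfl fun π _ => ?_
      rw [law]
      push_cast
      ring
    rw [h]
    exact sst_gate ih' _ _ h0 h1

/-- general contraction of a kernel -/
noncomputable def con (K : (X → Fin 2) → (X → Fin 2) → ℂ) (E : X → Fin 2 → Fin 2 → ℂ) : ℂ :=
  ∑ s, ∑ t, K s t * ∏ x, E x (s x) (t x)

theorem con_update (K : (X → Fin 2) → (X → Fin 2) → ℂ) (E : X → Fin 2 → Fin 2 → ℂ) (a : X)
    (e : Fin 2 → Fin 2 → ℂ) :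
    con K (Function.update E a e) =
      ∑ i, ∑ k, e i k * con K (Function.update E a
        (fun i' k' => if i' = i ∧ k' = k then 1 else 0)) := by
  have hp : ∀ (e : Fin 2 → Fin 2 → ℂ) (s t : X → Fin 2),
      ∏ x, Function.update E a e x (s x) (t x) =
        e (s a) (t a) * ∏ x ∈ univ \ {a}, E x (s x) (t x) := by
    intro e s t
    have h : (fun x => Function.update E a e x (s x) (t x)) =
        Function.update (fun x => E x (s x) (t x)) a (e (s a) (t a)) := by
      funext x
      exact Function.apply_update (fun x (v : Fin 2 → Fin 2 → ℂ) => v (s x) (t x)) E a e x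
    rw [show (∏ x, Function.update E a e x (s x) (t x)) =
      ∏ x, (fun x => Function.update E a e x (s x) (t x)) x from rfl, h]
    exact Finset.prod_update_of_mem (mem_univ a) _ _
  simp only [con, hp, Finset.mul_sum]
  have e1 : ∀ s t : X → Fin 2, K s t * (e (s a) (t a) * ∏ x ∈ univ \ {a}, E x (s x) (t x)) =
      ∑ i, ∑ k, e i k * (K s t * ((if s a = i ∧ t a = k then 1 else 0) *
        ∏ x ∈ univ \ {a}, E x (s x) (t x))) := by
    intro s t
    rw [Finset.sum_eq_single (s a), Finset.sum_eq_single (t a)]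
    · simp; ring
    · intro k _ hk
      simp [Ne.symm hk]
    · intro h; exact absurd (mem_univ _) h
    · intro i _ hi
      simp [Ne.symm hi]
    · intro h; exact absurd (mem_univ _) h
  simp only [e1]
  rw [Finset.sum_congr rfl fun s _ => Finset.sum_comm]
  rw [Finset.sum_comm]
  refine Finset.sum_congr rfl fun i _ => ?_
  rw [Finset.sum_congr rfl fun s _ => Finset.sum_comm]
  rw [Finset.sum_comm]

/-- the trace of a strictly stable kernel does not vanish -/
theorem trace_con {K : (X → Fin 2) → (X → Fin 2) → ℂ}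
    (h : ∀ ω ζ : X → Fin 2 → ℂ, (∀ x, Dc (ω x)) → (∀ x, Dc (ζ x)) →
      con K (fun x i k => ω x i * ζ x k) ≠ 0) : ∑ s, K s s ≠ 0 := by
  have key : ∀ T : Finset X, ∀ ω ζ : X → Fin 2 → ℂ, (∀ x, Dc (ω x)) → (∀ x, Dc (ζ x)) →
      con K (fun x => if x ∈ T then (fun i k => if i = k then 1 else 0)
        else fun i k => ω x i * ζ x k) ≠ 0 := by
    intro T
    induction T using Finset.induction_on with
    | empty =>
      intro ω ζ hω hζ
      simpa using h ω ζ hω hζ
    | insert a T ha ih =>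
      intro ω ζ hω hζ
      set E : X → Fin 2 → Fin 2 → ℂ := fun x => if x ∈ T then (fun i k => if i = k then 1 else 0)
        else fun i k => ω x i * ζ x k with hE
      have e1 : (fun x => if x ∈ insert a T then (fun i k => if i = k then (1 : ℂ) else 0)
        else fun i k => ω x i * ζ x k) =
          Function.update E a (fun i k => if i = k then 1 else 0) := by
        funext x
        by_cases hx : x = a
        · subst hx; simp
        · rw [Function.update_of_ne hx]
          simp [hE, hx]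
      rw [e1, con_update]
      set C : Fin 2 → Fin 2 → ℂ := fun i k => con K (Function.update E a
        (fun i' k' => if i' = i ∧ k' = k then 1 else 0)) with hC
      have hCne : ∀ u w, Dc u → Dc w → bil C u w ≠ 0 := by
        intro u w hu hw
        have e2 : bil C u w = con K (Function.update E a (fun i k => u i * w k)) := by
          rw [con_update, bil]
          refine Finset.sum_congr rfl fun i _ => Finset.sum_congr rfl fun k _ => ?_
          rw [hC]; ring
        rw [e2]
        have e3 : Function.update E a (fun i k => u i * w k) =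
            fun x => if x ∈ T then (fun i k => if i = k then (1 : ℂ) else 0)
              else fun i k => Function.update ω a u x i * Function.update ζ a w x k := by
          funext x
          by_cases hx : x = a
          · subst hx; simp [ha]
          · rw [Function.update_of_ne hx, Function.update_of_ne hx, Function.update_of_ne hx]
        rw [e3]
        refine ih _ _ (fun x => ?_) (fun x => ?_)
        · by_cases hx : x = a
          · subst hx; simpa using hu
          · rw [Function.update_of_ne hx]; exact hω x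
        · by_cases hx : x = a
          · subst hx; simpa using hw
          · rw [Function.update_of_ne hx]; exact hζ x
      have h1 := trace_ne hCne
      intro h2
      apply h1
      rw [← h2]
      simp [Fin.sum_univ_two, hC]
  have h1 := key univ (fun _ => ![1, 1]) (fun _ => ![1, 1]) (fun x => ⟨?_, by simp⟩)
    (fun x => ⟨?_, by simp⟩)
  · intro h2
    apply h1
    rw [con]
    refine Eq.trans ?_ h2
    refine Finset.sum_congr rfl fun s _ => ?_
    rw [Finset.sum_eq_single s]
    · simp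
    · intro t _ ht
      have : ∃ x, s x ≠ t x := by
        by_contra hcon
        push Not at hcon
        exact ht (funext fun x => (hcon x).symm)
      obtain ⟨x, hx⟩ := this
      have h0 : ∏ x, (if x ∈ (univ : Finset X) then (fun i k => if i = k then (1 : ℂ) else 0)
        else fun i k => (![1, 1] : Fin 2 → ℂ) i * (![1, 1] : Fin 2 → ℂ) k) (s x) (t x) = 0 :=
        Finset.prod_eq_zero (mem_univ x) (by simp [hx])
      rw [h0, mul_zero]
    · intro h; exact absurd (mem_univ s) h
  · intro e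
    have := congrFun e 0
    simp at this
  · intro e
    have := congrFun e 0
    simp at this

/-- node matrix -/
noncomputable def nod (θ : ℝ) (z : ℂ) (i k : Fin 2) : ℂ :=
  if i = k then z else θ * (if i = 1 then z ^ 2 else 1)

theorem gen_eq (μ : Equiv.Perm X → ℝ) (θ : X → ℝ) (ζ : X → ℂ) :
    gen μ θ ζ = ∑ s : X → Fin 2, ∑ π : Equiv.Perm X,
      (μ π : ℂ) * ∏ x, nod (θ x) (ζ x) (s x) (s (π x)) := by
  rw [gen, Finset.sum_comm]
  refine Finset.sum_congr rfl fun s _ => Finset.sum_congr rfl fun π _ => ?_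
  push_cast [wt]
  rw [mul_assoc, ← Finset.prod_mul_distrib]
  congr 1
  refine Finset.prod_congr rfl fun x _ => ?_
  rw [nod]
  by_cases h : s x = s (π x)
  · simp [h]
  · simp only [h, if_false]

/-- the generating polynomial does not vanish in the right half plane -/
theorem gen_ne_of_re {l : List (X × X × ℝ)} {σ : Equiv.Perm X}
    (hl : ∀ g ∈ l, 0 ≤ g.2.2 ∧ g.2.2 ≤ 1) {θ : X → ℝ} (hθ : ∀ x, 0 < θ x ∧ θ x ≤ 1) {ζ : X → ℂ}
    (hζ : ∀ x, 0 < (ζ x).re) : gen (law l σ) θ ζ ≠ 0 := by
  rw [gen_eq]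
  set K : (X → Fin 2) → (X → Fin 2) → ℂ := fun s' s =>
    ∑ π : Equiv.Perm X, ((law l σ π : ℝ) : ℂ) * ∏ x, nod (θ x) (ζ x) (s' x) (s (π x)) with hK
  refine trace_con (K := K) fun ω ξ hω hξ => ?_
  set φ : X → Fin 2 → ℂ := fun x k => ∑ i, ω x i * nod (θ x) (ζ x) i k with hφ
  have hφo : ∀ x, Do (φ x) := by
    intro x
    have h1 := node_open (hθ x).1 (hθ x).2 (hζ x) (hω x)
    have e : φ x = ![ω x 0 * ζ x + ω x 1 * (θ x * ζ x ^ 2), ω x 0 * θ x + ω x 1 * ζ x] := by
      funext k
      fin_cases k <;> simp [hφ, nod, Fin.sum_univ_two]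
    rw [e]; exact h1
  have h1 := sst_law l σ hl hφo ξ hξ
  have e : con K (fun x i k => ω x i * ξ x k) = ev (lv (law l σ) φ) ξ := by
    rw [con, ev, Finset.sum_comm]
    refine Finset.sum_congr rfl fun s _ => ?_
    simp only [hK, lv, Finset.sum_mul]
    rw [Finset.sum_comm]
    refine Finset.sum_congr rfl fun π _ => ?_
    have e3 : ∏ x, φ x (s (π x)) = ∑ s' : X → Fin 2,
        ∏ x, (ω x (s' x) * nod (θ x) (ζ x) (s' x) (s (π x))) := by
      rw [hφ]
      simp only
      rw [Finset.prod_univ_sum]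
      simp only [Fintype.piFinset_univ]
    rw [e3, Finset.mul_sum, Finset.sum_mul]
    refine Finset.sum_congr rfl fun s' _ => ?_
    rw [Finset.prod_mul_distrib, Finset.prod_mul_distrib]
    ring
  rw [e]
  exact h1

/-- homogeneity -/
theorem gen_smul (μ : Equiv.Perm X → ℝ) (θ : X → ℝ) (ζ : X → ℂ) {c : ℂ} (hc : c ≠ 0) :
    gen μ θ (fun x => c * ζ x) = c ^ Fintype.card X * gen μ θ ζ := by
  rw [gen, gen, Finset.mul_sum]
  refine Finset.sum_congr rfl fun π _ => ?_
  rw [Finset.mul_sum]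
  refine Finset.sum_congr rfl fun s _ => ?_
  have h : ∏ x, (if s x = s (π x) then c * ζ x else if s x = 1 then (c * ζ x) ^ 2 else 1) =
      c ^ Fintype.card X * ∏ x, (if s x = s (π x) then ζ x else if s x = 1 then ζ x ^ 2 else 1) := by
    have h1 : ∀ x, (if s x = s (π x) then c * ζ x else if s x = 1 then (c * ζ x) ^ 2 else 1) *
        (if s (π x) = 1 then c else 1) =
        (c * (if s x = 1 then c else 1)) *
        (if s x = s (π x) then ζ x else if s x = 1 then ζ x ^ 2 else 1) := by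
      intro x
      by_cases h2 : s x = s (π x)
      · rw [if_pos h2, if_pos h2, ← h2]
        by_cases h3 : s x = 1
        · simp [h3]; ring
        · simp [h3]
      · rw [if_neg h2, if_neg h2]
        by_cases h3 : s x = 1
        · have h4 : s (π x) ≠ 1 := fun h => h2 (h3.trans h.symm)
          simp [h3, h4]; ring
        · have h4 : s (π x) = 1 := by omega
          simp [h3, h4]
    have h5 : ∏ x, (if s (π x) = 1 then c else (1 : ℂ)) = ∏ x, (if s x = 1 then c else 1) :=
      Equiv.prod_comp π (fun x => if s x = 1 then c else (1 : ℂ))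
    have h6 : ∏ x, (if s x = 1 then c else (1 : ℂ)) ≠ 0 :=
      Finset.prod_ne_zero_iff.2 fun x _ => by split_ifs <;> simp [hc]
    have h7 := Finset.prod_congr (rfl : (univ : Finset X) = univ) fun x _ => h1 x
    rw [Finset.prod_mul_distrib, Finset.prod_mul_distrib, Finset.prod_mul_distrib, h5,
      Finset.prod_const, Finset.card_univ] at h7
    apply mul_right_cancel₀ h6
    rw [h7]; ring
  rw [h]; ring

/-- **strong Rayleigh property**, `θ > 0` -/
theorem stable_of_isLaw_pos {μ : Equiv.Perm X → ℝ} (hμ : IsLaw μ) {θ : X → ℝ}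
    (hθ : ∀ x, 0 < θ x ∧ θ x ≤ 1) : Stable μ θ := by
  obtain ⟨l, σ, hl, rfl⟩ := hμ
  intro ζ hζ h0
  have h1 := gen_smul (law l σ) θ ζ (c := -Complex.I) (by simp)
  rw [h0, mul_zero] at h1
  refine gen_ne_of_re (l := l) (σ := σ) (θ := θ) (ζ := fun x => -Complex.I * ζ x)
    (fun g hg => ⟨(hl g hg).1, by linarith [(hl g hg).2]⟩) hθ (fun x => ?_) h1
  simpa using hζ x

end Vale.Agent.P361.LRO.SR
end

section

/-!
# Strong Rayleigh property, `θ ≥ 0` (P361, block SR)
-/

namespace Vale.Agent.P361.LRO.SR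

open Finset

variable {X : Type} [Fintype X] [DecidableEq X]

/-- exponent of the node `x` -/
def expo (π : Equiv.Perm X) (s : X → Fin 2) (x : X) : ℕ :=
  if s x = s (π x) then 1 else if s x = 1 then 2 else 0

omit [DecidableEq X] in
theorem sum_expo (π : Equiv.Perm X) (s : X → Fin 2) : ∑ x, expo π s x = Fintype.card X := by
  have h1 : ∀ x, expo π s x + (s (π x) : ℕ) = 1 + (s x : ℕ) := by
    intro x
    rw [expo]
    by_cases h : s x = s (π x)
    · rw [if_pos h, h]
    · rw [if_neg h]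
      by_cases h3 : s x = 1
      · have h4 : s (π x) = 0 := by
          have : s (π x) ≠ 1 := fun h' => h (h3.trans h'.symm)
          omega
        simp [h3, h4]
      · have h5 : s x = 0 := by omega
        have h4 : s (π x) = 1 := by omega
        simp [h5, h4]
  have h2 := Finset.sum_congr (rfl : (univ : Finset X) = univ) fun x _ => h1 x
  rw [Finset.sum_add_distrib, Finset.sum_add_distrib,
    Equiv.sum_comp π (fun x => (s x : ℕ))] at h2
  simpa using h2

/-- the generating polynomial -/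
noncomputable def genP (μ : Equiv.Perm X → ℝ) (θ : X → ℝ) : MvPolynomial X ℝ :=
  ∑ π : Equiv.Perm X, ∑ s : X → Fin 2, MvPolynomial.C (μ π * wt θ π s) *
    ∏ x, MvPolynomial.X x ^ expo π s x

theorem genP_hom (μ : Equiv.Perm X → ℝ) (θ : X → ℝ) :
    (genP μ θ).IsHomogeneous (Fintype.card X) := by
  refine MvPolynomial.IsHomogeneous.sum _ _ _ fun π _ =>
    MvPolynomial.IsHomogeneous.sum _ _ _ fun s _ => ?_
  have h1 : (∏ x, (MvPolynomial.X x : MvPolynomial X ℝ) ^ expo π s x).IsHomogeneous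
      (∑ x, expo π s x) :=
    MvPolynomial.IsHomogeneous.prod _ _ _ fun x _ => by
      simpa using (MvPolynomial.isHomogeneous_X ℝ x).pow (expo π s x)
  rw [sum_expo] at h1
  have h2 := (MvPolynomial.isHomogeneous_C X (μ π * wt θ π s)).mul h1
  simpa using h2

theorem aeval_genP (μ : Equiv.Perm X → ℝ) (θ : X → ℝ) (ζ : X → ℂ) :
    MvPolynomial.aeval ζ (genP μ θ) = gen μ θ ζ := by
  rw [genP, map_sum, gen]
  refine Finset.sum_congr rfl fun π _ => ?_
  rw [map_sum]
  refine Finset.sum_congr rfl fun s _ => ?_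
  rw [map_mul, map_prod, MvPolynomial.aeval_C]
  congr 1
  refine Finset.prod_congr rfl fun x _ => ?_
  rw [map_pow, MvPolynomial.aeval_X, expo]
  split_ifs <;> simp

theorem gen_lower {μ : Equiv.Perm X → ℝ} {θ : X → ℝ} (h : Stable μ θ) {ζ : X → ℂ}
    (hζ : ∀ x, 0 < (ζ x).im) (hb0 : gen μ θ (fun x => ((ζ x).im : ℂ)) ≠ 0) :
    ‖gen μ θ (fun x => ((ζ x).im : ℂ))‖ * (1 / 2) ^ Fintype.card X ≤ ‖gen μ θ ζ‖ := by
  set p : X → ℂ := fun x => ((ζ x).re : ℂ) + ((ζ x).im / 2 : ℝ) * Complex.I with hp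
  set q : X → ℂ := fun x => ((ζ x).im : ℂ) with hq
  obtain ⟨h1, h2⟩ := T1.line_degree (genP_hom μ θ) p q
  rw [aeval_genP] at h2
  have h3 := T1.eval_norm_ge (T1.line (genP μ θ) p q) (Fintype.card X) h1 (by rw [h2]; exact hb0)
    (fun u hu => ?_) (Complex.I / 2) (by simp)
  · rw [h2, T1.line_eval, aeval_genP] at h3
    have e : (fun i => p i + q i * (Complex.I / 2)) = ζ := by
      funext x
      apply Complex.ext
      · simp [hp, hq]
      · simp [hp, hq]
        ring
    rw [e] at h3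
    have e2 : (Complex.I / 2).im = 1 / 2 := by simp
    rw [e2] at h3
    exact h3
  · rw [T1.line_eval, aeval_genP]
    refine h _ fun x => ?_
    have : (p x + q x * u).im = (ζ x).im / 2 + (ζ x).im * u.im := by
      simp [hp, hq]
    rw [this]
    have h4 := hζ x
    have : 0 ≤ (ζ x).im * u.im := mul_nonneg h4.le hu
    linarith

theorem continuous_gen (μ : Equiv.Perm X → ℝ) (ζ : X → ℂ) : Continuous fun θ : X → ℝ =>
    gen μ θ ζ := by
  unfold gen wt
  refine continuous_finsetSum _ fun π _ => continuous_finsetSum _ fun s _ => ?_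
  refine Continuous.mul ?_ continuous_const
  refine Complex.continuous_ofReal.comp (continuous_const.mul ?_)
  refine continuous_finsetProd _ fun x _ => ?_
  split_ifs
  · exact continuous_const
  · exact continuous_apply x

theorem gen_pos {μ : Equiv.Perm X → ℝ} (hμ0 : ∀ π, 0 ≤ μ π) (hμ1 : 0 < ∑ π, μ π) {θ : X → ℝ}
    (hθ : ∀ x, 0 ≤ θ x) {b : X → ℝ} (hb : ∀ x, 0 < b x) :
    gen μ θ (fun x => (b x : ℂ)) ≠ 0 := by
  have e : gen μ θ (fun x => (b x : ℂ)) = ((∑ π : Equiv.Perm X, ∑ s : X → Fin 2, μ π * wt θ π s *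
      ∏ x, (if s x = s (π x) then b x else if s x = 1 then b x ^ 2 else 1) : ℝ) : ℂ) := by
    rw [gen]
    push_cast
    refine Finset.sum_congr rfl fun π _ => Finset.sum_congr rfl fun s _ => ?_
    congr 1
    refine Finset.prod_congr rfl fun x _ => ?_
    split_ifs <;> simp
  rw [e, Complex.ofReal_ne_zero]
  apply ne_of_gt
  have hP : ∀ (π : Equiv.Perm X) (s : X → Fin 2),
      0 < ∏ x, (if s x = s (π x) then b x else if s x = 1 then b x ^ 2 else 1) := fun π s =>
    Finset.prod_pos fun x _ => by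
      have := hb x
      split_ifs <;> positivity
  have hw : ∀ (π : Equiv.Perm X) (s : X → Fin 2), 0 ≤ wt θ π s := fun π s =>
    Finset.prod_nonneg fun x _ => by
      split_ifs
      · exact zero_le_one
      · exact hθ x
  have h1 : 0 < ∑ π : Equiv.Perm X, μ π * ∏ x, b x := by
    rw [← Finset.sum_mul]
    exact mul_pos hμ1 (Finset.prod_pos fun x _ => hb x)
  refine h1.trans_le (Finset.sum_le_sum fun π _ => ?_)
  have h2 := Finset.single_le_sum (f := fun s : X → Fin 2 => μ π * wt θ π s *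
      ∏ x, (if s x = s (π x) then b x else if s x = 1 then b x ^ 2 else 1))
    (fun s _ => mul_nonneg (mul_nonneg (hμ0 π) (hw π s)) (hP π s).le)
    (mem_univ (fun _ : X => (0 : Fin 2)))
  refine le_trans (le_of_eq ?_) h2
  simp [wt]

/-- closure of stability in `θ` -/
theorem stable_closure {μ : Equiv.Perm X → ℝ} (hμ0 : ∀ π, 0 ≤ μ π) (hμ1 : 0 < ∑ π, μ π)
    (h : ∀ θ : X → ℝ, (∀ x, 0 < θ x ∧ θ x ≤ 1) → Stable μ θ) {θ : X → ℝ}
    (hθ : ∀ x, 0 ≤ θ x ∧ θ x ≤ 1) : Stable μ θ := by
  intro ζ hζ h0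
  set g : ℝ → X → ℝ := fun ε x => max (θ x) ε with hg
  have hgc : Continuous g := continuous_pi fun x => continuous_const.max continuous_id
  have hg0 : g 0 = θ := by
    funext x
    exact max_eq_left (hθ x).1
  have hc1 : Continuous fun ε => ‖gen μ (g ε) ζ‖ := ((continuous_gen μ ζ).comp hgc).norm
  have hc2 : Continuous fun ε => ‖gen μ (g ε) (fun x => ((ζ x).im : ℂ))‖ *
      (1 / 2) ^ Fintype.card X :=
    (((continuous_gen μ _).comp hgc).norm).mul continuous_const
  have hle : ‖gen μ (g 0) (fun x => ((ζ x).im : ℂ))‖ * (1 / 2) ^ Fintype.card X ≤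
      ‖gen μ (g 0) ζ‖ := by
    have t1 : Filter.Tendsto (fun ε => ‖gen μ (g ε) ζ‖) (nhdsWithin 0 (Set.Ioi 0))
        (nhds ‖gen μ (g 0) ζ‖) := (hc1.tendsto 0).mono_left nhdsWithin_le_nhds
    have t2 : Filter.Tendsto (fun ε => ‖gen μ (g ε) (fun x => ((ζ x).im : ℂ))‖ *
        (1 / 2) ^ Fintype.card X) (nhdsWithin 0 (Set.Ioi 0))
        (nhds (‖gen μ (g 0) (fun x => ((ζ x).im : ℂ))‖ * (1 / 2) ^ Fintype.card X)) :=
      (hc2.tendsto 0).mono_left nhdsWithin_le_nhds
    refine le_of_tendsto_of_tendsto t2 t1 ?_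
    have hmem : Set.Ioc (0 : ℝ) 1 ∈ nhdsWithin (0 : ℝ) (Set.Ioi 0) :=
      Ioc_mem_nhdsGT one_pos
    filter_upwards [hmem] with ε hε
    refine gen_lower (h (g ε) fun x => ⟨lt_max_of_lt_right hε.1, max_le (hθ x).2 hε.2⟩) hζ ?_
    exact gen_pos hμ0 hμ1 (fun x => le_max_of_le_left (hθ x).1) hζ
  rw [hg0, h0, norm_zero] at hle
  have h1 : 0 < ‖gen μ θ (fun x => ((ζ x).im : ℂ))‖ * (1 / 2) ^ Fintype.card X :=
    mul_pos (norm_pos_iff.2 (gen_pos hμ0 hμ1 (fun x => (hθ x).1) hζ)) (by positivity)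
  linarith

theorem law_nonneg' {l : List (X × X × ℝ)} (hl : ∀ g ∈ l, 0 ≤ g.2.2 ∧ g.2.2 ≤ 1 / 2)
    (σ π : Equiv.Perm X) : 0 ≤ law l σ π := by
  induction l generalizing π with
  | nil =>
    rw [law]
    by_cases h : π = σ
    · subst h; simp
    · rw [Pi.single_eq_of_ne h]
  | cons g l ih =>
    obtain ⟨h0, h1⟩ := hl g List.mem_cons_self
    have ih' := fun π => ih (fun g' hg' => hl g' (List.mem_cons_of_mem _ hg')) π
    rw [law]
    have := ih' π
    have := ih' (Equiv.swap g.1 g.2.1 * π)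
    have : 0 ≤ 1 - g.2.2 := by linarith
    positivity

theorem law_sum' (l : List (X × X × ℝ)) (σ : Equiv.Perm X) : ∑ π, law l σ π = 1 := by
  induction l with
  | nil => simp [law]
  | cons g l ih =>
    have h1 : ∑ π, law l σ (Equiv.swap g.1 g.2.1 * π) = ∑ π, law l σ π :=
      Equiv.sum_comp (Equiv.mulLeft (Equiv.swap g.1 g.2.1)) (law l σ)
    simp only [law]
    rw [Finset.sum_add_distrib, ← Finset.mul_sum, ← Finset.mul_sum, h1, ih]
    ring

/-- **The charge law is strong Rayleigh.** -/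
theorem stable_of_isLaw {μ : Equiv.Perm X → ℝ} (hμ : IsLaw μ) {θ : X → ℝ}
    (hθ : ∀ x, 0 ≤ θ x ∧ θ x ≤ 1) : Stable μ θ := by
  obtain ⟨l, σ, hl, h⟩ := id hμ
  refine stable_closure (fun π => ?_) ?_ (fun θ hθ => stable_of_isLaw_pos hμ hθ) hθ
  · rw [h]; exact law_nonneg' hl σ π
  · rw [h, law_sum']; exact one_pos

end Vale.Agent.P361.LRO.SR
end

section

/-!
P361, stage 3, block (1'): all moments of the block twist for the Gibbs state.
-/

namespace Vale.Agent.P361.LRO.Bloch

open Finset Matrix Filter Topology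

noncomputable section

variable {V : Type} [Fintype V] [DecidableEq V]

/-- Limit of the moment inequality. -/
theorem twist_limit_pow {W : ℕ → Matrix (V → Fin 2) (V → Fin 2) ℝ}
    {W0 : Matrix (V → Fin 2) (V → Fin 2) ℝ} (hW : Tendsto W atTop (𝓝 W0)) (b : Finset V) (θ : ℝ)
    {k : ℕ → ℝ} {κ : ℝ} (hκ : 0 ≤ κ) (m : ℕ) (hk : ∃ᶠ N in atTop, κ ≤ k N)
    (hpos : ∀ᶠ N in atTop, ∀ φ, 0 ≤ ZTw (W N) b θ φ)
    (hin : ∀ᶠ N in atTop, k N ^ m * (∫ φ in (0 : ℝ)..Real.pi,
        Real.sin φ * (1 - Real.cos φ) ^ m * ZTw (W N) b θ φ) ≤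
      (m.factorial : ℝ) * ∫ φ in (0 : ℝ)..Real.pi, Real.sin φ * ZTw (W N) b θ φ) :
    κ ^ m * (∫ φ in (0 : ℝ)..Real.pi, Real.sin φ * (1 - Real.cos φ) ^ m * ZTw W0 b θ φ) ≤
      (m.factorial : ℝ) * ∫ φ in (0 : ℝ)..Real.pi, Real.sin φ * ZTw W0 b θ φ := by
  have h1 := (tendsto_int_ZTw hW b θ (g := fun φ => Real.sin φ * (1 - Real.cos φ) ^ m)
    (by fun_prop)).const_mul (κ ^ m)
  have h2 := (tendsto_int_ZTw hW b θ (g := Real.sin) (by fun_prop)).const_mul (m.factorial : ℝ)
  refine le_of_tendsto_of_tendsto_of_frequently h1 h2 ?_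
  refine (hk.and_eventually (hpos.and hin)).mono fun N hN => ?_
  obtain ⟨h3, h4, h5⟩ := hN
  refine le_trans (mul_le_mul_of_nonneg_right (pow_le_pow_left₀ hκ h3 m) ?_) h5
  refine intervalIntegral.integral_nonneg Real.pi_pos.le fun φ hφ => ?_
  have h6 := Real.sin_nonneg_of_nonneg_of_le_pi hφ.1 hφ.2
  have h7 : 0 ≤ 1 - Real.cos φ := by linarith [Real.cos_le_one φ]
  exact mul_nonneg (mul_nonneg h6 (pow_nonneg h7 m)) (h4 φ)

theorem tanh_nonneg' {x : ℝ} (hx : 0 ≤ x) : 0 ≤ Real.tanh x := by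
  rw [Real.tanh_eq_sinh_div_cosh]
  exact div_nonneg (Real.sinh_nonneg_iff.2 hx) (Real.cosh_pos _).le

/-- For large `N` the physical circuit is a law and all parameters are in `[0, 1]`. -/
theorem phys_good (L : List (V × V)) {β : ℝ} (hβ : 0 < β) {h : V → ℝ} (hh : ∀ x, 0 ≤ h x) {K : ℝ}
    (hK : 0 ≤ K) (b : Finset V) : ∀ᶠ N : ℕ in atTop, IsLaw (phys L β N) ∧
      ∀ z, 0 ≤ th β N h (blk K b) z ∧ th β N h (blk K b) z ≤ 1 := by
  have hT : 0 ≤ Real.tanh (K / (2 * b.card)) := tanh_nonneg' (by positivity)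
  have hT1 : Real.tanh (K / (2 * b.card)) ≤ 1 := (Real.tanh_lt_one _).le
  have h1 : ∀ᶠ N : ℕ in atTop, β ≤ N := eventually_atTop.2 (by
    obtain ⟨n, hn⟩ := exists_nat_ge β
    exact ⟨n, fun m hm => hn.trans (by exact_mod_cast hm)⟩)
  have h2 : ∀ᶠ N : ℕ in atTop, β * (∑ x, h x) / 2 ≤ N := eventually_atTop.2 (by
    obtain ⟨n, hn⟩ := exists_nat_ge (β * (∑ x, h x) / 2)
    exact ⟨n, fun m hm => hn.trans (by exact_mod_cast hm)⟩)
  filter_upwards [h1, h2, eventually_gt_atTop 0] with N hN1 hN2 hN0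
  have hN' : (0 : ℝ) < N := by exact_mod_cast hN0
  refine ⟨isLaw_phys' L hβ.le hN1, fun z => ?_⟩
  unfold th
  split_ifs with hz
  · unfold blk
    split_ifs
    · exact ⟨hT, hT1⟩
    · exact ⟨le_rfl, zero_le_one⟩
  · constructor
    · exact div_nonneg (mul_nonneg hβ.le (hh _)) (by positivity)
    · rw [div_le_one (by positivity)]
      have h3 : h z.2 ≤ ∑ x, h x := Finset.single_le_sum (fun x _ => hh x) (Finset.mem_univ _)
      have h4 : β * h z.2 ≤ β * ∑ x, h x := mul_le_mul_of_nonneg_left h3 hβ.le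
      linarith

/-- **All moments of the block twist, Gibbs state.** -/
theorem twist_gibbs_pow (L : List (V × V)) {β : ℝ} (hβ : 0 < β) {h : V → ℝ} (hh : ∀ x, 0 ≤ h x)
    {K κ : ℝ} (hK : 0 ≤ K) (hκ0 : 0 ≤ κ) (b : Finset V)
    (hκ : ∃ᶠ N : ℕ in atTop, κ ≤ kap L β N h K b) (m : ℕ) :
    κ ^ m * (∫ φ in (0 : ℝ)..Real.pi, Real.sin φ * (1 - Real.cos φ) ^ m *
        Matrix.trace (NormedSpace.exp (-β • ham L h) *
          rotT b (Real.tanh (K / (2 * b.card))) φ)) ≤
      (m.factorial : ℝ) * ∫ φ in (0 : ℝ)..Real.pi, Real.sin φ *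
        Matrix.trace (NormedSpace.exp (-β • ham L h) *
          rotT b (Real.tanh (K / (2 * b.card))) φ) := by
  have hgood := phys_good L hβ hh hK b
  refine twist_limit_pow (stepM_tendsto L β h) b _ hκ0 m hκ ?_ ?_
  · filter_upwards [hgood] with N hN φ
    obtain ⟨hl, ht⟩ := hN
    unfold ZTw
    rw [← Zf_phys]
    exact Zf_nonneg hl.nonneg (fun z => (ht z).1) (ZZ_pos hl fun z => (ht z).1)
      (SR.stable_of_isLaw hl ht) _ φ
  · filter_upwards [hgood] with N hN
    obtain ⟨hl, ht⟩ := hN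
    unfold ZTw
    simp only [← Zf_phys]
    exact kap_int_pow hl.nonneg (fun z => (ht z).1) (ZZ_pos hl fun z => (ht z).1)
      (SR.stable_of_isLaw hl ht) _ m

end

end Vale.Agent.P361.LRO.Bloch
end

section

/-!
P361 LRO: from `LocSame` / `LocNN` (block (4)) to the form used by the network blocks
(`Skel/Low.lean`, theorem `loc`).
-/

namespace Vale.Agent.P361.LRO.Loc

open Finset Vale.Agent.P361.LRO

noncomputable section

/-- `((1 - x) / (1 + x)) ^ m ≥ exp (-3 x m)` for `0 ≤ x ≤ 1/2`. -/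
lemma ratio_pow (x : ℝ) (hx0 : 0 ≤ x) (hx : x ≤ 1 / 2) (m : ℕ) :
    Real.exp (-(3 * x * m)) ≤ ((1 - x) / (1 + x)) ^ m := by
  have h1 : Real.exp (-(3 * x)) ≤ (1 - x) / (1 + x) := by
    rw [le_div_iff₀ (by linarith), Real.exp_neg, ← div_eq_inv_mul, div_le_iff₀ (Real.exp_pos _)]
    -- 1 + x ≤ (1 - x) exp (3x)
    have h2 : 1 + 3 * x + (3 * x) ^ 2 / 2 ≤ Real.exp (3 * x) :=
      Real.quadratic_le_exp_of_nonneg (by linarith)
    have h3 : (1 - x) * (1 + 3 * x + (3 * x) ^ 2 / 2) ≤ (1 - x) * Real.exp (3 * x) :=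
      mul_le_mul_of_nonneg_left h2 (by linarith)
    refine le_trans ?_ h3
    nlinarith [sq_nonneg x, mul_nonneg hx0 hx0, mul_nonneg hx0 (mul_nonneg hx0 hx0)]
  calc Real.exp (-(3 * x * m)) = Real.exp (-(3 * x)) ^ m := by
        rw [← Real.exp_nat_mul]; congr 1; ring
    _ ≤ _ := pow_le_pow_left₀ (Real.exp_pos _).le h1 m

lemma ccSym {X : Type} [Fintype X] [DecidableEq X] (μ : Equiv.Perm X → ℝ) (θ : X → ℝ) (u v : X) :
    cc μ θ u v = cc μ θ v u := by
  unfold cc
  have : (fun (π : Equiv.Perm X) s => jj π s u * jj π s v) = fun π s => jj π s v * jj π s u := by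
    funext π s; ring
  rw [this]

lemma th_leL {V : Type} {β : ℝ} {N : ℕ} {h T : V → ℝ} (hβ : 0 ≤ β)
    (hh : ∀ x, 0 ≤ h x ∧ h x ≤ 1) (i : Fin (N + 1)) (hi : i ≠ 0) (x : V) :
    th β N h T (i, x) ≤ β / (2 * N) := by
  unfold th
  rw [if_neg hi]
  have h1 : β * h x ≤ β := by
    have := mul_le_mul_of_nonneg_left (hh x).2 hβ
    linarith
  exact div_le_div_of_nonneg_right h1 (by positivity)

lemma th_memL {V : Type} {β : ℝ} {N : ℕ} {h T : V → ℝ} (hβ : 0 ≤ β) (hN : β ≤ N)
    (hh : ∀ x, 0 ≤ h x ∧ h x ≤ 1) (hT : ∀ x, 0 ≤ T x ∧ T x ≤ 1) (z : Fin (N + 1) × V) :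
    0 ≤ th β N h T z ∧ th β N h T z ≤ 1 := by
  by_cases hz : z.1 = 0
  · unfold th; rw [if_pos hz]; exact hT _
  · constructor
    · unfold th; rw [if_neg hz]
      exact div_nonneg (mul_nonneg hβ (hh _).1) (by positivity)
    · have h1 : th β N h T (z.1, z.2) ≤ β / (2 * N) := th_leL hβ hh z.1 hz z.2
      refine le_trans h1 ?_
      by_cases hN0 : (N : ℝ) = 0
      · rw [hN0]; simp
      · have hNp : (0:ℝ) < N := lt_of_le_of_ne (Nat.cast_nonneg N) (Ne.symm hN0)
        rw [div_le_one (by positivity)]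
        linarith

/-- the loss over `m` layers with `p m ≤ 1/2` -/
lemma loss (p : ℝ) (hp0 : 0 ≤ p) (hp : p ≤ 1 / 16) (m a : ℕ) (hm : p * m ≤ 1 / 2) :
    Real.exp (-(3 / 2 * (a + 1))) ≤
      ((1 - p) / (1 + p)) ^ (a * m) * ((1 - p) / (1 + p)) ^ m := by
  rw [← pow_add]
  refine le_trans ?_ (ratio_pow p hp0 (by linarith) (a * m + m))
  apply Real.exp_le_exp.2
  push_cast
  have ha : (0:ℝ) ≤ a := Nat.cast_nonneg a
  nlinarith [mul_le_mul_of_nonneg_right hm (by linarith : (0:ℝ) ≤ a + 1)]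

theorem loc_ofL
    (hS : ∀ (V : Type) [Fintype V] [DecidableEq V] (L : List (V × V)), LocSame V L 6)
    (hNN : ∀ (V : Type) [Fintype V] [DecidableEq V] (L : List (V × V)), LocNN V L 6) :
    ∃ c0 : ℝ, 0 < c0 ∧ ∀ {V : Type} [Fintype V] [DecidableEq V] (L : List (V × V)),
    (∀ x, (L.filter fun e => e.1 = x ∨ e.2 = x).length ≤ 6) →
    ∀ (β : ℝ), 1 ≤ β → ∀ N : ℕ, 8 * β ≤ N → ∀ h T : V → ℝ,
    (∀ x, 0 ≤ h x ∧ h x ≤ 1) → (∀ x, 0 ≤ T x ∧ T x ≤ 1) →
    (∀ (k k' : Fin (N + 1)) (x : V), 0 < k → k < k' → ((k' : ℝ) - (k : ℝ)) * β / N ≤ 1 →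
      c0 * (β * h x / (2 * N)) ^ 2 ≤ cc (phys L β N) (th β N h T) (k, x) (k', x)) ∧
    (∀ (k k' : Fin (N + 1)) (x y : V), 0 < k → k < k' → 1 / 4 ≤ ((k' : ℝ) - (k : ℝ)) * β / N →
      ((k' : ℝ) - (k : ℝ)) * β / N ≤ 1 → ((x, y) ∈ L ∨ (y, x) ∈ L) → x ≠ y →
      c0 * (β * h x / (2 * N)) * (β * h y / (2 * N)) ≤
        cc (phys L β N) (th β N h T) (k, x) (k', y)) ∧
    (∀ (k : Fin (N + 1)) (x : V), 0 < k → (k : ℝ) * β / N ≤ 1 →
      c0 * T x * (β * h x / (2 * N)) ≤ cc (phys L β N) (th β N h T) (0, x) (k, x)) := by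
  refine ⟨1 / 64 * Real.exp (-(39 / 2)), by positivity, ?_⟩
  intro V _ _ L hdeg β hβ N hN h T hh hT
  have hβ0 : (0:ℝ) < β := by linarith
  have hNp : (0:ℝ) < N := by linarith
  have hβN : β ≤ N := by linarith
  have hdeg' : ∀ x : V, (L.countP fun e => e.1 = x ∨ e.2 = x) ≤ 6 := by
    intro x; rw [List.countP_eq_length_filter]; exact hdeg x
  set p : ℝ := β / (2 * N) with hp
  have hp0 : 0 < p := by positivity
  have hp16 : p ≤ 1 / 16 := by
    rw [hp, div_le_iff₀ (by positivity)]; linarith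
  have hθ := fun z => th_memL (h := h) (T := T) hβ0.le hβN hh hT z
  have key : ∀ m : ℝ, m * β / N = 2 * (p * m) := by
    intro m; rw [hp]; field_simp
  have hthk : ∀ (k : Fin (N + 1)) (x : V), 0 < k → th β N h T (k, x) = β * h x / (2 * N) := by
    intro k x hk; unfold th; rw [if_neg (ne_of_gt hk)]
  have hth0 : ∀ x : V, th β N h T (0, x) = T x := by
    intro x; unfold th; rw [if_pos rfl]
  have cast_sub : ∀ k k' : Fin (N + 1), k < k' →
      (((k' : ℕ) - (k : ℕ) : ℕ) : ℝ) = (k' : ℝ) - (k : ℝ) := by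
    intro k k' hk
    rw [Nat.cast_sub (le_of_lt (show (k : ℕ) < (k' : ℕ) from hk))]
  -- same site, general
  have same : ∀ (k k' : Fin (N + 1)) (x : V), k < k' → ((k' : ℝ) - (k : ℝ)) * β / N ≤ 1 →
      th β N h T (k', x) * th β N h T (k, x) * (1 / 64 * Real.exp (-(39 / 2))) ≤
        cc (phys L β N) (th β N h T) (k', x) (k, x) := by
    intro k k' x hk hd
    have h1 := hS V L β N hβ0 hβN hdeg' (th β N h T) hθ x k k' p hp0.le (by linarith) hk (by
      intro i hi _
      exact th_leL hβ0.le hh i (ne_of_gt (lt_of_le_of_lt (Fin.zero_le _) hi)) x)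
    refine le_trans ?_ h1
    refine mul_le_mul_of_nonneg_left ?_ (mul_nonneg (hθ _).1 (hθ _).1)
    have h2 := loss p hp0.le hp16 ((k' : ℕ) - (k : ℕ)) 6 (by
      rw [cast_sub k k' hk]; rw [key] at hd; linarith)
    have h3 : Real.exp (-(39 / 2 : ℝ)) ≤ Real.exp (-(3 / 2 * ((6:ℕ) + 1))) := by
      apply Real.exp_le_exp.2; norm_num
    have h4 := Real.exp_pos (-(39 / 2 : ℝ))
    linarith
  refine ⟨?_, ?_, ?_⟩
  · intro k k' x hk hkk hd
    have h1 := same k k' x hkk hd
    rw [ccSym, hthk k x hk, hthk k' x (lt_trans hk hkk)] at h1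
    calc _ = β * h x / (2 * N) * (β * h x / (2 * N)) * (1 / 64 * Real.exp (-(39 / 2))) := by ring
      _ ≤ _ := h1
  · intro k k' x y hk hkk hd0 hd hL hxy
    have h1 := hNN V L β N hβ0 hβN hdeg' (th β N h T) hθ y x k k' p (Ne.symm hxy)
      (Or.symm hL) hp0.le (by linarith) hkk (by
      intro i hi _
      exact ⟨th_leL hβ0.le hh i (ne_of_gt (lt_of_le_of_lt (Fin.zero_le _) hi)) y,
        th_leL hβ0.le hh i (ne_of_gt (lt_of_le_of_lt (Fin.zero_le _) hi)) x⟩)
    rw [ccSym, hthk k x hk, hthk k' y (lt_trans hk hkk)] at h1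
    refine le_trans ?_ h1
    have h2 := loss p hp0.le hp16 ((k' : ℕ) - (k : ℕ)) 12 (by
      rw [cast_sub k k' hkk]; rw [key] at hd; linarith)
    have h3 : Real.exp (-(39 / 2 : ℝ)) ≤ Real.exp (-(3 / 2 * ((12:ℕ) + 1))) := by
      apply Real.exp_le_exp.2; norm_num
    have h5 : 1 / 8 ≤ p * (((k' : ℕ) - (k : ℕ) : ℕ) : ℝ) := by
      rw [cast_sub k k' hkk]; rw [key] at hd0; linarith
    have h4 := Real.exp_pos (-(39 / 2 : ℝ))
    have h6 : 1 / 64 * Real.exp (-(39 / 2)) ≤
        1 / 8 * (p * (((k' : ℕ) - (k : ℕ) : ℕ) : ℝ)) *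
          (((1 - p) / (1 + p)) ^ (2 * 6 * ((k' : ℕ) - (k : ℕ))) *
            ((1 - p) / (1 + p)) ^ ((k' : ℕ) - (k : ℕ))) := by
      calc 1 / 64 * Real.exp (-(39 / 2)) = (1 / 8 * (1 / 8)) * Real.exp (-(39 / 2)) := by ring
        _ ≤ _ := by
          refine mul_le_mul (by linarith) (h3.trans h2) h4.le (by positivity)
    have h7 : 0 ≤ β * h y / (2 * N) * (β * h x / (2 * N)) := by
      have := (hh x).1; have := (hh y).1; positivity
    have h8 := mul_le_mul_of_nonneg_left h6 h7
    calc _ = β * h y / (2 * N) * (β * h x / (2 * N)) * (1 / 64 * Real.exp (-(39 / 2))) := by ring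
      _ ≤ _ := h8
      _ = _ := by ring
  · intro k x hk hd
    have h1 := same 0 k x hk (by simpa using hd)
    rw [ccSym, hth0, hthk k x hk] at h1
    calc _ = β * h x / (2 * N) * T x * (1 / 64 * Real.exp (-(39 / 2))) := by ring
      _ ≤ _ := h1

end

end Vale.Agent.P361.LRO.Loc
end

section

/-!
P361 LRO, dictionary: the quantities of the charge network as loop sums `NZ`, in the charge picture
and in the `S³`-picture.
-/

namespace Vale.Agent.P361.LRO.Dict

open Finset Matrix

noncomputable section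

set_option linter.unusedSectionVars false

/-! ### One-site matrices -/

section mats

variable {R : Type*} [CommRing R]

/-- `σ³`. -/
def m3 : Matrix (Fin 2) (Fin 2) R := !![1, 0; 0, -1]

/-- `σ¹`. -/
def m1 : Matrix (Fin 2) (Fin 2) R := !![0, 1; 1, 0]

/-- `s - s'`. -/
def mJ : Matrix (Fin 2) (Fin 2) R := !![0, -1; 1, 0]

/-- Slice in the charge picture. -/
def chM (θ : R) : Matrix (Fin 2) (Fin 2) R := !![1, θ; θ, 1]

/-- Slice in the `S³`-picture. -/
def dgM (θ : R) : Matrix (Fin 2) (Fin 2) R := !![1 + θ, 0; 0, 1 - θ]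

theorem chM_apply (θ : R) (a b : Fin 2) : chM θ a b = if a = b then 1 else θ := by
  fin_cases a <;> fin_cases b <;> simp [chM]

theorem m1_apply (a b : Fin 2) : (m1 : Matrix (Fin 2) (Fin 2) R) a b = if a = b then 0 else 1 := by
  fin_cases a <;> fin_cases b <;> simp [m1]

theorem mJ_apply (a b : Fin 2) : (mJ : Matrix (Fin 2) (Fin 2) ℝ) a b = ((a : ℕ) : ℝ) - ((b : ℕ) : ℝ) := by
  fin_cases a <;> fin_cases b <;> simp [mJ]

theorem dgM_ne (θ : R) {a b : Fin 2} (h : a ≠ b) : dgM θ a b = 0 := by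
  fin_cases a <;> fin_cases b <;> simp_all [dgM]

/-- Hadamard. -/
def mH : Matrix (Fin 2) (Fin 2) ℝ := !![1, 1; 1, -1]

def mW : Matrix (Fin 2) (Fin 2) ℝ := !![1 / 2, 1 / 2; 1 / 2, -(1 / 2)]

theorem mW_mH : mW * mH = 1 := by
  ext a b
  fin_cases a <;> fin_cases b <;> simp [mW, mH, Matrix.mul_apply, Fin.sum_univ_two] <;> norm_num

theorem mH_mW : mH * mW = 1 := by
  ext a b
  fin_cases a <;> fin_cases b <;> simp [mW, mH, Matrix.mul_apply, Fin.sum_univ_two] <;> norm_num

theorem conj_chM (θ : ℝ) : mH * chM θ * mW = dgM θ := by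
  ext a b
  fin_cases a <;> fin_cases b <;>
    simp [mW, mH, chM, dgM, Matrix.mul_apply, Fin.sum_univ_two] <;> ring

theorem conj_m1 : mH * m1 * mW = m3 := by
  ext a b
  fin_cases a <;> fin_cases b <;>
    simp [mW, mH, m1, m3, Matrix.mul_apply, Fin.sum_univ_two] <;> norm_num

theorem conj_one : mH * 1 * mW = 1 := by
  rw [Matrix.mul_one, mH_mW]

theorem conj_mJ : mH * mJ * mW = -mJ := by
  ext a b
  fin_cases a <;> fin_cases b <;>
    simp [mW, mH, mJ, Matrix.mul_apply, Fin.sum_univ_two] <;> norm_num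

end mats

variable {X : Type} [Fintype X] [DecidableEq X]

section gen

variable {R : Type*} [CommRing R] [Algebra ℝ R]

/-- **Change of basis.** -/
theorem NZ_conj (μ : Equiv.Perm X → ℝ) (A : X → Matrix (Fin 2) (Fin 2) R)
    {U W : Matrix (Fin 2) (Fin 2) R} (h : W * U = 1) :
    NZ μ (fun x => U * A x * W) = NZ μ A := Br.NZ_conj μ A h

theorem prod_mul_at (A : X → Matrix (Fin 2) (Fin 2) R) (u : X) (ρ M : Matrix (Fin 2) (Fin 2) R)
    (hM : ∀ a b, A u a b * ρ a b = M a b) (s : X → Fin 2) (π : Equiv.Perm X) :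
    (∏ z, A z (s z) (s (π z))) * ρ (s u) (s (π u)) =
      ∏ z, (Function.update A u M) z (s z) (s (π z)) := by
  rw [← Finset.mul_prod_erase _ _ (Finset.mem_univ u),
    ← Finset.mul_prod_erase (a := u) Finset.univ
      (fun z => (Function.update A u M) z (s z) (s (π z))) (Finset.mem_univ u),
    Function.update_self, ← hM, mul_right_comm]
  congr 1
  refine Finset.prod_congr rfl fun z hz => ?_
  rw [Function.update_of_ne (Finset.ne_of_mem_erase hz)]

theorem NZ_update_smul (μ : Equiv.Perm X → ℝ) (A : X → Matrix (Fin 2) (Fin 2) R) (u : X)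
    (c : R) (M : Matrix (Fin 2) (Fin 2) R) :
    NZ μ (Function.update A u (c • M)) = c * NZ μ (Function.update A u M) := by
  unfold NZ
  rw [Finset.mul_sum]
  refine Finset.sum_congr rfl fun π _ => ?_
  rw [mul_smul_comm, Finset.mul_sum]
  congr 1
  refine Finset.sum_congr rfl fun s _ => ?_
  have h : Function.update A u (c • M) =
      Function.update (Function.update A u M) u (c • M) := by
    rw [Function.update_idem]
  rw [h, ← prod_mul_at (Function.update A u M) u (fun _ _ => c) (c • M) (fun a b => by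
    rw [Function.update_self, Matrix.smul_apply, smul_eq_mul, mul_comm])]
  rw [mul_comm]

theorem conj_update (A : X → Matrix (Fin 2) (Fin 2) R) (u : X) (M U W : Matrix (Fin 2) (Fin 2) R) :
    (fun x => U * Function.update A u M x * W) =
      Function.update (fun x => U * A x * W) u (U * M * W) := by
  funext x
  exact Function.apply_update (fun _ (B : Matrix (Fin 2) (Fin 2) R) => U * B * W) A u M x

end gen

/-! ### Charge picture -/

variable (μ : Equiv.Perm X → ℝ) (θ : X → ℝ)

theorem wt_eq (π : Equiv.Perm X) (s : X → Fin 2) :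
    wt θ π s = ∏ z, chM (θ z) (s z) (s (π z)) := by
  unfold wt
  exact Finset.prod_congr rfl fun z _ => (chM_apply _ _ _).symm

theorem ZZ_eq : ZZ μ θ = NZ μ fun z => chM (θ z) := by
  unfold ZZ NZ
  refine Finset.sum_congr rfl fun π _ => ?_
  rw [smul_eq_mul, Finset.mul_sum]
  exact Finset.sum_congr rfl fun s _ => by rw [wt_eq]

/-- General insertion at one node. -/
theorem ins_one (u : X) (ρ M : Matrix (Fin 2) (Fin 2) ℝ)
    (hM : ∀ a b, chM (θ u) a b * ρ a b = M a b) :
    ∑ π, ∑ s, μ π * wt θ π s * ρ (s u) (s (π u)) =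
      NZ μ (Function.update (fun z => chM (θ z)) u M) := by
  unfold NZ
  refine Finset.sum_congr rfl fun π _ => ?_
  rw [smul_eq_mul, Finset.mul_sum]
  refine Finset.sum_congr rfl fun s _ => ?_
  rw [wt_eq, mul_assoc, prod_mul_at _ u ρ M hM]

/-- Insertion at two nodes. -/
theorem ins_two {u v : X} (huv : u ≠ v) (ρ ρ' M M' : Matrix (Fin 2) (Fin 2) ℝ)
    (hM : ∀ a b, chM (θ u) a b * ρ a b = M a b) (hM' : ∀ a b, chM (θ v) a b * ρ' a b = M' a b) :
    ∑ π, ∑ s, μ π * wt θ π s * (ρ (s u) (s (π u)) * ρ' (s v) (s (π v))) =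
      NZ μ (Function.update (Function.update (fun z => chM (θ z)) u M) v M') := by
  unfold NZ
  refine Finset.sum_congr rfl fun π _ => ?_
  rw [smul_eq_mul, Finset.mul_sum]
  refine Finset.sum_congr rfl fun s _ => ?_
  rw [wt_eq, mul_assoc, ← mul_assoc (∏ z, _), prod_mul_at _ u ρ M hM,
    prod_mul_at _ v ρ' M' fun a b => ?_]
  rw [Function.update_of_ne huv.symm]
  exact hM' a b

theorem mag_num (z : X) :
    (∑ π, ∑ s, if s z = s (π z) then 0 else μ π * wt (Function.update θ z 1) π s) =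
      NZ μ (Function.update (fun x => chM (θ x)) z m1) := by
  have h := ins_one μ (Function.update θ z 1) z m1 m1 fun a b => by
    rw [Function.update_self, chM_apply, m1_apply]
    split_ifs <;> simp
  have e : Function.update (fun x => chM (Function.update θ z 1 x)) z m1 =
      Function.update (fun x => chM (θ x)) z m1 := by
    funext x
    by_cases hx : x = z
    · subst hx
      rw [Function.update_self, Function.update_self]
    · rw [Function.update_of_ne hx, Function.update_of_ne hx, Function.update_of_ne hx]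
  rw [← e, ← h]
  refine Finset.sum_congr rfl fun π _ => Finset.sum_congr rfl fun s _ => ?_
  rw [m1_apply]
  split_ifs <;> simp

theorem mag_den (z : X) :
    (∑ π, ∑ s, if s z = s (π z) then μ π * wt θ π s else 0) =
      NZ μ (Function.update (fun x => chM (θ x)) z 1) := by
  have h := ins_one μ θ z 1 1 fun a b => by
    rw [chM_apply, Matrix.one_apply]
    split_ifs <;> simp
  rw [← h]
  refine Finset.sum_congr rfl fun π _ => Finset.sum_congr rfl fun s _ => ?_
  rw [Matrix.one_apply]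
  split_ifs <;> simp

theorem jj_sq_num (z : X) :
    ∑ π, ∑ s, μ π * wt θ π s * jj π s z ^ 2 =
      θ z * NZ μ (Function.update (fun x => chM (θ x)) z m1) := by
  have h := ins_one μ θ z (fun a b => (((a : ℕ) : ℝ) - ((b : ℕ) : ℝ)) ^ 2) (θ z • m1)
    fun a b => by
      rw [chM_apply, Matrix.smul_apply, m1_apply]
      fin_cases a <;> fin_cases b <;> simp
  rw [NZ_update_smul] at h
  exact h

theorem jj_jj_num {u v : X} (huv : u ≠ v) :
    ∑ π, ∑ s, μ π * wt θ π s * (jj π s u * jj π s v) =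
      θ u * θ v * NZ μ (Function.update (Function.update (fun x => chM (θ x)) u mJ) v mJ) := by
  have h := ins_two μ θ huv mJ mJ (θ u • mJ) (θ v • mJ)
    (fun a b => by
      rw [chM_apply, Matrix.smul_apply, mJ_apply]
      fin_cases a <;> fin_cases b <;> simp)
    (fun a b => by
      rw [chM_apply, Matrix.smul_apply, mJ_apply]
      fin_cases a <;> fin_cases b <;> simp)
  rw [NZ_update_smul, Function.update_comm huv, NZ_update_smul, Function.update_comm huv.symm,
    ← mul_assoc, mul_comm (θ v)] at h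
  rw [← h]
  refine Finset.sum_congr rfl fun π _ => Finset.sum_congr rfl fun s _ => ?_
  rw [mJ_apply, mJ_apply]
  rfl

/-! ### `S³`-picture -/

theorem ZZ_eq3 : ZZ μ θ = NZ μ fun z => dgM (θ z) := by
  rw [ZZ_eq, ← NZ_conj μ _ mW_mH]
  simp only [conj_chM]

theorem NZ_up1 (u : X) (M : Matrix (Fin 2) (Fin 2) ℝ) :
    NZ μ (Function.update (fun x => chM (θ x)) u M) =
      NZ μ (Function.update (fun x => dgM (θ x)) u (mH * M * mW)) := by
  rw [← NZ_conj μ _ mW_mH, conj_update]
  simp only [conj_chM]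

theorem NZ_up2 (u v : X) (M M' : Matrix (Fin 2) (Fin 2) ℝ) :
    NZ μ (Function.update (Function.update (fun x => chM (θ x)) u M) v M') =
      NZ μ (Function.update (Function.update (fun x => dgM (θ x)) u (mH * M * mW)) v
        (mH * M' * mW)) := by
  rw [← NZ_conj μ _ mW_mH, conj_update, conj_update]
  simp only [conj_chM]

/-- The magnetisation. -/
theorem mag_eq3 (z : X) : mag μ θ z =
    NZ μ (Function.update (fun x => dgM (θ x)) z m3) /
      NZ μ (Function.update (fun x => dgM (θ x)) z 1) := by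
  unfold mag
  rw [mag_num, mag_den, NZ_up1, NZ_up1, conj_m1, conj_one]

theorem vv_eq3 (z : X) : vv μ θ z =
    θ z * NZ μ (Function.update (fun x => dgM (θ x)) z m3) / NZ μ fun x => dgM (θ x) := by
  unfold vv EE
  rw [jj_sq_num, NZ_up1, conj_m1, ZZ_eq3]

/-- Conservation of the magnetisation. -/
theorem flip_two {u v : X} (huv : u ≠ v) :
    NZ μ (Function.update (Function.update (fun x => dgM (θ x)) u (-mJ)) v (-mJ)) =
      - NZ μ (Function.update (Function.update (fun x => dgM (θ x)) u m1) v m1) := by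
  unfold NZ
  rw [← Finset.sum_neg_distrib]
  refine Finset.sum_congr rfl fun π _ => ?_
  rw [← smul_neg, ← Finset.sum_neg_distrib]
  congr 1
  refine Finset.sum_congr rfl fun s _ => ?_
  by_cases h : ∃ z, z ≠ u ∧ z ≠ v ∧ s z ≠ s (π z)
  · obtain ⟨z, hu, hv, hz⟩ := h
    rw [Finset.prod_eq_zero (Finset.mem_univ z), Finset.prod_eq_zero (Finset.mem_univ z), neg_zero]
    · rw [Function.update_of_ne hv, Function.update_of_ne hu, dgM_ne _ hz]
    · rw [Function.update_of_ne hv, Function.update_of_ne hu, dgM_ne _ hz]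
  · push Not at h
    set D := fun x => dgM (θ x) with hD
    -- the charges
    have hJ : ∀ a b : Fin 2, (m1 : Matrix (Fin 2) (Fin 2) ℝ) a b *
        (((b : ℕ) : ℝ) - ((a : ℕ) : ℝ)) = (-mJ : Matrix (Fin 2) (Fin 2) ℝ) a b := by
      intro a b
      rw [m1_apply, Matrix.neg_apply, mJ_apply]
      fin_cases a <;> fin_cases b <;> simp
    have e1 := prod_mul_at (Function.update (Function.update D u m1) v m1) u
      (fun a b => ((b : ℕ) : ℝ) - ((a : ℕ) : ℝ)) (-mJ) (fun a b => by
        rw [Function.update_of_ne huv, Function.update_self]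
        exact hJ a b) s π
    have e2 := prod_mul_at (Function.update (Function.update (Function.update D u m1) v m1) u (-mJ))
      v (fun a b => ((b : ℕ) : ℝ) - ((a : ℕ) : ℝ)) (-mJ) (fun a b => by
        rw [Function.update_of_ne huv.symm, Function.update_self]
        exact hJ a b) s π
    have e3 : Function.update (Function.update (Function.update (Function.update D u m1) v m1) u
        (-mJ)) v (-mJ) = Function.update (Function.update D u (-mJ)) v (-mJ) := by
      funext x
      by_cases hxv : x = v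
      · subst hxv
        rw [Function.update_self, Function.update_self]
      · rw [Function.update_of_ne hxv, Function.update_of_ne hxv]
        by_cases hxu : x = u
        · subst hxu
          rw [Function.update_self, Function.update_self]
        · rw [Function.update_of_ne hxu, Function.update_of_ne hxv, Function.update_of_ne hxu,
            Function.update_of_ne hxu]
    rw [e3] at e2
    rw [← e2, ← e1, mul_assoc]
    set P := ∏ z, Function.update (Function.update D u m1) v m1 z (s z) (s (π z)) with hP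
    -- the sum of the charges
    have hs : ∑ z, ((((s z : Fin 2) : ℕ) : ℝ) - (((s (π z) : Fin 2) : ℕ) : ℝ)) = 0 := by
      rw [Finset.sum_sub_distrib, sub_eq_zero]
      exact (Equiv.sum_comp π fun z => (((s z : Fin 2) : ℕ) : ℝ)).symm
    have hs2 : (((s u : Fin 2) : ℕ) : ℝ) - (((s (π u) : Fin 2) : ℕ) : ℝ) +
        ((((s v : Fin 2) : ℕ) : ℝ) - (((s (π v) : Fin 2) : ℕ) : ℝ)) = 0 := by
      rw [← hs, ← Finset.sum_pair huv
        (f := fun z => ((((s z : Fin 2) : ℕ) : ℝ) - (((s (π z) : Fin 2) : ℕ) : ℝ)))]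
      refine Finset.sum_subset (Finset.subset_univ _) fun z _ hz => ?_
      rw [Finset.mem_insert, Finset.mem_singleton, not_or] at hz
      rw [h z hz.1 hz.2, sub_self]
    by_cases hu : s u = s (π u)
    · have : P = 0 := by
        rw [hP]
        refine Finset.prod_eq_zero (Finset.mem_univ u) ?_
        rw [Function.update_of_ne huv, Function.update_self, m1_apply, if_pos hu]
      rw [this, zero_mul, neg_zero]
    · have h1 : ((((s (π u) : Fin 2) : ℕ) : ℝ) - (((s u : Fin 2) : ℕ) : ℝ)) ^ 2 = 1 := by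
        generalize s u = a at hu ⊢
        generalize s (π u) = b at hu ⊢
        fin_cases a <;> fin_cases b <;> simp_all
      have h2 : (((s (π v) : Fin 2) : ℕ) : ℝ) - (((s v : Fin 2) : ℕ) : ℝ) =
          - ((((s (π u) : Fin 2) : ℕ) : ℝ) - (((s u : Fin 2) : ℕ) : ℝ)) := by linarith
      rw [h2, mul_neg, ← sq, h1]
      ring

/-- **The conductances.** -/
theorem cc_eq3 {u v : X} (huv : u ≠ v) : cc μ θ u v =
    θ u * θ v * NZ μ (Function.update (Function.update (fun x => dgM (θ x)) u m1) v m1) /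
      NZ μ fun x => dgM (θ x) := by
  unfold cc EE
  rw [jj_jj_num μ θ huv, NZ_up2, conj_mJ, flip_two μ θ huv, ZZ_eq3]
  ring

theorem NZ_nonneg (hμ : ∀ π, 0 ≤ μ π) {A : X → Matrix (Fin 2) (Fin 2) ℝ}
    (hA : ∀ z a b, 0 ≤ A z a b) : 0 ≤ NZ μ A := by
  unfold NZ
  refine Finset.sum_nonneg fun π _ => ?_
  rw [smul_eq_mul]
  exact mul_nonneg (hμ π) (Finset.sum_nonneg fun s _ => Finset.prod_nonneg fun z _ => hA _ _ _)

theorem dgM_nonneg {t : ℝ} (h0 : 0 ≤ t) (h1 : t ≤ 1) (a b : Fin 2) : 0 ≤ dgM t a b := by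
  fin_cases a <;> fin_cases b <;> simp [dgM] <;> linarith

theorem m1_nonneg (a b : Fin 2) : 0 ≤ (m1 : Matrix (Fin 2) (Fin 2) ℝ) a b := by
  rw [m1_apply]
  split_ifs <;> norm_num

theorem cc_nonneg (hμ : ∀ π, 0 ≤ μ π) (h0 : ∀ x, 0 ≤ θ x) (h1 : ∀ x, θ x ≤ 1) {u v : X}
    (huv : u ≠ v) : 0 ≤ cc μ θ u v := by
  rw [cc_eq3 μ θ huv]
  refine div_nonneg (mul_nonneg (mul_nonneg (h0 u) (h0 v)) (NZ_nonneg μ hμ fun z a b => ?_))
    (NZ_nonneg μ hμ fun z a b => dgM_nonneg (h0 z) (h1 z) a b)
  by_cases hv : z = v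
  · subst hv
    rw [Function.update_self]
    exact m1_nonneg a b
  · rw [Function.update_of_ne hv]
    by_cases hu : z = u
    · subst hu
      rw [Function.update_self]
      exact m1_nonneg a b
    · rw [Function.update_of_ne hu]
      exact dgM_nonneg (h0 z) (h1 z) a b

/-! ### The generating polynomial -/

theorem gen_eq (ζ : X → ℂ) : gen μ θ ζ =
    NZ μ fun z => (!![ζ z, (θ z : ℂ); (θ z : ℂ) * ζ z ^ 2, ζ z] : Matrix (Fin 2) (Fin 2) ℂ) := by
  unfold gen NZ
  refine Finset.sum_congr rfl fun π _ => ?_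
  rw [Finset.smul_sum]
  refine Finset.sum_congr rfl fun s _ => ?_
  rw [Complex.real_smul, Complex.ofReal_mul, mul_assoc]
  congr 1
  unfold wt
  rw [Complex.ofReal_prod, ← Finset.prod_mul_distrib]
  refine Finset.prod_congr rfl fun z _ => ?_
  generalize s z = a
  generalize s (π z) = b
  fin_cases a <;> fin_cases b <;> simp

/-! ### Rotated slices -/

/-- `1 + θ (cos φ σ³ + sin φ σ¹)`. -/
def rotM (θ φ : ℝ) : Matrix (Fin 2) (Fin 2) ℝ :=
  !![1 + θ * Real.cos φ, θ * Real.sin φ; θ * Real.sin φ, 1 - θ * Real.cos φ]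

/-- The same in the charge picture. -/
def twM (θ φ : ℝ) : Matrix (Fin 2) (Fin 2) ℂ :=
  !![1, θ * Complex.exp (-(φ * Complex.I)); θ * Complex.exp (φ * Complex.I), 1]

def cU : Matrix (Fin 2) (Fin 2) ℂ := !![1, 1; Complex.I, -Complex.I]

def cW : Matrix (Fin 2) (Fin 2) ℂ := !![1 / 2, -(Complex.I / 2); 1 / 2, Complex.I / 2]

theorem cW_cU : cW * cU = 1 := by
  have h := Complex.I_mul_I
  ext a b
  fin_cases a <;> fin_cases b <;> simp [cW, cU, Matrix.mul_apply, Fin.sum_univ_two] <;>
    first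
      | linear_combination (-(1 / 2)) * h
      | linear_combination (1 / 2) * h

theorem conj_twM (θ φ : ℝ) : cU * twM θ φ * cW = (rotM θ φ).map (algebraMap ℝ ℂ) := by
  have h := Complex.I_mul_I
  have hc : Complex.exp (φ * Complex.I) = Real.cos φ + Real.sin φ * Complex.I := by
    rw [Complex.exp_mul_I, Complex.ofReal_cos, Complex.ofReal_sin]
  have hc' : Complex.exp (-(φ * Complex.I)) = Real.cos φ - Real.sin φ * Complex.I := by
    rw [← neg_mul, Complex.exp_mul_I, Complex.cos_neg, Complex.sin_neg, Complex.ofReal_cos,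
      Complex.ofReal_sin]
    ring
  ext a b
  fin_cases a <;> fin_cases b
  · simp [cW, cU, twM, rotM, Matrix.mul_apply, Fin.sum_univ_two, hc, hc']
    ring
  · simp [cW, cU, twM, rotM, Matrix.mul_apply, Fin.sum_univ_two, hc, hc']
    ring_nf
    rw [Complex.I_sq]
    ring
  · simp [cW, cU, twM, rotM, Matrix.mul_apply, Fin.sum_univ_two, hc, hc']
    ring_nf
    rw [Complex.I_sq]
    ring
  · simp [cW, cU, twM, rotM, Matrix.mul_apply, Fin.sum_univ_two, hc, hc']
    ring_nf
    rw [Complex.I_sq]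
    ring

theorem NZ_map (A : X → Matrix (Fin 2) (Fin 2) ℝ) :
    NZ μ (fun z => (A z).map (algebraMap ℝ ℂ)) = ((NZ μ A : ℝ) : ℂ) := by
  unfold NZ
  rw [Complex.ofReal_sum]
  refine Finset.sum_congr rfl fun π _ => ?_
  rw [Complex.real_smul, smul_eq_mul, Complex.ofReal_mul, Complex.ofReal_sum]
  congr 1
  refine Finset.sum_congr rfl fun s _ => ?_
  rw [Complex.ofReal_prod]
  rfl

/-- **Rotated slices**: the characteristic function of the charges. -/
theorem twist_num (φ : X → ℝ) :
    ∑ π, ∑ s, μ π * wt θ π s * Real.cos (∑ x, φ x * jj π s x) =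
      NZ μ fun z => rotM (θ z) (φ z) := by
  have h1 : ∑ π, ∑ s, ((μ π * wt θ π s : ℝ) : ℂ) *
      Complex.exp (((∑ x, φ x * jj π s x : ℝ) : ℂ) * Complex.I) =
      ((NZ μ fun z => rotM (θ z) (φ z) : ℝ) : ℂ) := by
    rw [← NZ_map]
    simp only [← conj_twM]
    rw [NZ_conj μ _ cW_cU]
    unfold NZ
    refine Finset.sum_congr rfl fun π _ => ?_
    rw [Finset.smul_sum]
    refine Finset.sum_congr rfl fun s _ => ?_
    rw [Complex.real_smul, Complex.ofReal_mul, mul_assoc]
    congr 1
    unfold wt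
    rw [Complex.ofReal_prod, Complex.ofReal_sum, Finset.sum_mul, Complex.exp_sum,
      ← Finset.prod_mul_distrib]
    refine Finset.prod_congr rfl fun z _ => ?_
    unfold jj twM
    generalize s z = a
    generalize s (π z) = b
    fin_cases a <;> fin_cases b <;> simp
  have h2 := congrArg Complex.re h1
  rw [Complex.ofReal_re, Complex.re_sum] at h2
  rw [← h2]
  refine Finset.sum_congr rfl fun π _ => ?_
  rw [Complex.re_sum]
  refine Finset.sum_congr rfl fun s _ => ?_
  rw [Complex.re_ofReal_mul, Complex.exp_ofReal_mul_I_re]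

/-- `E cos (φ · j)`. -/
theorem EE_cos (φ : X → ℝ) :
    EE μ θ (fun π s => Real.cos (∑ x, φ x * jj π s x)) =
      (NZ μ fun z => rotM (θ z) (φ z)) / NZ μ fun z => dgM (θ z) := by
  unfold EE
  rw [twist_num, ZZ_eq3]

end

end Vale.Agent.P361.LRO.Dict
end

section

/-! P361 LRO, dictionary (D3): the limit `N → ∞` of the circuit, uniformly in the fields. -/

namespace Vale.Agent.P361.LRO.Dict

open Finset Matrix

open scoped Matrix.Norms.Operator

noncomputable section

/-! ### Norms of matrices -/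

section norms

variable {Y : Type} [Fintype Y] [DecidableEq Y]

theorem norm_entry_le (A : Matrix Y Y ℝ) (i j : Y) : |A i j| ≤ ‖A‖ := by
  rw [linfty_opNorm_def, ← Real.norm_eq_abs, ← coe_nnnorm, NNReal.coe_le_coe]
  exact (Finset.single_le_sum (f := fun j => ‖A i j‖₊) (fun _ _ => zero_le)
    (Finset.mem_univ j)).trans (Finset.le_sup (f := fun i => ∑ j, ‖A i j‖₊) (Finset.mem_univ i))

theorem norm_le_of_rows (A : Matrix Y Y ℝ) {c : ℝ} (hc : 0 ≤ c) (h : ∀ i, ∑ j, |A i j| ≤ c) :
    ‖A‖ ≤ c := by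
  rw [linfty_opNorm_def]
  have h1 : (Finset.univ.sup fun i => ∑ j, ‖A i j‖₊) ≤ ⟨c, hc⟩ := by
    refine Finset.sup_le fun i _ => NNReal.coe_le_coe.1 ?_
    push_cast
    simp only [Real.norm_eq_abs]
    exact h i
  exact_mod_cast h1

theorem abs_trace_le (A D : Matrix Y Y ℝ) {d : ℝ} (hD : ∀ i j, i ≠ j → D i j = 0)
    (hd : ∀ i, |D i i| ≤ d) : |trace (A * D)| ≤ Fintype.card Y * (‖A‖ * d) := by
  rw [Matrix.trace]
  refine (Finset.abs_sum_le_sum_abs _ _).trans ?_
  have h1 : ∀ i, |(A * D).diag i| ≤ ‖A‖ * d := by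
    intro i
    rw [Matrix.diag_apply, Matrix.mul_apply, Finset.sum_eq_single i]
    · rw [abs_mul]
      exact mul_le_mul (norm_entry_le A i i) (hd i) (abs_nonneg _) (norm_nonneg _)
    · intro j _ hj
      rw [hD j i hj, mul_zero]
    · intro h
      exact absurd (Finset.mem_univ _) h
  refine (Finset.sum_le_sum fun i _ => h1 i).trans (le_of_eq ?_)
  rw [Finset.sum_const, nsmul_eq_mul, Finset.card_univ]

end norms

variable {V : Type} [Fintype V] [DecidableEq V]

/-- Sign of a spin. -/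
def sg (a : Fin 2) : ℝ := if a = 0 then 1 else -1

theorem abs_sg (a : Fin 2) : |sg a| = 1 := by
  unfold sg
  split_ifs <;> simp

theorem norm_one_le : ‖(1 : Matrix (V → Fin 2) (V → Fin 2) ℝ)‖ ≤ 1 := norm_one.le

theorem norm_szM (x : V) : ‖(szM x : Matrix (V → Fin 2) (V → Fin 2) ℝ)‖ ≤ 1 := by
  unfold szM
  rw [linfty_opNorm_diagonal]
  refine (pi_norm_le_iff_of_nonneg zero_le_one).2 fun σ => ?_
  split_ifs <;> simp

theorem norm_swapM (x y : V) : ‖(swapM x y : Matrix (V → Fin 2) (V → Fin 2) ℝ)‖ ≤ 1 := by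
  refine norm_le_of_rows _ zero_le_one fun σ => ?_
  rw [Finset.sum_eq_single (σ ∘ Equiv.swap x y)]
  · simp only [swapM, Matrix.of_apply]
    split_ifs <;> simp
  · intro τ _ hτ
    simp only [swapM, Matrix.of_apply]
    rw [if_neg, abs_zero]
    rintro rfl
    apply hτ
    funext z
    simp
  · intro h
    exact absurd (Finset.mem_univ _) h

/-! ### The layers as products of factors `1 + A / N` -/

/-- The sites. -/
def sites (β : ℝ) (h : V → ℝ) : List (Matrix (V → Fin 2) (V → Fin 2) ℝ) :=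
  (Finset.univ : Finset V).toList.map fun x => (β * h x / 2) • szM x

/-- The edges. -/
def bonds (L : List (V × V)) (β : ℝ) : List (Matrix (V → Fin 2) (V → Fin 2) ℝ) :=
  L.reverse.map fun e => (β / 2) • (swapM e.1 e.2 - 1)

omit [DecidableEq V] in
theorem layM_dgM (θ : V → ℝ) : layM (fun x => dgM (θ x)) =
    Matrix.diagonal fun σ : V → Fin 2 => ∏ x, (1 + θ x * sg (σ x)) := by
  ext σ τ
  rw [layM, Matrix.of_apply]
  by_cases h : σ = τ
  · subst h
    rw [Matrix.diagonal_apply_eq]
    refine Finset.prod_congr rfl fun x _ => ?_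
    unfold dgM sg
    rcases Fin.exists_fin_two.1 ⟨σ x, rfl⟩ with h0 | h0 <;> rw [h0] <;> simp [sub_eq_add_neg]
  · rw [Matrix.diagonal_apply_ne _ h]
    obtain ⟨x, hx⟩ := Function.ne_iff.1 h
    exact Finset.prod_eq_zero (Finset.mem_univ x) (dgM_ne _ hx)

theorem prod_diag (l : List V) (θ : V → ℝ) :
    (l.map fun x => (1 : Matrix (V → Fin 2) (V → Fin 2) ℝ) + θ x • szM x).prod =
      Matrix.diagonal fun σ => (l.map fun x => 1 + θ x * sg (σ x)).prod := by
  induction l with
  | nil =>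
    simp only [List.map_nil, List.prod_nil]
    exact Matrix.diagonal_one.symm
  | cons x l ih =>
    rw [List.map_cons, List.prod_cons, ih]
    have e : (1 : Matrix (V → Fin 2) (V → Fin 2) ℝ) + θ x • szM x =
        Matrix.diagonal fun σ => 1 + θ x * sg (σ x) := by
      rw [← Matrix.diagonal_one, szM, ← Matrix.diagonal_smul, Matrix.diagonal_add]
      rfl
    rw [e, Matrix.diagonal_mul_diagonal]
    simp only [List.map_cons, List.prod_cons]

theorem layM_eq (β : ℝ) {N : ℕ} (h : V → ℝ) : layM (fun x => dgM (β * h x / (2 * N))) =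
    ((sites β h).map fun A => 1 + (N : ℝ)⁻¹ • A).prod := by
  have e : ((sites β h).map fun A => 1 + (N : ℝ)⁻¹ • A) =
      (Finset.univ : Finset V).toList.map fun x =>
        (1 : Matrix (V → Fin 2) (V → Fin 2) ℝ) + (β * h x / (2 * N)) • szM x := by
    unfold sites
    rw [List.map_map]
    refine List.map_congr_left fun x _ => ?_
    show 1 + (N : ℝ)⁻¹ • ((β * h x / 2) • szM x) = _
    rw [smul_smul]
    congr 2
    rw [div_mul_eq_div_div, div_eq_mul_inv, mul_comm]
    ring
  rw [e, prod_diag, layM_dgM]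
  congr 1
  funext σ
  exact (Finset.prod_map_toList _ _).symm

theorem gatM_eq (L : List (V × V)) (β : ℝ) {N : ℕ} : gatM L (β / (2 * N)) =
    ((bonds L β).map fun A => 1 + (N : ℝ)⁻¹ • A).prod := by
  unfold gatM bonds
  rw [List.map_map]
  congr 1
  refine List.map_congr_left fun e _ => ?_
  show (1 - β / (2 * N)) • (1 : Matrix (V → Fin 2) (V → Fin 2) ℝ) + (β / (2 * N)) • swapM e.1 e.2 =
    1 + (N : ℝ)⁻¹ • ((β / 2) • (swapM e.1 e.2 - 1))
  have e1 : (N : ℝ)⁻¹ * (β / 2) = β / (2 * N) := by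
    rw [div_mul_eq_div_div, div_eq_mul_inv (β / 2), mul_comm]
  rw [smul_smul, e1, sub_smul, one_smul, smul_sub]
  abel

/-- The bound of the norms. -/
def cc0 (L : List (V × V)) (β : ℝ) : ℝ := Fintype.card V * (β / 2) + L.length * β

theorem norm_sites {β : ℝ} (hβ : 0 ≤ β) {h : V → ℝ} (hh : ∀ x, 0 ≤ h x ∧ h x ≤ 1) :
    ((sites β h).map norm).sum ≤ Fintype.card V * (β / 2) := by
  unfold sites
  rw [List.map_map]
  have h1 : ∀ x ∈ (Finset.univ : Finset V).toList,
      (norm ∘ fun x => (β * h x / 2) • szM x) x ≤ β / 2 := by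
    intro x _
    show ‖(β * h x / 2) • (szM x : Matrix (V → Fin 2) (V → Fin 2) ℝ)‖ ≤ β / 2
    rw [norm_smul]
    have h2 : ‖β * h x / 2‖ ≤ β / 2 := by
      rw [Real.norm_of_nonneg (by have := (hh x).1; positivity)]
      have := mul_le_mul_of_nonneg_left (hh x).2 hβ
      linarith
    calc ‖β * h x / 2‖ * ‖(szM x : Matrix (V → Fin 2) (V → Fin 2) ℝ)‖ ≤ (β / 2) * 1 :=
          mul_le_mul h2 (norm_szM x) (norm_nonneg _) (by positivity)
      _ = β / 2 := mul_one _
  refine (List.sum_le_card_nsmul _ (β / 2) ?_).trans (le_of_eq ?_)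
  · intro y hy
    obtain ⟨x, hx, rfl⟩ := List.mem_map.1 hy
    exact h1 x hx
  · rw [List.length_map, Finset.length_toList, Finset.card_univ, nsmul_eq_mul]

theorem norm_bonds (L : List (V × V)) {β : ℝ} (hβ : 0 ≤ β) :
    ((bonds L β).map norm).sum ≤ L.length * β := by
  unfold bonds
  rw [List.map_map]
  have h1 : ∀ e ∈ L.reverse,
      (norm ∘ fun e : V × V => (β / 2) • (swapM e.1 e.2 - 1)) e ≤ β := by
    intro e _
    show ‖(β / 2) • ((swapM e.1 e.2 : Matrix (V → Fin 2) (V → Fin 2) ℝ) - 1)‖ ≤ β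
    rw [norm_smul, Real.norm_of_nonneg (by positivity)]
    have h2 : ‖(swapM e.1 e.2 : Matrix (V → Fin 2) (V → Fin 2) ℝ) - 1‖ ≤ 2 := by
      refine (norm_sub_le _ _).trans ?_
      have := norm_swapM e.1 e.2
      have := norm_one_le (V := V)
      linarith
    nlinarith
  refine (List.sum_le_card_nsmul _ β ?_).trans (le_of_eq ?_)
  · intro y hy
    obtain ⟨x, hx, rfl⟩ := List.mem_map.1 hy
    exact h1 x hx
  · rw [List.length_map, List.length_reverse, nsmul_eq_mul]

/-- The generator. -/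
def gen0 (L : List (V × V)) (β : ℝ) (h : V → ℝ) : List (Matrix (V → Fin 2) (V → Fin 2) ℝ) :=
  sites β h ++ bonds L β

theorem norm_gen0 (L : List (V × V)) {β : ℝ} (hβ : 0 ≤ β) {h : V → ℝ}
    (hh : ∀ x, 0 ≤ h x ∧ h x ≤ 1) : ((gen0 L β h).map norm).sum ≤ cc0 L β := by
  unfold gen0 cc0
  rw [List.map_append, List.sum_append]
  exact add_le_add (norm_sites hβ hh) (norm_bonds L hβ)

theorem gen0_sum (L : List (V × V)) (β : ℝ) (h : V → ℝ) : (gen0 L β h).sum = -β • ham L h := by
  have e1 : (sites β h).sum = β • ∑ x, (h x / 2) • szM x := by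
    unfold sites
    rw [Finset.sum_map_toList, Finset.smul_sum]
    refine Finset.sum_congr rfl fun x _ => ?_
    rw [smul_smul, mul_div_assoc]
  have e2 : (bonds L β).sum = -β • (L.map fun e => hM e.1 e.2).sum := by
    unfold bonds
    rw [List.map_reverse, List.sum_reverse, List.smul_sum, List.map_map]
    congr 1
    refine List.map_congr_left fun e _ => ?_
    show (β / 2) • ((swapM e.1 e.2 : Matrix (V → Fin 2) (V → Fin 2) ℝ) - 1) = -β • hM e.1 e.2
    unfold hM
    rw [smul_smul, ← neg_sub, smul_neg, ← neg_smul]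
    congr 1
    ring
  unfold gen0 ham
  rw [List.sum_append, e1, e2, smul_sub]
  simp only [neg_smul]
  abel

/-- One layer with its gates. -/
theorem layer_eq (L : List (V × V)) (β : ℝ) {N : ℕ} (h : V → ℝ) :
    layM (fun x => dgM (β * h x / (2 * N))) * gatM L (β / (2 * N)) =
      ((gen0 L β h).map fun A => 1 + (N : ℝ)⁻¹ • A).prod := by
  unfold gen0
  rw [List.map_append, List.prod_append, layM_eq, gatM_eq]

/-! ### Positivity -/

/-- Nonnegative entries, and the entry of the configuration with all spins up is at least one. -/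
def PU (A : Matrix (V → Fin 2) (V → Fin 2) ℝ) : Prop :=
  (∀ i j, 0 ≤ A i j) ∧ 1 ≤ A (fun _ => 0) (fun _ => 0)

theorem PU.mul {A B : Matrix (V → Fin 2) (V → Fin 2) ℝ} (hA : PU A) (hB : PU B) : PU (A * B) := by
  refine ⟨fun i j => ?_, ?_⟩
  · rw [Matrix.mul_apply]
    exact Finset.sum_nonneg fun k _ => mul_nonneg (hA.1 _ _) (hB.1 _ _)
  · rw [Matrix.mul_apply]
    have h1 : A (fun _ => 0) (fun _ => 0) * B (fun _ => 0) (fun _ => 0) ≤
        ∑ k, A (fun _ => 0) k * B k (fun _ => 0) :=
      Finset.single_le_sum (f := fun k => A (fun _ => 0) k * B k (fun _ => 0))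
        (fun k _ => mul_nonneg (hA.1 _ _) (hB.1 _ _)) (Finset.mem_univ _)
    have h2 := one_le_mul_of_one_le_of_one_le hA.2 hB.2
    linarith

omit [DecidableEq V] in
theorem PU.one : PU (1 : Matrix (V → Fin 2) (V → Fin 2) ℝ) := by
  refine ⟨fun i j => ?_, ?_⟩
  · rw [Matrix.one_apply]
    split_ifs <;> norm_num
  · rw [Matrix.one_apply_eq]

theorem PU.pow {A : Matrix (V → Fin 2) (V → Fin 2) ℝ} (hA : PU A) (k : ℕ) : PU (A ^ k) := by
  induction k with
  | zero => rw [pow_zero]; exact PU.one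
  | succ k ih => rw [pow_succ]; exact ih.mul hA

theorem PU.list {l : List (Matrix (V → Fin 2) (V → Fin 2) ℝ)} (hl : ∀ A ∈ l, PU A) :
    PU l.prod := by
  induction l with
  | nil => exact PU.one
  | cons A l ih =>
    rw [List.prod_cons]
    exact (hl A List.mem_cons_self).mul (ih fun B hB => hl B (List.mem_cons_of_mem _ hB))

theorem PU.trace {A : Matrix (V → Fin 2) (V → Fin 2) ℝ} (hA : PU A) : 1 ≤ trace A := by
  rw [Matrix.trace]
  have h1 : A.diag (fun _ => 0) ≤ ∑ i, A.diag i :=
    Finset.single_le_sum (f := fun i => A.diag i) (fun i _ => hA.1 _ _) (Finset.mem_univ _)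
  exact hA.2.trans h1

theorem PU.gatM (L : List (V × V)) {p : ℝ} (hp : 0 ≤ p) (hp1 : p ≤ 1) :
    PU (gatM L p : Matrix (V → Fin 2) (V → Fin 2) ℝ) := by
  refine PU.list fun A hA => ?_
  obtain ⟨e, _, rfl⟩ := List.mem_map.1 hA
  refine ⟨fun i j => ?_, ?_⟩
  · simp only [gatR, swapR, Matrix.add_apply, Matrix.smul_apply, Matrix.one_apply, Matrix.of_apply,
      smul_eq_mul]
    split_ifs <;> linarith
  · simp only [gatR, swapR, Matrix.add_apply, Matrix.smul_apply, Matrix.one_apply, Matrix.of_apply,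
      smul_eq_mul]
    have e1 : (fun _ : V => (0 : Fin 2)) = (fun _ => 0) ∘ Equiv.swap e.1 e.2 := rfl
    rw [if_pos trivial, if_pos e1]
    linarith

omit [DecidableEq V] in
theorem PU.layM {θ : V → ℝ} (hθ : ∀ x, 0 ≤ θ x ∧ θ x ≤ 1) :
    PU (layM (fun x => dgM (θ x)) : Matrix (V → Fin 2) (V → Fin 2) ℝ) := by
  rw [layM_dgM]
  refine ⟨fun i j => ?_, ?_⟩
  · rw [Matrix.diagonal_apply]
    split_ifs
    · refine Finset.prod_nonneg fun x _ => ?_
      have h1 := abs_sg (i x)
      have h2 := neg_abs_le (sg (i x))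
      have h3 := hθ x
      rw [h1] at h2
      nlinarith
    · exact le_rfl
  · rw [Matrix.diagonal_apply_eq]
    have h1 : ∀ x : V, (1 : ℝ) ≤ 1 + θ x * sg 0 := fun x => by
      unfold sg
      rw [if_pos rfl]
      linarith [(hθ x).1]
    have h2 := Finset.prod_le_prod (s := (Finset.univ : Finset V)) (f := fun _ => (1 : ℝ))
      (g := fun x : V => 1 + θ x * sg 0) (fun _ _ => zero_le_one) (fun x _ => h1 x)
    rwa [Finset.prod_const_one] at h2

/-! ### The layers with an inserted matrix -/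

omit [DecidableEq V] in
theorem layT_eq (T : V → ℝ) : layT T = layM fun x => dgM (T x) := by
  rw [layM_dgM]
  rfl

theorem dgM_zero : (dgM (0 : ℝ) : Matrix (Fin 2) (Fin 2) ℝ) = 1 := by
  unfold dgM
  rw [add_zero, sub_zero, Matrix.one_fin_two]

theorem layM_up1 (θ : V → ℝ) (x : V) : layM (Function.update (fun y => dgM (θ y)) x 1) =
    layM fun y => dgM (Function.update θ x 0 y) := by
  congr 1
  funext y
  by_cases h : y = x
  · subst h
    rw [Function.update_self, Function.update_self, dgM_zero]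
  · rw [Function.update_of_ne h, Function.update_of_ne h]

theorem layM_up3 (θ : V → ℝ) (x : V) : layM (Function.update (fun y => dgM (θ y)) x m3) =
    (layM fun y => dgM (Function.update θ x 0 y)) * szM x := by
  rw [layM_dgM, szM, Matrix.diagonal_mul_diagonal]
  ext σ τ
  rw [layM, Matrix.of_apply]
  by_cases h : σ = τ
  · subst h
    rw [Matrix.diagonal_apply_eq, ← Finset.mul_prod_erase Finset.univ _ (Finset.mem_univ x),
      ← Finset.mul_prod_erase Finset.univ (fun y => 1 + Function.update θ x 0 y * sg (σ y))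
        (Finset.mem_univ x), Function.update_self, Function.update_self, zero_mul, add_zero, one_mul,
      mul_comm]
    congr 1
    · refine Finset.prod_congr rfl fun y hy => ?_
      rw [Function.update_of_ne (Finset.ne_of_mem_erase hy),
        Function.update_of_ne (Finset.ne_of_mem_erase hy)]
      unfold dgM sg
      rcases Fin.exists_fin_two.1 ⟨σ y, rfl⟩ with h0 | h0 <;> rw [h0] <;> simp [sub_eq_add_neg]
    · unfold m3
      rcases Fin.exists_fin_two.1 ⟨σ x, rfl⟩ with h0 | h0 <;> rw [h0] <;> simp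
  · rw [Matrix.diagonal_apply_ne _ h]
    obtain ⟨y, hy⟩ := Function.ne_iff.1 h
    refine Finset.prod_eq_zero (Finset.mem_univ y) ?_
    by_cases hyx : y = x
    · subst hyx
      rw [Function.update_self]
      unfold m3
      revert hy
      generalize σ y = a
      generalize τ y = b
      intro hab
      fin_cases a <;> fin_cases b <;> simp_all
    · rw [Function.update_of_ne hyx]
      exact dgM_ne _ hy

/-- The word with one layer changed. -/
theorem word_eq (L : List (V × V)) (β : ℝ) {N : ℕ} (h T : V → ℝ) {k : Fin (N + 1)} (hk : k ≠ 0)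
    (x : V) (O : Matrix (Fin 2) (Fin 2) ℝ) :
    NZ (phys L β N) (Function.update (fun z => dgM (th β N h T z)) (k, x) O) =
      trace ((((gen0 L β h).map fun A => 1 + (N : ℝ)⁻¹ • A).prod ^ (N - (k : ℕ)) *
        (layM (Function.update (fun y => dgM (β * h y / (2 * N))) x O) * gatM L (β / (2 * N))) *
        ((gen0 L β h).map fun A => 1 + (N : ℝ)⁻¹ • A).prod ^ ((k : ℕ) - 1)) * layT T) := by
  have hk1 : 1 ≤ (k : ℕ) := Nat.one_le_iff_ne_zero.2 fun h0 => hk (Fin.ext h0)
  have hkN : (k : ℕ) ≤ N := Nat.lt_succ_iff.1 k.2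
  rw [NZ_phys]
  set f : ℕ → Matrix (V → Fin 2) (V → Fin 2) ℝ := fun j => layM (fun y =>
    Function.update (fun z => dgM (th β N h T z)) (k, x) O (Fin.ofNat (N + 1) j, y)) *
      gatM L (β / (2 * N)) with hf
  have hval : ∀ j, j ≤ N → ((Fin.ofNat (N + 1) j : Fin (N + 1)) : ℕ) = j := fun j hj => by
    rw [Fin.val_ofNat, Nat.mod_eq_of_lt (by omega)]
  have f1 : ∀ j, 1 ≤ j → j ≤ N → j ≠ (k : ℕ) →
      f j = ((gen0 L β h).map fun A => 1 + (N : ℝ)⁻¹ • A).prod := by
    intro j h1 h2 h3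
    rw [← layer_eq, hf]
    simp only
    congr 2
    funext y
    have hne : (Fin.ofNat (N + 1) j, y) ≠ (k, x) := fun he => h3 (by
      rw [← hval j h2, (Prod.mk.inj he).1])
    rw [Function.update_of_ne hne]
    unfold th
    have h0 : (Fin.ofNat (N + 1) j : Fin (N + 1)) ≠ 0 := fun he => by
      have := congrArg Fin.val he
      rw [hval j h2] at this
      simp at this
      omega
    simp only
    rw [if_neg h0]
  have fk : f k = layM (Function.update (fun y => dgM (β * h y / (2 * N))) x O) *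
      gatM L (β / (2 * N)) := by
    rw [hf]
    simp only
    congr 2
    funext y
    have hkk : (Fin.ofNat (N + 1) (k : ℕ) : Fin (N + 1)) = k := Fin.ext (hval k hkN)
    rw [hkk]
    by_cases hy : y = x
    · subst hy
      rw [Function.update_self, Function.update_self]
    · rw [Function.update_of_ne hy, Function.update_of_ne fun he => hy (Prod.mk.inj he).2]
      unfold th
      simp only
      rw [if_neg hk]
  have hs1 : down f N = down (fun j => f ((k : ℕ) + j)) (N - k) * down f k := by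
    conv_lhs => rw [show N = (N - (k : ℕ)) + k by omega]
    rw [down_split]
  have hs2 : down f (k : ℕ) = f k * down f ((k : ℕ) - 1) := by
    conv_lhs => rw [show (k : ℕ) = ((k : ℕ) - 1) + 1 by omega]
    show f ((k : ℕ) - 1 + 1) * _ = _
    rw [show (k : ℕ) - 1 + 1 = k by omega]
  rw [hs1, hs2, down_congr (g := fun _ => ((gen0 L β h).map fun A => 1 + (N : ℝ)⁻¹ • A).prod)
      (fun j h1 h2 => f1 _ (by omega) (by omega) (by omega)), down_const,
    down_congr (f := f) (g := fun _ => ((gen0 L β h).map fun A => 1 + (N : ℝ)⁻¹ • A).prod)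
      (fun j h1 h2 => f1 _ (by omega) (by omega) (by omega)), down_const, fk, ← mul_assoc]
  congr 2
  rw [layT_eq]
  congr 1
  funext y
  rw [Function.update_of_ne fun he => hk (Prod.mk.inj he).1.symm]
  rfl

/-! ### The limit -/

section small

variable {𝔸 : Type*} [NormedRing 𝔸] [NormedAlgebra ℝ 𝔸]

theorem lin_small (h1 : ‖(1 : 𝔸)‖ ≤ 1) (l : List 𝔸) {c : ℝ} (hc : (l.map norm).sum ≤ c) {N : ℕ}
    (hN : 1 ≤ N) : ‖(l.map fun A => 1 + (N : ℝ)⁻¹ • A).prod - 1‖ ≤ c * Real.exp c / N ∧
      ‖(l.map fun A => 1 + (N : ℝ)⁻¹ • A).prod‖ ≤ Real.exp c := by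
  have hN0 : (0 : ℝ) < N := by exact_mod_cast hN
  have h0 : 0 ≤ (l.map norm).sum := List.sum_nonneg (by
      intro x hx
      obtain ⟨a, _, rfl⟩ := List.mem_map.1 hx
      exact norm_nonneg _)
  have hc0 : 0 ≤ c := h0.trans hc
  set l' := l.map fun A => (N : ℝ)⁻¹ • A with hl'
  have hnorm : (l'.map norm).sum ≤ c / N := by
    have e : (l'.map norm) = (l.map norm).map (fun x => (N : ℝ)⁻¹ * x) := by
      rw [hl', List.map_map, List.map_map]
      apply List.map_congr_left
      intro A _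
      simp [norm_smul]
    rw [e, List.sum_map_mul_left, List.map_id', div_eq_inv_mul]
    gcongr
  have hmap : (l.map fun A => 1 + (N : ℝ)⁻¹ • A) = l'.map fun A => 1 + A := by
    rw [hl', List.map_map]; rfl
  rw [hmap]
  obtain ⟨i1, i2, -⟩ := Trot.prod_lin_bounds h1 l'
  have hd : c / N ≤ c := div_le_self hc0 (by exact_mod_cast hN)
  have hd0 : 0 ≤ c / N := by positivity
  have e1 : Real.exp (l'.map norm).sum ≤ Real.exp (c / N) := Real.exp_le_exp.2 hnorm
  have e2 : Real.exp (c / N) ≤ Real.exp c := Real.exp_le_exp.2 hd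
  refine ⟨i2.trans ?_, i1.trans (e1.trans e2)⟩
  have h7 := Real.add_one_le_exp (-(c / N))
  have h8 : (1 - c / N) * Real.exp (c / N) ≤ Real.exp (-(c / N)) * Real.exp (c / N) :=
    mul_le_mul_of_nonneg_right (by linarith) (Real.exp_pos _).le
  rw [← Real.exp_add, neg_add_cancel, Real.exp_zero] at h8
  have h9 : c / N * Real.exp (c / N) ≤ c / N * Real.exp c := mul_le_mul_of_nonneg_left e2 hd0
  have h10 : c * Real.exp c / N = c / N * Real.exp c := by ring
  rw [h10]
  linarith

end small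

/-- An inserted matrix. -/
theorem ins_bound (L : List (V × V)) {β : ℝ} (hβ : 0 ≤ β) {N : ℕ} (hN : 1 ≤ N) {h : V → ℝ}
    (hh : ∀ x, 0 ≤ h x ∧ h x ≤ 1) (x : V) {O : Matrix (V → Fin 2) (V → Fin 2) ℝ} (hO : ‖O‖ ≤ 1) :
    ‖(layM fun y => dgM (Function.update (fun y => β * h y / (2 * N)) x 0 y)) * O *
      gatM L (β / (2 * N)) - O‖ ≤ 2 * cc0 L β * Real.exp (2 * cc0 L β) / N := by
  have hc : 0 ≤ cc0 L β := by unfold cc0; positivity
  have e1 : (layM fun y => dgM (Function.update (fun y => β * h y / (2 * N)) x 0 y) :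
      Matrix (V → Fin 2) (V → Fin 2) ℝ) =
      ((sites β (Function.update h x 0)).map fun A => 1 + (N : ℝ)⁻¹ • A).prod := by
    rw [← layM_eq]
    congr 1
    funext y
    by_cases hy : y = x
    · subst hy
      rw [Function.update_self, Function.update_self, mul_zero, zero_div]
    · rw [Function.update_of_ne hy, Function.update_of_ne hy]
  have hh' : ∀ y, 0 ≤ Function.update h x 0 y ∧ Function.update h x 0 y ≤ 1 := by
    intro y
    by_cases hy : y = x
    · subst hy
      rw [Function.update_self]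
      exact ⟨le_rfl, zero_le_one⟩
    · rw [Function.update_of_ne hy]
      exact hh y
  have b1 : ((sites β (Function.update h x 0)).map norm).sum ≤ cc0 L β :=
    (norm_sites hβ hh').trans (by unfold cc0; nlinarith [Nat.cast_nonneg (α := ℝ) L.length])
  have b2 : ((bonds L β).map norm).sum ≤ cc0 L β :=
    (norm_bonds L hβ).trans (by unfold cc0; nlinarith [Nat.cast_nonneg (α := ℝ) (Fintype.card V)])
  obtain ⟨p1, p2⟩ := lin_small norm_one_le _ b1 hN
  obtain ⟨q1, q2⟩ := lin_small norm_one_le _ b2 hN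
  rw [e1, gatM_eq]
  set D := ((sites β (Function.update h x 0)).map fun A => 1 + (N : ℝ)⁻¹ • A).prod
  set G := ((bonds L β).map fun A => 1 + (N : ℝ)⁻¹ • A).prod
  set c := cc0 L β
  have e : D * O * G - O = (D - 1) * O * G + O * (G - 1) := by noncomm_ring
  rw [e]
  have hN0 : (0 : ℝ) < N := by exact_mod_cast hN
  have t1 : ‖(D - 1) * O * G‖ ≤ c * Real.exp c / N * 1 * Real.exp c :=
    (norm_mul_le _ _).trans (mul_le_mul ((norm_mul_le _ _).trans
      (mul_le_mul p1 hO (norm_nonneg _) (by positivity))) q2 (norm_nonneg _) (by positivity))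
  have t2 : ‖O * (G - 1)‖ ≤ 1 * (c * Real.exp c / N) :=
    (norm_mul_le _ _).trans (mul_le_mul hO q1 (norm_nonneg _) zero_le_one)
  refine (norm_add_le _ _).trans ((add_le_add t1 t2).trans ?_)
  have e3 : Real.exp (2 * c) = Real.exp c * Real.exp c := by rw [two_mul, Real.exp_add]
  have e4 : 1 ≤ Real.exp c := Real.one_le_exp hc
  rw [e3]
  have h5 : c * Real.exp c / N * 1 * Real.exp c + 1 * (c * Real.exp c / N) =
      (c * Real.exp c * (Real.exp c + 1)) / N := by ring
  rw [h5]
  refine div_le_div_of_nonneg_right ?_ hN0.le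
  have h6 : 0 ≤ c * Real.exp c := by positivity
  nlinarith

theorem abs_layT_le {T : V → ℝ} (hT : ∀ x, 0 ≤ T x ∧ T x ≤ 1) (σ : V → Fin 2) :
    |layT T σ σ| ≤ 2 ^ Fintype.card V := by
  rw [layT, Matrix.diagonal_apply_eq, Finset.abs_prod]
  refine (Finset.prod_le_prod (fun _ _ => abs_nonneg _)
    (g := fun _ => (2 : ℝ)) fun x _ => ?_).trans (le_of_eq ?_)
  · have h1 := hT x
    rw [abs_le]
    split_ifs <;> constructor <;> linarith
  · rw [Finset.prod_const, Finset.card_univ]

theorem layT_ne {T : V → ℝ} (σ τ : V → Fin 2) (h : σ ≠ τ) : layT T σ τ = 0 :=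
  Matrix.diagonal_apply_ne _ h

/-- The constant of the traces. -/
def kT (V : Type) [Fintype V] [DecidableEq V] : ℝ :=
  Fintype.card (V → Fin 2) * 2 ^ Fintype.card V

theorem trace_layT_le {T : V → ℝ} (hT : ∀ x, 0 ≤ T x ∧ T x ≤ 1)
    (A : Matrix (V → Fin 2) (V → Fin 2) ℝ) : |trace (A * layT T)| ≤ kT V * ‖A‖ := by
  refine (abs_trace_le A (layT T) layT_ne (abs_layT_le hT)).trans (le_of_eq ?_)
  unfold kT
  ring

/-- (D3) -/
theorem magLim (L : List (V × V)) {β : ℝ} (hβ : 0 < β) : MagLim L β := by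
  set c := cc0 L β with hcdef
  have hc : 0 ≤ c := by rw [hcdef]; unfold cc0; positivity
  set C := 2 * c * Real.exp (2 * c) with hC
  have hC0 : 0 ≤ C := by positivity
  have hk0 : 0 ≤ kT V := by unfold kT; positivity
  have hI0 : 0 ≤ Trot.cI c C := by unfold Trot.cI; positivity
  set a := kT V * Trot.cI c C with ha
  have ha0 : 0 ≤ a := mul_nonneg hk0 hI0
  set b := kT V * Real.exp (2 * c) with hb
  have hb0 : 0 ≤ b := by positivity
  refine ⟨a + 2 * a * b, max 1 (max ⌈β⌉₊ ⌈2 * a⌉₊), fun N hN h T hh hT z hz => ?_⟩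
  obtain ⟨k, x⟩ := z
  simp only at hz ⊢
  have hN1 : 1 ≤ N := (le_max_left _ _).trans hN
  have hNβ : β ≤ N := Nat.ceil_le.1 (((le_max_left _ _).trans (le_max_right _ _)).trans hN)
  have hNa : 2 * a ≤ N := Nat.ceil_le.1 (((le_max_right _ _).trans (le_max_right _ _)).trans hN)
  have hN0 : (0 : ℝ) < N := by exact_mod_cast hN1
  have hk1 : 1 ≤ (k : ℕ) := Nat.one_le_iff_ne_zero.2 fun h0 => hz (Fin.ext h0)
  have hkN : (k : ℕ) ≤ N := Nat.lt_succ_iff.1 k.2
  set l := gen0 L β h with hl
  have hlc : (l.map norm).sum ≤ c := norm_gen0 L hβ.le hh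
  have hS : ‖l.sum‖ ≤ c := (Trot.norm_list_sum_le l).trans hlc
  have hd : ((k : ℕ) : ℝ) / N ≤ 1 := (div_le_one hN0).2 (by exact_mod_cast hkN)
  have hd0 : 0 ≤ ((k : ℕ) : ℝ) / N := by positivity
  set P := (l.map fun A => 1 + (N : ℝ)⁻¹ • A).prod with hP
  set E1 := NormedSpace.exp ((1 - ((k : ℕ) : ℝ) / N) • l.sum) with hE1
  set E2 := NormedSpace.exp ((((k : ℕ) : ℝ) / N) • l.sum) with hE2
  have n1 : ‖E1‖ ≤ Real.exp c :=
    Trot.norm_exp_smul_le norm_one_le hS (by linarith) (by linarith)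
  have n2 : ‖E2‖ ≤ Real.exp c := Trot.norm_exp_smul_le norm_one_le hS hd0 hd
  set D := (layM fun y => dgM (Function.update (fun y => β * h y / (2 * N)) x 0 y) :
    Matrix (V → Fin 2) (V → Fin 2) ℝ) with hD
  set G := (gatM L (β / (2 * N)) : Matrix (V → Fin 2) (V → Fin 2) ℝ) with hG
  -- the numerator and the denominator
  have w3 : NZ (phys L β N) (Function.update (fun z => dgM (th β N h T z)) (k, x) m3) =
      trace (P ^ (N - (k : ℕ)) * (D * szM x * G) * P ^ ((k : ℕ) - 1) * layT T) := by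
    rw [word_eq L β h T hz x m3, layM_up3]
  have w1 : NZ (phys L β N) (Function.update (fun z => dgM (th β N h T z)) (k, x) 1) =
      trace (P ^ (N - (k : ℕ)) * (D * 1 * G) * P ^ ((k : ℕ) - 1) * layT T) := by
    rw [word_eq L β h T hz x 1, layM_up1, mul_one]
  have key : ∀ O : Matrix (V → Fin 2) (V → Fin 2) ℝ, ‖O‖ ≤ 1 →
      |trace (P ^ (N - (k : ℕ)) * (D * O * G) * P ^ ((k : ℕ) - 1) * layT T) -
        trace (E1 * O * E2 * layT T)| ≤ a / N := by
    intro O hO
    have h1 := Trot.insert_lin norm_one_le l hlc hC0 hk1 hkN hO (ins_bound L hβ.le hN1 hh x hO)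
    rw [← Matrix.trace_sub, ← sub_mul]
    refine (trace_layT_le hT _).trans ?_
    rw [ha, mul_div_assoc]
    exact mul_le_mul_of_nonneg_left h1 hk0
  have k3 := key (szM x) (norm_szM x)
  have k1 := key 1 norm_one_le
  have hden : 1 ≤ trace (P ^ (N - (k : ℕ)) * (D * 1 * G) * P ^ ((k : ℕ) - 1) * layT T) := by
    have hp : 0 ≤ β / (2 * N) ∧ β / (2 * N) ≤ 1 := by
      refine ⟨by positivity, (div_le_one (by positivity)).2 ?_⟩
      linarith
    have hθ : ∀ y, 0 ≤ β * h y / (2 * N) ∧ β * h y / (2 * N) ≤ 1 := by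
      intro y
      have h2 := hh y
      refine ⟨by have := h2.1; positivity, (div_le_one (by positivity)).2 ?_⟩
      have := mul_le_mul_of_nonneg_left h2.2 hβ.le
      linarith
    have pG : PU G := PU.gatM L hp.1 hp.2
    have pP : PU P := by
      rw [hP, hl, ← layer_eq]
      exact (PU.layM hθ).mul pG
    have pD : PU D := by
      refine PU.layM fun y => ?_
      by_cases hy : y = x
      · subst hy
        rw [Function.update_self]
        exact ⟨le_rfl, zero_le_one⟩
      · rw [Function.update_of_ne hy]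
        exact hθ y
    have pT : PU (layT T) := by
      rw [layT_eq]
      exact PU.layM hT
    rw [mul_one]
    exact PU.trace ((((pP.pow _).mul (pD.mul pG)).mul (pP.pow _)).mul pT)
  have hnum : |trace (E1 * szM x * E2 * layT T)| ≤ b := by
    refine (trace_layT_le hT _).trans ?_
    rw [hb, two_mul, Real.exp_add]
    refine mul_le_mul_of_nonneg_left ?_ hk0
    have h3 : ‖E1 * szM x‖ ≤ Real.exp c * 1 :=
      (norm_mul_le _ _).trans (mul_le_mul n1 (norm_szM x) (norm_nonneg _) (Real.exp_pos _).le)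
    rw [mul_one] at h3
    exact (norm_mul_le _ _).trans (mul_le_mul h3 n2 (norm_nonneg _) (Real.exp_pos _).le)
  have eT : mT L h T (β * (1 - ((k : ℕ) : ℝ) / N)) (β * (((k : ℕ) : ℝ) / N)) x =
      trace (E1 * szM x * E2 * layT T) / trace (E1 * 1 * E2 * layT T) := by
    have e1 : E1 = NormedSpace.exp (-(β * (1 - ((k : ℕ) : ℝ) / N)) • ham L h) := by
      rw [hE1, hl, gen0_sum, smul_smul]
      congr 2
      ring
    have e2 : E2 = NormedSpace.exp (-(β * (((k : ℕ) : ℝ) / N)) • ham L h) := by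
      rw [hE2, hl, gen0_sum, smul_smul]
      congr 2
      ring
    unfold mT
    rw [Matrix.trace_mul_comm (E1 * szM x * E2), Matrix.trace_mul_comm (E1 * 1 * E2), e1, e2,
      mul_one]
    simp only [mul_assoc]
  rw [mag_eq3, w3, w1, eT]
  set u := trace (P ^ (N - (k : ℕ)) * (D * szM x * G) * P ^ ((k : ℕ) - 1) * layT T)
  set v := trace (P ^ (N - (k : ℕ)) * (D * 1 * G) * P ^ ((k : ℕ) - 1) * layT T)
  set u' := trace (E1 * szM x * E2 * layT T)
  set v' := trace (E1 * 1 * E2 * layT T)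
  have haN : a / N ≤ 1 / 2 := by
    rw [div_le_iff₀ hN0]
    linarith
  have hv' : 1 / 2 ≤ v' := by
    have := (abs_le.1 k1).2
    linarith
  have hv0 : 0 < v := by linarith
  have hv0' : 0 < v' := by linarith
  have e : u / v - u' / v' = (u - u') / v + u' * ((v' - v) / (v * v')) := by
    field_simp
    ring
  rw [e]
  have haN0 : 0 ≤ a / N := by positivity
  have s1 : |(u - u') / v| ≤ a / N := by
    rw [abs_div, abs_of_pos hv0]
    exact (div_le_self (abs_nonneg _) hden).trans k3
  have s2 : |u' * ((v' - v) / (v * v'))| ≤ b * (2 * (a / N)) := by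
    rw [abs_mul]
    refine mul_le_mul hnum ?_ (abs_nonneg _) hb0
    rw [abs_div, abs_of_pos (mul_pos hv0 hv0'), div_le_iff₀ (mul_pos hv0 hv0'), abs_sub_comm]
    refine k1.trans ?_
    have h4 : 1 / 2 ≤ v * v' := by nlinarith
    nlinarith
  refine (abs_add_le _ _).trans ((add_le_add s1 s2).trans (le_of_eq ?_))
  ring

end

end Vale.Agent.P361.LRO.Dict
end

section

/-!
P361, stage R2/R3: long windows, lower bound for the conductance `cc` of the physical circuit.
-/

namespace Vale.Agent.P361.LRO.Bloch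

open Finset Matrix Vale.Agent.P361.LRO.Dict

set_option linter.unusedSectionVars false

noncomputable section

variable {V : Type} [Fintype V] [DecidableEq V]

/-! ### Words -/

/-- gates of one layer, in the order of `Dict.gatM` -/
def gl (L : List (V × V)) (p : ℝ) : List (Lt V) := L.reverse.map fun e => Lt.gate e.1 e.2 p

/-- slices of one layer -/
def nl (t : V → ℝ) : List (Lt V) := (Finset.univ : Finset V).toList.map fun z => Lt.node z (t z)

theorem wd_append (w w' : List (Lt V)) : wd (w ++ w') = wd w * wd w' := by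
  unfold wd
  rw [List.map_append, List.prod_append]

theorem wd_gl (L : List (V × V)) (p : ℝ) : wd (gl L p) = gatM L p := by
  unfold wd gl gatM
  rw [List.map_map]
  rfl

theorem wd_nl (t : V → ℝ) : wd (nl t) = layM fun x => dgM (t x) := by
  unfold wd nl
  rw [List.map_map, layM_dgM]
  have h := prod_diag (Finset.univ : Finset V).toList t
  have e : (List.map (mt ∘ fun z => Lt.node z (t z)) (Finset.univ : Finset V).toList) =
      (Finset.univ : Finset V).toList.map fun x =>
        (1 : Matrix (V → Fin 2) (V → Fin 2) ℝ) + t x • szM x := rfl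
  rw [e, h]
  congr 1
  funext σ
  exact Finset.prod_map_toList _ _

/-- The letters strictly between the layers `k + m + 1` and `k` (`t j` = slices of the layer
`k + j`). -/
def mid (L : List (V × V)) (p : ℝ) (t : ℕ → V → ℝ) : ℕ → List (Lt V)
  | 0 => gl L p
  | m + 1 => gl L p ++ (nl (t (m + 1)) ++ mid L p t m)

/-- gates only -/
def glr (L : List (V × V)) (p : ℝ) : ℕ → List (Lt V)
  | 0 => gl L p
  | m + 1 => gl L p ++ glr L p m

theorem wd_mid (L : List (V × V)) (p : ℝ) (t : ℕ → V → ℝ) (m : ℕ) :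
    wd (mid L p t m) = gatM L p * down (fun j => layM (fun x => dgM (t j x)) * gatM L p) m := by
  induction m with
  | zero => simp only [mid, down, wd_gl, mul_one]
  | succ m ih =>
    simp only [mid, down]
    rw [wd_append, wd_append, wd_gl, wd_nl, ih]
    simp only [Matrix.mul_assoc]

theorem ok_gl (L : List (V × V)) {p : ℝ} (h0 : 0 ≤ p) (h1 : p ≤ 1) : ∀ l ∈ gl L p, Ok l := by
  intro l hl
  unfold gl at hl
  rw [List.mem_map] at hl
  obtain ⟨e, _, rfl⟩ := hl
  exact ⟨h0, h1⟩

theorem ok_nl {t : V → ℝ} (ht : ∀ x, 0 ≤ t x ∧ t x ≤ 1) : ∀ l ∈ nl t, Ok l := by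
  intro l hl
  unfold nl at hl
  rw [List.mem_map] at hl
  obtain ⟨z, _, rfl⟩ := hl
  exact ht z

theorem ok_mid (L : List (V × V)) {p : ℝ} (h0 : 0 ≤ p) (h1 : p ≤ 1) {t : ℕ → V → ℝ}
    (ht : ∀ j x, 0 ≤ t j x ∧ t j x ≤ 1) (m : ℕ) : ∀ l ∈ mid L p t m, Ok l := by
  induction m with
  | zero => exact ok_gl L h0 h1
  | succ m ih =>
    intro l hl
    simp only [mid, List.mem_append] at hl
    rcases hl with hl | hl | hl
    · exact ok_gl L h0 h1 l hl
    · exact ok_nl (ht _) l hl
    · exact ih l hl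

/-! ### The walk without the slices -/

theorem stq_mono {l : Lt V} (hl : Ok l) {q q' : V → ℕ → ℝ} (h : ∀ y j, q y j ≤ q' y j) (y : V)
    (j : ℕ) : stq l q y j ≤ stq l q' y j := by
  cases l with
  | gate a b p =>
    have hp := hl
    simp only [Ok] at hp
    simp only [stq]
    split_ifs with h1 h2
    · have := mul_le_mul_of_nonneg_left (h y j) (by linarith [hp.2] : 0 ≤ 1 - p)
      linarith
    · exact add_le_add (mul_le_mul_of_nonneg_left (h y j) (by linarith [hp.2]))
        (mul_le_mul_of_nonneg_left (h _ _) hp.1)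
    · exact h y j
  | node z t =>
    have hp := hl
    simp only [Ok] at hp
    simp only [stq]
    split_ifs with h1
    · exact mul_le_mul_of_nonneg_left (h y j) (div_nonneg (by linarith [hp.2]) (by linarith [hp.1]))
    · exact h y j

theorem qq_mono {w : List (Lt V)} (hw : ∀ l ∈ w, Ok l) {q q' : V → ℕ → ℝ}
    (h : ∀ y j, q y j ≤ q' y j) (y : V) (j : ℕ) : qq w q y j ≤ qq w q' y j := by
  induction w generalizing q q' with
  | nil => exact h y j
  | cons l w ih =>
    simp only [qq]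
    exact ih (fun l' hl' => hw l' (by simp [hl'])) fun y j => stq_mono (hw l (by simp)) h y j

theorem qq_nonneg {w : List (Lt V)} (hw : ∀ l ∈ w, Ok l) {q : V → ℕ → ℝ}
    (h : ∀ y j, 0 ≤ q y j) (y : V) (j : ℕ) : 0 ≤ qq w q y j := by
  induction w generalizing q with
  | nil => exact h y j
  | cons l w ih =>
    simp only [qq]
    exact ih (fun l' hl' => hw l' (by simp [hl'])) fun y j => stq_nonneg (hw l (by simp)) h y j

theorem stq_smul (l : Lt V) (c : ℝ) (q : V → ℕ → ℝ) :
    stq l (fun y j => c * q y j) = fun y j => c * stq l q y j := by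
  funext y j
  cases l with
  | gate a b p =>
    simp only [stq]
    split_ifs <;> ring
  | node z t =>
    simp only [stq]
    split_ifs <;> ring

theorem qq_smul (w : List (Lt V)) (c : ℝ) (q : V → ℕ → ℝ) :
    qq w (fun y j => c * q y j) = fun y j => c * qq w q y j := by
  induction w generalizing q with
  | nil => rfl
  | cons l w ih =>
    simp only [qq]
    rw [stq_smul, ih]

theorem qq_append (w w' : List (Lt V)) (q : V → ℕ → ℝ) : qq (w ++ w') q = qq w' (qq w q) := by
  induction w generalizing q with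
  | nil => rfl
  | cons l w ih =>
    rw [List.cons_append]
    simp only [qq]
    exact ih _

/-- the walk along the slices of one layer -/
theorem qq_nl (t : V → ℝ) (l : List V) (hl : l.Nodup) (q : V → ℕ → ℝ) :
    qq (l.map fun z => Lt.node z (t z)) q =
      fun y j => if y ∈ l then (1 - t y) / (1 + t y) * q y j else q y j := by
  induction l generalizing q with
  | nil =>
    funext y j
    simp [qq]
  | cons z l ih =>
    rw [List.map_cons]
    simp only [qq]
    rw [ih (List.nodup_cons.1 hl).2]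
    funext y j
    have hz := (List.nodup_cons.1 hl).1
    by_cases h1 : y = z
    · subst h1
      simp [hz, stq]
    · simp [h1, stq]

theorem qq_nl_ge {t : V → ℝ} (ht : ∀ x, 0 ≤ t x ∧ t x ≤ 1) {τ : ℝ} (hτ : ∀ x, t x ≤ τ)
    {q : V → ℕ → ℝ} (hq : ∀ y j, 0 ≤ q y j) (y : V) (j : ℕ) :
    (1 - τ) / (1 + τ) * q y j ≤ qq (nl t) q y j := by
  unfold nl
  rw [qq_nl t _ (Finset.nodup_toList _) q]
  simp only [Finset.mem_toList, Finset.mem_univ, if_true]
  refine mul_le_mul_of_nonneg_right ?_ (hq y j)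
  have h1 := ht y
  have h2 := hτ y
  rw [div_le_div_iff₀ (by linarith) (by linarith)]
  nlinarith

theorem qq_mid_ge (L : List (V × V)) {p : ℝ} (h0 : 0 ≤ p) (h1 : p ≤ 1) {t : ℕ → V → ℝ}
    (ht : ∀ j x, 0 ≤ t j x ∧ t j x ≤ 1) {τ : ℝ} (hτ1 : τ ≤ 1) (m : ℕ)
    (hτ : ∀ j x, 1 ≤ j → j ≤ m → t j x ≤ τ) {q : V → ℕ → ℝ} (hq : ∀ y j, 0 ≤ q y j) (y : V)
    (j : ℕ) : ((1 - τ) / (1 + τ)) ^ m * qq (glr L p m) q y j ≤ qq (mid L p t m) q y j := by
  induction m generalizing q y j with
  | zero => simp [glr, mid]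
  | succ m ih =>
    simp only [glr, mid]
    rw [qq_append, qq_append, qq_append]
    have hτ0 : 0 ≤ τ := le_trans (ht 1 y).1 (hτ 1 y le_rfl (by omega))
    have hρ : 0 ≤ (1 - τ) / (1 + τ) := div_nonneg (by linarith) (by linarith)
    have hq1 : ∀ y j, 0 ≤ qq (gl L p) q y j := fun y j => qq_nonneg (ok_gl L h0 h1) hq y j
    have hq2 : ∀ y j, 0 ≤ qq (nl (t (m + 1))) (qq (gl L p) q) y j :=
      fun y j => qq_nonneg (ok_nl (ht _)) hq1 y j
    have h2 := ih (fun j x hj hjm => hτ j x hj (by omega)) hq2 y j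
    refine le_trans ?_ h2
    have hok : ∀ m, ∀ l ∈ glr L p m, Ok l := by
      intro m
      induction m with
      | zero => exact ok_gl L h0 h1
      | succ m ih' =>
        intro l hl
        simp only [glr, List.mem_append] at hl
        rcases hl with hl | hl
        · exact ok_gl L h0 h1 l hl
        · exact ih' l hl
    have h3 := qq_mono (hok m) (q := fun y j => (1 - τ) / (1 + τ) * qq (gl L p) q y j)
      (q' := qq (nl (t (m + 1))) (qq (gl L p) q))
      (fun y j => qq_nl_ge (ht _) (fun x => hτ (m + 1) x (by omega) le_rfl) hq1 y j) y j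
    rw [qq_smul] at h3
    have h4 := mul_le_mul_of_nonneg_left h3 (pow_nonneg hρ m)
    calc ((1 - τ) / (1 + τ)) ^ (m + 1) * qq (glr L p m) (qq (gl L p) q) y j
        = ((1 - τ) / (1 + τ)) ^ m * ((1 - τ) / (1 + τ) * qq (glr L p m) (qq (gl L p) q) y j) := by
          rw [pow_succ]; ring
      _ ≤ _ := h4

/-! ### The potential -/

theorem Pot_mono {c : ℝ} {w : List (Lt V)} {a b a' : V → ℝ} (h : ∀ y, a y ≤ b y)
    (hb : Pot c w b a') : Pot c w a a' := by
  induction w generalizing a b with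
  | nil => exact fun y => (h y).trans (hb y)
  | cons l w ih =>
    cases l with
    | gate x y p =>
      obtain ⟨a1, h1, h2, h3⟩ := hb
      exact ⟨a1, fun v hv => ⟨by linarith [(h1 v hv).1, h v],
        by linarith [(h1 v hv).2, h (Equiv.swap x y v)]⟩, fun v => (h v).trans (h2 v), h3⟩
    | node z t => exact ih h hb

/-- number of entries touching `v` -/
def tch (l : List (V × V)) (v : V) : ℕ := l.countP fun e => v = e.1 ∨ v = e.2

theorem Pot_gates {p A D : ℝ} (h0 : 0 ≤ p) {w : List (Lt V)} {a' : V → ℝ}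
    (hw : Pot (1 + p * D) w (fun _ => A + p * D) a') (l : List (V × V)) :
    ∀ a : V → ℝ, (∀ v, A ≤ a v) → (∀ v, a v + p * tch l v ≤ A + p * D) →
      Pot (1 + p * D) ((l.map fun e => Lt.gate e.1 e.2 p) ++ w) a a' := by
  induction l with
  | nil =>
    intro a _ h2
    simp only [List.map_nil, List.nil_append]
    refine Pot_mono (fun y => ?_) hw
    have := h2 y
    simp only [tch, List.countP_nil, Nat.cast_zero, mul_zero, add_zero] at this
    exact this
  | cons e l ih =>
    intro a h1 h2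
    rw [List.map_cons, List.cons_append]
    have hcnt : ∀ v, (tch (e :: l) v : ℝ) = (if v = e.1 ∨ v = e.2 then 1 else 0) + tch l v := by
      intro v
      unfold tch
      rw [List.countP_cons]
      by_cases hv : v = e.1 ∨ v = e.2
      · simp [hv]; ring
      · simp [hv]
    refine ⟨fun v => a v + if v = e.1 ∨ v = e.2 then p else 0, fun v hv => ?_, fun v => ?_,
      ih _ (fun v => ?_) fun v => ?_⟩
    · simp only [if_pos hv]
      refine ⟨le_rfl, ?_⟩
      have h3 := h2 (Equiv.swap e.1 e.2 v)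
      have h4 := h1 v
      have h5 : 0 ≤ p * (tch (e :: l) (Equiv.swap e.1 e.2 v) : ℝ) :=
        mul_nonneg h0 (Nat.cast_nonneg _)
      linarith
    · show a v ≤ a v + if v = e.1 ∨ v = e.2 then p else 0
      split_ifs <;> linarith
    · have := h1 v
      show A ≤ a v + if v = e.1 ∨ v = e.2 then p else 0
      split_ifs <;> linarith
    · have h3 := h2 v
      rw [hcnt] at h3
      show (a v + if v = e.1 ∨ v = e.2 then p else 0) + p * tch l v ≤ A + p * D
      split_ifs at h3 ⊢ <;> nlinarith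

theorem Pot_nl {c : ℝ} {w : List (Lt V)} {a a' : V → ℝ} (l : List V) (t : V → ℝ)
    (hw : Pot c w a a') : Pot c ((l.map fun z => Lt.node z (t z)) ++ w) a a' := by
  induction l with
  | nil => exact hw
  | cons z l ih => exact ih

theorem Pot_mid (L : List (V × V)) {p D : ℝ} (h0 : 0 ≤ p) (hD : ∀ v, (tch L v : ℝ) ≤ D)
    (t : ℕ → V → ℝ) (m : ℕ) (A : ℝ) :
    Pot (1 + p * D) (mid L p t m) (fun _ => A) (fun _ => A + p * D * (m + 1)) := by
  have hD' : ∀ v, (tch L.reverse v : ℝ) ≤ D := by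
    intro v
    have : tch L.reverse v = tch L v := by
      unfold tch
      exact List.countP_reverse
    rw [this]
    exact hD v
  induction m generalizing A with
  | zero =>
    have h := Pot_gates (A := A) (D := D) h0 (w := [])
      (a' := fun _ => A + p * D * (((0 : ℕ) : ℝ) + 1))
      (fun y => by simp) L.reverse (fun _ => A) (fun _ => le_rfl)
      (fun v => by linarith [mul_le_mul_of_nonneg_left (hD' v) h0])
    rw [List.append_nil] at h
    exact h
  | succ m ih =>
    simp only [mid]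
    refine Pot_gates (A := A) (D := D) h0 ?_ L.reverse (fun _ => A) (fun _ => le_rfl)
      (fun v => by linarith [mul_le_mul_of_nonneg_left (hD' v) h0])
    refine Pot_nl _ _ ?_
    have h2 := ih (A + p * D)
    have e : (fun _ : V => A + p * D + p * D * ((m : ℝ) + 1)) =
        fun _ => A + p * D * (((m + 1 : ℕ) : ℝ) + 1) := by
      funext _
      push_cast
      ring
    rw [e] at h2
    exact h2

/-! ### The defects -/

theorem HX_of (C : MM V) {B : ℝ} (w : List (Lt V)) (Q : MM V)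
    (h : ∀ w1 w2 a b p, w = w1 ++ Lt.gate a b p :: w2 →
      trace (Q * wd w1 * exM a b * wd w2 * C) ≤ B ∧
      trace (Q * wd w1 * neM a b * wd w2 * C) ≤ B) : HX C B w Q := by
  induction w generalizing Q with
  | nil => trivial
  | cons l w ih =>
    have h2 : HX C B w (Q * mt l) := by
      refine ih _ fun w1 w2 a b p hw => ?_
      have h3 := h (l :: w1) w2 a b p (by rw [hw]; rfl)
      rw [wd_cons, ← Matrix.mul_assoc Q (mt l) (wd w1)] at h3
      exact h3
    cases l with
    | gate a b p =>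
      refine ⟨?_, h2⟩
      have h3 := h [] w a b p rfl
      simp only [wd, List.map_nil, List.prod_nil, Matrix.mul_one] at h3
      exact h3
    | node z t => exact h2

/-! ### The circuit -/

/-- The slices of the layer `j`. -/
def FM (N : ℕ) (θ : Fin (N + 1) × V → ℝ) (j : ℕ) : MM V :=
  layM fun x => dgM (θ (Fin.ofNat (N + 1) j, x))

/-- Everything to the left of the layer `k'`. -/
def preM (L : List (V × V)) (p : ℝ) (N : ℕ) (θ : Fin (N + 1) × V → ℝ) (k' : ℕ) : MM V :=
  down (fun j => FM N θ (k' + j) * gatM L p) (N - k')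

/-- Everything to the right of the layer `k`. -/
def restM (L : List (V × V)) (p : ℝ) (N : ℕ) (θ : Fin (N + 1) × V → ℝ) (k : ℕ) : MM V :=
  if k = 0 then 1 else gatM L p * down (fun j => FM N θ j * gatM L p) (k - 1) * FM N θ 0

/-- The slices of a layer, the one at `x` removed. -/
def rmM (t : V → ℝ) (x : V) : MM V := layM (Function.update (fun y => dgM (t y)) x 1)

theorem split_gen {M : Type*} [Monoid M] (F : ℕ → M) (G : M) {N k m : ℕ} (h : k + m + 1 ≤ N) :
    down (fun j => F j * G) N * F 0 =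
      down (fun j => F (k + m + 1 + j) * G) (N - (k + m + 1)) * (F (k + m + 1) *
        ((G * down (fun j => F (k + j) * G) m) * (F k *
          (if k = 0 then 1 else G * down (fun j => F j * G) (k - 1) * F 0)))) := by
  have h1 : down (fun j => F j * G) N =
      down (fun j => F (k + m + 1 + j) * G) (N - (k + m + 1)) *
        down (fun j => F j * G) (k + m + 1) := by
    conv_lhs => rw [show N = (N - (k + m + 1)) + (k + m + 1) by omega]
    rw [down_split]
  have h2 : down (fun j => F j * G) (k + m + 1) =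
      F (k + m + 1) * G * down (fun j => F j * G) (k + m) := rfl
  have h3 : down (fun j => F j * G) (k + m) =
      down (fun j => F (k + j) * G) m * down (fun j => F j * G) k := by
    rw [show k + m = m + k by omega, down_split]
  have h4 : down (fun j => F j * G) k * F 0 =
      F k * (if k = 0 then 1 else G * down (fun j => F j * G) (k - 1) * F 0) := by
    by_cases hk : k = 0
    · subst hk
      simp [down]
    · rw [if_neg hk]
      obtain ⟨k', rfl⟩ := Nat.exists_eq_succ_of_ne_zero hk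
      show F (k' + 1) * G * down (fun j => F j * G) k' * F 0 = _
      simp only [mul_assoc]
      rfl
  rw [h1, h2, h3]
  simp only [mul_assoc] at h4 ⊢
  rw [h4]

theorem NZ_split (L : List (V × V)) (β : ℝ) (N : ℕ) (A : Fin (N + 1) × V → Matrix (Fin 2) (Fin 2) ℝ)
    {k m : ℕ} (h : k + m + 1 ≤ N) :
    NZ (phys L β N) A = trace (
      down (fun j => (layM fun x => A (Fin.ofNat (N + 1) (k + m + 1 + j), x)) *
        gatM L (β / (2 * N))) (N - (k + m + 1)) *
      ((layM fun x => A (Fin.ofNat (N + 1) (k + m + 1), x)) *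
        ((gatM L (β / (2 * N)) * down (fun j => (layM fun x => A (Fin.ofNat (N + 1) (k + j), x)) *
          gatM L (β / (2 * N))) m) * ((layM fun x => A (Fin.ofNat (N + 1) k, x)) *
          (if k = 0 then 1 else gatM L (β / (2 * N)) *
            down (fun j => (layM fun x => A (Fin.ofNat (N + 1) j, x)) *
              gatM L (β / (2 * N))) (k - 1) * layM fun x => A (Fin.ofNat (N + 1) 0, x)))))) := by
  rw [NZ_phys]
  have h0 : (layM fun x => A (0, x) : MM V) = layM fun x => A (Fin.ofNat (N + 1) 0, x) := rfl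
  rw [h0, split_gen (fun j => (layM fun x => A (Fin.ofNat (N + 1) j, x) : MM V))
    (gatM L (β / (2 * N))) h]

theorem ofNat_inj {N i j : ℕ} (hi : i ≤ N) (hj : j ≤ N)
    (h : Fin.ofNat (N + 1) i = Fin.ofNat (N + 1) j) : i = j := by
  have := congrArg Fin.val h
  rwa [Fin.val_ofNat, Fin.val_ofNat, Nat.mod_eq_of_lt (by omega), Nat.mod_eq_of_lt (by omega)]
    at this

theorem rmM_mul_sxM (t : V → ℝ) (x : V) :
    rmM t x * sxM x = layM (Function.update (fun y => dgM (t y)) x m1) := by
  unfold rmM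
  rw [layM_up1, layM_dgM]
  ext σ τ
  rw [Matrix.diagonal_mul, layM, Matrix.of_apply,
    ← Finset.mul_prod_erase Finset.univ _ (Finset.mem_univ x),
    ← Finset.mul_prod_erase Finset.univ (fun y => Function.update (fun y => dgM (t y)) x m1 y
      (σ y) (τ y)) (Finset.mem_univ x)]
  rw [Function.update_self, Function.update_self, zero_mul, add_zero, one_mul]
  by_cases hστ : σ = Function.update τ x (1 - τ x)
  · have h1 : (sxM x : MM V) σ τ = 1 := by simp [sxM, hστ]
    have h2 : (m1 : Matrix (Fin 2) (Fin 2) ℝ) (σ x) (τ x) = 1 := by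
      rw [m1_apply, if_neg]
      rw [hστ, Function.update_self]
      generalize τ x = b
      fin_cases b <;> simp
    rw [h1, h2, mul_one, one_mul]
    refine Finset.prod_congr rfl fun y hy => ?_
    have hyx := Finset.ne_of_mem_erase hy
    rw [Function.update_of_ne hyx, Function.update_of_ne hyx]
    have : τ y = σ y := by rw [hστ, Function.update_of_ne hyx]
    rw [this]
    unfold dgM Dict.sg
    rcases Fin.exists_fin_two.1 ⟨σ y, rfl⟩ with h0 | h0 <;> rw [h0] <;> simp [sub_eq_add_neg]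
  · have h1 : (sxM x : MM V) σ τ = 0 := by simp [sxM, hστ]
    rw [h1, mul_zero]
    symm
    by_cases hx : σ x = τ x
    · have : (m1 : Matrix (Fin 2) (Fin 2) ℝ) (σ x) (τ x) = 0 := by rw [m1_apply, if_pos hx]
      rw [this, zero_mul]
    · have : ∃ y, y ≠ x ∧ σ y ≠ τ y := by
        by_contra hcon
        push Not at hcon
        apply hστ
        funext y
        by_cases hy : y = x
        · subst hy
          rw [Function.update_self]
          revert hx
          generalize σ y = a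
          generalize τ y = b
          fin_cases a <;> fin_cases b <;> simp
        · rw [Function.update_of_ne hy]
          exact hcon y hy
      obtain ⟨y, hyx, hy⟩ := this
      rw [Finset.prod_eq_zero (Finset.mem_erase.2 ⟨hyx, Finset.mem_univ y⟩), mul_zero]
      rw [Function.update_of_ne hyx]
      exact dgM_ne _ hy

theorem sxM_mul_rmM (t : V → ℝ) (x : V) :
    sxM x * rmM t x = layM (Function.update (fun y => dgM (t y)) x m1) := by
  rw [← rmM_mul_sxM]
  unfold rmM
  rw [layM_up1, layM_dgM]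
  ext σ τ
  rw [Matrix.diagonal_mul, Matrix.mul_diagonal]
  by_cases hστ : σ = Function.update τ x (1 - τ x)
  · have h1 : (sxM x : MM V) σ τ = 1 := by simp [sxM, hστ]
    rw [h1, mul_one, one_mul]
    refine Finset.prod_congr rfl fun y _ => ?_
    by_cases hy : y = x
    · subst hy
      rw [Function.update_self, zero_mul, zero_mul]
    · have : τ y = σ y := by rw [hστ, Function.update_of_ne hy]
      rw [this]
  · have h1 : (sxM x : MM V) σ τ = 0 := by simp [sxM, hστ]
    rw [h1, mul_zero, zero_mul]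

theorem rmM_nonneg {t : V → ℝ} (ht : ∀ x, 0 ≤ t x ∧ t x ≤ 1) (x : V) : Le 0 (rmM t x) := by
  unfold rmM
  rw [layM_up1, layM_dgM]
  intro σ τ
  rw [Matrix.zero_apply, Matrix.diagonal_apply]
  split_ifs
  · refine Finset.prod_nonneg fun y _ => ?_
    have h1 : 0 ≤ Function.update t x 0 y ∧ Function.update t x 0 y ≤ 1 := by
      by_cases hy : y = x
      · subst hy; rw [Function.update_self]; norm_num
      · rw [Function.update_of_ne hy]; exact ht y
    unfold Dict.sg
    split_ifs <;> linarith [h1.1, h1.2]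
  · exact le_rfl

theorem layM_le_rmM {t : V → ℝ} (ht : ∀ x, 0 ≤ t x ∧ t x ≤ 1) (x : V) :
    Le (layM fun y => dgM (t y)) ((1 + t x) • rmM t x) := by
  unfold rmM
  rw [layM_up1, layM_dgM, layM_dgM]
  intro σ τ
  rw [Matrix.smul_apply, Matrix.diagonal_apply, Matrix.diagonal_apply]
  split_ifs
  · rw [smul_eq_mul, ← Finset.mul_prod_erase Finset.univ _ (Finset.mem_univ x),
      ← Finset.mul_prod_erase Finset.univ (fun y => 1 + Function.update t x 0 y * Dict.sg (σ y))
      (Finset.mem_univ x), Function.update_self, zero_mul, add_zero, one_mul]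
    have h1 : ∏ y ∈ univ.erase x, (1 + Function.update t x 0 y * Dict.sg (σ y)) =
        ∏ y ∈ univ.erase x, (1 + t y * Dict.sg (σ y)) := by
      refine Finset.prod_congr rfl fun y hy => ?_
      rw [Function.update_of_ne (Finset.ne_of_mem_erase hy)]
    rw [h1]
    refine mul_le_mul_of_nonneg_right ?_ (Finset.prod_nonneg fun y _ => ?_)
    · unfold Dict.sg
      split_ifs <;> linarith [(ht x).1]
    · unfold Dict.sg
      split_ifs <;> linarith [(ht y).1, (ht y).2]
  · simp

theorem layM_nonneg' {t : V → ℝ} (ht : ∀ x, 0 ≤ t x ∧ t x ≤ 1) :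
    Le (0 : MM V) (layM fun y => dgM (t y)) := by
  rw [← wd_nl]
  exact wd_nonneg (ok_nl ht)

theorem gatM_nonneg' (L : List (V × V)) {p : ℝ} (h0 : 0 ≤ p) (h1 : p ≤ 1) :
    Le (0 : MM V) (gatM L p) := by
  rw [← wd_gl]
  exact wd_nonneg (ok_gl L h0 h1)

theorem down_nonneg {f : ℕ → MM V} (h : ∀ j, Le 0 (f j)) (n : ℕ) : Le 0 (down f n) := by
  induction n with
  | zero => exact one_nonneg
  | succ n ih => exact (h _).zero_mul ih

theorem preM_nonneg (L : List (V × V)) {p : ℝ} (h0 : 0 ≤ p) (h1 : p ≤ 1) {N : ℕ}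
    {θ : Fin (N + 1) × V → ℝ} (hθ : ∀ z, 0 ≤ θ z ∧ θ z ≤ 1) (k : ℕ) :
    Le 0 (preM L p N θ k) :=
  down_nonneg (fun _ => (layM_nonneg' fun _ => hθ _).zero_mul (gatM_nonneg' L h0 h1)) _

theorem restM_nonneg (L : List (V × V)) {p : ℝ} (h0 : 0 ≤ p) (h1 : p ≤ 1) {N : ℕ}
    {θ : Fin (N + 1) × V → ℝ} (hθ : ∀ z, 0 ≤ θ z ∧ θ z ≤ 1) (k : ℕ) :
    Le 0 (restM L p N θ k) := by
  unfold restM
  split_ifs
  · exact one_nonneg
  · exact ((gatM_nonneg' L h0 h1).zero_mul (down_nonneg (fun _ =>
      (layM_nonneg' fun _ => hθ _).zero_mul (gatM_nonneg' L h0 h1)) _)).zero_mul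
      (layM_nonneg' fun _ => hθ _)

/-- The left context of the pair `(k + m + 1, x), (k, y)`. -/
def lctx (L : List (V × V)) (β : ℝ) (N : ℕ) (θ : Fin (N + 1) × V → ℝ) (k' : ℕ) (x : V) : MM V :=
  preM L (β / (2 * N)) N θ k' * rmM (fun z => θ (Fin.ofNat (N + 1) k', z)) x

/-- The right context. -/
def rctx (L : List (V × V)) (β : ℝ) (N : ℕ) (θ : Fin (N + 1) × V → ℝ) (k : ℕ) (y : V) : MM V :=
  rmM (fun z => θ (Fin.ofNat (N + 1) k, z)) y * restM L (β / (2 * N)) N θ k

/-- The word between the layers `k + m + 1` and `k`. -/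
def mword (L : List (V × V)) (β : ℝ) (N : ℕ) (θ : Fin (N + 1) × V → ℝ) (k m : ℕ) : List (Lt V) :=
  mid L (β / (2 * N)) (fun j z => θ (Fin.ofNat (N + 1) (k + j), z)) m

theorem down_congr' {M : Type*} [Monoid M] {f g : ℕ → M} {n : ℕ}
    (h : ∀ j, 1 ≤ j → j ≤ n → f j = g j) : down f n = down g n := down_congr h

/-- **Long windows**, conductances of the circuit. -/
theorem cc_long (L : List (V × V)) {β : ℝ} {N : ℕ} (hβ : 0 ≤ β) (hN : β ≤ N) (hN0 : 0 < N)
    {θ : Fin (N + 1) × V → ℝ} (hθ : ∀ z, 0 ≤ θ z ∧ θ z ≤ 1) {D : ℝ}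
    (hD : ∀ v, (tch L v : ℝ) ≤ D) {k m : ℕ} (hk : k + m + 1 ≤ N) (x y : V) (J : ℕ) {δ : ℝ}
    (hδ : 0 ≤ δ)
    (hX : ∀ w1 w2 a b p, mword L β N θ k m = w1 ++ Lt.gate a b p :: w2 →
      trace (lctx L β N θ (k + m + 1) x * wd w1 * exM a b * wd w2 * rctx L β N θ k y) ≤
        δ * trace (lctx L β N θ (k + m + 1) x * wd (mword L β N θ k m) * rctx L β N θ k y) ∧
      trace (lctx L β N θ (k + m + 1) x * wd w1 * neM a b * wd w2 * rctx L β N θ k y) ≤
        δ * trace (lctx L β N θ (k + m + 1) x * wd (mword L β N θ k m) * rctx L β N θ k y)) :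
    (∑ j ∈ range J, qq (mword L β N θ k m) (q0 x) y j *
      (1 - δ * (β / (2 * N) * D * (m + 1) + (1 + β / (2 * N) * D) * j))) *
      (θ (Fin.ofNat (N + 1) (k + m + 1), x) * θ (Fin.ofNat (N + 1) k, y)) / 4 ≤
      cc (phys L β N) θ (Fin.ofNat (N + 1) (k + m + 1), x) (Fin.ofNat (N + 1) k, y) := by
  classical
  have hNr : (0 : ℝ) < N := by exact_mod_cast hN0
  set p : ℝ := β / (2 * N) with hp
  have hp0 : 0 ≤ p := by positivity
  have hp1 : p ≤ 1 := by
    rw [hp, div_le_one (by positivity)]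
    linarith
  set u : Fin (N + 1) × V := (Fin.ofNat (N + 1) (k + m + 1), x) with hu
  set v : Fin (N + 1) × V := (Fin.ofNat (N + 1) k, y) with hv
  have huv : u ≠ v := by
    intro h
    have := ofNat_inj hk (by omega) (congrArg Prod.fst h)
    omega
  set A : MM V := lctx L β N θ (k + m + 1) x with hA
  set C : MM V := rctx L β N θ k y with hC
  set w : List (Lt V) := mword L β N θ k m with hw
  have hAn : Le 0 A := (preM_nonneg L hp0 hp1 hθ _).zero_mul (rmM_nonneg (fun _ => hθ _) _)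
  have hCn : Le 0 C := (rmM_nonneg (fun _ => hθ _) _).zero_mul (restM_nonneg L hp0 hp1 hθ _)
  have hok : ∀ l ∈ w, Ok l := ok_mid L hp0 hp1 (fun _ _ => hθ _) m
  have hpot : Pot (1 + p * D) w (fun _ => 0) (fun _ => 0 + p * D * (m + 1)) :=
    Pot_mid L hp0 hD _ m 0
  have hmain := long_trace A C hAn hCn hδ w hok x y J _ hpot (HX_of C w A hX)
  have hwd : wd w = gatM L p * down (fun j => (layM fun z =>
      dgM (θ (Fin.ofNat (N + 1) (k + j), z))) * gatM L p) m := wd_mid L p _ m
  -- layers away from `u`, `v`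
  have hlay : ∀ j, j ≤ N → j ≠ k + m + 1 → j ≠ k →
      (layM fun z => (Function.update (Function.update (fun z => dgM (θ z)) u m1) v m1)
        (Fin.ofNat (N + 1) j, z) : MM V) = layM fun z => dgM (θ (Fin.ofNat (N + 1) j, z)) := by
    intro j hj h1 h2
    congr 1
    funext z
    rw [Function.update_of_ne, Function.update_of_ne]
    · intro h
      exact h1 (ofNat_inj hj hk (congrArg Prod.fst h))
    · intro h
      exact h2 (ofNat_inj hj (by omega) (congrArg Prod.fst h))
  have hlayu : (layM fun z => (Function.update (Function.update (fun z => dgM (θ z)) u m1) v m1)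
        (Fin.ofNat (N + 1) (k + m + 1), z) : MM V) =
      rmM (fun z => θ (Fin.ofNat (N + 1) (k + m + 1), z)) x * sxM x := by
    rw [rmM_mul_sxM]
    congr 1
    funext z
    rw [Function.update_of_ne]
    · by_cases hz : z = x
      · subst hz
        rw [← hu, Function.update_self, Function.update_self]
      · rw [Function.update_of_ne hz, Function.update_of_ne]
        intro h
        exact hz (congrArg Prod.snd h)
    · intro h
      have := ofNat_inj hk (by omega) (congrArg Prod.fst h)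
      omega
  have hlayv : (layM fun z => (Function.update (Function.update (fun z => dgM (θ z)) u m1) v m1)
        (Fin.ofNat (N + 1) k, z) : MM V) =
      sxM y * rmM (fun z => θ (Fin.ofNat (N + 1) k, z)) y := by
    rw [sxM_mul_rmM]
    congr 1
    funext z
    by_cases hz : z = y
    · subst hz
      rw [← hv, Function.update_self, Function.update_self]
    · rw [Function.update_of_ne hz, Function.update_of_ne, Function.update_of_ne]
      · intro h
        have := ofNat_inj (by omega) hk (congrArg Prod.fst h)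
        omega
      · intro h
        exact hz (congrArg Prod.snd h)
  have hnum : NZ (phys L β N) (Function.update (Function.update (fun z => dgM (θ z)) u m1) v m1) =
      trace (A * sxM x * wd w * (sxM y * C)) := by
    rw [NZ_split L β N _ hk, hlayu, hlayv, hwd]
    rw [down_congr (f := fun j => (layM fun z => (Function.update (Function.update
        (fun z => dgM (θ z)) u m1) v m1) (Fin.ofNat (N + 1) (k + m + 1 + j), z) : MM V) *
        gatM L (β / (2 * N)))
      (g := fun j => FM N θ (k + m + 1 + j) * gatM L (β / (2 * N)))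
      (fun j h1 h2 => by rw [hlay _ (by omega) (by omega) (by omega)]; rfl)]
    rw [down_congr (f := fun j => (layM fun z => (Function.update (Function.update
        (fun z => dgM (θ z)) u m1) v m1) (Fin.ofNat (N + 1) (k + j), z) : MM V) *
        gatM L (β / (2 * N)))
      (g := fun j => (layM fun z => dgM (θ (Fin.ofNat (N + 1) (k + j), z))) *
        gatM L (β / (2 * N)))
      (fun j h1 h2 => by rw [hlay _ (by omega) (by omega) (by omega)])]
    have hrest : (if k = 0 then 1 else gatM L (β / (2 * N)) *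
            down (fun j => (layM fun z => (Function.update (Function.update (fun z => dgM (θ z)) u
              m1) v m1) (Fin.ofNat (N + 1) j, z) : MM V) * gatM L (β / (2 * N))) (k - 1) *
            layM fun z => (Function.update (Function.update (fun z => dgM (θ z)) u m1) v m1)
              (Fin.ofNat (N + 1) 0, z)) = restM L (β / (2 * N)) N θ k := by
      unfold restM
      by_cases hk0 : k = 0
      · rw [if_pos hk0, if_pos hk0]
      · rw [if_neg hk0, if_neg hk0, hlay 0 (by omega) (by omega) (by omega),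
          down_congr (f := fun j => (layM fun z => (Function.update (Function.update
            (fun z => dgM (θ z)) u m1) v m1) (Fin.ofNat (N + 1) j, z) : MM V) *
            gatM L (β / (2 * N)))
          (g := fun j => FM N θ j * gatM L (β / (2 * N)))
          (fun j h1 h2 => by rw [hlay _ (by omega) (by omega) (by omega)]; rfl)]
        rfl
    rw [hrest, hA, hC]
    unfold lctx rctx preM
    simp only [Matrix.mul_assoc]
    rw [hp]
  have hden : NZ (phys L β N) (fun z => dgM (θ z)) ≤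
      (1 + θ u) * (1 + θ v) * trace (A * wd w * C) := by
    rw [NZ_split L β N _ hk, hwd]
    have hGn := gatM_nonneg' L hp0 hp1
    have hPn := preM_nonneg L hp0 hp1 hθ (k + m + 1)
    have hRn := restM_nonneg L hp0 hp1 hθ k
    have hMn : Le (0 : MM V) (gatM L p * down (fun j => (layM fun z =>
      dgM (θ (Fin.ofNat (N + 1) (k + j), z))) * gatM L p) m) := by
      rw [← hwd]; exact wd_nonneg hok
    have h1 := (layM_le_rmM (t := fun z => θ (Fin.ofNat (N + 1) (k + m + 1), z))
      (fun _ => hθ _) x)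
    have h2 := (layM_le_rmM (t := fun z => θ (Fin.ofNat (N + 1) k, z)) (fun _ => hθ _) y)
    have h3 : Le (preM L p N θ (k + m + 1) * ((layM fun z =>
        dgM (θ (Fin.ofNat (N + 1) (k + m + 1), z))) * ((gatM L p * down (fun j => (layM fun z =>
        dgM (θ (Fin.ofNat (N + 1) (k + j), z))) * gatM L p) m) * ((layM fun z =>
        dgM (θ (Fin.ofNat (N + 1) k, z))) * restM L p N θ k))))
        (preM L p N θ (k + m + 1) * (((1 + θ u) • rmM (fun z =>
          θ (Fin.ofNat (N + 1) (k + m + 1), z)) x) * ((gatM L p * down (fun j => (layM fun z =>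
        dgM (θ (Fin.ofNat (N + 1) (k + j), z))) * gatM L p) m) * (((1 + θ v) • rmM (fun z =>
          θ (Fin.ofNat (N + 1) k, z)) y) * restM L p N θ k)))) := by
      refine Le.mul_left ?_ hPn
      refine Le.trans (Le.mul_right h1 (hMn.zero_mul
        ((layM_nonneg' fun _ => hθ _).zero_mul hRn))) ?_
      refine Le.mul_left ?_ ((rmM_nonneg (fun _ => hθ _) _).zero_smul (by linarith [(hθ u).1]))
      refine Le.mul_left ?_ hMn
      exact Le.mul_right h2 hRn
    have h4 := h3.trace
    refine le_trans h4 (le_of_eq ?_)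
    rw [hA, hC]
    unfold lctx rctx
    simp only [Matrix.smul_mul, Matrix.mul_smul, Matrix.trace_smul, smul_eq_mul, Matrix.mul_assoc]
    ring
  have hNZn : 0 < NZ (phys L β N) fun z => dgM (θ z) := by
    rw [NZ_phys]
    have h1 : PU (down (fun k => layM (fun x => dgM (θ (Fin.ofNat (N + 1) k, x))) *
        gatM L (β / (2 * N))) N * layM fun x => dgM (θ (0, x))) := by
      have hd : ∀ n, PU (down (fun k => layM (fun x => dgM (θ (Fin.ofNat (N + 1) k, x))) *
          gatM L (β / (2 * N))) n) := by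
        intro n
        induction n with
        | zero => exact PU.one
        | succ n ih => exact ((PU.layM fun _ => hθ _).mul (PU.gatM L hp0 hp1)).mul ih
      exact (hd N).mul (PU.layM fun _ => hθ _)
    linarith [h1.trace]
  have hccn : 0 ≤ cc (phys L β N) θ u v := by
    rw [cc_eq3 _ _ huv, hnum]
    refine div_nonneg (mul_nonneg (mul_nonneg (hθ u).1 (hθ v).1) ?_) hNZn.le
    have := (((hAn.zero_mul (sxM_nonneg x)).zero_mul (wd_nonneg hok)).zero_mul
      ((sxM_nonneg y).zero_mul hCn)).trace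
    rwa [Matrix.trace_zero] at this
  set S : ℝ := ∑ j ∈ range J, qq w (q0 x) y j *
      (1 - δ * (p * D * (m + 1) + (1 + p * D) * j)) with hS
  have hmain' : S * trace (A * wd w * C) ≤ trace (A * sxM x * wd w * (sxM y * C)) := by
    refine le_trans (le_of_eq ?_) hmain
    rw [hS]
    congr 1
    refine Finset.sum_congr rfl fun j _ => ?_
    ring
  rcases le_or_gt S 0 with hS0 | hS0
  · refine le_trans ?_ hccn
    have : S * (θ u * θ v) ≤ 0 :=
      mul_nonpos_of_nonpos_of_nonneg hS0 (mul_nonneg (hθ u).1 (hθ v).1)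
    linarith
  · rw [cc_eq3 _ _ huv, hnum, le_div_iff₀ hNZn]
    have hZ' : 0 ≤ trace (A * wd w * C) := by
      have := ((hAn.zero_mul (wd_nonneg hok)).zero_mul hCn).trace
      rwa [Matrix.trace_zero] at this
    have h5 : NZ (phys L β N) (fun z => dgM (θ z)) ≤ 4 * trace (A * wd w * C) := by
      refine hden.trans (mul_le_mul_of_nonneg_right ?_ hZ')
      nlinarith [(hθ u).1, (hθ u).2, (hθ v).1, (hθ v).2]
    have h6 : 0 ≤ S * (θ u * θ v) / 4 :=
      div_nonneg (mul_nonneg hS0.le (mul_nonneg (hθ u).1 (hθ v).1)) (by norm_num)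
    calc S * (θ u * θ v) / 4 * NZ (phys L β N) (fun z => dgM (θ z))
        ≤ S * (θ u * θ v) / 4 * (4 * trace (A * wd w * C)) := mul_le_mul_of_nonneg_left h5 h6
      _ = θ u * θ v * (S * trace (A * wd w * C)) := by ring
      _ ≤ θ u * θ v * trace (A * sxM x * wd w * (sxM y * C)) :=
          mul_le_mul_of_nonneg_left hmain' (mul_nonneg (hθ u).1 (hθ v).1)

end

end Vale.Agent.P361.LRO.Bloch
end

section

/-!
# P361, stage R3, heat kernel: one-dimensional lower bound

Poisson weights and the Skellam lower bound `e^{-2s} ∑_b s^b s^{b+j} / (b! (b+j)!) ≥ c_A / √s`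
for `0 ≤ j ≤ A √s`, `s ≥ 1`.
-/

namespace Vale.Agent.P361.LRO.Bloch.Ker

open Finset

noncomputable section

/-- Poisson weight. -/
def po (s : ℝ) (b : ℕ) : ℝ := Real.exp (-s) * (s ^ b / b.factorial)

theorem po_nonneg {s : ℝ} (hs : 0 ≤ s) (b : ℕ) : 0 ≤ po s b := by
  unfold po
  positivity

theorem fact_le {n : ℕ} (hn : 0 < n) :
    (n.factorial : ℝ) ≤ Real.exp 1 * √n * (n / Real.exp 1) ^ n := by
  obtain ⟨m, rfl⟩ : ∃ m, n = m + 1 := ⟨n - 1, by omega⟩
  have h : Stirling.stirlingSeq (m + 1) ≤ Stirling.stirlingSeq 1 :=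
    Stirling.stirlingSeq'_antitone (Nat.zero_le m)
  rw [Stirling.stirlingSeq_one, Stirling.stirlingSeq] at h
  have h2 : (0 : ℝ) < √2 := by positivity
  have hp : (0 : ℝ) < √(2 * ((m + 1 : ℕ) : ℝ)) * (((m + 1 : ℕ) : ℝ) / Real.exp 1) ^ (m + 1) := by
    positivity
  rw [div_le_iff₀ hp] at h
  refine h.trans (le_of_eq ?_)
  rw [Real.sqrt_mul (by norm_num)]
  field_simp

theorem fact_add_le (b i : ℕ) : (b + i).factorial ≤ b.factorial * (b + i) ^ i := by
  induction i with
  | zero => simp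
  | succ i ih =>
    rw [← add_assoc, Nat.factorial_succ]
    calc (b + i + 1) * (b + i).factorial ≤ (b + i + 1) * (b.factorial * (b + i) ^ i) :=
          Nat.mul_le_mul_left _ ih
      _ ≤ (b + i + 1) * (b.factorial * (b + i + 1) ^ i) :=
          Nat.mul_le_mul_left _ (Nat.mul_le_mul_left _ (Nat.pow_le_pow_left (Nat.le_succ _) _))
      _ = b.factorial * (b + i + 1) ^ (i + 1) := by ring

theorem po_floor {s : ℝ} (hs : 1 ≤ s) : Real.exp (-2) / √s ≤ po s ⌊s⌋₊ := by
  set b := ⌊s⌋₊ with hb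
  have hb1 : 1 ≤ b := by
    rw [hb]
    exact Nat.le_floor (by exact_mod_cast hs)
  have hs0 : 0 < s := by linarith
  have hbs : (b : ℝ) ≤ s := Nat.floor_le hs0.le
  have hsb : s < b + 1 := Nat.lt_floor_add_one s
  have hbp : (0 : ℝ) < b := by exact_mod_cast hb1
  have hf : (0 : ℝ) < b.factorial := by exact_mod_cast Nat.factorial_pos b
  have hsq : (0 : ℝ) < √s := Real.sqrt_pos.2 hs0
  unfold po
  rw [← mul_div_assoc, le_div_iff₀ hf]
  have h1 : Real.exp (-2) / √s * (b.factorial : ℝ) ≤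
      Real.exp (-2) / √s * (Real.exp 1 * √b * (b / Real.exp 1) ^ b) :=
    mul_le_mul_of_nonneg_left (fact_le hb1) (by positivity)
  refine h1.trans ?_
  have h2 : √(b : ℝ) ≤ √s := Real.sqrt_le_sqrt hbs
  have h3 : (b / Real.exp 1 : ℝ) ^ b ≤ s ^ b * Real.exp (-b) := by
    rw [div_pow, ← Real.exp_nat_mul, mul_one, Real.exp_neg, ← div_eq_mul_inv]
    gcongr
  have h4 : Real.exp (-2) / √s * (Real.exp 1 * √b * (b / Real.exp 1) ^ b) ≤
      Real.exp (-2) / √s * (Real.exp 1 * √s * (s ^ b * Real.exp (-b))) := by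
    gcongr
  refine h4.trans ?_
  have h5 : Real.exp (-2) / √s * (Real.exp 1 * √s * (s ^ b * Real.exp (-b))) =
      Real.exp (-(b + 1)) * s ^ b := by
    have e : Real.exp (-(b + 1) : ℝ) = Real.exp (-2) * Real.exp 1 * Real.exp (-b) := by
      rw [← Real.exp_add, ← Real.exp_add]
      congr 1
      ring
    rw [e]
    field_simp
  rw [h5]
  have h6 : Real.exp (-(b + 1) : ℝ) ≤ Real.exp (-s) := Real.exp_le_exp.2 (by linarith)
  gcongr

theorem po_add {s : ℝ} (hs : 1 ≤ s) (i : ℕ) :
    po s ⌊s⌋₊ * Real.exp (-((i : ℝ) ^ 2 / s)) ≤ po s (⌊s⌋₊ + i) := by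
  set b := ⌊s⌋₊ with hb
  have hs0 : 0 < s := by linarith
  have hbs : (b : ℝ) ≤ s := Nat.floor_le hs0.le
  have hf : (0 : ℝ) < b.factorial := by exact_mod_cast Nat.factorial_pos b
  have hf2 : (0 : ℝ) < (b + i).factorial := by exact_mod_cast Nat.factorial_pos _
  have h1 : ((b + i).factorial : ℝ) ≤ b.factorial * (s + i) ^ i := by
    have h := fact_add_le b i
    have h' : ((b + i).factorial : ℝ) ≤ b.factorial * ((b : ℝ) + i) ^ i := by exact_mod_cast h
    refine h'.trans ?_
    gcongr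
  have h2 : Real.exp (-((i : ℝ) ^ 2 / s)) * (s + i) ^ i ≤ s ^ i := by
    have e : Real.exp (-((i : ℝ) ^ 2 / s)) = Real.exp (-((i : ℝ) / s)) ^ i := by
      rw [← Real.exp_nat_mul]
      congr 1
      ring
    rw [e, ← mul_pow]
    refine pow_le_pow_left₀ (by positivity) ?_ i
    have h3 : (i : ℝ) / s + 1 ≤ Real.exp ((i : ℝ) / s) := Real.add_one_le_exp _
    have h4 : s + i = s * ((i : ℝ) / s + 1) := by field_simp; ring
    rw [h4, Real.exp_neg]
    rw [inv_mul_le_iff₀ (Real.exp_pos _)]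
    nlinarith
  unfold po
  have h5 : s ^ b / (b.factorial : ℝ) * Real.exp (-((i : ℝ) ^ 2 / s)) ≤
      s ^ (b + i) / ((b + i).factorial : ℝ) := by
    rw [le_div_iff₀ hf2]
    have h6 : s ^ b / (b.factorial : ℝ) * Real.exp (-((i : ℝ) ^ 2 / s)) *
        ((b + i).factorial : ℝ) ≤ s ^ b / (b.factorial : ℝ) * Real.exp (-((i : ℝ) ^ 2 / s)) *
        (b.factorial * (s + i) ^ i) := mul_le_mul_of_nonneg_left h1 (by positivity)
    refine h6.trans ?_
    have h7 : s ^ b / (b.factorial : ℝ) * Real.exp (-((i : ℝ) ^ 2 / s)) *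
        (b.factorial * (s + i) ^ i) = s ^ b * (Real.exp (-((i : ℝ) ^ 2 / s)) * (s + i) ^ i) := by
      field_simp
    rw [h7, pow_add]
    exact mul_le_mul_of_nonneg_left h2 (by positivity)
  rw [mul_assoc]
  exact mul_le_mul_of_nonneg_left h5 (Real.exp_pos _).le

/-- Local lower bound for the Poisson distribution. -/
theorem po_ge {s : ℝ} (hs : 1 ≤ s) {B : ℝ} {i : ℕ} (hi : (i : ℝ) ≤ B * √s) :
    Real.exp (-(2 + B ^ 2)) / √s ≤ po s (⌊s⌋₊ + i) := by
  have hs0 : 0 < s := by linarith
  have hsq : (0 : ℝ) < √s := Real.sqrt_pos.2 hs0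
  refine le_trans ?_ (po_add hs i)
  have h1 : (i : ℝ) ^ 2 / s ≤ B ^ 2 := by
    rw [div_le_iff₀ hs0]
    have h : (i : ℝ) ^ 2 ≤ (B * √s) ^ 2 := pow_le_pow_left₀ (by positivity) hi 2
    rw [mul_pow, Real.sq_sqrt hs0.le] at h
    exact h
  have h2 : Real.exp (-(2 + B ^ 2)) / √s = Real.exp (-2) / √s * Real.exp (-(B ^ 2)) := by
    rw [neg_add, Real.exp_add]
    ring
  rw [h2]
  exact mul_le_mul (po_floor hs) (Real.exp_le_exp.2 (by linarith)) (Real.exp_pos _).le
    (po_nonneg hs0.le _)

/-- One-dimensional heat kernel lower bound. -/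
theorem one_dim {A : ℝ} (hA : 0 ≤ A) {s : ℝ} (hs : 1 ≤ s) {j : ℕ} (hj : (j : ℝ) ≤ A * √s) :
    Real.exp (-(4 + 2 * (A + 1) ^ 2)) / √s ≤
      ∑ i ∈ range (⌊√s⌋₊ + 1), po s (⌊s⌋₊ + i) * po s (⌊s⌋₊ + i + j) := by
  have hs0 : 0 < s := by linarith
  have hsq : (0 : ℝ) < √s := Real.sqrt_pos.2 hs0
  have hterm : ∀ i ∈ range (⌊√s⌋₊ + 1), (Real.exp (-(2 + (A + 1) ^ 2)) / √s) ^ 2 ≤
      po s (⌊s⌋₊ + i) * po s (⌊s⌋₊ + i + j) := by
    intro i hi
    rw [mem_range, Nat.lt_succ_iff] at hi
    have hi' : (i : ℝ) ≤ √s := (Nat.le_floor_iff hsq.le).1 hi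
    have h1 : Real.exp (-(2 + (A + 1) ^ 2)) / √s ≤ po s (⌊s⌋₊ + i) := by
      refine po_ge hs (hi'.trans ?_)
      have := mul_nonneg hA hsq.le
      linarith
    have h2 : Real.exp (-(2 + (A + 1) ^ 2)) / √s ≤ po s (⌊s⌋₊ + i + j) := by
      rw [add_assoc]
      refine po_ge hs ?_
      push_cast
      nlinarith
    rw [sq]
    exact mul_le_mul h1 h2 (by positivity) (po_nonneg hs0.le _)
  have hsum := card_nsmul_le_sum _ _ _ hterm
  refine le_trans ?_ hsum
  rw [card_range, nsmul_eq_mul]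
  have h1 : √s ≤ ((⌊√s⌋₊ + 1 : ℕ) : ℝ) := by
    push_cast
    exact (Nat.lt_floor_add_one _).le
  refine le_trans (le_of_eq ?_) (mul_le_mul_of_nonneg_right h1 (by positivity))
  have e : Real.exp (-(4 + 2 * (A + 1) ^ 2)) = Real.exp (-(2 + (A + 1) ^ 2)) ^ 2 := by
    rw [← Real.exp_nat_mul]
    congr 1
    push_cast
    ring
  rw [e]
  field_simp

end

end Vale.Agent.P361.LRO.Bloch.Ker
end

section

/-!
# P361, stage R3, heat kernel: lower bound on the torus (any finite abelian group)
-/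

namespace Vale.Agent.P361.LRO.Bloch.Ker

open Finset NormedSpace

noncomputable section

section Gen

variable {ι : Type*} [Fintype ι] [DecidableEq ι]

/-- Entrywise order. -/
def Le (A B : Matrix ι ι ℝ) : Prop := ∀ i j, A i j ≤ B i j

omit [Fintype ι] [DecidableEq ι] in
theorem Le.refl (A : Matrix ι ι ℝ) : Le A A := fun _ _ => le_rfl

omit [Fintype ι] [DecidableEq ι] in
theorem Le.trans {A B C : Matrix ι ι ℝ} (h : Le A B) (h' : Le B C) : Le A C :=
  fun i j => (h i j).trans (h' i j)

omit [DecidableEq ι] in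
theorem Le.mul {A B C D : Matrix ι ι ℝ} (hA : Le 0 A) (hC : Le 0 C) (h : Le A B) (h' : Le C D) :
    Le (A * C) (B * D) := by
  intro i j
  rw [Matrix.mul_apply, Matrix.mul_apply]
  exact sum_le_sum fun k _ => mul_le_mul (h i k) (h' k j) (hC k j) ((hA i k).trans (h i k))

omit [DecidableEq ι] in
theorem Le.mul_nonneg {A B : Matrix ι ι ℝ} (hA : Le 0 A) (hB : Le 0 B) : Le 0 (A * B) := by
  intro i j
  rw [Matrix.mul_apply]
  exact sum_nonneg fun k _ => _root_.mul_nonneg (hA i k) (hB k j)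

theorem Le.pow_nonneg {A : Matrix ι ι ℝ} (hA : Le 0 A) (k : ℕ) : Le 0 (A ^ k) := by
  induction k with
  | zero =>
    intro i j
    rw [pow_zero, Matrix.one_apply]
    simp only [Matrix.zero_apply]
    split_ifs <;> norm_num
  | succ k ih =>
    rw [pow_succ]
    exact ih.mul_nonneg hA

omit [Fintype ι] [DecidableEq ι] in
theorem Le.smul {A B : Matrix ι ι ℝ} {c : ℝ} (hc : 0 ≤ c) (h : Le A B) : Le (c • A) (c • B) := by
  intro i j
  simp only [Matrix.smul_apply, smul_eq_mul]
  exact mul_le_mul_of_nonneg_left (h i j) hc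

theorem exp_ge_sum {X : Matrix ι ι ℝ} (hX : Le 0 X) (F : Finset ℕ) :
    Le (∑ b ∈ F, ((b.factorial : ℝ)⁻¹) • X ^ b) (exp X) := by
  intro i j
  have h : HasSum (fun b : ℕ => ((b.factorial : ℝ)⁻¹) • X ^ b) (exp X) := by
    open scoped Matrix.Norms.Operator in
    exact exp_series_hasSum_exp' (𝕂 := ℝ) X
  have h2 : HasSum (fun b : ℕ => (((b.factorial : ℝ)⁻¹) • X ^ b) i j) (exp X i j) :=
    (Pi.hasSum.1 (Pi.hasSum.1 h i)) j
  have h3 := sum_le_hasSum F (fun b _ => ?_) h2
  · rw [Matrix.sum_apply]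
    exact h3
  · simp only [Matrix.smul_apply, smul_eq_mul]
    exact _root_.mul_nonneg (by positivity) (hX.pow_nonneg b i j)

theorem exp_nonneg' {X : Matrix ι ι ℝ} (hX : Le 0 X) : Le 0 (exp X) := by
  have := exp_ge_sum hX ∅
  simpa using this

theorem exp_ge_single {X : Matrix ι ι ℝ} (hX : Le 0 X) (b : ℕ) :
    Le (((b.factorial : ℝ)⁻¹) • X ^ b) (exp X) := by
  have := exp_ge_sum hX {b}
  simpa using this

end Gen

section Shift

variable {G : Type*} [AddCommGroup G] [Fintype G] [DecidableEq G]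

/-- Translation matrix. -/
def Sh (v : G) : Matrix G G ℝ := Matrix.of fun x y => if y = x + v then 1 else 0

omit [Fintype G] in
theorem Sh_nonneg (v : G) : Le 0 (Sh v) := by
  intro i j
  simp only [Sh, Matrix.of_apply, Matrix.zero_apply]
  split_ifs <;> norm_num

theorem Sh_mul (v w : G) : Sh v * Sh w = Sh (v + w) := by
  ext x y
  simp only [Sh, Matrix.mul_apply, Matrix.of_apply, ite_mul, one_mul, zero_mul]
  rw [sum_ite_eq' univ (x + v)]
  simp [add_assoc]

omit [Fintype G] in
theorem Sh_zero : Sh (0 : G) = 1 := by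
  ext x y
  simp [Sh, Matrix.one_apply, eq_comm]

theorem Sh_pow (v : G) (k : ℕ) : Sh v ^ k = Sh (k • v) := by
  induction k with
  | zero => rw [pow_zero, zero_smul, Sh_zero]
  | succ k ih => rw [pow_succ, ih, Sh_mul, succ_nsmul]

theorem Sh_comm (v w : G) : Commute (Sh v) (Sh w) := by
  rw [Commute, SemiconjBy, Sh_mul, Sh_mul, add_comm]

/-- One-dimensional heat kernel in the direction `v`. -/
def HK (s : ℝ) (v : G) : Matrix G G ℝ :=
  Real.exp (-(2 * s)) • (exp (s • Sh v) * exp (s • Sh (-v)))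

theorem HK_nonneg {s : ℝ} (hs : 0 ≤ s) (v : G) : Le 0 (HK s v) := by
  have h : ∀ w : G, Le 0 (exp (s • Sh w)) := fun w =>
    exp_nonneg' (by simpa using (Sh_nonneg w).smul hs)
  simpa [HK] using ((h v).mul_nonneg (h (-v))).smul (Real.exp_pos (-(2 * s))).le

theorem HK_ge {s : ℝ} (hs : 0 ≤ s) (v : G) (j : ℕ) (F : Finset ℕ) :
    Le ((∑ b ∈ F, po s b * po s (b + j)) • Sh (j • v)) (HK s v) := by
  have hn : ∀ w : G, Le 0 (s • Sh w) := fun w => by simpa using (Sh_nonneg w).smul hs
  have he : ∀ w : G, Le 0 (exp (s • Sh w)) := fun w => exp_nonneg' (hn w)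
  have h1 : Le (exp (s • Sh v) * ∑ b ∈ F, ((b.factorial : ℝ)⁻¹) • (s • Sh (-v)) ^ b)
      (exp (s • Sh v) * exp (s • Sh (-v))) := by
    refine Le.mul (he v) ?_ (Le.refl _) (exp_ge_sum (hn (-v)) F)
    intro i k
    rw [Matrix.sum_apply]
    refine sum_nonneg fun b _ => ?_
    simp only [Matrix.smul_apply, smul_eq_mul]
    exact mul_nonneg (by positivity) ((hn (-v)).pow_nonneg b i k)
  have h2 : Le (∑ b ∈ F, (((b + j).factorial : ℝ)⁻¹ • (s • Sh v) ^ (b + j)) *
        (((b.factorial : ℝ)⁻¹) • (s • Sh (-v)) ^ b))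
      (exp (s • Sh v) * ∑ b ∈ F, ((b.factorial : ℝ)⁻¹) • (s • Sh (-v)) ^ b) := by
    rw [mul_sum]
    intro i k
    rw [Matrix.sum_apply, Matrix.sum_apply]
    refine sum_le_sum fun b _ => ?_
    refine Le.mul ?_ ?_ (exp_ge_single (hn v) (b + j)) (Le.refl _) i k
    · simpa using ((hn v).pow_nonneg (b + j)).smul (by positivity : 0 ≤ ((b + j).factorial : ℝ)⁻¹)
    · simpa using ((hn (-v)).pow_nonneg b).smul (by positivity : 0 ≤ (b.factorial : ℝ)⁻¹)
  have h3 : ∀ b : ℕ, (((b + j).factorial : ℝ)⁻¹ • (s • Sh v) ^ (b + j)) *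
        (((b.factorial : ℝ)⁻¹) • (s • Sh (-v)) ^ b) =
      ((s ^ b / b.factorial) * (s ^ (b + j) / (b + j).factorial)) • Sh (j • v) := by
    intro b
    rw [smul_pow, smul_pow, Sh_pow, Sh_pow, smul_smul, smul_smul, smul_mul_smul_comm, Sh_mul]
    have e : (b + j) • v + b • -v = j • v := by
      rw [add_smul, smul_neg]
      abel
    rw [e]
    congr 1
    field_simp
  have h4 := (h2.trans h1).smul (Real.exp_pos (-(2 * s))).le
  refine Le.trans (fun i k => le_of_eq ?_) h4
  simp only [h3, Matrix.smul_apply, Matrix.sum_apply, smul_eq_mul, po]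
  rw [sum_mul, mul_sum]
  refine sum_congr rfl fun b _ => ?_
  have e : Real.exp (-(2 * s)) = Real.exp (-s) * Real.exp (-s) := by
    rw [← Real.exp_add]
    congr 1
    ring
  rw [e]
  ring

theorem HK_neg (s : ℝ) (v : G) : HK s (-v) = HK s v := by
  unfold HK
  rw [neg_neg]
  congr 1
  exact (((Sh_comm (-v) v).smul_left s).smul_right s).exp

/-- the constant of the kernel bound -/
def cK (A : ℝ) : ℝ := Real.exp (-(4 + 2 * (A + 1) ^ 2))

theorem cK_pos (A : ℝ) : 0 < cK A := Real.exp_pos _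

theorem HK_ge_nat {A : ℝ} (hA : 0 ≤ A) {s : ℝ} (hs : 1 ≤ s) {j : ℕ} (hj : (j : ℝ) ≤ A * √s)
    (v : G) : Le ((cK A / √s) • Sh (j • v)) (HK s v) := by
  have hs0 : 0 ≤ s := by linarith
  have h1 := HK_ge hs0 v j ((range (⌊√s⌋₊ + 1)).image fun i => ⌊s⌋₊ + i)
  rw [sum_image (fun a _ b _ h => Nat.add_left_cancel h)] at h1
  refine Le.trans (fun i k => ?_) h1
  simp only [Matrix.smul_apply, smul_eq_mul]
  refine mul_le_mul_of_nonneg_right ?_ (Sh_nonneg _ i k)
  exact one_dim hA hs hj

theorem HK_ge_int {A : ℝ} (hA : 0 ≤ A) {s : ℝ} (hs : 1 ≤ s) {j : ℤ} (hj : |(j : ℝ)| ≤ A * √s)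
    (v : G) : Le ((cK A / √s) • Sh (j • v)) (HK s v) := by
  rcases Int.le_total 0 j with h | h
  · obtain ⟨m, rfl⟩ := Int.eq_ofNat_of_zero_le h
    have h1 : |(((m : ℕ) : ℤ) : ℝ)| = (m : ℝ) := by
      rw [Int.cast_natCast]
      exact abs_of_nonneg (Nat.cast_nonneg m)
    have := HK_ge_nat hA hs (j := m) (by rw [← h1]; exact hj) v
    simpa using this
  · obtain ⟨m, hm⟩ := Int.eq_ofNat_of_zero_le (Int.neg_nonneg_of_nonpos h)
    have hj2 : j = -(m : ℤ) := by omega
    subst hj2
    have h1 : |((-((m : ℕ) : ℤ) : ℤ) : ℝ)| = (m : ℝ) := by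
      push_cast
      rw [abs_neg]
      exact abs_of_nonneg (Nat.cast_nonneg m)
    have := HK_ge_nat hA hs (j := m) (by rw [← h1]; exact hj) (-v)
    rw [HK_neg] at this
    simpa using this

/-- `exp (s (T_v + T_v⁻¹ - 2))` -/
theorem HK_eq (s : ℝ) (v : G) : HK s v = exp (s • (Sh v + Sh (-v) - (2 : ℝ) • 1)) := by
  have h1 : s • (Sh v + Sh (-v) - (2 : ℝ) • (1 : Matrix G G ℝ)) =
      (s • Sh v + s • Sh (-v)) + (-(2 * s)) • (1 : Matrix G G ℝ) := by
    rw [smul_sub, smul_add, smul_smul, sub_eq_add_neg, ← neg_smul]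
    congr 2
    ring
  rw [h1, Matrix.exp_add_of_commute _ _ ((Commute.one_right _).smul_right _),
    Matrix.exp_add_of_commute _ _ (((Sh_comm v (-v)).smul_left s).smul_right s)]
  have h2 : exp ((-(2 * s)) • (1 : Matrix G G ℝ)) = Real.exp (-(2 * s)) • 1 := by
    rw [← Algebra.algebraMap_eq_smul_one, ← Algebra.algebraMap_eq_smul_one, Real.exp_eq_exp_ℝ]
    have h3 : algebraMap ℝ (Matrix G G ℝ) (exp (-(2 * s))) =
        exp (algebraMap ℝ (Matrix G G ℝ) (-(2 * s))) := by
      open scoped Matrix.Norms.Operator in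
      exact algebraMap_exp_comm (-(2 * s))
    exact h3.symm
  rw [h2, mul_smul_comm, mul_one]
  rfl

end Shift

end

end Vale.Agent.P361.LRO.Bloch.Ker
end

section

/-!
# P361, stage R3, heat kernel: the torus
-/

namespace Vale.Agent.P361.LRO.Bloch.Ker

open Finset NormedSpace

noncomputable section

section Edge

variable {V : Type*} [DecidableEq V]

/-- The off-diagonal part of the one-particle swap of the edge `e`. -/
def Swt (e : V × V) : Matrix V V ℝ :=
  Matrix.of fun a b => if (a = e.1 ∧ b = e.2) ∨ (a = e.2 ∧ b = e.1) then 1 else 0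

/-- The indicator of the two sites of `e`. -/
def Dg (e : V × V) : Matrix V V ℝ :=
  Matrix.of fun a b => if a = b ∧ (a = e.1 ∨ a = e.2) then 1 else 0

end Edge

section Group

variable {G : Type*} [AddCommGroup G] [Fintype G] [DecidableEq G]

theorem sum_Swt {v : G} (hv : v ≠ 0) : ∑ x : G, Swt (x, x + v) = Sh v + Sh (-v) := by
  ext a b
  rw [Matrix.sum_apply]
  simp only [Swt, Sh, Matrix.add_apply, Matrix.of_apply]
  have h : ∀ x : G, (if (a = x ∧ b = x + v) ∨ (a = x + v ∧ b = x) then (1 : ℝ) else 0) =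
      (if x = a then (if b = a + v then 1 else 0) else 0) +
      (if x = b then (if b = a + -v then 1 else 0) else 0) := by
    intro x
    by_cases h1 : x = a
    · subst h1
      by_cases h2 : x = b
      · subst h2
        have h3 : ¬ (x = x + v) := fun h => hv (by simpa using h.symm)
        have h4 : ¬ (x = x + -v) := fun h => hv (by simpa using h.symm)
        simp [h3, h4]
      · by_cases h3 : b = x + v
        · simp [h3]
          exact fun h => absurd h hv
        · have h5 : ¬ (x = x + v ∧ b = x) := fun h => h2 h.2.symm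
          simp [h3, h2]
          intro h
          exact absurd h hv
    · by_cases h2 : x = b
      · subst h2
        by_cases h3 : a = x + v
        · have h4 : x = a + -v := by rw [h3]; abel
          have h5 : ¬ (x = a) := h1
          simp [h3]
          exact fun h => absurd h hv
        · have h4 : ¬ (x = a + -v) := fun h => h3 (by rw [h]; abel)
          have h5 : ¬ a = x := fun h => h1 h.symm
          simp [h3, h4, h5, h1]
      · have h5 : ¬ a = x := fun h => h1 h.symm
        have h6 : ¬ b = x := fun h => h2 h.symm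
        simp [h1, h2, h5, h6]
  simp only [h]
  rw [sum_add_distrib, sum_ite_eq' univ a, sum_ite_eq' univ b]
  simp

theorem sum_Dg {v : G} (hv : v ≠ 0) : ∑ x : G, Dg (x, x + v) = (2 : ℝ) • 1 := by
  ext a b
  rw [Matrix.sum_apply]
  simp only [Dg, Matrix.of_apply, Matrix.smul_apply, Matrix.one_apply, smul_eq_mul]
  by_cases hab : a = b
  · subst hab
    have h : ∀ x : G, (if a = a ∧ (a = x ∨ a = x + v) then (1 : ℝ) else 0) =
        (if x = a then 1 else 0) + (if x = a - v then 1 else 0) := by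
      intro x
      by_cases h1 : x = a
      · subst h1
        have h3 : ¬ (x = x - v) := fun h => hv (by simpa using h.symm)
        simp [h3]
      · by_cases h2 : x = a - v
        · subst h2
          simp [hv]
        · have h4 : ¬ a = x := fun h => h1 h.symm
          have h5 : ¬ a = x + v := fun h => h2 (by rw [h]; abel)
          simp [h1, h2, h4, h5]
    rw [sum_congr rfl fun x _ => h x, sum_add_distrib, sum_ite_eq' univ a,
      sum_ite_eq' univ (a - v)]
    simp
    norm_num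
  · simp [hab]

end Group

/-- Generator `Δ` of the torus. -/
def Lap (n : ℕ) : Matrix (Tor n) (Tor n) ℝ :=
  ∑ i : Fin 3, (Sh (Pi.single i 1) + Sh (-Pi.single i 1) - (2 : ℝ) • 1)

theorem single_ne {n : ℕ} (hn : 2 ≤ n) (i : Fin 3) : (Pi.single i 1 : Tor n) ≠ 0 := by
  intro h
  have h1 := congrFun h i
  rw [Pi.single_eq_same, Pi.zero_apply] at h1
  have : Fact (1 < n) := ⟨by omega⟩
  exact one_ne_zero h1

/-- one-particle generator, each move with the weight `a`. -/
def genE (a : ℝ) {n : ℕ} (e : Tor n × Tor n) : Matrix (Tor n) (Tor n) ℝ := a • Swt e - Dg e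

theorem sum_genE {n : ℕ} [NeZero n] (hn : 2 ≤ n) (a : ℝ) :
    ((edges n).map (genE a)).sum = a • Lap n + (6 * (a - 1)) • 1 := by
  have h1 : ((edges n).map (genE a)).sum =
      ∑ z : Tor n × Fin 3, genE a (z.1, z.1 + Pi.single z.2 1) := by
    rw [edges, List.map_map, Finset.sum_map_toList]
    rfl
  rw [h1, Fintype.sum_prod_type_right]
  have h2 : ∀ i : Fin 3, ∑ x : Tor n, genE a (x, x + Pi.single i 1) =
      a • (Sh (Pi.single i 1) + Sh (-Pi.single i 1) - (2 : ℝ) • 1) + (2 * (a - 1)) • 1 := by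
    intro i
    simp only [genE]
    rw [sum_sub_distrib, ← smul_sum, sum_Swt (single_ne hn i), sum_Dg (single_ne hn i)]
    rw [smul_sub, smul_smul]
    have : (2 * (a - 1)) • (1 : Matrix (Tor n) (Tor n) ℝ) = (a * 2) • 1 - (2 : ℝ) • 1 := by
      rw [← sub_smul]
      congr 1
      ring
    rw [this]
    abel
  simp only [h2]
  rw [sum_add_distrib, ← smul_sum, Lap]
  congr 1
  rw [sum_const, card_univ, Fintype.card_fin, ← Nat.cast_smul_eq_nsmul ℝ, smul_smul]
  congr 1
  push_cast
  ring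

theorem exp_Lap (n : ℕ) [NeZero n] (s : ℝ) :
    exp (s • Lap n) = HK s (Pi.single 0 1 : Tor n) * HK s (Pi.single 1 1 : Tor n) *
      HK s (Pi.single 2 1 : Tor n) := by
  have hc : ∀ i k : Fin 3, Commute
      (s • (Sh (Pi.single i 1 : Tor n) + Sh (-Pi.single i 1) - (2 : ℝ) • 1))
      (s • (Sh (Pi.single k 1 : Tor n) + Sh (-Pi.single k 1) - (2 : ℝ) • 1)) := by
    intro i k
    refine Commute.smul_left (Commute.smul_right ?_ s) s
    refine Commute.sub_left ?_ ((Commute.one_left _).smul_left _)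
    refine Commute.sub_right ?_ ((Commute.one_right _).smul_right _)
    exact ((Sh_comm _ _).add_right (Sh_comm _ _)).add_left
      ((Sh_comm _ _).add_right (Sh_comm _ _))
  rw [Lap, Fin.sum_univ_three, smul_add, smul_add,
    Matrix.exp_add_of_commute _ _ ((hc 0 2).add_left (hc 1 2)),
    Matrix.exp_add_of_commute _ _ (hc 0 1), ← HK_eq, ← HK_eq, ← HK_eq]

/-- **Heat kernel lower bound on the torus.** -/
theorem Lap_lower {n : ℕ} [NeZero n] {A : ℝ} (hA : 0 ≤ A) {s : ℝ} (hs : 1 ≤ s) {j : Fin 3 → ℤ}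
    (hj : ∀ i, |(j i : ℝ)| ≤ A * √s) (x : Tor n) :
    (cK A / √s) ^ 3 ≤ exp (s • Lap n) x (x + fun i => (j i : ZMod n)) := by
  have hs0 : 0 ≤ s := by linarith
  have hc0 : 0 ≤ cK A / √s := by
    have := cK_pos A
    positivity
  have hcS : ∀ v : Tor n, Le 0 ((cK A / √s) • Sh v) := fun v => by
    simpa using (Sh_nonneg v).smul hc0
  rw [exp_Lap]
  have h01 := Le.mul (hcS _) (hcS _) (HK_ge_int hA hs (hj 0) (Pi.single 0 1 : Tor n))
    (HK_ge_int hA hs (hj 1) (Pi.single 1 1 : Tor n))
  have h012 := Le.mul ((hcS _).mul_nonneg (hcS _)) (hcS _) h01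
    (HK_ge_int hA hs (hj 2) (Pi.single 2 1 : Tor n))
  refine le_trans (le_of_eq ?_) (h012 x (x + fun i => (j i : ZMod n)))
  rw [smul_mul_smul_comm, smul_mul_smul_comm, Sh_mul, Sh_mul]
  have e : j 0 • (Pi.single 0 1 : Tor n) + j 1 • (Pi.single 1 1 : Tor n) +
      j 2 • (Pi.single 2 1 : Tor n) = fun i => (j i : ZMod n) := by
    funext i
    fin_cases i <;> simp
  rw [e]
  simp only [Matrix.smul_apply, Sh, Matrix.of_apply, if_true, smul_eq_mul]
  ring

section Norm

variable {ι : Type*} [Fintype ι] [DecidableEq ι]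

open scoped Matrix.Norms.Operator

theorem entry_le_norm (A : Matrix ι ι ℝ) (i j : ι) : |A i j| ≤ ‖A‖ := by
  rw [Matrix.linfty_opNorm_def]
  have h1 : ‖A i j‖₊ ≤ ∑ k, ‖A i k‖₊ :=
    single_le_sum (f := fun k => ‖A i k‖₊) (fun _ _ => zero_le) (mem_univ j)
  have h2 : ∑ k, ‖A i k‖₊ ≤ univ.sup fun i => ∑ k, ‖A i k‖₊ :=
    le_sup (f := fun i => ∑ k, ‖A i k‖₊) (mem_univ i)
  have h3 := h1.trans h2
  rw [← NNReal.coe_le_coe] at h3
  exact h3

theorem norm_le_of_row {A : Matrix ι ι ℝ} {c : ℝ} (hc : 0 ≤ c) (h : ∀ i, ∑ j, |A i j| ≤ c) :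
    ‖A‖ ≤ c := by
  rw [Matrix.linfty_opNorm_def]
  have h1 : (univ.sup fun i => ∑ k, ‖A i k‖₊) ≤ (⟨c, hc⟩ : NNReal) := Finset.sup_le fun i _ =>
    NNReal.coe_le_coe.1 (by
      push_cast
      exact h i)
  exact NNReal.coe_le_coe.2 h1

theorem norm_one_le : ‖(1 : Matrix ι ι ℝ)‖ ≤ 1 := by
  refine norm_le_of_row zero_le_one fun i => ?_
  have : ∑ j, |(1 : Matrix ι ι ℝ) i j| = ∑ j, if i = j then 1 else 0 :=
    sum_congr rfl fun j _ => by
      rw [Matrix.one_apply]
      split_ifs <;> simp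
  rw [this, sum_ite_eq univ i]
  exact (if_pos (mem_univ _)).le

theorem norm_Sh_le {G : Type*} [AddCommGroup G] [Fintype G] [DecidableEq G] (v : G) :
    ‖(Sh v : Matrix G G ℝ)‖ ≤ 1 := by
  refine norm_le_of_row zero_le_one fun i => ?_
  have : ∑ j, |(Sh v : Matrix G G ℝ) i j| = ∑ j, if j = i + v then 1 else 0 :=
    sum_congr rfl fun j _ => by
      simp only [Sh, Matrix.of_apply]
      split_ifs <;> simp
  rw [this, sum_ite_eq' univ (i + v)]
  exact (if_pos (mem_univ _)).le

/-- Upper bound for the move generating function. -/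
theorem exp_two_le {n : ℕ} [NeZero n] {s : ℝ} (hs : 0 ≤ s) (x y : Tor n) :
    exp (s • ((2 : ℝ) • Lap n + (6 : ℝ) • 1)) x y ≤ Real.exp (6 * s) := by
  set B : Matrix (Tor n) (Tor n) ℝ := ∑ i : Fin 3, (Sh (Pi.single i 1) + Sh (-Pi.single i 1))
    with hB
  have hBn : ‖B‖ ≤ 6 := by
    refine (norm_sum_le _ _).trans ?_
    refine (sum_le_sum fun i _ => (norm_add_le _ _).trans
      (add_le_add (norm_Sh_le _) (norm_Sh_le _))).trans ?_
    rw [sum_const, card_univ, Fintype.card_fin]
    norm_num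
  have h1 : s • ((2 : ℝ) • Lap n + (6 : ℝ) • 1) = (2 * s) • B + (-(6 * s)) • 1 := by
    have h2 : Lap n = B - (6 : ℝ) • 1 := by
      rw [Lap, sum_sub_distrib, hB, sum_const, card_univ, Fintype.card_fin,
        ← Nat.cast_smul_eq_nsmul ℝ, smul_smul]
      norm_num
    rw [h2]
    module
  rw [h1, Matrix.exp_add_of_commute _ _ ((Commute.one_right _).smul_right _)]
  have h2 : exp ((-(6 * s)) • (1 : Matrix (Tor n) (Tor n) ℝ)) = Real.exp (-(6 * s)) • 1 := by
    rw [← Algebra.algebraMap_eq_smul_one, ← Algebra.algebraMap_eq_smul_one, Real.exp_eq_exp_ℝ]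
    exact (algebraMap_exp_comm (-(6 * s))).symm
  rw [h2, mul_smul_comm, mul_one, Matrix.smul_apply, smul_eq_mul]
  have h3 : exp ((2 * s) • B) x y ≤ Real.exp (12 * s) := by
    refine (le_abs_self _).trans ((entry_le_norm _ x y).trans ?_)
    refine (Trot.norm_exp_le norm_one_le _).trans (Real.exp_le_exp.2 ?_)
    rw [norm_smul, Real.norm_of_nonneg (by positivity)]
    nlinarith
  calc Real.exp (-(6 * s)) * exp ((2 * s) • B) x y ≤ Real.exp (-(6 * s)) * Real.exp (12 * s) :=
        mul_le_mul_of_nonneg_left h3 (Real.exp_pos _).le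
    _ = Real.exp (6 * s) := by
      rw [← Real.exp_add]
      congr 1
      ring

end Norm

end

end Vale.Agent.P361.LRO.Bloch.Ker
end

section

/-!
# P361, stage R3: lower bound for the walk weights `qq` of `LongLoc` (gates only)
-/

namespace Vale.Agent.P361.LRO.Bloch.Ker

open Finset NormedSpace

noncomputable section

section Walk

variable {V : Type} [DecidableEq V]

/-- One gate acting on the row vector `Q`; a move has the weight `s`. -/
def stG (s p : ℝ) (e : V × V) (Q : V → ℝ) : V → ℝ := fun y =>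
  if y = e.1 ∨ y = e.2 then (1 - p) * Q y + p * (s * Q (Equiv.swap e.1 e.2 y)) else Q y

/-- A list of gates acting on the row vector `Q`. -/
def QG (s p : ℝ) : List (V × V) → (V → ℝ) → V → ℝ
  | [], Q => Q
  | e :: l, Q => QG s p l (stG s p e Q)

theorem mem_swap (a b x : V) :
    (Equiv.swap a b x = a ∨ Equiv.swap a b x = b) ↔ (x = a ∨ x = b) := by
  constructor
  · rintro (h | h)
    · right
      have := congrArg (Equiv.swap a b) h
      rwa [Equiv.swap_apply_self, Equiv.swap_apply_left] at this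
    · left
      have := congrArg (Equiv.swap a b) h
      rwa [Equiv.swap_apply_self, Equiv.swap_apply_right] at this
  · rintro (h | h)
    · subst h
      right
      exact Equiv.swap_apply_left _ _
    · subst h
      left
      exact Equiv.swap_apply_right _ _

theorem QG_append (s p : ℝ) (l l' : List (V × V)) (Q : V → ℝ) :
    QG s p (l ++ l') Q = QG s p l' (QG s p l Q) := by
  induction l generalizing Q with
  | nil => rfl
  | cons e l ih => exact ih _

/-- truncation invariant -/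
def Inv (q : V → ℕ → ℝ) (Q1 Q2 : V → ℝ) : Prop :=
  (∀ y, 0 ≤ Q1 y) ∧ (∀ y, Q1 y ≤ Q2 y) ∧
    ∀ y J, Q1 y - (1 / 2) ^ J * Q2 y ≤ ∑ j ∈ range J, q y j

theorem Inv.step {q : V → ℕ → ℝ} {Q1 Q2 : V → ℝ} (h : Inv q Q1 Q2) {p : ℝ} (h0 : 0 ≤ p)
    (h1 : p ≤ 1) (e : V × V) :
    Inv (stq (.gate e.1 e.2 p) q) (stG 1 p e Q1) (stG 2 p e Q2) := by
  obtain ⟨i1, i2, i3⟩ := h
  have hp : 0 ≤ 1 - p := by linarith
  refine ⟨fun y => ?_, fun y => ?_, fun y J => ?_⟩
  · unfold stG
    split_ifs
    · have := mul_nonneg hp (i1 y)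
      have := mul_nonneg h0 (i1 (Equiv.swap e.1 e.2 y))
      linarith
    · exact i1 y
  · unfold stG
    split_ifs
    · have a1 := mul_le_mul_of_nonneg_left (i2 y) hp
      have a2 := mul_le_mul_of_nonneg_left (i2 (Equiv.swap e.1 e.2 y)) h0
      have a3 := mul_nonneg h0 (i1 (Equiv.swap e.1 e.2 y))
      linarith
    · exact i2 y
  · simp only [stG, stq]
    by_cases hy : y = e.1 ∨ y = e.2
    · simp only [if_pos hy]
      cases J with
      | zero =>
        have a1 := mul_le_mul_of_nonneg_left (i2 y) hp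
        have a2 := mul_le_mul_of_nonneg_left (i2 (Equiv.swap e.1 e.2 y)) h0
        have a3 := mul_nonneg h0 (i1 (Equiv.swap e.1 e.2 y))
        simp only [pow_zero, range_zero, sum_empty]
        linarith
      | succ J =>
        have b1 := mul_le_mul_of_nonneg_left (i3 y (J + 1)) hp
        have b2 := mul_le_mul_of_nonneg_left (i3 (Equiv.swap e.1 e.2 y) J) h0
        have b3 : ∑ j ∈ range (J + 1), ((1 - p) * q y j +
            p * (if j = 0 then 0 else q (Equiv.swap e.1 e.2 y) (j - 1))) =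
            (1 - p) * ∑ j ∈ range (J + 1), q y j +
            p * ∑ j ∈ range J, q (Equiv.swap e.1 e.2 y) j := by
          rw [sum_add_distrib, ← mul_sum, ← mul_sum]
          congr 2
          rw [sum_range_succ']
          simp
        rw [b3]
        have b4 : ((1 : ℝ) / 2) ^ (J + 1) = (1 / 2) ^ J * (1 / 2) := pow_succ _ _
        rw [b4] at b1 ⊢
        linarith
    · simp only [if_neg hy]
      exact i3 y J

theorem Inv.fold {p : ℝ} (h0 : 0 ≤ p) (h1 : p ≤ 1) (l : List (V × V)) {q : V → ℕ → ℝ}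
    {Q1 Q2 : V → ℝ} (h : Inv q Q1 Q2) :
    Inv (qq (l.map fun e => .gate e.1 e.2 p) q) (QG 1 p l Q1) (QG 2 p l Q2) := by
  induction l generalizing q Q1 Q2 with
  | nil => exact h
  | cons e l ih => exact ih (h.step h0 h1 e)

theorem Inv.start (x : V) : Inv (q0 x) (Pi.single x 1) (Pi.single x 1) := by
  have h0 : ∀ y : V, (0 : ℝ) ≤ (Pi.single x 1 : V → ℝ) y := fun y => by
    rw [Pi.single_apply]
    split_ifs <;> norm_num
  refine ⟨h0, fun _ => le_rfl, fun y J => ?_⟩
  cases J with
  | zero => simp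
  | succ J =>
    rw [sum_range_succ']
    have h2 : ∑ j ∈ range J, q0 x y (j + 1) = 0 := sum_eq_zero fun j _ => by simp [q0]
    have h3 : q0 x y 0 = (Pi.single x 1 : V → ℝ) y := by
      rw [Pi.single_apply]
      simp [q0]
    rw [h2, h3]
    have : 0 ≤ (1 / 2 : ℝ) ^ (J + 1) * (Pi.single x 1 : V → ℝ) y :=
      mul_nonneg (by positivity) (h0 y)
    linarith

variable [Fintype V]

theorem stG_eq (s p : ℝ) (e : V × V) (Q : V → ℝ) :
    stG s p e Q = Matrix.vecMul Q (1 + p • Disc.genE s e) := by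
  funext y
  rw [Matrix.vecMul_add, Matrix.vecMul_one, Matrix.vecMul_smul, Pi.add_apply, Pi.smul_apply,
    smul_eq_mul]
  have h : Matrix.vecMul Q (Disc.genE s e) y =
      if y = e.1 ∨ y = e.2 then s * Q (Equiv.swap e.1 e.2 y) - Q y else 0 := by
    simp only [Matrix.vecMul, dotProduct, Disc.genE, Matrix.of_apply]
    have h1 : ∀ x : V, Q x * (if x = e.1 ∨ x = e.2 then
        (if y = Equiv.swap e.1 e.2 x then s else 0) - (if y = x then 1 else 0) else 0) =
        (if x = Equiv.swap e.1 e.2 y then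
          (if y = e.1 ∨ y = e.2 then s * Q (Equiv.swap e.1 e.2 y) else 0) else 0) -
        (if x = y then (if y = e.1 ∨ y = e.2 then Q y else 0) else 0) := by
      intro x
      have e1 : (y = Equiv.swap e.1 e.2 x) ↔ (x = Equiv.swap e.1 e.2 y) := by
        constructor
        · intro h
          rw [h, Equiv.swap_apply_self]
        · intro h
          rw [h, Equiv.swap_apply_self]
      by_cases hx : x = e.1 ∨ x = e.2
      · rw [if_pos hx]
        by_cases h2 : x = Equiv.swap e.1 e.2 y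
        · have h3 : y = e.1 ∨ y = e.2 := (mem_swap e.1 e.2 y).1 (h2 ▸ hx)
          rw [if_pos (e1.2 h2), if_pos h2, if_pos h3]
          by_cases h4 : x = y
          · rw [if_pos h4.symm, if_pos h4, if_pos h3, ← h2, h4]
            ring
          · rw [if_neg (fun h => h4 h.symm), if_neg h4, ← h2]
            ring
        · rw [if_neg (fun h => h2 (e1.1 h)), if_neg h2]
          by_cases h4 : x = y
          · rw [if_pos h4.symm, if_pos h4, if_pos (h4 ▸ hx), h4]
            ring
          · rw [if_neg (fun h => h4 h.symm), if_neg h4]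
            ring
      · rw [if_neg hx, mul_zero]
        by_cases h2 : x = Equiv.swap e.1 e.2 y
        · have h3 : ¬ (y = e.1 ∨ y = e.2) := fun h => hx (h2 ▸ (mem_swap e.1 e.2 y).2 h)
          rw [if_neg h3, if_neg h3]
          simp
        · rw [if_neg h2]
          by_cases h4 : x = y
          · rw [if_pos h4, if_neg (h4 ▸ hx)]
            ring
          · rw [if_neg h4]
            ring
    rw [sum_congr rfl fun x _ => h1 x, sum_sub_distrib, sum_ite_eq' univ, sum_ite_eq' univ,
      if_pos (mem_univ _), if_pos (mem_univ _)]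
    split_ifs
    · rfl
    · ring
  rw [h, stG]
  split_ifs
  · ring
  · ring

theorem QG_eq (s p : ℝ) (l : List (V × V)) (Q : V → ℝ) :
    QG s p l Q = Matrix.vecMul Q (Disc.layW s p l) := by
  induction l generalizing Q with
  | nil => simp [QG, Disc.layW]
  | cons e l ih =>
    rw [QG, ih, stG_eq, Matrix.vecMul_vecMul]
    rfl

theorem QG_flatten (s p : ℝ) (l : List (V × V)) (m : ℕ) (Q : V → ℝ) :
    QG s p (List.replicate m l).flatten Q = Matrix.vecMul Q (Disc.layW s p l ^ m) := by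
  induction m generalizing Q with
  | zero => simp [QG]
  | succ m ih =>
    rw [List.replicate_succ, List.flatten_cons, QG_append, ih, QG_eq, Matrix.vecMul_vecMul,
      pow_succ']

theorem QG_single (s p : ℝ) (l : List (V × V)) (m : ℕ) (x y : V) :
    QG s p (List.replicate m l).flatten (Pi.single x 1) y = (Disc.layW s p l ^ m) x y := by
  rw [QG_flatten, Matrix.single_one_vecMul]
  rfl

end Walk

theorem genE_eq {n : ℕ} (a : ℝ) {e : Tor n × Tor n} (he : e.1 ≠ e.2) :
    Disc.genE a e = genE a e := by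
  ext x y
  simp only [Disc.genE, genE, Swt, Dg, Matrix.of_apply, Matrix.sub_apply, Matrix.smul_apply,
    smul_eq_mul]
  by_cases h1 : x = e.1
  · have h2 : Equiv.swap e.1 e.2 x = e.2 := by rw [h1]; exact Equiv.swap_apply_left _ _
    have h3 : ¬ (x = e.2) := fun h => he (h1.symm.trans h)
    rw [h2]
    by_cases h4 : y = e.2
    · have h5 : ¬ (y = x) := fun h => h3 (h.symm.trans h4)
      have h6 : ¬ (x = y) := fun h => h5 h.symm
      simp [h1, h4, he, Ne.symm he]
    · by_cases h5 : y = x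
      · simp [h1, h5, he]
      · have h6 : ¬ (x = y) := fun h => h5 h.symm
        have h7 : ¬ y = e.1 := fun h => h5 (h.trans h1.symm)
        have h8 : ¬ e.1 = y := fun h => h7 h.symm
        simp [h1, h4, h7, h8, he]
  · by_cases h2 : x = e.2
    · have h3 : Equiv.swap e.1 e.2 x = e.1 := by rw [h2]; exact Equiv.swap_apply_right _ _
      rw [h3]
      by_cases h4 : y = e.1
      · simp [h2, h4, he, Ne.symm he]
      · by_cases h5 : y = x
        · simp [h2, h5, Ne.symm he]
        · have h7 : ¬ y = e.2 := fun h => h5 (h.trans h2.symm)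
          have h8 : ¬ e.2 = y := fun h => h7 h.symm
          simp [h2, h4, h7, h8, Ne.symm he]
    · simp [h1, h2]

theorem genL_perm {n : ℕ} [NeZero n] (hn : 2 ≤ n) (a : ℝ) {L : List (Tor n × Tor n)}
    (hL : L.Perm (edges n)) : Disc.genL a L = a • Lap n + (6 * (a - 1)) • 1 := by
  have h1 : Disc.genL a L = Disc.genL a (edges n) := (hL.map _).sum_eq
  rw [h1, ← sum_genE hn a, Disc.genL]
  congr 1
  refine List.map_congr_left fun e he => genE_eq a ?_
  rw [edges, List.mem_map] at he
  obtain ⟨z, _, rfl⟩ := he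
  intro h
  exact single_ne hn z.2 (by simpa using h.symm)

theorem cK_le_one {A : ℝ} : cK A ≤ 1 := by
  unfold cK
  rw [← Real.exp_zero]
  refine Real.exp_le_exp.2 ?_
  nlinarith [sq_nonneg (A + 1)]

/-- the constant for the number of moves -/
def cJ (A : ℝ) : ℝ := (9 + Real.log (4 / cK A ^ 3)) / Real.log 2

theorem half_pow_le {A s : ℝ} (hs : 1 ≤ s) {J : ℕ} (hJ : cJ A * s ≤ J) :
    (1 / 2 : ℝ) ^ J * Real.exp (6 * s) ≤ (cK A / √s) ^ 3 / 4 := by
  have hc := cK_pos A
  have hc3 : 0 < cK A ^ 3 := by positivity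
  have hs0 : 0 < s := by linarith
  have hsq : 0 < √s := Real.sqrt_pos.2 hs0
  have hl2 : 0 < Real.log 2 := Real.log_pos (by norm_num)
  set l := Real.log (4 / cK A ^ 3) with hl
  have hl0 : 0 ≤ l := by
    refine Real.log_nonneg ?_
    rw [le_div_iff₀ hc3]
    have : cK A ^ 3 ≤ 1 := pow_le_one₀ hc.le cK_le_one
    linarith
  have h1 : (9 + l) * s ≤ J * Real.log 2 := by
    have h := mul_le_mul_of_nonneg_right hJ hl2.le
    have e : cJ A * s * Real.log 2 = (9 + l) * s := by
      unfold cJ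
      rw [← hl]
      field_simp
    rw [e] at h
    exact h
  have h2 : (1 / 2 : ℝ) ^ J = Real.exp (-(J * Real.log 2)) := by
    rw [Real.exp_neg, Real.exp_nat_mul, Real.exp_log (by norm_num), one_div, inv_pow]
  have h3 : √s ≤ Real.exp s := by
    have a1 : √s ≤ s := by
      rw [Real.sqrt_le_left (by linarith)]
      nlinarith
    linarith [Real.add_one_le_exp s]
  have h4 : √s ^ 3 ≤ Real.exp (3 * s) := by
    have := pow_le_pow_left₀ hsq.le h3 3
    rwa [← Real.exp_nat_mul] at this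
  have h5 : Real.exp (-l) = cK A ^ 3 / 4 := by
    rw [hl, Real.exp_neg, Real.exp_log (by positivity), inv_div]
  rw [h2, ← Real.exp_add, div_pow, div_div, le_div_iff₀ (by positivity)]
  calc Real.exp (-(J * Real.log 2) + 6 * s) * (√s ^ 3 * 4) ≤
      Real.exp (-((9 + l) * s) + 6 * s) * (Real.exp (3 * s) * 4) := by
        gcongr
    _ = Real.exp (-(l * s)) * 4 := by
        rw [← mul_assoc, ← Real.exp_add]
        congr 2
        ring
    _ ≤ Real.exp (-l) * 4 := by
        have : -(l * s) ≤ -l := by nlinarith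
        gcongr
    _ = cK A ^ 3 := by
        rw [h5]
        ring

/-- **Lower bound for the walk through `m` layers of gates.** -/
theorem gates_lower {A : ℝ} (hA : 0 ≤ A) {n : ℕ} [NeZero n] (hn : 2 ≤ n) {β : ℝ} (hβ : 0 < β) :
    ∃ N0 : ℕ, ∀ N : ℕ, N0 ≤ N → ∀ L : List (Tor n × Tor n), L.Perm (edges n) → ∀ m ≤ N,
      ∀ s : ℝ, s = m * (β / (2 * N)) → 1 ≤ s → ∀ J : ℕ, cJ A * s ≤ J →
      ∀ (x : Tor n) (z : Fin 3 → ℤ), (∀ i, |(z i : ℝ)| ≤ A * √s) →
      (cK A / √s) ^ 3 / 2 ≤ ∑ i ∈ range J,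
        qq ((List.replicate m L).flatten.map fun e => Lt.gate e.1 e.2 (β / (2 * N))) (q0 x)
          (x + fun i => (z i : ZMod n)) i := by
  set c : ℝ := 3 * (edges n).length with hc
  have hc0 : 0 ≤ c := by positivity
  set K : ℝ := β ^ 2 * c ^ 2 * Real.exp (β * c) with hK
  have hK0 : 0 ≤ K := by positivity
  set T0 : ℝ := (cK A / √(β / 2)) ^ 3 with hT0
  have hT0p : 0 < T0 := by
    have := cK_pos A
    have : 0 < √(β / 2) := Real.sqrt_pos.2 (by linarith)
    positivity
  refine ⟨max 1 (max ⌈β⌉₊ ⌈8 * K / T0⌉₊), fun N hN L hL m hm s hs hs1 J hJ x z hz => ?_⟩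
  have hN1 : 1 ≤ N := (le_max_left _ _).trans hN
  have hNβ : β ≤ N := (Nat.le_ceil β).trans
    (by exact_mod_cast ((le_max_left _ _).trans (le_max_right _ _)).trans hN)
  have hNK : 8 * K / T0 ≤ N := (Nat.le_ceil _).trans
    (by exact_mod_cast ((le_max_right _ _).trans (le_max_right _ _)).trans hN)
  have hN0 : (0 : ℝ) < N := by exact_mod_cast hN1
  set p : ℝ := β / (2 * N) with hp
  have hp0 : 0 ≤ p := by positivity
  have hp1 : p ≤ 1 := by
    rw [hp, div_le_one (by positivity)]
    linarith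
  have hsβ : s ≤ β / 2 := by
    rw [hs, hp]
    have : (m : ℝ) ≤ N := by exact_mod_cast hm
    rw [← mul_div_assoc, div_le_iff₀ (by positivity)]
    nlinarith
  have hs0 : 0 < s := by linarith
  set y : Tor n := x + fun i => (z i : ZMod n) with hy
  set T : ℝ := (cK A / √s) ^ 3 with hT
  have hTT : T0 ≤ T := by
    rw [hT0, hT]
    have := cK_pos A
    have h1 : 0 < √s := Real.sqrt_pos.2 hs0
    have h2 : √s ≤ √(β / 2) := Real.sqrt_le_sqrt hsβ
    gcongr
  -- the error of the discretization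
  have herr : ∀ a : ℝ, 0 ≤ a → a ≤ 2 →
      |(Disc.layW a p L ^ m) x y - (exp (s • Disc.genL a L)) x y| ≤ T / 8 := by
    intro a ha ha2
    have h := Disc.layW_pow a p ha hp0 L m x y
    rw [← hs] at h
    refine h.trans ?_
    have hlen : (L.length : ℝ) = (edges n).length := by rw [hL.length_eq]
    have e1 : (a + 1) * (L.length : ℝ) ≤ c := by
      rw [hlen, hc]
      have : (0 : ℝ) ≤ (edges n).length := Nat.cast_nonneg _
      nlinarith
    have e0 : 0 ≤ (a + 1) * (L.length : ℝ) := by positivity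
    have e2 : ((m : ℝ) + 1) * (p * ((a + 1) * L.length)) ≤ β * c := by
      have b1 : ((m : ℝ) + 1) * p ≤ β := by
        have : (m : ℝ) ≤ N := by exact_mod_cast hm
        have b2 : (1 : ℝ) ≤ N := by exact_mod_cast hN1
        rw [hp, ← mul_div_assoc, div_le_iff₀ (by positivity)]
        nlinarith
      calc ((m : ℝ) + 1) * (p * ((a + 1) * L.length)) =
            (((m : ℝ) + 1) * p) * ((a + 1) * L.length) := by ring
        _ ≤ β * c := mul_le_mul b1 e1 e0 hβ.le
    have e3 : 2 * (m : ℝ) * (p * ((a + 1) * L.length)) ^ 2 ≤ β ^ 2 * c ^ 2 / N := by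
      have b1 : (m : ℝ) * p ≤ β / 2 := by rw [← hs]; exact hsβ
      have b2 : ((a + 1) * (L.length : ℝ)) ^ 2 ≤ c ^ 2 := pow_le_pow_left₀ e0 e1 2
      calc 2 * (m : ℝ) * (p * ((a + 1) * L.length)) ^ 2 =
            2 * ((m : ℝ) * p) * p * ((a + 1) * L.length) ^ 2 := by ring
        _ ≤ 2 * (β / 2) * p * c ^ 2 := by gcongr
        _ = β ^ 2 * c ^ 2 / N / 2 := by
          rw [hp]
          field_simp
        _ ≤ β ^ 2 * c ^ 2 / N := by
          have : 0 ≤ β ^ 2 * c ^ 2 / N := by positivity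
          linarith
    calc 2 * (m : ℝ) * (p * ((a + 1) * L.length)) ^ 2 *
          Real.exp (((m : ℝ) + 1) * (p * ((a + 1) * L.length))) ≤
          β ^ 2 * c ^ 2 / N * Real.exp (β * c) :=
          mul_le_mul e3 (Real.exp_le_exp.2 e2) (Real.exp_pos _).le (by positivity)
      _ = K / N := by rw [hK]; ring
      _ ≤ T0 / 8 := by
          rw [div_le_iff₀ hN0]
          rw [div_le_iff₀ hT0p] at hNK
          linarith
      _ ≤ T / 8 := by linarith
  have h1 := abs_le.1 (herr 1 (by norm_num) (by norm_num))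
  have h2 := abs_le.1 (herr 2 (by norm_num) le_rfl)
  rw [genL_perm hn 1 hL] at h1
  rw [genL_perm hn 2 hL] at h2
  have g1 : (1 : ℝ) • Lap n + (6 * (1 - 1) : ℝ) • (1 : Matrix (Tor n) (Tor n) ℝ) = Lap n := by
    simp
  have g2 : (2 : ℝ) • Lap n + (6 * (2 - 1) : ℝ) • (1 : Matrix (Tor n) (Tor n) ℝ) =
      (2 : ℝ) • Lap n + (6 : ℝ) • 1 := by
    norm_num
  rw [g1] at h1
  rw [g2] at h2
  have h3 := Lap_lower hA hs1 hz x
  have h4 := exp_two_le (n := n) hs0.le x y
  have h5 := half_pow_le hs1 hJ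
  have hInv := (Inv.start x).fold hp0 hp1 (List.replicate m L).flatten
  have h6 := hInv.2.2 y J
  rw [QG_single, QG_single] at h6
  refine le_trans ?_ h6
  have h7 : (1 / 2 : ℝ) ^ J * (Disc.layW 2 p L ^ m) x y ≤
      (1 / 2 : ℝ) ^ J * (Real.exp (6 * s) + T / 8) :=
    mul_le_mul_of_nonneg_left (by linarith [h2.2]) (by positivity)
  have h8 : (1 / 2 : ℝ) ^ J * (T / 8) ≤ T / 8 := by
    have a1 : (1 / 2 : ℝ) ^ J ≤ 1 := pow_le_one₀ (by norm_num) (by norm_num)
    have a2 : 0 ≤ T / 8 := by linarith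
    nlinarith
  have h9 : T ≤ exp (s • Lap n) x y := h3
  linarith [h1.1]

end

end Vale.Agent.P361.LRO.Bloch.Ker
end
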