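import Mathlib
import Vale.Agent.P361.Bdl.B2
import Vale.Agent.P361.Bdl.B1
import Vale.Agent.P361.Bdl.B3

set_option linter.all false

section

set_option linter.unusedSectionVars false

/-!
Part B: cosine basis on the cube.
-/

namespace Vale.Agent.P361.B

open Finset
open Vale.Agent.P361.H (dir dir_injective isNN_iff bJ)

lemma sum_Ico_int (L : ℕ) (g : ℤ → ℝ) :
    ∑ p ∈ Finset.Ico (0 : ℤ) L, g p = ∑ i ∈ Finset.range L, g i := by
  symm
  refine Finset.sum_bij' (fun (i : ℕ) _ => (i : ℤ)) (fun (p : ℤ) _ => p.toNat) ?_ ?_ ?_ ?_ ?_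
  · intro i hi
    rw [Finset.mem_range] at hi
    rw [Finset.mem_Ico]; omega
  · intro p hp
    rw [Finset.mem_Ico] at hp
    rw [Finset.mem_range]; omega
  · intro i _; simp
  · intro p hp
    rw [Finset.mem_Ico] at hp
    simp; omega
  · intro i _; rfl

/-- One-dimensional cosine basis. -/
noncomputable def dct (L : ℕ) (p x : ℤ) : ℝ :=
  if p = 0 then Real.sqrt (1 / L)
  else Real.sqrt (2 / L) * Real.cos (Real.pi * p * (x + 1 / 2) / L)

lemma dct_zero (L : ℕ) (x : ℤ) : dct L 0 x = Real.sqrt (1 / L) := if_pos rfl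

lemma dct_ne (L : ℕ) {p : ℤ} (hp : p ≠ 0) (x : ℤ) :
    dct L p x = Real.sqrt (2 / L) * Real.cos (Real.pi * p * (x + 1 / 2) / L) := if_neg hp

/-- One-dimensional eigenvalue. -/
noncomputable def lam1 (L : ℕ) (p : ℤ) : ℝ := 2 * (1 - Real.cos (Real.pi * p / L))

lemma dct_lap (L : ℕ) (p x : ℤ) :
    dct L p (x + 1) + dct L p (x - 1) - 2 * dct L p x = - lam1 L p * dct L p x := by
  unfold dct lam1
  split_ifs with h
  · rw [h]; simp; ring
  · have h1 : Real.pi * p * (((x + 1 : ℤ) : ℝ) + 1 / 2) / L =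
        Real.pi * p * ((x : ℝ) + 1 / 2) / L + Real.pi * p / L := by push_cast; ring
    have h2 : Real.pi * p * (((x - 1 : ℤ) : ℝ) + 1 / 2) / L =
        Real.pi * p * ((x : ℝ) + 1 / 2) / L - Real.pi * p / L := by push_cast; ring
    rw [h1, h2, Real.cos_add, Real.cos_sub]
    ring

lemma dct_refl_left (L : ℕ) (p : ℤ) : dct L p (-1) = dct L p 0 := by
  unfold dct
  split_ifs with h
  · rfl
  · congr 1
    rw [← Real.cos_neg]
    congr 1
    push_cast
    ring

lemma dct_refl_right {L : ℕ} (hL : 0 < L) (p : ℤ) : dct L p L = dct L p (L - 1) := by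
  unfold dct
  split_ifs with h
  · rfl
  · congr 1
    have hL' : (L : ℝ) ≠ 0 := by positivity
    have h1 : Real.pi * p * (((L : ℤ) : ℝ) + 1 / 2) / L = (p : ℝ) * Real.pi + Real.pi * p / (2 * L) := by
      push_cast; field_simp
    have h2 : Real.pi * p * (((L - 1 : ℤ) : ℝ) + 1 / 2) / L =
        (p : ℝ) * Real.pi - Real.pi * p / (2 * L) := by
      push_cast; field_simp; ring
    rw [h1, h2, Real.cos_add, Real.cos_sub, Real.sin_int_mul_pi]
    ring

lemma cos_sum (θ : ℝ) (M : ℕ) : 2 * Real.sin (θ / 2) *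
    ∑ i ∈ Finset.range M, Real.cos (((i : ℝ) + 1) * θ) =
      Real.sin (((M : ℝ) + 1 / 2) * θ) - Real.sin (θ / 2) := by
  induction M with
  | zero =>
    have : ((0 : ℕ) + 1 / 2 : ℝ) * θ = θ / 2 := by push_cast; ring
    rw [this]; simp
  | succ M ih =>
    rw [Finset.sum_range_succ, mul_add, ih]
    have h1 : Real.sin (((M + 1 : ℕ) + 1 / 2 : ℝ) * θ) - Real.sin (((M : ℝ) + 1 / 2) * θ) =
        2 * Real.sin (θ / 2) * Real.cos (((M : ℝ) + 1) * θ) := by
      have e1 : ((M + 1 : ℕ) + 1 / 2 : ℝ) * θ = ((M : ℝ) + 1) * θ + θ / 2 := by push_cast; ring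
      have e2 : ((M : ℝ) + 1 / 2) * θ = ((M : ℝ) + 1) * θ - θ / 2 := by ring
      rw [e1, e2, Real.sin_add, Real.sin_sub]; ring
    linarith

lemma dirichlet_sum {L : ℕ} (hL : 0 < L) (m : ℤ) (hm : m ≠ 0) (hm2 : |m| < 2 * L) :
    ∑ i ∈ Finset.range (L - 1), Real.cos (((i : ℝ) + 1) * (Real.pi * m / L)) =
      - (Real.cos (Real.pi * m) + 1) / 2 := by
  have hL' : (0 : ℝ) < L := by positivity
  have h := cos_sum (Real.pi * m / L) (L - 1)
  have hs : Real.sin (Real.pi * m / L / 2) ≠ 0 := by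
    intro h0
    have hm' : (m : ℝ) ≠ 0 := by exact_mod_cast hm
    have h1 : |(m : ℝ)| < 2 * L := by exact_mod_cast hm2
    rw [abs_lt] at h1
    have h3 : -Real.pi < Real.pi * m / L / 2 := by
      rw [lt_div_iff₀ (by norm_num), lt_div_iff₀ hL']
      nlinarith [Real.pi_pos]
    have h4 : Real.pi * m / L / 2 < Real.pi := by
      rw [div_lt_iff₀ (by norm_num), div_lt_iff₀ hL']
      nlinarith [Real.pi_pos]
    have h5 := (Real.sin_eq_zero_iff_of_lt_of_lt h3 h4).1 h0
    have h6 : Real.pi * m / L / 2 ≠ 0 := by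
      have := Real.pi_pos.ne'
      positivity
    exact h6 h5
  have e1 : (((L - 1 : ℕ) : ℝ) + 1 / 2) * (Real.pi * m / L) =
      (m : ℝ) * Real.pi - Real.pi * m / L / 2 := by
    rw [Nat.cast_sub hL]; push_cast; field_simp; ring
  rw [e1, Real.sin_sub, Real.sin_int_mul_pi] at h
  have h2 : 2 * Real.sin (Real.pi * m / L / 2) *
      (∑ i ∈ Finset.range (L - 1), Real.cos (((i : ℝ) + 1) * (Real.pi * m / L)) +
      (Real.cos (Real.pi * m) + 1) / 2) = 0 := by
    rw [mul_add, h, mul_comm (m : ℝ) Real.pi]; ring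
  have h3 := (mul_eq_zero.1 h2).resolve_left (by simpa using hs)
  linarith

lemma dct_compl {L : ℕ} (hL : 0 < L) {x y : ℤ} (hx : x ∈ Finset.Ico (0 : ℤ) L)
    (hy : y ∈ Finset.Ico (0 : ℤ) L) :
    ∑ p ∈ Finset.Ico (0 : ℤ) L, dct L p x * dct L p y = if x = y then 1 else 0 := by
  rw [Finset.mem_Ico] at hx hy
  have hL' : (0 : ℝ) < L := by positivity
  obtain ⟨M, rfl⟩ : ∃ M, L = M + 1 := ⟨L - 1, by omega⟩
  rw [sum_Ico_int, Finset.sum_range_succ']
  have h0 : dct (M + 1) ((0 : ℕ) : ℤ) x * dct (M + 1) ((0 : ℕ) : ℤ) y = 1 / ((M + 1 : ℕ) : ℝ) := by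
    rw [Nat.cast_zero, dct_zero, dct_zero, Real.mul_self_sqrt (by positivity)]
  have h1 : ∀ i : ℕ, dct (M + 1) ((i + 1 : ℕ) : ℤ) x * dct (M + 1) ((i + 1 : ℕ) : ℤ) y =
      1 / ((M + 1 : ℕ) : ℝ) * (Real.cos (((i : ℝ) + 1) * (Real.pi * ((x + y + 1 : ℤ) : ℝ) / (M + 1 : ℕ))) +
        Real.cos (((i : ℝ) + 1) * (Real.pi * ((x - y : ℤ) : ℝ) / (M + 1 : ℕ)))) := by
    intro i
    rw [dct_ne _ (by omega), dct_ne _ (by omega)]
    have e1 : ((i : ℝ) + 1) * (Real.pi * ((x + y + 1 : ℤ) : ℝ) / (M + 1 : ℕ)) =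
        Real.pi * ((i + 1 : ℕ) : ℤ) * ((x : ℝ) + 1 / 2) / (M + 1 : ℕ) +
        Real.pi * ((i + 1 : ℕ) : ℤ) * ((y : ℝ) + 1 / 2) / (M + 1 : ℕ) := by
      push_cast; ring
    have e2 : ((i : ℝ) + 1) * (Real.pi * ((x - y : ℤ) : ℝ) / (M + 1 : ℕ)) =
        Real.pi * ((i + 1 : ℕ) : ℤ) * ((x : ℝ) + 1 / 2) / (M + 1 : ℕ) -
        Real.pi * ((i + 1 : ℕ) : ℤ) * ((y : ℝ) + 1 / 2) / (M + 1 : ℕ) := by
      push_cast; ring
    rw [e1, e2, Real.cos_add, Real.cos_sub]
    have e3 : Real.sqrt (2 / ((M + 1 : ℕ) : ℝ)) * Real.sqrt (2 / ((M + 1 : ℕ) : ℝ)) =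
        2 / ((M + 1 : ℕ) : ℝ) := Real.mul_self_sqrt (by positivity)
    generalize Real.cos (Real.pi * ((i + 1 : ℕ) : ℤ) * ((x : ℝ) + 1 / 2) / (M + 1 : ℕ)) = cx
    generalize Real.cos (Real.pi * ((i + 1 : ℕ) : ℤ) * ((y : ℝ) + 1 / 2) / (M + 1 : ℕ)) = cy
    calc _ = (Real.sqrt (2 / ((M + 1 : ℕ) : ℝ)) * Real.sqrt (2 / ((M + 1 : ℕ) : ℝ))) *
        (cx * cy) := by ring
      _ = _ := by rw [e3]; ring
  rw [h0]
  simp only [h1]
  rw [← Finset.mul_sum, Finset.sum_add_distrib]
  have h2 := dirichlet_sum hL (x + y + 1) (by omega) (by rw [abs_of_nonneg] <;> push_cast <;> omega)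
  rw [Nat.add_sub_cancel] at h2
  rw [h2]
  by_cases hxy : x = y
  · subst hxy
    rw [if_pos rfl]
    have h3 : Real.cos (Real.pi * ((x + x + 1 : ℤ) : ℝ)) = -1 := by
      have : Real.pi * ((x + x + 1 : ℤ) : ℝ) = (x : ℝ) * (2 * Real.pi) + Real.pi := by
        push_cast; ring
      rw [this, Real.cos_add_pi, Real.cos_int_mul_two_pi]
    rw [h3]
    simp
    field_simp
  · rw [if_neg hxy]
    have h3 := dirichlet_sum hL (x - y) (by omega) (by rw [abs_lt]; push_cast; omega)
    rw [Nat.add_sub_cancel] at h3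
    rw [h3]
    have h4 : Real.cos (Real.pi * ((x + y + 1 : ℤ) : ℝ)) =
        - Real.cos (Real.pi * ((x - y : ℤ) : ℝ)) := by
      have : Real.pi * ((x + y + 1 : ℤ) : ℝ) = Real.pi * ((x - y : ℤ) : ℝ) +
          (y : ℝ) * (2 * Real.pi) + Real.pi := by push_cast; ring
      rw [this, Real.cos_add_pi, Real.cos_add_int_mul_two_pi]
    rw [h4]
    ring

variable {L : ℕ}

/-- Cosine basis on the cube. -/
noncomputable def dct3 (L : ℕ) (k x : cube L) : ℝ := ∏ j, dct L (k.1 j) (x.1 j)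

/-- Laplacian eigenvalues on the cube. -/
noncomputable def lam3 (L : ℕ) (k : cube L) : ℝ := ∑ j, lam1 L (k.1 j)

lemma mem_cubeD {x : Site} : x ∈ cube L ↔ ∀ j, x j ∈ Finset.Ico (0 : ℤ) L := by
  rw [cube, Fintype.mem_piFinset]

lemma sum_cube_prod (g : Fin 3 → ℤ → ℝ) :
    ∑ k : cube L, ∏ j, g j (k.1 j) = ∏ j, ∑ p ∈ Finset.Ico (0 : ℤ) L, g j p := by
  rw [Finset.sum_coe_sort (cube L) (fun k => ∏ j, g j (k j)), Finset.prod_univ_sum]
  rfl

lemma dct3_compl (hL : 0 < L) (x y : cube L) :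
    ∑ k, dct3 L k x * dct3 L k y = if x = y then 1 else 0 := by
  unfold dct3
  simp only [← Finset.prod_mul_distrib]
  rw [sum_cube_prod (fun j p => dct L p (x.1 j) * dct L p (y.1 j))]
  have hx := mem_cubeD.1 x.2
  have hy := mem_cubeD.1 y.2
  simp only [fun j => dct_compl hL (hx j) (hy j)]
  by_cases hxy : x = y
  · subst hxy; simp
  · rw [if_neg hxy]
    have : ∃ j, x.1 j ≠ y.1 j := by
      by_contra hcon
      push Not at hcon
      exact hxy (Subtype.ext (funext hcon))
    obtain ⟨j, hj⟩ := this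
    exact Finset.prod_eq_zero (Finset.mem_univ j) (if_neg hj)

lemma dct3_orth (hL : 0 < L) (k l : cube L) :
    ∑ x, dct3 L k x * dct3 L l x = if k = l then 1 else 0 := by
  set M : Matrix (cube L) (cube L) ℝ := Matrix.of fun k x => dct3 L k x with hM
  have h1 : M.transpose * M = 1 := by
    ext x y
    rw [Matrix.mul_apply, Matrix.one_apply]
    exact dct3_compl hL x y
  have h2 : M * M.transpose = 1 := mul_eq_one_comm.1 h1
  have h3 := congrFun (congrFun h2 k) l
  rw [Matrix.mul_apply, Matrix.one_apply] at h3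
  exact h3

/-- Extension of the basis functions to all of `ℤ³`. -/
noncomputable def dctE (L : ℕ) (k : cube L) (x : Site) : ℝ := ∏ j, dct L (k.1 j) (x j)

lemma dctE_step (k : cube L) (x : Site) (j : Fin 3) (s : ℤ) :
    dctE L k (x + Pi.single j s) = dct L (k.1 j) (x j + s) *
      ∏ i ∈ Finset.univ.erase j, dct L (k.1 i) (x i) := by
  unfold dctE
  rw [← Finset.mul_prod_erase _ _ (Finset.mem_univ j)]
  congr 1
  · simp
  · refine Finset.prod_congr rfl fun i hi => ?_
    have := Finset.ne_of_mem_erase hi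
    simp [this]

lemma dctE_base (k : cube L) (x : Site) (j : Fin 3) :
    dctE L k x = dct L (k.1 j) (x j) * ∏ i ∈ Finset.univ.erase j, dct L (k.1 i) (x i) := by
  unfold dctE
  rw [← Finset.mul_prod_erase _ _ (Finset.mem_univ j)]

lemma dct3_eig (hL : 0 < L) (k x : cube L) :
    ∑ z : cube L, (if IsNN x.1 z.1 then dct3 L k z - dct3 L k x else 0) =
      - lam3 L k * dct3 L k x := by
  have h1 : ∑ z : cube L, (if IsNN x.1 z.1 then dct3 L k z - dct3 L k x else 0) =
      ∑ p : Fin 3 × Bool, (dctE L k (x.1 + dir p) - dctE L k x.1) := by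
    have e1 : ∑ z : cube L, (if IsNN x.1 z.1 then dct3 L k z - dct3 L k x else 0) =
        ∑ z ∈ (cube L).filter (fun z => IsNN x.1 z), (dctE L k z - dctE L k x.1) := by
      rw [Finset.sum_filter, ← Finset.sum_coe_sort (cube L)
        (fun z => if IsNN x.1 z then dctE L k z - dctE L k x.1 else 0)]
      rfl
    have hinj : Function.Injective fun p => x.1 + dir p :=
      fun p q h => dir_injective (by simpa using h)
    rw [e1]
    have e2 : ∑ p : Fin 3 × Bool, (dctE L k (x.1 + dir p) - dctE L k x.1) =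
        ∑ z ∈ Finset.univ.image (fun p => x.1 + dir p), (dctE L k z - dctE L k x.1) := by
      rw [Finset.sum_image (fun p _ q _ h => hinj h)]
    rw [e2]
    refine Finset.sum_subset ?_ ?_
    · intro z hz
      obtain ⟨p, hp⟩ := (isNN_iff x.1 z).1 (Finset.mem_filter.1 hz).2
      exact Finset.mem_image.2 ⟨p, Finset.mem_univ _, hp.symm⟩
    · intro z hz hz2
      obtain ⟨p, _, rfl⟩ := Finset.mem_image.1 hz
      have hout : x.1 + dir p ∉ cube L := by
        intro hin
        exact hz2 (Finset.mem_filter.2 ⟨hin, (isNN_iff _ _).2 ⟨p, rfl⟩⟩)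
      have hx := mem_cubeD.1 x.2
      obtain ⟨j, b⟩ := p
      rw [dir, dctE_step, dctE_base k x.1 j]
      have hxj := Finset.mem_Ico.1 (hx j)
      have hcoord : x.1 j + (if b then 1 else -1) ∉ Finset.Ico (0 : ℤ) L := by
        intro hin
        apply hout
        rw [mem_cubeD]
        intro i
        by_cases hi : i = j
        · subst hi; simpa [dir] using hin
        · simpa [dir, hi] using hx i
      have hd : dct L (k.1 j) (x.1 j + (if b then 1 else -1)) = dct L (k.1 j) (x.1 j) := by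
        cases b with
        | false =>
          simp only [Bool.false_eq_true, if_false, Finset.mem_Ico] at hcoord ⊢
          have : x.1 j = 0 := by omega
          rw [this]
          exact dct_refl_left L _
        | true =>
          simp only [if_true, Finset.mem_Ico] at hcoord ⊢
          have : x.1 j = L - 1 := by omega
          rw [this, sub_add_cancel]
          exact dct_refl_right hL _
      rw [hd, sub_self]
  rw [h1, Fintype.sum_prod_type, lam3, neg_mul, Finset.sum_mul, ← Finset.sum_neg_distrib]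
  refine Finset.sum_congr rfl fun j _ => ?_
  have h2 : dct3 L k x = dctE L k x.1 := rfl
  rw [Fintype.sum_bool, h2, dir, dir, dctE_step, dctE_step, dctE_base k x.1 j]
  simp only [if_true, Bool.false_eq_true, if_false]
  have h3 := dct_lap L (k.1 j) (x.1 j)
  rw [sub_eq_add_neg (x.1 j) 1] at h3
  rw [← mul_assoc, ← neg_mul, ← neg_mul, ← h3]
  ring

lemma spec3 (hL : 0 < L) :
    Spec (fun x y : cube L => IsNN x.1 y.1) (dct3 L) (lam3 L) where
  eig := dct3_eig hL
  compl := dct3_compl hL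
  orth := dct3_orth hL

/-- Sup bound of the squared basis functions. -/
noncomputable def bd1 (L : ℕ) (p : ℤ) : ℝ := if p = 0 then 1 / L else 2 / L

noncomputable def bd3 (L : ℕ) (k : cube L) : ℝ := ∏ j, bd1 L (k.1 j)

lemma bd1_nonneg (p : ℤ) : 0 ≤ bd1 L p := by unfold bd1; split_ifs <;> positivity

lemma bd3_nonneg (k : cube L) : 0 ≤ bd3 L k := Finset.prod_nonneg fun _ _ => bd1_nonneg _

lemma dct_sq_le (p x : ℤ) : dct L p x ^ 2 ≤ bd1 L p := by
  by_cases hp : p = 0
  · subst hp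
    rw [dct_zero, Real.sq_sqrt (by positivity), bd1, if_pos rfl]
  · rw [dct_ne _ hp, mul_pow, Real.sq_sqrt (by positivity), bd1, if_neg hp]
    have := Real.cos_sq_le_one (Real.pi * p * (x + 1 / 2) / L)
    have h2 : (0 : ℝ) ≤ 2 / L := by positivity
    nlinarith

lemma dct3_sq_le (k x : cube L) : dct3 L k x ^ 2 ≤ bd3 L k := by
  unfold dct3 bd3
  rw [← Finset.prod_pow]
  exact Finset.prod_le_prod (fun j _ => sq_nonneg _) fun j _ => dct_sq_le _ _

lemma lam1_nonneg (p : ℤ) : 0 ≤ lam1 L p := by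
  unfold lam1
  have := Real.cos_le_one (Real.pi * p / L)
  linarith

lemma lam3_nonneg (k : cube L) : 0 ≤ lam3 L k := Finset.sum_nonneg fun _ _ => lam1_nonneg _

/-- Riemann-sum upper bound. -/
lemma riemann_upper (hL : 0 < L) {t : ℝ} (ht : 0 ≤ t) {M : ℕ} (hM : M ≤ L) :
    ∑ i ∈ Finset.range M, Real.exp (-t * (1 - Real.cos (Real.pi * ((i + 1 : ℕ) : ℝ) / L))) ≤
      L * bJ t := by
  have hL' : (0 : ℝ) < L := by positivity
  set f : ℝ → ℝ := fun x => Real.exp (-t * (1 - Real.cos (Real.pi * x / L))) with hf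
  have hanti : AntitoneOn f (Set.Icc 0 (0 + (M : ℝ))) := by
    intro x hx y hy hxy
    simp only [hf]
    apply Real.exp_le_exp.2
    rw [zero_add] at hx hy
    have hML : (M : ℝ) ≤ L := by exact_mod_cast hM
    have h1 : Real.cos (Real.pi * y / L) ≤ Real.cos (Real.pi * x / L) := by
      refine Real.cos_le_cos_of_nonneg_of_le_pi ?_ ?_ ?_
      · have := hx.1; have := Real.pi_pos; positivity
      · rw [div_le_iff₀ hL']
        exact mul_le_mul_of_nonneg_left (hy.2.trans hML) Real.pi_pos.le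
      · gcongr
    nlinarith
  have h1 := hanti.sum_le_integral
  simp only [zero_add] at h1
  have hcont : Continuous f := by
    simp only [hf]; fun_prop
  have h2 : ∫ x in (0 : ℝ)..M, f x ≤ ∫ x in (0 : ℝ)..L, f x := by
    have h3 : ∫ x in (0 : ℝ)..L, f x = (∫ x in (0 : ℝ)..M, f x) + ∫ x in (M : ℝ)..L, f x :=
      (intervalIntegral.integral_add_adjacent_intervals (hcont.intervalIntegrable _ _)
        (hcont.intervalIntegrable _ _)).symm
    have h4 : 0 ≤ ∫ x in (M : ℝ)..L, f x :=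
      intervalIntegral.integral_nonneg (by exact_mod_cast hM) fun x _ => (Real.exp_pos _).le
    linarith
  have h3 : ∫ x in (0 : ℝ)..L, f x = L * bJ t := by
    have h4 : ∀ x, f x = (fun θ => Real.exp (-t * (1 - Real.cos θ))) (Real.pi / L * x) := by
      intro x
      simp only [hf]
      congr 4
      ring
    have hc : Real.pi / L ≠ 0 := by have := Real.pi_pos; positivity
    rw [intervalIntegral.integral_congr (fun x _ => h4 x),
      intervalIntegral.integral_comp_mul_left (fun θ => Real.exp (-t * (1 - Real.cos θ))) hc,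
      mul_zero, bJ, smul_eq_mul]
    have h5 : Real.pi / L * L = Real.pi := by field_simp
    rw [h5]
    field_simp
  calc _ ≤ ∫ x in (0 : ℝ)..M, f x := h1
    _ ≤ _ := h2
    _ = _ := h3

lemma one_dim_sum (hL : 0 < L) {t : ℝ} (ht : 0 ≤ t) :
    ∑ p ∈ Finset.Ico (0 : ℤ) L, Real.exp (-(t / 2 * lam1 L p)) ≤ 1 + L * bJ t := by
  obtain ⟨M, rfl⟩ : ∃ M, L = M + 1 := ⟨L - 1, by omega⟩
  rw [sum_Ico_int, Finset.sum_range_succ', add_comm]
  refine add_le_add ?_ ?_
  · simp [lam1]
  · refine le_trans (le_of_eq ?_) (riemann_upper hL ht (Nat.le_succ M))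
    refine Finset.sum_congr rfl fun i _ => ?_
    unfold lam1
    congr 1
    push_cast
    ring

lemma one_dim_sum_bd (hL : 0 < L) {t : ℝ} (ht : 0 ≤ t) :
    ∑ p ∈ Finset.Ico (0 : ℤ) L, Real.exp (-(t / 2 * lam1 L p)) * bd1 L p ≤ 1 / L + 2 * bJ t := by
  have hL' : (0 : ℝ) < L := by positivity
  obtain ⟨M, rfl⟩ : ∃ M, L = M + 1 := ⟨L - 1, by omega⟩
  rw [sum_Ico_int, Finset.sum_range_succ', add_comm]
  refine add_le_add ?_ ?_
  · simp [lam1, bd1]
  · have h1 := riemann_upper hL ht (Nat.le_succ M)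
    have h2 : ∑ i ∈ Finset.range M, Real.exp (-(t / 2 * lam1 (M + 1) ((i + 1 : ℕ) : ℤ))) *
        bd1 (M + 1) ((i + 1 : ℕ) : ℤ) = 2 / ((M + 1 : ℕ) : ℝ) *
        ∑ i ∈ Finset.range M, Real.exp (-t * (1 - Real.cos (Real.pi * ((i + 1 : ℕ) : ℝ) /
          ((M + 1 : ℕ) : ℝ)))) := by
      rw [Finset.mul_sum]
      refine Finset.sum_congr rfl fun i _ => ?_
      unfold lam1 bd1
      rw [if_neg (by omega), mul_comm]
      congr 2
      push_cast
      ring
    rw [h2]
    calc _ ≤ 2 / ((M + 1 : ℕ) : ℝ) * (((M + 1 : ℕ) : ℝ) * bJ t) :=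
          mul_le_mul_of_nonneg_left h1 (by positivity)
      _ = _ := by field_simp

lemma three_dim_sum (hL : 0 < L) {t : ℝ} (ht : 0 ≤ t) :
    ∑ k : cube L, Real.exp (-(t / 2 * lam3 L k)) ≤ (1 + L * bJ t) ^ 3 := by
  have h1 : ∀ k : cube L, Real.exp (-(t / 2 * lam3 L k)) =
      ∏ j, Real.exp (-(t / 2 * lam1 L (k.1 j))) := by
    intro k
    rw [← Real.exp_sum, lam3, Finset.mul_sum, Finset.sum_neg_distrib]
  simp only [h1]
  rw [sum_cube_prod (fun _ p => Real.exp (-(t / 2 * lam1 L p)))]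
  rw [Finset.prod_const, Finset.card_univ, Fintype.card_fin]
  exact pow_le_pow_left₀ (Finset.sum_nonneg fun _ _ => (Real.exp_pos _).le) (one_dim_sum hL ht) 3

lemma three_dim_sum_bd (hL : 0 < L) {t : ℝ} (ht : 0 ≤ t) :
    ∑ k : cube L, Real.exp (-(t / 2 * lam3 L k)) * bd3 L k ≤ (1 / L + 2 * bJ t) ^ 3 := by
  have h1 : ∀ k : cube L, Real.exp (-(t / 2 * lam3 L k)) * bd3 L k =
      ∏ j, (Real.exp (-(t / 2 * lam1 L (k.1 j))) * bd1 L (k.1 j)) := by
    intro k
    rw [Finset.prod_mul_distrib, ← Real.exp_sum, lam3, bd3, Finset.mul_sum, Finset.sum_neg_distrib]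
  simp only [h1]
  rw [sum_cube_prod (fun _ p => Real.exp (-(t / 2 * lam1 L p)) * bd1 L p)]
  rw [Finset.prod_const, Finset.card_univ, Fintype.card_fin]
  exact pow_le_pow_left₀ (Finset.sum_nonneg fun _ _ =>
    mul_nonneg (Real.exp_pos _).le (bd1_nonneg _)) (one_dim_sum_bd hL ht) 3

lemma degree_le (x : cube L) : ∑ y : cube L, (if IsNN x.1 y.1 then (1 : ℝ) else 0) ≤ 6 := by
  have h := H.sum_nn_le (cube L) x.1 (fun _ => 1) (fun _ => zero_le_one)
  refine h.trans (le_of_eq ?_)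
  simp

end Vale.Agent.P361.B
end

section

/-! # The bootstrap: continuity in the field and descent to small fields. -/

namespace Vale.Agent.P361.LRO

open Finset Matrix Topology

/-! ### Matrix exponentials over `ℝ` -/

theorem continuous_exp_real {m : Type*} [Fintype m] [DecidableEq m] :
    Continuous (NormedSpace.exp : Matrix m m ℝ → Matrix m m ℝ) := by
  let _ : NormedRing (Matrix m m ℝ) := Matrix.linftyOpNormedRing
  let _ : NormedAlgebra ℝ (Matrix m m ℝ) := Matrix.linftyOpNormedAlgebra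
  let _ : NormedAlgebra ℚ (Matrix m m ℝ) := NormedAlgebra.restrictScalars ℚ ℝ _
  exact NormedSpace.exp_continuous

/-- The trace of the exponential of a real symmetric matrix is positive. -/
theorem trace_exp_real_pos {m : Type*} [Fintype m] [DecidableEq m] [Nonempty m]
    {X : Matrix m m ℝ} (hX : X.IsSymm) : 0 < Matrix.trace (NormedSpace.exp X) := by
  have h1 : NormedSpace.exp X = (NormedSpace.exp ((1 / 2 : ℝ) • X))ᵀ *
      NormedSpace.exp ((1 / 2 : ℝ) • X) := by
    rw [← Matrix.exp_transpose, Matrix.transpose_smul, hX.eq,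
      ← Matrix.exp_add_of_commute _ _ (Commute.refl _), ← add_smul]
    norm_num
  have h2 : IsUnit (NormedSpace.exp ((1 / 2 : ℝ) • X)) := Matrix.isUnit_exp _
  set Y := NormedSpace.exp ((1 / 2 : ℝ) • X) with hY
  rw [h1]
  have h3 : Matrix.trace (Yᵀ * Y) = ∑ i, ∑ j, Y j i ^ 2 := by
    simp only [Matrix.trace, Matrix.diag_apply, Matrix.mul_apply, Matrix.transpose_apply, pow_two]
  rw [h3]
  have hne : Y ≠ 0 := by
    intro h0
    rw [h0] at h2
    exact not_isUnit_zero h2
  obtain ⟨i, j, hij⟩ : ∃ i j, Y i j ≠ 0 := by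
    by_contra hcon
    push Not at hcon
    exact hne (by ext i j; exact hcon i j)
  refine lt_of_lt_of_le (show 0 < Y i j ^ 2 by positivity) ?_
  refine le_trans ?_ (Finset.single_le_sum (f := fun i => ∑ j, Y j i ^ 2)
    (fun _ _ => Finset.sum_nonneg fun _ _ => sq_nonneg _) (Finset.mem_univ j))
  exact Finset.single_le_sum (f := fun i => Y i j ^ 2) (fun _ _ => sq_nonneg _)
    (Finset.mem_univ i)

section

variable {V : Type} [Fintype V] [DecidableEq V]

theorem swapM_transpose (x y : V) : (swapM x y)ᵀ = swapM x y := by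
  ext σ τ
  simp only [swapM, Matrix.transpose_apply, Matrix.of_apply]
  have : τ = σ ∘ Equiv.swap x y ↔ σ = τ ∘ Equiv.swap x y := by
    constructor
    · rintro rfl
      ext v; simp
    · rintro rfl
      ext v; simp
  simp only [this]

theorem hM_isSymm (x y : V) : (hM x y).IsSymm := by
  rw [Matrix.IsSymm, hM, Matrix.transpose_smul, Matrix.transpose_sub, Matrix.transpose_one,
    swapM_transpose]

omit [DecidableEq V] in
theorem szM_isSymm (x : V) : (szM x).IsSymm := by
  rw [Matrix.IsSymm, szM, Matrix.diagonal_transpose]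

theorem ham_isSymm (L : List (V × V)) (h : V → ℝ) : (ham L h).IsSymm := by
  have h1 : ∀ l : List (V × V), ((l.map fun e => hM e.1 e.2).sum).IsSymm := by
    intro l
    induction l with
    | nil => simp [Matrix.IsSymm]
    | cons e l ih =>
      rw [List.map_cons, List.sum_cons]
      exact (hM_isSymm _ _).add ih
  rw [ham]
  refine (h1 L).sub ?_
  rw [Matrix.IsSymm, Matrix.transpose_sum]
  refine Finset.sum_congr rfl fun x _ => ?_
  rw [Matrix.transpose_smul, szM_isSymm x]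

theorem exponent_isSymm (L : List (V × V)) (β : ℝ) (h : V → ℝ) : (-β • ham L h).IsSymm := by
  rw [Matrix.IsSymm, Matrix.transpose_smul, ham_isSymm]

theorem Z_pos (L : List (V × V)) (β : ℝ) (h : V → ℝ) :
    0 < Matrix.trace (NormedSpace.exp (-β • ham L h)) :=
  trace_exp_real_pos (exponent_isSymm L β h)

theorem continuous_ham (L : List (V × V)) : Continuous fun h : V → ℝ => ham L h := by
  unfold ham
  refine continuous_const.sub ?_
  refine continuous_finsetSum _ fun x _ => ?_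
  exact ((continuous_apply x).div_const 2).smul continuous_const

theorem continuous_gib (L : List (V × V)) (β : ℝ) (A : Matrix (V → Fin 2) (V → Fin 2) ℝ) :
    Continuous fun h : V → ℝ => gib L β h A := by
  have h1 : Continuous fun h : V → ℝ => NormedSpace.exp (-β • ham L h) :=
    continuous_exp_real.comp ((continuous_ham L).const_smul (-β))
  unfold gib
  refine Continuous.div ?_ ?_ fun h => (Z_pos L β h).ne'
  · exact (h1.matrix_mul continuous_const).matrix_trace
  · exact h1.matrix_trace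

theorem continuous_rho (L : List (V × V)) (β : ℝ) (x : V) :
    Continuous fun h : V → ℝ => rho L β h x := continuous_gib L β _

end

/-! ### The abstract bootstrap -/

theorem bootstrap_abs {V : Type} [Fintype V] (R : (V → ℝ) → V → ℝ)
    (hR : ∀ x, Continuous fun h => R h x) (Reg : (V → ℝ) → Prop)
    (hmax : ∀ h c, 0 < c → Reg h → Reg fun x => max (h x) c) {a η : ℝ} (ha0 : 0 < a)
    (hη : 0 < η)
    (h1 : ∀ x, R (fun _ => 1) x ≤ η)
    (hstep : ∀ h0, a ≤ h0 → h0 ≤ 1 →
      (∀ h, (∀ x, h0 ≤ h x ∧ h x ≤ 1) → Reg h → ∀ x, R h x ≤ η) →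
      ∀ h, (∀ x, h0 ≤ h x ∧ h x ≤ 1) → Reg h → ∀ x, R h x ≤ η / 2) (ha1 : a ≤ 1) :
    ∀ h, (∀ x, a ≤ h x ∧ h x ≤ 1) → Reg h → ∀ x, R h x ≤ η / 2 := by
  -- uniform continuity on the compact box
  have hcomp : IsCompact (Set.Icc (fun _ : V => a) (fun _ => (1 : ℝ))) := isCompact_Icc
  have hcont : Continuous R := continuous_pi hR
  have huc := hcomp.uniformContinuousOn_of_continuous hcont.continuousOn
  rw [Metric.uniformContinuousOn_iff] at huc
  obtain ⟨δ, hδ, huc⟩ := huc (η / 2) (by positivity)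
  -- the property
  let P : ℝ → Prop := fun h0 => ∀ h, (∀ x, h0 ≤ h x ∧ h x ≤ 1) → Reg h → ∀ x, R h x ≤ η
  have hP1 : P 1 := by
    intro h hh _ x
    have : h = fun _ => 1 := by
      funext y
      exact le_antisymm (hh y).2 (hh y).1
    rw [this]
    exact h1 x
  have hPstep : ∀ t, a ≤ t → t ≤ 1 → P t → P (max a (t - δ / 2)) := by
    intro t hat ht1 hPt h hh hreg x
    have ht0 : 0 < t := lt_of_lt_of_le ha0 hat
    have hah : ∀ y, a ≤ h y := fun y => (le_max_left _ _).trans (hh y).1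
    let h' : V → ℝ := fun y => max (h y) t
    have hh' : ∀ y, t ≤ h' y ∧ h' y ≤ 1 := fun y => ⟨le_max_right _ _, max_le (hh y).2 ht1⟩
    have hb := hstep t hat ht1 hPt h' hh' (hmax h t ht0 hreg) x
    have hm : h ∈ Set.Icc (fun _ : V => a) (fun _ => (1 : ℝ)) :=
      ⟨fun y => hah y, fun y => (hh y).2⟩
    have hm' : h' ∈ Set.Icc (fun _ : V => a) (fun _ => (1 : ℝ)) :=
      ⟨fun y => hat.trans (hh' y).1, fun y => (hh' y).2⟩
    have hd : dist h h' < δ := by
      refine lt_of_le_of_lt ((dist_pi_le_iff (by positivity : (0 : ℝ) ≤ δ / 2)).2 fun y => ?_)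
        (half_lt_self hδ)
      have h2 : t - δ / 2 ≤ h y := (le_max_right _ _).trans (hh y).1
      rw [Real.dist_eq]
      change |h y - max (h y) t| ≤ δ / 2
      rcases le_total (h y) t with h3 | h3
      · rw [max_eq_right h3, abs_le]
        constructor <;> linarith
      · rw [max_eq_left h3, sub_self, abs_zero]
        positivity
    have h4 := huc h hm h' hm' hd
    have h5 : dist (R h x) (R h' x) < η / 2 := lt_of_le_of_lt (dist_le_pi_dist _ _ x) h4
    rw [Real.dist_eq, abs_lt] at h5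
    linarith [h5.2]
  have hPk : ∀ k : ℕ, P (max a (1 - k * (δ / 2))) := by
    intro k
    induction k with
    | zero =>
      have : max a (1 - ((0 : ℕ) : ℝ) * (δ / 2)) = 1 := by
        rw [Nat.cast_zero, zero_mul, sub_zero]
        exact max_eq_right ha1
      rw [this]
      exact hP1
    | succ k ih =>
      have h6 := hPstep (max a (1 - k * (δ / 2))) (le_max_left _ _)
        (max_le ha1 (by nlinarith [hδ, (Nat.cast_nonneg k : (0 : ℝ) ≤ k)])) ih
      have h7 : max a (max a (1 - k * (δ / 2)) - δ / 2) = max a (1 - ((k + 1 : ℕ) : ℝ) * (δ / 2)) := by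
        push_cast
        rcases le_total a (1 - k * (δ / 2)) with h8 | h8
        · rw [max_eq_right h8]
          congr 1
          ring
        · rw [max_eq_left h8, max_eq_left (by linarith), max_eq_left]
          nlinarith [hδ]
      rw [h7] at h6
      exact h6
  have hPa : P a := by
    obtain ⟨k, hk⟩ := exists_nat_gt ((1 - a) / (δ / 2))
    have h8 := hPk k
    have h9 : max a (1 - k * (δ / 2)) = a := by
      rw [div_lt_iff₀ (by positivity)] at hk
      exact max_eq_left (by linarith)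
    rwa [h9] at h8
  exact hstep a le_rfl ha1 hPa

/-- **The bootstrap** for the field profiles on the torus. -/
theorem boot (n : ℕ) [NeZero n] {β η lam a : ℝ} (hη : 0 < η) (hlam : 0 ≤ lam) (ha0 : 0 < a)
    (ha1 : a ≤ 1) (h1 : ∀ x, rho (edges n) β (fun _ => 1) x ≤ η)
    (hstep : ∀ h0, a ≤ h0 → h0 ≤ 1 →
      (∀ h, Fam n h0 lam h → ∀ x, rho (edges n) β h x ≤ η) →
      ∀ h, Fam n h0 lam h → ∀ x, rho (edges n) β h x ≤ η / 2) :
    ∀ h, Fam n a lam h → ∀ x, rho (edges n) β h x ≤ η / 2 := by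
  have hexp : 1 ≤ Real.exp lam := Real.one_le_exp hlam
  have key := bootstrap_abs (V := Tor n) (fun h x => rho (edges n) β h x)
    (fun x => continuous_rho _ _ x)
    (fun h => ∀ (x : Tor n) (i : Fin 3), h x ≤ Real.exp lam * h (x + Pi.single i 1) ∧
      h (x + Pi.single i 1) ≤ Real.exp lam * h x) ?_ ha0 hη h1 ?_ ha1
  · intro h hh x
    exact key h hh.1 hh.2 x
  · intro h c hc hreg x i
    have hm : ∀ u v : ℝ, u ≤ Real.exp lam * v → max u c ≤ Real.exp lam * max v c := by
      intro u v huv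
      refine max_le (huv.trans ?_) ?_
      · exact mul_le_mul_of_nonneg_left (le_max_left _ _) (Real.exp_pos _).le
      · calc c ≤ Real.exp lam * c := by nlinarith
          _ ≤ _ := mul_le_mul_of_nonneg_left (le_max_right _ _) (Real.exp_pos _).le
    exact ⟨hm _ _ (hreg x i).1, hm _ _ (hreg x i).2⟩
  · intro h0 h2 h3 h4 h h5 h6 x
    exact hstep h0 h2 h3 (fun h' hh' y => h4 h' hh'.1 hh'.2 y) h ⟨h5, h6⟩ x

end Vale.Agent.P361.LRO
end

section

/-!
P361 LRO: interface statements of the top-level blocks (note 9886), as `Prop`s.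
-/

namespace Vale.Agent.P361.LRO

open Finset Matrix Filter Topology

noncomputable section

/-- Bootstrap hypothesis `B(h0)`: all densities are at most `η` for all profiles of the family. -/
def BH (n : ℕ) [NeZero n] (β lam η h0 : ℝ) : Prop :=
  ∀ h : Tor n → ℝ, Fam n h0 lam h → ∀ x, rho (edges n) β h x ≤ η

/-- Deficit operator expectation `(4/|b|²) ∑_{x<y in b} h_xy` (as half of the sum over ordered
pairs). -/
def Db {V : Type} [Fintype V] [DecidableEq V] (L : List (V × V)) (β : ℝ) (h : V → ℝ)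
    (b : Finset V) : ℝ :=
  4 / (b.card : ℝ) ^ 2 * ((1 / 2) * ∑ x ∈ b, ∑ y ∈ b, gib L β h (hM x y))

/-- Block (6): stiffness of the `w`-blocks. `c3` is absolute, `A` is arbitrary. (`∃ᶠ`: any
convenient infinite set of Trotter numbers, e.g. multiples of the number of windows.) -/
def KappaStmt : Prop :=
  ∃ c3 : ℝ, 0 < c3 ∧ ∀ A : ℝ, 0 < A → ∃ β0 : ℝ, ∀ β : ℝ, β0 ≤ β → ∃ n0 : ℕ, ∀ (n : ℕ) [NeZero n],
    n0 ≤ n → Odd n → ∀ (a : ℕ), β ^ (7 / 20 : ℝ) ≤ (3 : ℝ) ^ a → (3 : ℝ) ^ a ≤ 3 * β ^ (7 / 20 : ℝ) →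
    ∀ h0 : ℝ, (n : ℝ) ^ (-(1 / 4) : ℝ) ≤ h0 → h0 ≤ 1 →
    BH n β (β ^ (-(9 / 10) : ℝ)) (β ^ (-(1 / 100) : ℝ)) h0 →
    ∀ h : Tor n → ℝ, Fam n h0 (β ^ (-(9 / 10) : ℝ)) h → ∀ x : Tor n,
      ∃ᶠ N : ℕ in atTop, c3 * (A * β ^ (1 / 100 : ℝ)) ≤
        kap (edges n) β N h (A * β ^ (1 / 100 : ℝ)) (cube n x (3 ^ a))

/-- Block (1): block twist (`∃ᶠ` is enough because `kap` converges as `N → ∞`). -/
def TwistStmt : Prop :=
  ∃ C : ℝ, 0 < C ∧ ∀ (V : Type) [Fintype V] [DecidableEq V] (L : List (V × V)) (β : ℝ) (h : V → ℝ) (K κ : ℝ)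
    (b : Finset V), 0 < β → (∀ x, 0 < h x) → 1 ≤ K → 0 < κ → b.Nonempty →
    (∃ᶠ N : ℕ in atTop, κ ≤ kap L β N h K b) →
    (∑ x ∈ b, rho L β h x) / b.card ≤ C * (1 + K) ^ 4 * Db L β h b + C / κ

/-- Block (7): energy. `Q = cube n x (w * m)` is tiled by the `m³` cubes
`x + w • y + [0, w)³`, `y ∈ [0, m)³`. -/
def EnergyStmt : Prop :=
  ∃ C : ℝ, ∀ (n : ℕ) [NeZero n] (β : ℝ) (h : Tor n → ℝ) (x : Tor n) (w m : ℕ), 0 < β →
    (∀ x, 0 < h x) → 1 ≤ w → 1 ≤ m → 3 * (w * m) ≤ n →
    (∑ y : Fin 3 → Fin m, Db (edges n) β h (cube n (x + fun i => ((w * (y i : ℕ) : ℕ) : ZMod n)) w))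
      / (m : ℝ) ^ 3 ≤ C * (w : ℝ) ^ 2 * (1 / β + 1 / ((w : ℝ) * m))

/-- Block (8): Lee-Yang regularity, `f = 1 / M - 1`, `M = 1 - 2 ρ`. -/
def RegStmt : Prop :=
  ∀ (V : Type) [Fintype V] [DecidableEq V] (L : List (V × V)) (β : ℝ) (h h' : V → ℝ) (s : ℝ),
    0 < β → (∀ x, 0 < h x) → (∀ x, 0 < h' x) → 0 ≤ s → 3 * s < Real.pi / 2 →
    (∀ x, |Real.log (h x) - Real.log (h' x)| ≤ s) → ∀ z,
    0 < 1 - 2 * rho L β h z ∧
    1 / (1 - 2 * rho L β h' z) - 1 ≤ 2 * (1 / (1 - 2 * rho L β h z) - 1) + 9 / 2 * s ^ 2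

/-- Continuity in the fields (finite volume). -/
def ContStmt : Prop :=
  ∀ (V : Type) [Fintype V] [DecidableEq V] (L : List (V × V)) (β : ℝ) (z : V),
    Continuous fun h : V → ℝ => rho L β h z

/-- The start of the bootstrap, `h ≡ 1`. -/
def StartStmt : Prop :=
  ∀ (n : ℕ) [NeZero n] (β : ℝ) (x : Tor n), 0 < β →
    rho (edges n) β (fun _ => 1) x ≤ Real.log 2 / β

/-- Translation covariance. -/
def TransStmt : Prop :=
  ∀ (n : ℕ) [NeZero n] (β : ℝ) (h : Tor n → ℝ) (x a : Tor n),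
    rho (edges n) β (fun y => h (y + a)) x = rho (edges n) β h (x + a)

/-- Output of the bootstrap. -/
def BootStmt : Prop :=
  ∃ β0 : ℝ, ∀ β : ℝ, β0 ≤ β → ∃ n0 : ℕ, ∀ (n : ℕ) [NeZero n], n0 ≤ n → Odd n →
    ∀ h : ℝ, (n : ℝ) ^ (-(1 / 4) : ℝ) ≤ h → h ≤ 1 →
      ∀ x : Tor n, rho (edges n) β (fun _ => h) x ≤ β ^ (-(1 / 100) : ℝ)

end

end Vale.Agent.P361.LRO
end

section

/-!
P361 LRO: translation covariance of the densities on the torus.
-/

namespace Vale.Agent.P361.LRO

open Finset Matrix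

noncomputable section

namespace Trans

/-- The exponential commutes with a simultaneous permutation of rows and columns. -/
theorem exp_submatrix {ι : Type*} [Fintype ι] [DecidableEq ι] (E : ι ≃ ι) (M : Matrix ι ι ℝ) :
    NormedSpace.exp (M.submatrix E E) = (NormedSpace.exp M).submatrix E E := by
  let _ : NormedRing (Matrix ι ι ℝ) := Matrix.linftyOpNormedRing
  let _ : NormedAlgebra ℝ (Matrix ι ι ℝ) := Matrix.linftyOpNormedAlgebra
  let _ : NormedAlgebra ℚ (Matrix ι ι ℝ) := NormedAlgebra.restrictScalars ℚ ℝ _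
  have hc : Continuous (Matrix.reindexAlgEquiv ℝ ℝ E.symm) :=
    Continuous.matrix_reindex continuous_id _ _
  exact (NormedSpace.map_exp (Matrix.reindexAlgEquiv ℝ ℝ E.symm) hc M).symm

theorem trace_submatrix {ι : Type*} [Fintype ι] (E : ι ≃ ι) (M : Matrix ι ι ℝ) :
    (M.submatrix E E).trace = M.trace := by
  simp only [Matrix.trace, Matrix.diag_apply, Matrix.submatrix_apply]
  exact Equiv.sum_comp E fun i => M i i

variable {V : Type} [Fintype V] [DecidableEq V]

/-- `σ ↦ σ ∘ e`. -/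
def EE' (e : V ≃ V) : (V → Fin 2) ≃ (V → Fin 2) := e.symm.arrowCongr (Equiv.refl _)

omit [Fintype V] [DecidableEq V] in
theorem EE'_apply (e : V ≃ V) (σ : V → Fin 2) : EE' e σ = σ ∘ e := by
  funext v
  simp [EE']

theorem swapM_sub (e : V ≃ V) (x y : V) :
    (swapM x y).submatrix (EE' e) (EE' e) = swapM (e x) (e y) := by
  ext σ τ
  simp only [Matrix.submatrix_apply, swapM, Matrix.of_apply, EE'_apply]
  have : σ ∘ e = (τ ∘ e) ∘ Equiv.swap x y ↔ σ = τ ∘ Equiv.swap (e x) (e y) := by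
    constructor
    · intro h
      funext v
      have h1 := congrFun h (e.symm v)
      simp only [Function.comp_apply, Equiv.apply_symm_apply] at h1
      rw [h1, Function.comp_apply]
      congr 1
      rw [← e.injective.swap_apply, Equiv.apply_symm_apply]
    · rintro rfl
      funext v
      simp only [Function.comp_apply]
      rw [← e.injective.swap_apply]
  simp only [this]

omit [DecidableEq V] in
theorem szM_sub (e : V ≃ V) (x : V) :
    (szM x).submatrix (EE' e) (EE' e) = szM (e x) := by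
  ext σ τ
  simp only [Matrix.submatrix_apply, szM, Matrix.diagonal_apply, EmbeddingLike.apply_eq_iff_eq]
  simp only [EE'_apply, Function.comp_apply]

theorem hM_sub (e : V ≃ V) (x y : V) :
    (hM x y).submatrix (EE' e) (EE' e) = hM (e x) (e y) := by
  rw [hM, hM, ← swapM_sub e x y]
  ext σ τ
  simp [Matrix.submatrix_apply, Matrix.one_apply]

theorem ham_sub (e : V ≃ V) (L : List (V × V)) (h : V → ℝ)
    (hL : (L.map fun z => hM (e z.1) (e z.2)).sum = (L.map fun z => hM z.1 z.2).sum) :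
    (ham L (fun x => h (e x))).submatrix (EE' e) (EE' e) = ham L h := by
  have h1 : ∀ l : List (V × V), ((l.map fun z => hM z.1 z.2).sum).submatrix (EE' e) (EE' e)
      = (l.map fun z => hM (e z.1) (e z.2)).sum := by
    intro l
    induction l with
    | nil => rfl
    | cons z l ih =>
      rw [List.map_cons, List.sum_cons, List.map_cons, List.sum_cons, ← ih, ← hM_sub e]
      rfl
  have h2 : (∑ x, (h (e x) / 2) • szM x).submatrix (EE' e) (EE' e) = ∑ x, (h x / 2) • szM x := by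
    rw [← Equiv.sum_comp e (fun x => (h x / 2) • szM x)]
    ext σ τ
    simp only [Matrix.submatrix_apply, Matrix.sum_apply, Matrix.smul_apply]
    refine Finset.sum_congr rfl fun x _ => ?_
    rw [← szM_sub e x]
    rfl
  have h3 : ham L h = (L.map fun z => hM (e z.1) (e z.2)).sum - ∑ x, (h x / 2) • szM x := by
    rw [ham, hL]
  rw [h3, ← h1, ← h2]
  rfl

theorem rho_comp (e : V ≃ V) (L : List (V × V)) (β : ℝ) (h : V → ℝ) (x : V)
    (hL : (L.map fun z => hM (e z.1) (e z.2)).sum = (L.map fun z => hM z.1 z.2).sum) :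
    rho L β (fun y => h (e y)) x = rho L β h (e x) := by
  have hH := ham_sub e L h hL
  have hE : (NormedSpace.exp (-β • ham L (fun y => h (e y)))).submatrix (EE' e) (EE' e)
      = NormedSpace.exp (-β • ham L h) := by
    rw [← exp_submatrix, Matrix.submatrix_smul, Pi.smul_apply, Pi.smul_apply, hH]
  have hA : ((1 / 2 : ℝ) • (1 - szM x)).submatrix (EE' e) (EE' e)
      = (1 / 2 : ℝ) • (1 - szM (e x)) := by
    rw [← szM_sub e x]
    ext σ τ
    simp [Matrix.submatrix_apply, Matrix.one_apply]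
  rw [rho, rho, gib, gib]
  congr 1
  · rw [← trace_submatrix (EE' e), ← Matrix.submatrix_mul_equiv _ _ _ (EE' e) _, hE, hA]
  · rw [← trace_submatrix (EE' e), hE]

end Trans

theorem transStmt : TransStmt := by
  intro n _ β h x a
  refine Trans.rho_comp (Equiv.addRight a) (edges n) β h x ?_
  simp only [edges, List.map_map, Equiv.coe_addRight]
  rw [show ((fun z : Tor n × Tor n => hM (z.1 + a) (z.2 + a)) ∘
      fun z : Tor n × Fin 3 => (z.1, z.1 + Pi.single z.2 1))
      = fun z : Tor n × Fin 3 => hM (z.1 + a) (z.1 + Pi.single z.2 1 + a) from rfl,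
    show ((fun z : Tor n × Tor n => hM z.1 z.2) ∘
      fun z : Tor n × Fin 3 => (z.1, z.1 + Pi.single z.2 1))
      = fun z : Tor n × Fin 3 => hM z.1 (z.1 + Pi.single z.2 1) from rfl,
    Finset.sum_map_toList, Finset.sum_map_toList]
  refine Fintype.sum_equiv ((Equiv.addRight a).prodCongr (Equiv.refl (Fin 3))) _ _ fun z => ?_
  simp only [Equiv.prodCongr_apply, Prod.map, Equiv.coe_addRight, Equiv.refl_apply]
  rw [add_right_comm]

end

end Vale.Agent.P361.LRO
end

section

/-!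
P361, block (8): Lie-Trotter for the static Gibbs state, complex matrices.
-/

namespace Vale.Agent.P361.LRO.LY

open Finset Matrix Filter Topology

noncomputable section

variable {V : Type} [Fintype V] [DecidableEq V]

/-- Complexification of a real matrix. -/
def cM {m : Type} (A : Matrix m m ℝ) : Matrix m m ℂ := A.map (fun t : ℝ => (t : ℂ))

/-- The exchange, complex. -/
def swapC (x y : V) : Matrix (V → Fin 2) (V → Fin 2) ℂ :=
  Matrix.of fun σ τ => if σ = τ ∘ Equiv.swap x y then 1 else 0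

/-- Gate. -/
def gateC (x y : V) (p : ℝ) : Matrix (V → Fin 2) (V → Fin 2) ℂ :=
  ((1 - p : ℝ) : ℂ) • (1 : Matrix (V → Fin 2) (V → Fin 2) ℂ) + ((p : ℝ) : ℂ) • swapC x y

/-- Slice `∏_x exp (b_x σ³_x / 2)`. -/
def sliceC (b : V → ℝ) : Matrix (V → Fin 2) (V → Fin 2) ℂ :=
  Matrix.diagonal fun σ => ∏ x, Complex.exp (if σ x = 0 then (b x / 2 : ℝ) else (-(b x / 2) : ℝ))

/-- One Trotter step. -/
def stepC (L : List (V × V)) (β : ℝ) (h : V → ℝ) (N : ℕ) :
    Matrix (V → Fin 2) (V → Fin 2) ℂ :=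
  sliceC (fun x => β * h x / N) * (L.map fun e => gateC e.1 e.2 ((1 - Real.exp (-(β / N))) / 2)).prod

theorem cM_mul {m : Type} [Fintype m] (A B : Matrix m m ℝ) : cM (A * B) = cM A * cM B := by
  unfold cM
  ext i j
  simp [Matrix.mul_apply, Matrix.map_apply]

theorem cM_trace {m : Type} [Fintype m] (A : Matrix m m ℝ) :
    (cM A).trace = ((A.trace : ℝ) : ℂ) := by
  unfold cM
  simp [Matrix.trace]

theorem swapC_eq (x y : V) : swapC x y = cM (swapM x y) := by
  ext σ τ
  simp only [swapC, cM, swapM, Matrix.of_apply, Matrix.map_apply]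
  split_ifs <;> simp

theorem swapC_sq (x y : V) : swapC x y * swapC x y = (1 : Matrix (V → Fin 2) (V → Fin 2) ℂ) := by
  ext σ τ
  rw [Matrix.mul_apply, Finset.sum_eq_single (τ ∘ Equiv.swap x y)]
  · have h1 : (swapC x y : Matrix (V → Fin 2) (V → Fin 2) ℂ) (τ ∘ Equiv.swap x y) τ = 1 := by
      simp [swapC]
    have h2 : (τ ∘ Equiv.swap x y) ∘ Equiv.swap x y = τ := by
      funext z
      simp
    rw [h1, mul_one]
    simp only [swapC, Matrix.of_apply, h2, Matrix.one_apply]
  · intro ρ _ hρ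
    have h1 : (swapC x y : Matrix (V → Fin 2) (V → Fin 2) ℂ) ρ τ = 0 := by
      simp [swapC, hρ]
    rw [h1, mul_zero]
  · intro h
    exact absurd (Finset.mem_univ _) h

/-! ### Exponentials -/

section Exp

open scoped Matrix.Norms.Operator Nat

variable {m : Type} [Fintype m] [DecidableEq m]

theorem norm_one_le : ‖(1 : Matrix m m ℂ)‖ ≤ 1 := by
  rcases isEmpty_or_nonempty m with h | h
  · have : (1 : Matrix m m ℂ) = 0 := Subsingleton.elim _ _
    rw [this, norm_zero]
    exact zero_le_one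
  · rw [norm_one]

/-- Exponential of a multiple of an idempotent. -/
theorem exp_idem {Q : Matrix m m ℂ} (hQ : Q * Q = Q) (a : ℂ) :
    NormedSpace.exp (a • Q) = (1 - Q) + Complex.exp a • Q := by
  have h1 := NormedSpace.exp_series_hasSum_exp' (𝕂 := ℂ) (a • Q)
  have h2 := NormedSpace.exp_series_hasSum_exp' (𝕂 := ℂ) a
  have h3 : HasSum (fun n : ℕ => ((n !⁻¹ : ℂ) • a ^ n) • Q) (NormedSpace.exp a • Q) :=
    h2.smul_const Q
  have h4 : HasSum (fun n : ℕ => if n = 0 then (1 - Q) else 0) (1 - Q) := by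
    have := hasSum_ite_eq (0 : ℕ) (1 - Q)
    exact this
  have h5 := h4.add h3
  have h6 : (fun n : ℕ => (n !⁻¹ : ℂ) • (a • Q) ^ n) =
      fun n : ℕ => (if n = 0 then (1 - Q) else 0) + ((n !⁻¹ : ℂ) • a ^ n) • Q := by
    funext n
    have hp : ∀ k : ℕ, Q ^ (k + 1) = Q := by
      intro k
      induction k with
      | zero => rw [zero_add, pow_one]
      | succ k ih => rw [pow_succ, ih, hQ]
    rcases n with _ | n
    · simp
    · rw [if_neg (Nat.succ_ne_zero n), zero_add, smul_pow, hp n, smul_smul, smul_eq_mul]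
  rw [h6] at h1
  have h7 := h1.unique h5
  rw [← Complex.exp_eq_exp_ℂ] at h7
  exact h7

theorem hM_idem (x y : V) : cM (hM x y) * cM (hM x y) = cM (hM x y) := by
  have h1 : cM (hM x y) = (1 / 2 : ℂ) • ((1 : Matrix (V → Fin 2) (V → Fin 2) ℂ) - swapC x y) := by
    rw [swapC_eq]
    ext σ τ
    simp only [cM, hM, Matrix.map_apply, Matrix.smul_apply, Matrix.sub_apply, smul_eq_mul,
      Matrix.one_apply]
    push_cast
    split_ifs <;> simp
  rw [h1, smul_mul_smul_comm, sub_mul, mul_sub, mul_sub, swapC_sq, one_mul, mul_one, one_mul]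
  have : ((1 : Matrix (V → Fin 2) (V → Fin 2) ℂ) - swapC x y - (swapC x y - 1)) =
      (2 : ℂ) • ((1 : Matrix (V → Fin 2) (V → Fin 2) ℂ) - swapC x y) := by
    rw [two_smul]
    abel
  rw [this, smul_smul]
  norm_num

theorem gate_exp (x y : V) (t : ℝ) :
    NormedSpace.exp (((-t : ℝ) : ℂ) • cM (hM x y)) = gateC x y ((1 - Real.exp (-t)) / 2) := by
  rw [exp_idem (hM_idem x y)]
  have h1 : cM (hM x y) = (1 / 2 : ℂ) • ((1 : Matrix (V → Fin 2) (V → Fin 2) ℂ) - swapC x y) := by
    rw [swapC_eq]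
    ext σ τ
    simp only [cM, hM, Matrix.map_apply, Matrix.smul_apply, Matrix.sub_apply, smul_eq_mul,
      Matrix.one_apply]
    push_cast
    split_ifs <;> simp
  rw [h1, gateC]
  ext σ τ
  simp only [Matrix.add_apply, Matrix.sub_apply, Matrix.smul_apply, smul_eq_mul]
  push_cast
  ring

theorem slice_exp (b : V → ℝ) :
    NormedSpace.exp (cM (∑ x, (b x / 2) • szM x)) = sliceC b := by
  have h1 : cM (∑ x, (b x / 2) • szM x) = Matrix.diagonal fun σ : V → Fin 2 =>
      ∑ x, ((if σ x = 0 then (b x / 2 : ℝ) else (-(b x / 2) : ℝ) : ℝ) : ℂ) := by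
    ext σ τ
    simp only [cM, Matrix.map_apply, Matrix.sum_apply, Matrix.smul_apply, szM, smul_eq_mul,
      Matrix.diagonal_apply]
    by_cases h : σ = τ
    · subst h
      simp only [if_true]
      push_cast
      refine Finset.sum_congr rfl fun x _ => ?_
      split_ifs <;> push_cast <;> ring
    · simp [h]
  rw [h1, Matrix.exp_diagonal, sliceC]
  congr 1
  funext σ
  rw [Pi.coe_exp, ← Complex.exp_eq_exp_ℂ, Complex.exp_sum]
  refine Finset.prod_congr rfl fun x _ => ?_
  congr 1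
  split_ifs <;> rfl

theorem cM_exp (A : Matrix m m ℝ) : cM (NormedSpace.exp A) = NormedSpace.exp (cM A) := by
  have h := NormedSpace.map_exp (𝔸 := Matrix m m ℝ) (𝔹 := Matrix m m ℂ)
    (RingHom.mapMatrix (m := m) Complex.ofRealHom) ?_ A
  · exact h
  · exact Continuous.matrix_map continuous_id Complex.continuous_ofReal

theorem smul_list_sum (c : ℝ) (L : List (V × V)) :
    (L.map fun e => ((c : ℝ) : ℂ) • cM (hM e.1 e.2)).sum =
      ((c : ℝ) : ℂ) • cM (L.map fun e => hM e.1 e.2).sum := by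
  induction L with
  | nil =>
    ext σ τ
    simp [cM]
  | cons e L ih =>
    rw [List.map_cons, List.sum_cons, ih, List.map_cons, List.sum_cons]
    ext σ τ
    simp only [cM, Matrix.add_apply, Matrix.smul_apply, Matrix.map_apply, smul_eq_mul]
    push_cast
    ring

theorem step_tendsto (L : List (V × V)) (β : ℝ) (h : V → ℝ) :
    Tendsto (fun N : ℕ => stepC L β h N ^ N) atTop
      (𝓝 (cM (NormedSpace.exp (-β • ham L h)))) := by
  have h1 := Vale.Agent.P361TrotB.lie_trotter_list (𝔸 := Matrix (V → Fin 2) (V → Fin 2) ℂ)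
    norm_one_le (cM (∑ x, (β * h x / 2) • szM x) ::
      L.map fun e => ((-β : ℝ) : ℂ) • cM (hM e.1 e.2))
  have hsum : (cM (∑ x, (β * h x / 2) • szM x) ::
      L.map fun e => ((-β : ℝ) : ℂ) • cM (hM e.1 e.2)).sum = cM (-β • ham L h) := by
    rw [List.sum_cons]
    rw [smul_list_sum]
    ext σ τ
    simp only [cM, ham, Matrix.add_apply, Matrix.smul_apply, Matrix.map_apply, Matrix.sub_apply,
      smul_eq_mul, Matrix.sum_apply]
    rw [mul_sub, Finset.mul_sum]
    push_cast
    rw [sub_eq_add_neg, ← Finset.sum_neg_distrib, add_comm]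
    congr 1
    refine Finset.sum_congr rfl fun x _ => ?_
    ring
  rw [hsum] at h1
  rw [cM_exp]
  refine Tendsto.congr (fun N => ?_) h1
  congr 1
  rw [List.map_cons, List.prod_cons, List.map_map, stepC]
  congr 1
  · rw [← slice_exp]
    congr 1
    ext σ τ
    simp only [cM, Matrix.smul_apply, Matrix.map_apply, smul_eq_mul, Matrix.sum_apply]
    push_cast
    rw [Finset.mul_sum]
    refine Finset.sum_congr rfl fun x _ => ?_
    ring
  · congr 1
    refine List.map_congr_left fun e _ => ?_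
    rw [Function.comp_apply, smul_smul, ← gate_exp]
    congr 2
    push_cast
    ring

theorem trace_tendsto (L : List (V × V)) (β : ℝ) (h : V → ℝ)
    (A : Matrix (V → Fin 2) (V → Fin 2) ℝ) :
    Tendsto (fun N : ℕ => (stepC L β h N ^ N * cM A).trace) atTop
      (𝓝 (((NormedSpace.exp (-β • ham L h) * A).trace : ℝ) : ℂ)) := by
  have h1 := step_tendsto L β h
  have h2 : Continuous fun X : Matrix (V → Fin 2) (V → Fin 2) ℂ => (X * cM A).trace :=
    Continuous.matrix_trace (continuous_id.mul continuous_const)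
  have h3 := (h2.tendsto _).comp h1
  rw [← cM_mul, cM_trace] at h3
  exact h3

end Exp

end

end Vale.Agent.P361.LRO.LY
end

section

/-!
Real matrices inside complex matrices: exponential, trace, Peierls–Bogoliubov and positivity for
real symmetric matrices.
-/

namespace Vale.Agent.P361.LRO

open Matrix Filter Topology Finset
open scoped ComplexOrder

section CMat

variable {ι : Type*}

/-- Complexification of a real matrix. -/
def cM (A : Matrix ι ι ℝ) : Matrix ι ι ℂ := A.map (fun r : ℝ => (r : ℂ))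

theorem cM_apply (A : Matrix ι ι ℝ) (σ τ : ι) : cM A σ τ = (A σ τ : ℂ) := rfl

theorem cM_zero : cM (0 : Matrix ι ι ℝ) = 0 := by
  ext i j; simp [cM_apply]

theorem cM_add (A B : Matrix ι ι ℝ) : cM (A + B) = cM A + cM B := by
  ext i j; simp [cM_apply]

theorem cM_sub (A B : Matrix ι ι ℝ) : cM (A - B) = cM A - cM B := by
  ext i j; simp [cM_apply]

theorem cM_neg (A : Matrix ι ι ℝ) : cM (-A) = -cM A := by
  ext i j; simp [cM_apply]

theorem cM_smul (c : ℝ) (A : Matrix ι ι ℝ) : cM (c • A) = (c : ℂ) • cM A := by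
  ext i j; simp [cM_apply]

theorem cM_sum {κ : Type*} (s : Finset κ) (A : κ → Matrix ι ι ℝ) :
    cM (∑ k ∈ s, A k) = ∑ k ∈ s, cM (A k) := by
  ext i j; simp [cM_apply, Matrix.sum_apply]

theorem cM_list_sum (l : List (Matrix ι ι ℝ)) : cM l.sum = (l.map cM).sum := by
  induction l with
  | nil => simp [cM_zero]
  | cons a l ih => rw [List.sum_cons, List.map_cons, List.sum_cons, cM_add, ih]

theorem cM_conjTranspose (A : Matrix ι ι ℝ) : (cM A)ᴴ = cM Aᵀ := by
  ext i j; simp [cM_apply, Matrix.conjTranspose_apply]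

theorem cM_isHermitian {A : Matrix ι ι ℝ} (hA : A.IsSymm) : (cM A).IsHermitian := by
  rw [Matrix.IsHermitian, cM_conjTranspose, hA]

theorem cM_injective : Function.Injective (cM (ι := ι)) := by
  intro A B h
  ext i j
  have := congrFun (congrFun h i) j
  rw [cM_apply, cM_apply] at this
  exact_mod_cast this

variable [Fintype ι]

theorem cM_mul (A B : Matrix ι ι ℝ) : cM (A * B) = cM A * cM B := by
  ext i j; simp [cM_apply, Matrix.mul_apply]

theorem trace_cM (A : Matrix ι ι ℝ) : trace (cM A) = (trace A : ℝ) := by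
  simp [Matrix.trace, cM_apply]

theorem trace_cM_re (A : Matrix ι ι ℝ) : (trace (cM A)).re = trace A := by
  rw [trace_cM, Complex.ofReal_re]

variable [DecidableEq ι]

omit [Fintype ι] in
theorem cM_one : cM (1 : Matrix ι ι ℝ) = 1 := by
  ext i j
  by_cases h : i = j
  · subst h; simp [cM_apply]
  · simp [cM_apply, h]

open scoped Matrix.Norms.Operator in
theorem exp_cM (A : Matrix ι ι ℝ) : NormedSpace.exp (cM A) = cM (NormedSpace.exp A) := by
  have hc : Continuous (Complex.ofRealHom.mapMatrix : Matrix ι ι ℝ →+* Matrix ι ι ℂ) := by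
    refine continuous_matrix fun i j => ?_
    exact Complex.continuous_ofReal.comp (continuous_id.matrix_elem i j)
  exact (NormedSpace.map_exp (Complex.ofRealHom.mapMatrix : Matrix ι ι ℝ →+* Matrix ι ι ℂ)
    hc A).symm

theorem cM_posSemidef {A : Matrix ι ι ℝ} (hA : A.PosSemidef) : (cM A).PosSemidef := by
  obtain ⟨B, rfl⟩ : ∃ B : Matrix ι ι ℝ, A = Bᴴ * B := by
    open scoped MatrixOrder in
    obtain ⟨b, hb⟩ := CStarAlgebra.nonneg_iff_eq_star_mul_self.mp hA.nonneg
    exact ⟨b, hb⟩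
  have h1 : cM (Bᴴ * B) = (cM B)ᴴ * cM B := by
    rw [cM_mul, cM_conjTranspose]; rfl
  rw [h1]
  exact Matrix.posSemidef_conjTranspose_mul_self _

theorem trace_exp_pos_real [Nonempty ι] {X : Matrix ι ι ℝ} (hX : X.IsSymm) :
    0 < trace (NormedSpace.exp X) := by
  have h := trace_exp_pos (cM_isHermitian hX)
  rwa [exp_cM, trace_cM_re] at h

theorem trace_exp_mul_nonneg_real {X Y : Matrix ι ι ℝ} (hX : X.IsSymm) (hY : Y.PosSemidef) :
    0 ≤ trace (NormedSpace.exp X * Y) := by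
  have h := trace_exp_mul_nonneg (cM_isHermitian hX) (cM_posSemidef hY)
  rwa [exp_cM, ← cM_mul, trace_cM_re] at h

/-- Peierls–Bogoliubov for real symmetric matrices. -/
theorem peierls_bogoliubov_real [Nonempty ι] {X Y : Matrix ι ι ℝ} (hX : X.IsSymm)
    (hY : Y.IsSymm) :
    Real.log (trace (NormedSpace.exp X)) +
      trace (NormedSpace.exp X * Y) / trace (NormedSpace.exp X) ≤
      Real.log (trace (NormedSpace.exp (X + Y))) := by
  have h := Vale.Agent.P361.peierls_bogoliubov (cM_isHermitian hX) (cM_isHermitian hY)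
  rwa [← cM_add, exp_cM, exp_cM, ← cM_mul, trace_cM_re, trace_cM_re, trace_cM_re] at h

theorem trace_exp_mono_real [Nonempty ι] {X Y : Matrix ι ι ℝ} (hX : X.IsSymm) (hY : Y.IsSymm)
    (hXY : (Y - X).PosSemidef) :
    trace (NormedSpace.exp X) ≤ trace (NormedSpace.exp Y) := by
  have h := trace_exp_mono (cM_isHermitian hX) (cM_isHermitian hY)
    (by rw [← cM_sub]; exact cM_posSemidef hXY)
  rwa [exp_cM, exp_cM, trace_cM_re, trace_cM_re] at h

end CMat

end Vale.Agent.P361.LRO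
end

section

/-!
P361, block (8): from the finite Trotter number (`FinReg`) to the Gibbs state (`RegStmt`).
-/

namespace Vale.Agent.P361.LRO.LY

open Finset Matrix Filter Topology

noncomputable section

/-- The regularity at finite Trotter number. -/
def FinReg : Prop :=
  ∀ (V : Type) [Fintype V] [DecidableEq V] (L : List (V × V)) (β : ℝ) (h h' : V → ℝ) (s : ℝ)
    (N : ℕ) (z : V), 0 < β → (∀ x, 0 < h x) → (∀ x, 0 < h' x) → 0 ≤ s → 3 * s < Real.pi / 2 →
    (∀ x, |Real.log (h x) - Real.log (h' x)| ≤ s) → 2 ≤ N →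
    0 < (stepC L β h N ^ N).trace.re → 0 < (stepC L β h' N ^ N).trace.re →
    0 < (stepC L β h N ^ N * cM (szM z)).trace.re ∧
    0 < (stepC L β h' N ^ N * cM (szM z)).trace.re ∧
    (stepC L β h' N ^ N).trace.re / (stepC L β h' N ^ N * cM (szM z)).trace.re - 1 ≤
      2 * ((stepC L β h N ^ N).trace.re / (stepC L β h N ^ N * cM (szM z)).trace.re - 1) +
        9 / 2 * s ^ 2

section Limit

variable {V : Type} [Fintype V] [DecidableEq V] (L : List (V × V)) (β : ℝ) (h : V → ℝ) (z : V)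

/-- Partition function. -/
def ZS : ℝ := Matrix.trace (NormedSpace.exp (-β • ham L h))

/-- The numerator of the magnetization. -/
def AS : ℝ := Matrix.trace (NormedSpace.exp (-β • ham L h) * szM z)

theorem ZS_pos : 0 < ZS L β h := Z_pos L β h

theorem one_sub_two_rho : 1 - 2 * rho L β h z = AS L β h z / ZS L β h := by
  have hZ := (ZS_pos L β h).ne'
  unfold rho gib
  rw [Matrix.mul_smul, Matrix.trace_smul, Matrix.mul_sub, Matrix.mul_one, Matrix.trace_sub,
    smul_eq_mul]
  change 1 - 2 * (1 / 2 * (ZS L β h - AS L β h z) / ZS L β h) = _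
  field_simp
  ring

theorem ZS_tendsto : Tendsto (fun N : ℕ => (stepC L β h N ^ N).trace.re) atTop
    (𝓝 (ZS L β h)) := by
  have h1 := trace_tendsto L β h 1
  have h2 : (cM (1 : Matrix (V → Fin 2) (V → Fin 2) ℝ)) = 1 := by
    ext i j
    by_cases hij : i = j
    · subst hij; simp [cM]
    · simp [cM, hij]
  simp only [h2, Matrix.mul_one] at h1
  have h3 := (Complex.continuous_re.tendsto _).comp h1
  rw [Complex.ofReal_re] at h3
  exact h3

theorem AS_tendsto : Tendsto (fun N : ℕ => (stepC L β h N ^ N * cM (szM z)).trace.re) atTop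
    (𝓝 (AS L β h z)) := by
  have h1 := trace_tendsto L β h (szM z)
  have h3 := (Complex.continuous_re.tendsto _).comp h1
  rw [Complex.ofReal_re] at h3
  exact h3

end Limit

section Lim2

variable {V : Type} [Fintype V] [DecidableEq V] (L : List (V × V)) {β : ℝ} {h h' : V → ℝ} {s : ℝ}

/-- The limit of the inequality. -/
theorem lim_ineq (H : FinReg) (hβ : 0 < β) (hh : ∀ x, 0 < h x) (hh' : ∀ x, 0 < h' x) (hs : 0 ≤ s)
    (hs' : 3 * s < Real.pi / 2) (hd : ∀ x, |Real.log (h x) - Real.log (h' x)| ≤ s) (z : V) :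
    0 ≤ AS L β h z ∧ 0 ≤ AS L β h' z ∧
    (ZS L β h' - AS L β h' z) * AS L β h z ≤
      2 * (ZS L β h - AS L β h z) * AS L β h' z + 9 / 2 * s ^ 2 * (AS L β h z * AS L β h' z) := by
  have hF : ∀ᶠ N : ℕ in atTop, 2 ≤ N ∧ 0 < (stepC L β h N ^ N).trace.re ∧
      0 < (stepC L β h' N ^ N).trace.re :=
    (eventually_ge_atTop 2).and
      (((ZS_tendsto L β h).eventually (lt_mem_nhds (ZS_pos L β h))).and
        ((ZS_tendsto L β h').eventually (lt_mem_nhds (ZS_pos L β h'))))
  refine ⟨?_, ?_, ?_⟩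
  · refine ge_of_tendsto (AS_tendsto L β h z) ?_
    filter_upwards [hF] with N hN
    exact (H V L β h h' s N z hβ hh hh' hs hs' hd hN.1 hN.2.1 hN.2.2).1.le
  · refine ge_of_tendsto (AS_tendsto L β h' z) ?_
    filter_upwards [hF] with N hN
    exact (H V L β h h' s N z hβ hh hh' hs hs' hd hN.1 hN.2.1 hN.2.2).2.1.le
  · have t1 := ((ZS_tendsto L β h').sub (AS_tendsto L β h' z)).mul (AS_tendsto L β h z)
    have t2 := ((((ZS_tendsto L β h).sub (AS_tendsto L β h z)).const_mul 2).mul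
      (AS_tendsto L β h' z)).add
      (((AS_tendsto L β h z).mul (AS_tendsto L β h' z)).const_mul (9 / 2 * s ^ 2))
    refine le_of_tendsto_of_tendsto t1 t2 ?_
    filter_upwards [hF] with N hN
    obtain ⟨hA, hA', hI⟩ := H V L β h h' s N z hβ hh hh' hs hs' hd hN.1 hN.2.1 hN.2.2
    set Z := (stepC L β h N ^ N).trace.re
    set A := (stepC L β h N ^ N * cM (szM z)).trace.re
    set Z' := (stepC L β h' N ^ N).trace.re
    set A' := (stepC L β h' N ^ N * cM (szM z)).trace.re
    have e1 : (Z' - A') * A = (Z' / A' - 1) * (A * A') := by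
      field_simp
    have e2 : 2 * (Z - A) * A' + 9 / 2 * s ^ 2 * (A * A') =
        (2 * (Z / A - 1) + 9 / 2 * s ^ 2) * (A * A') := by
      field_simp
    calc (Z' - A') * A = (Z' / A' - 1) * (A * A') := e1
      _ ≤ (2 * (Z / A - 1) + 9 / 2 * s ^ 2) * (A * A') :=
          mul_le_mul_of_nonneg_right hI (mul_pos hA hA').le
      _ = 2 * (Z - A) * A' + 9 / 2 * s ^ 2 * (A * A') := e2.symm

/-- Positivity propagates. -/
theorem pos_step (H : FinReg) (hβ : 0 < β) (hh : ∀ x, 0 < h x) (hh' : ∀ x, 0 < h' x) (hs : 0 ≤ s)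
    (hs' : 3 * s < Real.pi / 2) (hd : ∀ x, |Real.log (h x) - Real.log (h' x)| ≤ s) {z : V}
    (hp : 0 < AS L β h z) : 0 < AS L β h' z := by
  obtain ⟨_, h2, h3⟩ := lim_ineq L H hβ hh hh' hs hs' hd z
  rcases h2.lt_or_eq with h2 | h2
  · exact h2
  · exfalso
    rw [← h2, mul_zero, mul_zero, mul_zero, sub_zero, add_zero] at h3
    exact absurd (mul_pos (ZS_pos L β h') hp) (not_lt.mpr h3)

end Lim2

section Large

variable {V : Type} [Fintype V] [DecidableEq V] (L : List (V × V)) {β : ℝ} {h : V → ℝ}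

theorem swapM_up (x y : V) : (swapM x y : Matrix (V → Fin 2) (V → Fin 2) ℝ) 0 0 = 1 := by
  unfold swapM
  rw [Matrix.of_apply, if_pos]
  rfl

theorem hM_up (x y : V) : (hM x y : Matrix (V → Fin 2) (V → Fin 2) ℝ) 0 0 = 0 := by
  unfold hM
  rw [Matrix.smul_apply, Matrix.sub_apply, swapM_up, Matrix.one_apply_eq]
  simp

theorem ham_up (h : V → ℝ) : (ham L h) 0 0 = -∑ x, h x / 2 := by
  unfold ham
  have h1 : ∀ l : List (V × V), ((l.map fun e => hM e.1 e.2).sum :
      Matrix (V → Fin 2) (V → Fin 2) ℝ) 0 0 = 0 := by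
    intro l
    induction l with
    | nil => simp
    | cons e l ih => rw [List.map_cons, List.sum_cons, Matrix.add_apply, ih, hM_up, add_zero]
  rw [Matrix.sub_apply, h1, Matrix.sum_apply, zero_sub]
  congr 1
  refine Finset.sum_congr rfl fun x _ => ?_
  simp [szM]

theorem exp_le_ZS (h : V → ℝ) : Real.exp (β * ∑ x, h x / 2) ≤ ZS L β h := by
  have hs := exponent_isSymm L β h
  have hH := LRO.cM_isHermitian hs
  have h1 := Vale.Agent.P361.peierls hH (V := 1) (by simp)
  rw [exp_cM, trace_cM_re] at h1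
  refine le_trans ?_ h1
  have h2 : ∀ i : V → Fin 2,
      (star (1 : Matrix (V → Fin 2) (V → Fin 2) ℂ) * LRO.cM (-β • ham L h) *
        (1 : Matrix (V → Fin 2) (V → Fin 2) ℂ)) i i = (((-β • ham L h) i i : ℝ) : ℂ) := by
    intro i
    rw [star_one, Matrix.one_mul, Matrix.mul_one, LRO.cM_apply]
  have h3 : Real.exp (β * ∑ x, h x / 2) = Real.exp ((((-β • ham L h) 0 0 : ℝ) : ℂ).re) := by
    congr 1
    rw [Complex.ofReal_re, Matrix.smul_apply, ham_up, smul_eq_mul]
    ring
  simp only [h2]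
  rw [h3]
  exact Finset.single_le_sum (f := fun i : V → Fin 2 => Real.exp
    ((((-β • ham L h) i i : ℝ) : ℂ).re))
    (fun i _ => (Real.exp_pos _).le) (Finset.mem_univ (0 : V → Fin 2))

theorem ham_update (h : V → ℝ) (z : V) (t : ℝ) :
    ham L (Function.update h z (h z + t)) = ham L h - (t / 2) • szM z := by
  unfold ham
  rw [sub_sub]
  congr 1
  have h1 : ∀ x, (Function.update h z (h z + t) x / 2) • szM x =
      (h x / 2) • szM x + (if x = z then (t / 2) • szM z else 0) := by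
    intro x
    by_cases hx : x = z
    · subst hx
      rw [Function.update_self, if_pos rfl, ← add_smul]
      congr 1
      ring
    · rw [Function.update_of_ne hx, if_neg hx, add_zero]
  simp only [h1, Finset.sum_add_distrib, Finset.sum_ite_eq', Finset.mem_univ, if_true]

/-- Some large field makes the magnetization positive. -/
theorem exists_pos (hβ : 0 < β) (hh : ∀ x, 0 < h x) (z : V) :
    ∃ t : ℝ, 0 < t ∧ 0 < AS L β (Function.update h z (h z + t)) z := by
  set S := |Real.log (ZS L β h)| + 1 with hS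
  have hS0 : 0 < S := by positivity
  refine ⟨2 * S / β, by positivity, ?_⟩
  set t := 2 * S / β with ht
  set h' := Function.update h z (h z + t) with hh'
  have hX := exponent_isSymm L β h'
  have hY : ((-(β * t / 2)) • szM z : Matrix (V → Fin 2) (V → Fin 2) ℝ).IsSymm := by
    rw [Matrix.IsSymm, Matrix.transpose_smul, szM_isSymm]
  have hXY : (-β • ham L h') + (-(β * t / 2)) • szM z = -β • ham L h := by
    rw [hh', ham_update, smul_sub, smul_smul, sub_eq_add_neg, add_assoc, ← neg_smul, ← add_smul]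
    have : (-(-β * (t / 2)) + -(β * t / 2)) = 0 := by ring
    rw [this, zero_smul, add_zero]
  have h1 := peierls_bogoliubov_real hX hY
  rw [hXY, Matrix.mul_smul, Matrix.trace_smul, smul_eq_mul] at h1
  change Real.log (ZS L β h') + -(β * t / 2) * AS L β h' z / ZS L β h' ≤
    Real.log (ZS L β h) at h1
  have h2 : β * ∑ x, h' x / 2 ≤ Real.log (ZS L β h') := by
    rw [Real.le_log_iff_exp_le (ZS_pos L β h')]
    exact exp_le_ZS L h'
  have h3 : β * t / 2 ≤ β * ∑ x, h' x / 2 := by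
    have h4 : t / 2 ≤ ∑ x, h' x / 2 := by
      have h5 : h' z / 2 ≤ ∑ x, h' x / 2 := by
        refine Finset.single_le_sum (f := fun x => h' x / 2) (fun x _ => ?_) (Finset.mem_univ z)
        have : 0 < h' x := by
          rw [hh']
          by_cases hx : x = z
          · subst hx
            rw [Function.update_self]
            have := hh x
            positivity
          · rw [Function.update_of_ne hx]
            exact hh x
        positivity
      have h6 : t ≤ h' z := by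
        rw [hh', Function.update_self]
        have := hh z
        linarith
      linarith
    calc β * t / 2 = β * (t / 2) := by ring
      _ ≤ _ := mul_le_mul_of_nonneg_left h4 hβ.le
  have h7 : β * t / 2 = S := by
    rw [ht]; field_simp
  have h8 : Real.log (ZS L β h) < S := by
    rw [hS]
    have := le_abs_self (Real.log (ZS L β h))
    linarith
  by_contra hc
  rw [not_lt] at hc
  have h9 : 0 ≤ -(β * t / 2) * AS L β h' z / ZS L β h' := by
    refine div_nonneg ?_ (ZS_pos L β h').le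
    rw [neg_mul]
    have : 0 ≤ β * t / 2 := by rw [h7]; exact hS0.le
    nlinarith
  linarith

end Large

section Final

variable {V : Type} [Fintype V] [DecidableEq V] (L : List (V × V)) {β : ℝ}

omit [Fintype V] in
theorem update_exp_pos {h : V → ℝ} (hh : ∀ x, 0 < h x) (z : V) (u : ℝ) (x : V) :
    0 < Function.update h z (Real.exp u) x := by
  by_cases hx : x = z
  · subst hx
    rw [Function.update_self]
    exact Real.exp_pos u
  · rw [Function.update_of_ne hx]
    exact hh x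

omit [Fintype V] in
theorem log_update {h : V → ℝ} (z : V) (u v : ℝ) (x : V) :
    |Real.log (Function.update h z (Real.exp u) x) -
      Real.log (Function.update h z (Real.exp v) x)| ≤ |u - v| := by
  by_cases hx : x = z
  · subst hx
    rw [Function.update_self, Function.update_self, Real.log_exp, Real.log_exp]
  · rw [Function.update_of_ne hx, Function.update_of_ne hx, sub_self, abs_zero]
    exact abs_nonneg _

theorem AS_pos_chain (H : FinReg) (hβ : 0 < β) {h : V → ℝ} (hh : ∀ x, 0 < h x) (z : V) :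
    ∀ (n : ℕ) (u v : ℝ), |u - v| ≤ n / 2 →
      0 < AS L β (Function.update h z (Real.exp u)) z →
      0 < AS L β (Function.update h z (Real.exp v)) z := by
  have h0 : ∀ u v : ℝ, |u - v| ≤ 1 / 2 → 0 < AS L β (Function.update h z (Real.exp u)) z →
      0 < AS L β (Function.update h z (Real.exp v)) z := by
    intro u v huv hp
    refine pos_step L H hβ (update_exp_pos hh z u) (update_exp_pos hh z v) (s := 1 / 2)
      (by norm_num) (by have := Real.pi_gt_three; linarith)
      (fun x => (log_update z u v x).trans huv) hp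
  intro n
  induction n with
  | zero =>
    intro u v huv hp
    rw [Nat.cast_zero, zero_div] at huv
    have : u = v := by
      have := abs_nonneg (u - v)
      have h1 : |u - v| = 0 := le_antisymm huv this
      exact sub_eq_zero.mp (abs_eq_zero.mp h1)
    rwa [← this]
  | succ n ih =>
    intro u v huv hp
    push_cast at huv
    rcases le_or_gt |u - v| (1 / 2) with hle | hgt
    · exact h0 u v hle hp
    · rcases abs_cases (u - v) with ⟨ha, hb⟩ | ⟨ha, hb⟩
      · refine ih (u - 1 / 2) v ?_ (h0 u (u - 1 / 2) ?_ hp)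
        · rw [abs_le]; constructor <;> linarith
        · rw [abs_le]; constructor <;> linarith
      · refine ih (u + 1 / 2) v ?_ (h0 u (u + 1 / 2) ?_ hp)
        · rw [abs_le]; constructor <;> linarith
        · rw [abs_le]; constructor <;> linarith

theorem AS_pos (H : FinReg) (hβ : 0 < β) {h : V → ℝ} (hh : ∀ x, 0 < h x) (z : V) :
    0 < AS L β h z := by
  obtain ⟨t, ht, hp⟩ := exists_pos L hβ hh z
  have hz := hh z
  have e1 : Function.update h z (h z + t) = Function.update h z (Real.exp (Real.log (h z + t))) := by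
    rw [Real.exp_log (by linarith)]
  have e2 : h = Function.update h z (Real.exp (Real.log (h z))) := by
    rw [Real.exp_log hz, Function.update_eq_self]
  rw [e1] at hp
  obtain ⟨n, hn⟩ := exists_nat_ge (2 * |Real.log (h z + t) - Real.log (h z)|)
  rw [e2]
  exact AS_pos_chain L H hβ hh z n _ _ (by linarith) hp

end Final

/-- `RegStmt` from the regularity at finite Trotter number. -/
theorem regStmt_of (H : FinReg) : RegStmt := by
  intro V _ _ L β h h' s hβ hh hh' hs hs' hd z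
  have hA := AS_pos L H hβ hh z
  have hA' := AS_pos L H hβ hh' z
  have hZ := ZS_pos L β h
  have hZ' := ZS_pos L β h'
  obtain ⟨_, _, h3⟩ := lim_ineq L H hβ hh hh' hs hs' hd z
  rw [one_sub_two_rho, one_sub_two_rho, one_div_div, one_div_div]
  refine ⟨div_pos hA hZ, ?_⟩
  have e1 : ZS L β h' / AS L β h' z - 1 =
      ((ZS L β h' - AS L β h' z) * AS L β h z) / (AS L β h z * AS L β h' z) := by
    field_simp
  have e2 : 2 * (ZS L β h / AS L β h z - 1) + 9 / 2 * s ^ 2 =
      (2 * (ZS L β h - AS L β h z) * AS L β h' z + 9 / 2 * s ^ 2 * (AS L β h z * AS L β h' z)) /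
        (AS L β h z * AS L β h' z) := by
    field_simp
  rw [e1, e2]
  exact div_le_div_of_nonneg_right h3 (mul_pos hA hA').le

end

end Vale.Agent.P361.LRO.LY
end

section

/-!
Swap operators on spin-1/2 configurations (real matrices), and the path inequality
`√<h_{xz}> ≤ √<h_{xy}> + 2 √<h_{yz}>` as an inequality of quadratic forms.
-/

namespace Vale.Agent.P361.LRO.EnR

open Matrix Finset

noncomputable section

variable {V : Type} [Fintype V] [DecidableEq V]

/-- `nrm π ψ = ‖ψ - ψ ∘ π‖₂`. -/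
def nrm (π : Equiv.Perm V) (ψ : (V → Fin 2) → ℝ) : ℝ :=
  ‖WithLp.toLp 2 (fun σ : V → Fin 2 => ψ σ - ψ (σ ∘ π))‖

theorem nrm_nonneg (π : Equiv.Perm V) (ψ : (V → Fin 2) → ℝ) : 0 ≤ nrm π ψ := norm_nonneg _

theorem nrm_sq (π : Equiv.Perm V) (ψ : (V → Fin 2) → ℝ) :
    nrm π ψ ^ 2 = ∑ σ : V → Fin 2, (ψ σ - ψ (σ ∘ π)) ^ 2 := by
  rw [nrm, EuclideanSpace.norm_sq_eq]
  refine Finset.sum_congr rfl fun σ _ => ?_
  rw [Real.norm_eq_abs, sq_abs]

/-- Configurations transported by a permutation of the sites. -/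
def cfgPerm (π : Equiv.Perm V) : (V → Fin 2) ≃ (V → Fin 2) where
  toFun σ := σ ∘ π
  invFun σ := σ ∘ π.symm
  left_inv σ := by ext x; simp
  right_inv σ := by ext x; simp

theorem nrm_mul_le (π ρ : Equiv.Perm V) (ψ : (V → Fin 2) → ℝ) :
    nrm (π * ρ) ψ ≤ nrm π ψ + nrm ρ ψ := by
  have h1 : nrm ρ ψ = ‖WithLp.toLp 2 (fun σ : V → Fin 2 => ψ (σ ∘ π) - ψ ((σ ∘ π) ∘ ρ))‖ := by
    unfold nrm
    rw [EuclideanSpace.norm_eq, EuclideanSpace.norm_eq]
    congr 1
    exact ((cfgPerm π).sum_comp (fun σ => ‖ψ σ - ψ (σ ∘ ρ)‖ ^ 2)).symm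
  rw [h1]
  have h2 : WithLp.toLp 2 (fun σ : V → Fin 2 => ψ σ - ψ (σ ∘ (π * ρ : Equiv.Perm V))) =
      WithLp.toLp 2 (fun σ : V → Fin 2 => ψ σ - ψ (σ ∘ π)) +
      WithLp.toLp 2 (fun σ : V → Fin 2 => ψ (σ ∘ π) - ψ ((σ ∘ π) ∘ ρ)) := by
    ext σ
    simp [Function.comp_assoc, Equiv.Perm.coe_mul]
  unfold nrm
  rw [h2]
  exact norm_add_le _ _

theorem nrm_one (ψ : (V → Fin 2) → ℝ) : nrm (1 : Equiv.Perm V) ψ = 0 := by
  have : nrm (1 : Equiv.Perm V) ψ ^ 2 = 0 := by
    rw [nrm_sq]; simp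
  exact pow_eq_zero_iff (two_ne_zero) |>.mp this

theorem nrm_swap_step (x y z : V) (ψ : (V → Fin 2) → ℝ) :
    nrm (Equiv.swap x z) ψ ≤ nrm (Equiv.swap x y) ψ + 2 * nrm (Equiv.swap y z) ψ := by
  by_cases hxz : x = z
  · subst hxz
    rw [Equiv.swap_self]
    have := nrm_one (V := V) ψ
    have h0 : nrm (Equiv.refl V) ψ = 0 := this
    rw [h0]
    have := nrm_nonneg (Equiv.swap x y) ψ
    have := nrm_nonneg (Equiv.swap y x) ψ
    linarith
  by_cases hxy : x = y
  · subst hxy
    have := nrm_nonneg (Equiv.swap x x) ψ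
    have := nrm_nonneg (Equiv.swap x z) ψ
    linarith
  have h := Equiv.swap_mul_swap_mul_swap (x := x) (y := y) (z := z) hxy hxz
  have h1 : Equiv.swap x z = Equiv.swap y z * Equiv.swap x y * Equiv.swap y z := by
    rw [h, Equiv.swap_comm]
  rw [h1]
  have h2 := nrm_mul_le (Equiv.swap y z * Equiv.swap x y) (Equiv.swap y z) ψ
  have h3 := nrm_mul_le (Equiv.swap y z) (Equiv.swap x y) ψ
  linarith

theorem nrm_swap_comm (x y : V) (ψ : (V → Fin 2) → ℝ) :
    nrm (Equiv.swap x y) ψ = nrm (Equiv.swap y x) ψ := by rw [Equiv.swap_comm]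

/-- Moving one end along a sequence of sites, forward. -/
theorem nrm_seg_up (x : V) (q : ℕ → V) (ψ : (V → Fin 2) → ℝ) (a k : ℕ) :
    nrm (Equiv.swap x (q (a + k))) ψ ≤ nrm (Equiv.swap x (q a)) ψ +
      2 * ∑ i ∈ Finset.range k, nrm (Equiv.swap (q (a + i)) (q (a + i + 1))) ψ := by
  induction k with
  | zero => simp
  | succ k ih =>
    rw [Finset.sum_range_succ]
    have := nrm_swap_step x (q (a + k)) (q (a + k + 1)) ψ
    have e : a + (k + 1) = a + k + 1 := by ring
    rw [e]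
    linarith

theorem nrm_seg_down (x : V) (q : ℕ → V) (ψ : (V → Fin 2) → ℝ) (a k : ℕ) :
    nrm (Equiv.swap x (q a)) ψ ≤ nrm (Equiv.swap x (q (a + k))) ψ +
      2 * ∑ i ∈ Finset.range k, nrm (Equiv.swap (q (a + i)) (q (a + i + 1))) ψ := by
  induction k with
  | zero => simp
  | succ k ih =>
    rw [Finset.sum_range_succ]
    have := nrm_swap_step x (q (a + k + 1)) (q (a + k)) ψ
    rw [nrm_swap_comm (q (a + k + 1))] at this
    have e : a + (k + 1) = a + k + 1 := by ring
    rw [e]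
    linarith

/-- Moving one end along a sequence of sites, inside `[0, m]`. -/
theorem nrm_seg (x : V) (q : ℕ → V) (ψ : (V → Fin 2) → ℝ) {a b m : ℕ} (ha : a ≤ m)
    (hb : b ≤ m) :
    nrm (Equiv.swap x (q b)) ψ ≤ nrm (Equiv.swap x (q a)) ψ +
      2 * ∑ i ∈ Finset.range m, nrm (Equiv.swap (q i) (q (i + 1))) ψ := by
  have key : ∀ c k : ℕ, c + k ≤ m →
      ∑ i ∈ Finset.range k, nrm (Equiv.swap (q (c + i)) (q (c + i + 1))) ψ ≤
      ∑ i ∈ Finset.range m, nrm (Equiv.swap (q i) (q (i + 1))) ψ := by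
    intro c k hck
    rw [← Finset.sum_image (s := Finset.range k) (g := fun i => c + i)
      (f := fun i => nrm (Equiv.swap (q i) (q (i + 1))) ψ) (by intro a _ b _ h; simpa using h)]
    apply Finset.sum_le_sum_of_subset_of_nonneg
    · intro i hi
      simp only [Finset.mem_image, Finset.mem_range] at hi ⊢
      obtain ⟨j, hj, rfl⟩ := hi
      omega
    · intro i _ _
      exact nrm_nonneg _ _
  rcases le_total a b with h | h
  · obtain ⟨k, rfl⟩ := Nat.exists_eq_add_of_le h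
    have h1 := nrm_seg_up x q ψ a k
    have h2 := key a k hb
    linarith
  · obtain ⟨k, rfl⟩ := Nat.exists_eq_add_of_le h
    have h1 := nrm_seg_down x q ψ b k
    have h2 := key b k ha
    linarith

theorem swapM_mulVec (x y : V) (ψ : (V → Fin 2) → ℝ) (σ : V → Fin 2) :
    (swapM x y *ᵥ ψ) σ = ψ (σ ∘ Equiv.swap x y) := by
  have h1 : ∀ τ : V → Fin 2, (σ = τ ∘ Equiv.swap x y) ↔ (σ ∘ Equiv.swap x y = τ) := by
    intro τ
    constructor
    · rintro rfl; ext z; simp
    · rintro rfl; ext z; simp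
  simp [swapM, Matrix.mulVec, dotProduct, h1]

/-- The quadratic form of `h_{xy}`. -/
theorem form_hM (x y : V) (ψ : (V → Fin 2) → ℝ) :
    ψ ⬝ᵥ (hM x y *ᵥ ψ) = (1 / 4) * nrm (Equiv.swap x y) ψ ^ 2 := by
  rw [nrm_sq]
  have h1 : ψ ⬝ᵥ (hM x y *ᵥ ψ) =
      (1 / 2) * ∑ σ, ψ σ * (ψ σ - ψ (σ ∘ Equiv.swap x y)) := by
    rw [hM, Matrix.smul_mulVec, Matrix.sub_mulVec, Matrix.one_mulVec, dotProduct_smul, smul_eq_mul,
      dotProduct]
    congr 1
    refine Finset.sum_congr rfl fun σ _ => ?_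
    rw [Pi.sub_apply, swapM_mulVec]
  have hinv : ∀ f : (V → Fin 2) → ℝ, ∑ σ, f (σ ∘ Equiv.swap x y) = ∑ σ, f σ := fun f =>
    (cfgPerm (Equiv.swap x y)).sum_comp f
  have hss : ∀ σ : V → Fin 2, (σ ∘ Equiv.swap x y) ∘ Equiv.swap x y = σ := by
    intro σ; ext z; simp
  have h2 : ∑ σ, ψ σ * (ψ σ - ψ (σ ∘ Equiv.swap x y)) =
      ∑ σ, ψ (σ ∘ Equiv.swap x y) * (ψ (σ ∘ Equiv.swap x y) - ψ σ) := by
    rw [← hinv (fun σ => ψ σ * (ψ σ - ψ (σ ∘ Equiv.swap x y)))]
    refine Finset.sum_congr rfl fun σ _ => ?_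
    rw [hss]
  have h3 : 2 * ∑ σ, ψ σ * (ψ σ - ψ (σ ∘ Equiv.swap x y)) =
      ∑ σ, (ψ σ - ψ (σ ∘ Equiv.swap x y)) ^ 2 := by
    rw [two_mul]
    nth_rewrite 2 [h2]
    rw [← Finset.sum_add_distrib]
    refine Finset.sum_congr rfl fun σ _ => ?_
    ring
  rw [h1, ← h3]
  ring

/-- Inequalities of quadratic forms pass to `tr (M ·)` for `M = Cᵀ C`. -/
theorem trace_le_of_form_le {ι : Type*} [Fintype ι] [DecidableEq ι] {A B : Matrix ι ι ℝ}
    (C : Matrix ι ι ℝ)
    (h : ∀ ψ : ι → ℝ, ψ ⬝ᵥ (A *ᵥ ψ) ≤ ψ ⬝ᵥ (B *ᵥ ψ)) :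
    trace (Cᵀ * C * A) ≤ trace (Cᵀ * C * B) := by
  have key : ∀ X : Matrix ι ι ℝ, trace (Cᵀ * C * X) =
      ∑ i, (C i) ⬝ᵥ (X *ᵥ (C i)) := by
    intro X
    rw [Matrix.mul_assoc, Matrix.trace_mul_comm, Matrix.trace]
    refine Finset.sum_congr rfl fun i _ => ?_
    rw [Matrix.diag_apply, Matrix.mul_assoc, Matrix.mul_apply, dotProduct]
    refine Finset.sum_congr rfl fun j _ => ?_
    rw [Matrix.mul_apply, Matrix.mulVec, dotProduct]
    rfl
  rw [key A, key B]
  exact Finset.sum_le_sum fun i _ => h _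

theorem swapM_transpose (x y : V) : (swapM x y)ᵀ = swapM x y := by
  ext σ τ
  have h1 : (τ = σ ∘ Equiv.swap x y) ↔ (σ = τ ∘ Equiv.swap x y) := by
    constructor
    · rintro rfl; ext z; simp
    · rintro rfl; ext z; simp
  simp [swapM, h1]

theorem hM_transpose (x y : V) : (hM x y)ᵀ = hM x y := by
  rw [hM, transpose_smul, transpose_sub, transpose_one, swapM_transpose]

theorem ham_transpose (L : List (V × V)) (h : V → ℝ) : (ham L h)ᵀ = ham L h := by
  have h1 : ∀ L : List (V × V), ((L.map fun e => hM e.1 e.2).sum)ᵀ =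
      (L.map fun e => hM e.1 e.2).sum := by
    intro L
    induction L with
    | nil => simp
    | cons e L ih => rw [List.map_cons, List.sum_cons, transpose_add, ih, hM_transpose]
  rw [ham, transpose_sub, h1, transpose_sum]
  congr 1
  refine Finset.sum_congr rfl fun x _ => ?_
  rw [transpose_smul, szM, diagonal_transpose]

/-- The Gibbs weight is `Cᵀ C`. -/
theorem exp_ham_factor (L : List (V × V)) (β : ℝ) (h : V → ℝ) :
    ∃ C : Matrix (V → Fin 2) (V → Fin 2) ℝ, NormedSpace.exp (-β • ham L h) = Cᵀ * C := by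
  refine ⟨NormedSpace.exp (-(β / 2) • ham L h), ?_⟩
  rw [← Matrix.exp_transpose, transpose_smul, ham_transpose, ← Matrix.exp_add_of_commute _ _ rfl,
    ← add_smul]
  congr 2
  ring

theorem gib_le_of_form_le (L : List (V × V)) (β : ℝ) (h : V → ℝ)
    {A B : Matrix (V → Fin 2) (V → Fin 2) ℝ}
    (hAB : ∀ ψ : (V → Fin 2) → ℝ, ψ ⬝ᵥ (A *ᵥ ψ) ≤ ψ ⬝ᵥ (B *ᵥ ψ)) :
    gib L β h A ≤ gib L β h B := by
  obtain ⟨C, hC⟩ := exp_ham_factor L β h
  rw [gib, gib, hC]
  refine div_le_div_of_nonneg_right (trace_le_of_form_le C hAB) ?_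
  rw [Matrix.trace]
  refine Finset.sum_nonneg fun i _ => ?_
  rw [Matrix.diag_apply, Matrix.mul_apply]
  exact Finset.sum_nonneg fun j _ => mul_self_nonneg _

theorem gib_add (L : List (V × V)) (β : ℝ) (h : V → ℝ)
    (A B : Matrix (V → Fin 2) (V → Fin 2) ℝ) :
    gib L β h (A + B) = gib L β h A + gib L β h B := by
  rw [gib, gib, gib, Matrix.mul_add, Matrix.trace_add, add_div]

theorem gib_smul (L : List (V × V)) (β : ℝ) (h : V → ℝ) (c : ℝ)
    (A : Matrix (V → Fin 2) (V → Fin 2) ℝ) :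
    gib L β h (c • A) = c * gib L β h A := by
  rw [gib, gib, Matrix.mul_smul, Matrix.trace_smul, smul_eq_mul, mul_div_assoc]

theorem gib_sum (L : List (V × V)) (β : ℝ) (h : V → ℝ) {ι : Type*} (s : Finset ι)
    (A : ι → Matrix (V → Fin 2) (V → Fin 2) ℝ) :
    gib L β h (∑ i ∈ s, A i) = ∑ i ∈ s, gib L β h (A i) := by
  rw [gib, Matrix.mul_sum, Matrix.trace_sum, Finset.sum_div]
  rfl

end

end Vale.Agent.P361.LRO.EnR
end

section

/-!
P361, block (1): the Gibbs operator is positive semidefinite and conserves the number of downs.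
-/

namespace Vale.Agent.P361.LRO.Tw

open Finset Matrix

noncomputable section

variable {V : Type} [Fintype V] [DecidableEq V]

theorem expH_psd (L : List (V × V)) (β : ℝ) (h : V → ℝ) :
    (NormedSpace.exp (-β • ham L h)).PosSemidef := by
  obtain ⟨C, hC⟩ := EnR.exp_ham_factor L β h
  rw [hC, ← Matrix.conjTranspose_eq_transpose_of_trivial]
  exact Matrix.posSemidef_conjTranspose_mul_self C

/-- The number of downs. -/
def numD : Matrix (V → Fin 2) (V → Fin 2) ℝ :=
  Matrix.diagonal fun σ => ((dn univ σ : ℕ) : ℝ)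

theorem numD_swapM (x y : V) : Commute (numD : Matrix (V → Fin 2) (V → Fin 2) ℝ) (swapM x y) := by
  unfold Commute SemiconjBy
  ext σ τ
  unfold numD
  rw [Matrix.diagonal_mul, Matrix.mul_diagonal]
  simp only [swapM, Matrix.of_apply]
  split_ifs with h
  · rw [h, dn_comp_swap (mem_univ x) (mem_univ y)]
    ring
  · simp

theorem numD_ham (L : List (V × V)) (h : V → ℝ) :
    Commute (numD : Matrix (V → Fin 2) (V → Fin 2) ℝ) (ham L h) := by
  unfold ham
  refine Commute.sub_right ?_ ?_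
  · induction L with
    | nil => simp
    | cons e L ih =>
      rw [List.map_cons, List.sum_cons]
      refine Commute.add_right ?_ ih
      unfold hM
      exact ((Commute.one_right _).sub_right (numD_swapM _ _)).smul_right _
  · refine Commute.sum_right _ _ _ fun x _ => Commute.smul_right ?_ _
    unfold numD szM
    exact Matrix.commute_diagonal _ _

theorem expH_cons (L : List (V × V)) (β : ℝ) (h : V → ℝ) (σ τ : V → Fin 2)
    (hd : NormedSpace.exp (-β • ham L h) σ τ ≠ 0) : dn univ σ = dn univ τ := by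
  have h1 : Commute (numD : Matrix (V → Fin 2) (V → Fin 2) ℝ)
      (NormedSpace.exp (-β • ham L h)) := ((numD_ham L h).smul_right _).exp_right
  have h2 := congrFun (congrFun h1.eq σ) τ
  unfold numD at h2
  rw [Matrix.diagonal_mul, Matrix.mul_diagonal, mul_comm] at h2
  exact_mod_cast mul_left_cancel₀ hd h2

theorem trace_expH_pos (L : List (V × V)) (β : ℝ) (h : V → ℝ) :
    0 < Matrix.trace (NormedSpace.exp (-β • ham L h)) := by
  have hC : NormedSpace.exp (-β • ham L h) = (NormedSpace.exp (-(β / 2) • ham L h))ᴴ *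
      NormedSpace.exp (-(β / 2) • ham L h) := by
    rw [Matrix.conjTranspose_eq_transpose_of_trivial, ← Matrix.exp_transpose, transpose_smul,
      EnR.ham_transpose, ← Matrix.exp_add_of_commute _ _ rfl, ← add_smul]
    congr 2
    ring
  refine lt_of_le_of_ne (expH_psd L β h).trace_nonneg fun h0 => ?_
  rw [hC] at h0
  have h1 := (Matrix.trace_conjTranspose_mul_self_eq_zero_iff).1 h0.symm
  exact (Matrix.isUnit_exp (-(β / 2) • ham L h)).ne_zero h1

end

end Vale.Agent.P361.LRO.Tw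
end

section

/-!
Canonical paths in a cube: the sum over all pairs of a `w`-cube of `‖ψ - P_{xy} ψ‖²` is at most
`12 w⁵` times the sum over the nearest neighbour edges of the cube; tiling of a cube of side `w k`.
-/

namespace Vale.Agent.P361.LRO.EnR

open Matrix Finset

noncomputable section

variable {V : Type} [Fintype V] [DecidableEq V]

/-- Squares of `nrm` for the three kinds of edges. -/
def ed0 (p : ℕ → ℕ → ℕ → V) (F : V → V → ℝ) (w : ℕ) : ℝ :=
  ∑ t ∈ range (w - 1), ∑ b ∈ range w, ∑ c ∈ range w, F (p t b c) (p (t + 1) b c)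

def ed1 (p : ℕ → ℕ → ℕ → V) (F : V → V → ℝ) (w : ℕ) : ℝ :=
  ∑ a ∈ range w, ∑ t ∈ range (w - 1), ∑ c ∈ range w, F (p a t c) (p a (t + 1) c)

def ed2 (p : ℕ → ℕ → ℕ → V) (F : V → V → ℝ) (w : ℕ) : ℝ :=
  ∑ a ∈ range w, ∑ b ∈ range w, ∑ t ∈ range (w - 1), F (p a b t) (p a b (t + 1))

/-- Sum over the nearest neighbour edges of the cube `p '' [0,w)³`. -/
def edgeSum (p : ℕ → ℕ → ℕ → V) (F : V → V → ℝ) (w : ℕ) : ℝ :=
  ed0 p F w + ed1 p F w + ed2 p F w

/-- Sum over ordered pairs of points of the cube `p '' [0,w)³`. -/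
def pairSum (p : ℕ → ℕ → ℕ → V) (F : V → V → ℝ) (w : ℕ) : ℝ :=
  ∑ a ∈ range w, ∑ b ∈ range w, ∑ c ∈ range w,
    ∑ a' ∈ range w, ∑ b' ∈ range w, ∑ c' ∈ range w, F (p a b c) (p a' b' c')

theorem nrm_swap_self (x : V) (ψ : (V → Fin 2) → ℝ) : nrm (Equiv.swap x x) ψ = 0 := by
  rw [Equiv.swap_self]; exact nrm_one ψ

theorem nrm_cube (p : ℕ → ℕ → ℕ → V) (ψ : (V → Fin 2) → ℝ) {w a b c a' b' c' : ℕ}
    (ha : a < w) (hb : b < w) (hc : c < w) (ha' : a' < w) (hb' : b' < w) (hc' : c' < w) :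
    nrm (Equiv.swap (p a b c) (p a' b' c')) ψ ≤
      2 * (∑ t ∈ range (w - 1), nrm (Equiv.swap (p t b c) (p (t + 1) b c)) ψ +
        ∑ t ∈ range (w - 1), nrm (Equiv.swap (p a' t c) (p a' (t + 1) c)) ψ +
        ∑ t ∈ range (w - 1), nrm (Equiv.swap (p a' b' t) (p a' b' (t + 1))) ψ) := by
  have h0 := nrm_seg (p a b c) (fun t => p t b c) ψ (a := a) (b := a') (m := w - 1)
    (by omega) (by omega)
  have h1 := nrm_seg (p a b c) (fun t => p a' t c) ψ (a := b) (b := b') (m := w - 1)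
    (by omega) (by omega)
  have h2 := nrm_seg (p a b c) (fun t => p a' b' t) ψ (a := c) (b := c') (m := w - 1)
    (by omega) (by omega)
  have h3 := nrm_swap_self (p a b c) ψ
  linarith

theorem sq_sum_three {n : ℕ} (f g h : ℕ → ℝ) :
    (2 * (∑ t ∈ range n, f t + ∑ t ∈ range n, g t + ∑ t ∈ range n, h t)) ^ 2 ≤
      12 * n * (∑ t ∈ range n, f t ^ 2 + ∑ t ∈ range n, g t ^ 2 + ∑ t ∈ range n, h t ^ 2) := by
  have key : ∀ f : ℕ → ℝ, (∑ t ∈ range n, f t) ^ 2 ≤ n * ∑ t ∈ range n, f t ^ 2 := by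
    intro f
    have := sq_sum_le_card_mul_sum_sq (s := range n) (f := f)
    simpa using this
  have hf := key f
  have hg := key g
  have hh := key h
  nlinarith [sq_nonneg (∑ t ∈ range n, f t - ∑ t ∈ range n, g t),
    sq_nonneg (∑ t ∈ range n, f t - ∑ t ∈ range n, h t),
    sq_nonneg (∑ t ∈ range n, g t - ∑ t ∈ range n, h t)]

theorem pair_le (p : ℕ → ℕ → ℕ → V) (ψ : (V → Fin 2) → ℝ) (w : ℕ) :
    pairSum p (fun x y => nrm (Equiv.swap x y) ψ ^ 2) w ≤
      12 * (w : ℝ) ^ 5 * edgeSum p (fun x y => nrm (Equiv.swap x y) ψ ^ 2) w := by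
  set F : V → V → ℝ := fun x y => nrm (Equiv.swap x y) ψ ^ 2 with hF
  have hF0 : ∀ x y, 0 ≤ F x y := fun x y => sq_nonneg _
  set S0 : ℕ → ℕ → ℝ := fun b c => ∑ t ∈ range (w - 1), F (p t b c) (p (t + 1) b c) with hS0
  set S1 : ℕ → ℕ → ℝ := fun a c => ∑ t ∈ range (w - 1), F (p a t c) (p a (t + 1) c) with hS1
  set S2 : ℕ → ℕ → ℝ := fun a b => ∑ t ∈ range (w - 1), F (p a b t) (p a b (t + 1)) with hS2
  have hS0n : ∀ b c, 0 ≤ S0 b c := fun b c => sum_nonneg fun _ _ => hF0 _ _
  have hS1n : ∀ b c, 0 ≤ S1 b c := fun b c => sum_nonneg fun _ _ => hF0 _ _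
  have hS2n : ∀ b c, 0 ≤ S2 b c := fun b c => sum_nonneg fun _ _ => hF0 _ _
  have h1 : pairSum p F w ≤ ∑ a ∈ range w, ∑ b ∈ range w, ∑ c ∈ range w,
      ∑ a' ∈ range w, ∑ b' ∈ range w, ∑ c' ∈ range w,
        (12 * w) * (S0 b c + S1 a' c + S2 a' b') := by
    unfold pairSum
    refine sum_le_sum fun a ha => sum_le_sum fun b hb => sum_le_sum fun c hc =>
      sum_le_sum fun a' ha' => sum_le_sum fun b' hb' => sum_le_sum fun c' hc' => ?_
    simp only [mem_range] at ha hb hc ha' hb' hc'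
    have h2 := nrm_cube p ψ ha hb hc ha' hb' hc'
    have h3 : F (p a b c) (p a' b' c') ≤ (2 * (∑ t ∈ range (w - 1),
        nrm (Equiv.swap (p t b c) (p (t + 1) b c)) ψ +
        ∑ t ∈ range (w - 1), nrm (Equiv.swap (p a' t c) (p a' (t + 1) c)) ψ +
        ∑ t ∈ range (w - 1), nrm (Equiv.swap (p a' b' t) (p a' b' (t + 1))) ψ)) ^ 2 :=
      pow_le_pow_left₀ (nrm_nonneg _ _) h2 2
    have h4 := sq_sum_three (n := w - 1)
      (fun t => nrm (Equiv.swap (p t b c) (p (t + 1) b c)) ψ)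
      (fun t => nrm (Equiv.swap (p a' t c) (p a' (t + 1) c)) ψ)
      (fun t => nrm (Equiv.swap (p a' b' t) (p a' b' (t + 1))) ψ)
    have h5 : ((w - 1 : ℕ) : ℝ) ≤ w := by exact_mod_cast Nat.sub_le w 1
    have h6 : 0 ≤ S0 b c + S1 a' c + S2 a' b' :=
      add_nonneg (add_nonneg (hS0n _ _) (hS1n _ _)) (hS2n _ _)
    calc F (p a b c) (p a' b' c') ≤ _ := h3
      _ ≤ 12 * ((w - 1 : ℕ) : ℝ) * (S0 b c + S1 a' c + S2 a' b') := h4
      _ ≤ _ := by
        apply mul_le_mul_of_nonneg_right _ h6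
        linarith
  refine h1.trans (le_of_eq ?_)
  simp only [← mul_sum, sum_add_distrib, sum_const, card_range, nsmul_eq_mul]
  have e0 : ∑ b ∈ range w, ∑ c ∈ range w, S0 b c = ed0 p F w := by
    unfold ed0
    rw [sum_comm]
    symm
    rw [sum_comm]
    calc ∑ b ∈ range w, ∑ t ∈ range (w - 1), ∑ c ∈ range w, F (p t b c) (p (t + 1) b c)
        = ∑ b ∈ range w, ∑ c ∈ range w, S0 b c := by
          refine sum_congr rfl fun b _ => ?_
          rw [sum_comm]
      _ = _ := sum_comm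
  have e1 : ∑ c ∈ range w, ∑ a ∈ range w, S1 a c = ed1 p F w := by
    unfold ed1
    rw [sum_comm]
    refine sum_congr rfl fun b _ => ?_
    rw [sum_comm]
  have e2 : ∑ a ∈ range w, ∑ b ∈ range w, S2 a b = ed2 p F w := rfl
  rw [edgeSum, ← e0, ← e1, ← e2]
  ring

end

end Vale.Agent.P361.LRO.EnR
end

section

/-!
The path inequality for Gibbs states, and the tiling of a cube of side `w m` by cubes of side `w`.
-/

namespace Vale.Agent.P361.LRO.EnR

open Matrix Finset

noncomputable section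

variable {V : Type} [Fintype V] [DecidableEq V]

/-- The pair inequality for every Gibbs state. -/
theorem pair_le_gib (L : List (V × V)) (β : ℝ) (h : V → ℝ) (p : ℕ → ℕ → ℕ → V) (w : ℕ) :
    pairSum p (fun x y => gib L β h (hM x y)) w ≤
      12 * (w : ℝ) ^ 5 * edgeSum p (fun x y => gib L β h (hM x y)) w := by
  set PM : Matrix (V → Fin 2) (V → Fin 2) ℝ :=
    ∑ a ∈ range w, ∑ b ∈ range w, ∑ c ∈ range w,
    ∑ a' ∈ range w, ∑ b' ∈ range w, ∑ c' ∈ range w, hM (p a b c) (p a' b' c') with hPM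
  set EM : Matrix (V → Fin 2) (V → Fin 2) ℝ :=
    ∑ t ∈ range (w - 1), ∑ b ∈ range w, ∑ c ∈ range w, hM (p t b c) (p (t + 1) b c) +
    ∑ a ∈ range w, ∑ t ∈ range (w - 1), ∑ c ∈ range w, hM (p a t c) (p a (t + 1) c) +
    ∑ a ∈ range w, ∑ b ∈ range w, ∑ t ∈ range (w - 1), hM (p a b t) (p a b (t + 1)) with hEM
  have h1 : pairSum p (fun x y => gib L β h (hM x y)) w = gib L β h PM := by
    rw [hPM]; simp only [gib_sum]; rfl
  have h2 : edgeSum p (fun x y => gib L β h (hM x y)) w = gib L β h EM := by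
    rw [hEM]; simp only [gib_sum, gib_add]; rfl
  rw [h1, h2, ← gib_smul]
  apply gib_le_of_form_le
  intro ψ
  have h3 : ψ ⬝ᵥ (PM *ᵥ ψ) =
      (1 / 4) * pairSum p (fun x y => nrm (Equiv.swap x y) ψ ^ 2) w := by
    rw [hPM]
    simp only [Matrix.sum_mulVec, dotProduct_sum, form_hM, pairSum, mul_sum]
  have h4 : ψ ⬝ᵥ (EM *ᵥ ψ) =
      (1 / 4) * edgeSum p (fun x y => nrm (Equiv.swap x y) ψ ^ 2) w := by
    rw [hEM]
    simp only [Matrix.sum_mulVec, dotProduct_sum, form_hM, edgeSum, ed0, ed1, ed2, mul_sum,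
      Matrix.add_mulVec, dotProduct_add, mul_add]
  rw [Matrix.smul_mulVec, dotProduct_smul, smul_eq_mul, h3, h4]
  have := pair_le p ψ w
  linarith

/-- Nonnegativity of `⟨h_{xy}⟩`. -/
theorem gib_hM_nonneg (L : List (V × V)) (β : ℝ) (h : V → ℝ) (x y : V) :
    0 ≤ gib L β h (hM x y) := by
  have h1 : gib L β h 0 ≤ gib L β h (hM x y) := by
    apply gib_le_of_form_le
    intro ψ
    rw [form_hM, Matrix.zero_mulVec, dotProduct_zero]
    positivity
  have h2 : gib L β h 0 = 0 := by simp [gib]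
  linarith

theorem sum_tile (g : ℕ → ℝ) (w m : ℕ) :
    ∑ u ∈ range m, ∑ a ∈ range w, g (w * u + a) = ∑ A ∈ range (w * m), g A := by
  induction m with
  | zero => simp
  | succ m ih => rw [sum_range_succ, ih, Nat.mul_succ, sum_range_add]

theorem sum_tile_edge (g : ℕ → ℝ) (hg : ∀ t, 0 ≤ g t) (w m : ℕ) :
    ∑ u ∈ range m, ∑ a ∈ range (w - 1), g (w * u + a) ≤ ∑ A ∈ range (w * m - 1), g A := by
  rcases Nat.eq_zero_or_pos w with rfl | hw
  · simp
  induction m with
  | zero => simp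
  | succ m ih =>
    rcases Nat.eq_zero_or_pos m with rfl | hm
    · simp
    rw [sum_range_succ]
    have hwm : 1 ≤ w * m := Nat.mul_pos hw hm
    have e : w * (m + 1) - 1 = (w * m - 1) + 1 + (w - 1) := by
      rw [Nat.mul_succ]; omega
    rw [e, sum_range_add, sum_range_succ]
    have e2 : w * m - 1 + 1 = w * m := by omega
    rw [e2]
    have := hg (w * m - 1)
    linarith

/-- The shifted parametrisation. -/
def shp (p : ℕ → ℕ → ℕ → V) (w u0 u1 u2 : ℕ) : ℕ → ℕ → ℕ → V :=
  fun a b c => p (w * u0 + a) (w * u1 + b) (w * u2 + c)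

theorem tile_ed0 (p : ℕ → ℕ → ℕ → V) (F : V → V → ℝ) (hF : ∀ x y, 0 ≤ F x y) (w m : ℕ) :
    ∑ u0 ∈ range m, ∑ u1 ∈ range m, ∑ u2 ∈ range m, ed0 (shp p w u0 u1 u2) F w ≤
      ed0 p F (w * m) := by
  unfold ed0 shp
  have h1 : ∀ u0 ∈ range m, ∑ u1 ∈ range m, ∑ u2 ∈ range m, ∑ t ∈ range (w - 1),
      ∑ b ∈ range w, ∑ c ∈ range w,
        F (p (w * u0 + t) (w * u1 + b) (w * u2 + c))
          (p (w * u0 + (t + 1)) (w * u1 + b) (w * u2 + c)) =
      ∑ t ∈ range (w - 1), ∑ B ∈ range (w * m), ∑ C ∈ range (w * m),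
        F (p (w * u0 + t) B C) (p (w * u0 + t + 1) B C) := by
    intro u0 _
    have e1 : ∀ u1 ∈ range m, ∑ u2 ∈ range m, ∑ t ∈ range (w - 1),
      ∑ b ∈ range w, ∑ c ∈ range w,
        F (p (w * u0 + t) (w * u1 + b) (w * u2 + c))
          (p (w * u0 + (t + 1)) (w * u1 + b) (w * u2 + c)) =
        ∑ t ∈ range (w - 1), ∑ b ∈ range w, ∑ C ∈ range (w * m),
          F (p (w * u0 + t) (w * u1 + b) C) (p (w * u0 + t + 1) (w * u1 + b) C) := by
      intro u1 _
      rw [sum_comm]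
      refine sum_congr rfl fun t _ => ?_
      rw [sum_comm]
      refine sum_congr rfl fun b _ => ?_
      rw [← sum_tile]
      rfl
    rw [sum_congr rfl e1, sum_comm]
    refine sum_congr rfl fun t _ => ?_
    rw [← sum_tile]
  rw [sum_congr rfl h1]
  exact sum_tile_edge (fun A => ∑ B ∈ range (w * m), ∑ C ∈ range (w * m),
    F (p A B C) (p (A + 1) B C)) (fun t => sum_nonneg fun _ _ => sum_nonneg fun _ _ => hF _ _) w m

theorem tile_ed1 (p : ℕ → ℕ → ℕ → V) (F : V → V → ℝ) (hF : ∀ x y, 0 ≤ F x y) (w m : ℕ) :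
    ∑ u0 ∈ range m, ∑ u1 ∈ range m, ∑ u2 ∈ range m, ed1 (shp p w u0 u1 u2) F w ≤
      ed1 p F (w * m) := by
  unfold ed1 shp
  have h1 : ∀ u0 ∈ range m, ∑ u1 ∈ range m, ∑ u2 ∈ range m, ∑ a ∈ range w,
      ∑ t ∈ range (w - 1), ∑ c ∈ range w,
        F (p (w * u0 + a) (w * u1 + t) (w * u2 + c))
          (p (w * u0 + a) (w * u1 + (t + 1)) (w * u2 + c)) ≤
      ∑ a ∈ range w, ∑ T ∈ range (w * m - 1), ∑ C ∈ range (w * m),
        F (p (w * u0 + a) T C) (p (w * u0 + a) (T + 1) C) := by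
    intro u0 _
    have e1 : ∀ u1 ∈ range m, ∑ u2 ∈ range m, ∑ a ∈ range w,
      ∑ t ∈ range (w - 1), ∑ c ∈ range w,
        F (p (w * u0 + a) (w * u1 + t) (w * u2 + c))
          (p (w * u0 + a) (w * u1 + (t + 1)) (w * u2 + c)) =
        ∑ a ∈ range w, ∑ t ∈ range (w - 1), ∑ C ∈ range (w * m),
          F (p (w * u0 + a) (w * u1 + t) C) (p (w * u0 + a) (w * u1 + t + 1) C) := by
      intro u1 _
      rw [sum_comm]
      refine sum_congr rfl fun t _ => ?_
      rw [sum_comm]
      refine sum_congr rfl fun b _ => ?_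
      rw [← sum_tile]
      rfl
    rw [sum_congr rfl e1, sum_comm]
    refine sum_le_sum fun a _ => ?_
    exact sum_tile_edge (fun B => ∑ C ∈ range (w * m),
      F (p (w * u0 + a) B C) (p (w * u0 + a) (B + 1) C))
      (fun t => sum_nonneg fun _ _ => hF _ _) w m
  refine (sum_le_sum h1).trans (le_of_eq ?_)
  rw [← sum_tile (fun A => ∑ T ∈ range (w * m - 1), ∑ C ∈ range (w * m),
        F (p A T C) (p A (T + 1) C)) w m]

theorem tile_ed2 (p : ℕ → ℕ → ℕ → V) (F : V → V → ℝ) (hF : ∀ x y, 0 ≤ F x y) (w m : ℕ) :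
    ∑ u0 ∈ range m, ∑ u1 ∈ range m, ∑ u2 ∈ range m, ed2 (shp p w u0 u1 u2) F w ≤
      ed2 p F (w * m) := by
  unfold ed2 shp
  have h1 : ∀ u0 ∈ range m, ∑ u1 ∈ range m, ∑ u2 ∈ range m, ∑ a ∈ range w,
      ∑ b ∈ range w, ∑ t ∈ range (w - 1),
        F (p (w * u0 + a) (w * u1 + b) (w * u2 + t))
          (p (w * u0 + a) (w * u1 + b) (w * u2 + (t + 1))) ≤
      ∑ a ∈ range w, ∑ B ∈ range (w * m), ∑ T ∈ range (w * m - 1),
        F (p (w * u0 + a) B T) (p (w * u0 + a) B (T + 1)) := by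
    intro u0 _
    have e1 : ∀ u1 ∈ range m, ∑ u2 ∈ range m, ∑ a ∈ range w,
      ∑ b ∈ range w, ∑ t ∈ range (w - 1),
        F (p (w * u0 + a) (w * u1 + b) (w * u2 + t))
          (p (w * u0 + a) (w * u1 + b) (w * u2 + (t + 1))) ≤
        ∑ a ∈ range w, ∑ b ∈ range w, ∑ T ∈ range (w * m - 1),
          F (p (w * u0 + a) (w * u1 + b) T) (p (w * u0 + a) (w * u1 + b) (T + 1)) := by
      intro u1 _
      rw [sum_comm]
      refine sum_le_sum fun t _ => ?_
      rw [sum_comm]
      refine sum_le_sum fun b _ => ?_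
      exact sum_tile_edge (fun T =>
        F (p (w * u0 + t) (w * u1 + b) T) (p (w * u0 + t) (w * u1 + b) (T + 1)))
        (fun t => hF _ _) w m
    refine (sum_le_sum e1).trans (le_of_eq ?_)
    rw [sum_comm]
    refine sum_congr rfl fun t _ => ?_
    rw [← sum_tile (fun B => ∑ T ∈ range (w * m - 1),
          F (p (w * u0 + t) B T) (p (w * u0 + t) B (T + 1)))]
  refine (sum_le_sum h1).trans (le_of_eq ?_)
  rw [← sum_tile (fun A => ∑ B ∈ range (w * m), ∑ T ∈ range (w * m - 1),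
        F (p A B T) (p A B (T + 1))) w m]

theorem tile_edge (p : ℕ → ℕ → ℕ → V) (F : V → V → ℝ) (hF : ∀ x y, 0 ≤ F x y) (w m : ℕ) :
    ∑ u0 ∈ range m, ∑ u1 ∈ range m, ∑ u2 ∈ range m, edgeSum (shp p w u0 u1 u2) F w ≤
      edgeSum p F (w * m) := by
  have h0 := tile_ed0 p F hF w m
  have h1 := tile_ed1 p F hF w m
  have h2 := tile_ed2 p F hF w m
  simp only [edgeSum, sum_add_distrib]
  linarith

/-- Sum of the pair sums of the blocks. -/
theorem tile_pair (L : List (V × V)) (β : ℝ) (h : V → ℝ) (p : ℕ → ℕ → ℕ → V) (w m : ℕ) :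
    ∑ u0 ∈ range m, ∑ u1 ∈ range m, ∑ u2 ∈ range m,
      pairSum (shp p w u0 u1 u2) (fun x y => gib L β h (hM x y)) w ≤
      12 * (w : ℝ) ^ 5 * edgeSum p (fun x y => gib L β h (hM x y)) (w * m) := by
  calc _ ≤ ∑ u0 ∈ range m, ∑ u1 ∈ range m, ∑ u2 ∈ range m,
      12 * (w : ℝ) ^ 5 * edgeSum (shp p w u0 u1 u2) (fun x y => gib L β h (hM x y)) w :=
        sum_le_sum fun _ _ => sum_le_sum fun _ _ => sum_le_sum fun _ _ =>
          pair_le_gib L β h _ w
    _ = 12 * (w : ℝ) ^ 5 * ∑ u0 ∈ range m, ∑ u1 ∈ range m, ∑ u2 ∈ range m,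
      edgeSum (shp p w u0 u1 u2) (fun x y => gib L β h (hM x y)) w := by
        simp only [mul_sum]
    _ ≤ _ := by
        apply mul_le_mul_of_nonneg_left _ (by positivity)
        exact tile_edge p _ (fun x y => gib_hM_nonneg L β h x y) w m

end

end Vale.Agent.P361.LRO.EnR
end

section

/-!
Cubes of the torus: conversion of the sums of `Cube.lean`, `Tile.lean` into sums over the finite
sets `cube n x w`, and the number of boundary edges of a cube.
-/

namespace Vale.Agent.P361.LRO.EnR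

open Matrix Finset

noncomputable section

/-- Parametrisation of the sites of the torus around `x`. -/
def tp (n : ℕ) (x : Tor n) : ℕ → ℕ → ℕ → Tor n :=
  fun a b c => x + ![(a : ZMod n), (b : ZMod n), (c : ZMod n)]

theorem natCast_inj_lt {n a b : ℕ} (ha : a < n) (hb : b < n) (h : (a : ZMod n) = (b : ZMod n)) :
    a = b := by
  have := (ZMod.natCast_eq_natCast_iff' a b n).mp h
  rwa [Nat.mod_eq_of_lt ha, Nat.mod_eq_of_lt hb] at this

theorem tp_inj {n : ℕ} (x : Tor n) {a b c a' b' c' : ℕ} (ha : a < n) (hb : b < n) (hc : c < n)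
    (ha' : a' < n) (hb' : b' < n) (hc' : c' < n) (h : tp n x a b c = tp n x a' b' c') :
    a = a' ∧ b = b' ∧ c = c' := by
  have h1 : (![(a : ZMod n), (b : ZMod n), (c : ZMod n)] : Tor n) =
      ![(a' : ZMod n), (b' : ZMod n), (c' : ZMod n)] := add_left_cancel h
  have e0 := congrFun h1 0
  have e1 := congrFun h1 1
  have e2 := congrFun h1 2
  simp at e0 e1 e2
  exact ⟨natCast_inj_lt ha ha' e0, natCast_inj_lt hb hb' e1, natCast_inj_lt hc hc' e2⟩

/-- Index box. -/
def box (l : ℕ) : Finset (ℕ × ℕ × ℕ) := range l ×ˢ range l ×ˢ range l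

theorem sum_box (l : ℕ) (f : ℕ → ℕ → ℕ → ℝ) :
    ∑ q ∈ box l, f q.1 q.2.1 q.2.2 = ∑ a ∈ range l, ∑ b ∈ range l, ∑ c ∈ range l, f a b c := by
  rw [box, sum_product]
  refine sum_congr rfl fun a _ => ?_
  rw [sum_product]

theorem cube_eq_image (n : ℕ) [NeZero n] (x : Tor n) (w : ℕ) :
    cube n x w = (box w).image fun q => tp n x q.1 q.2.1 q.2.2 := by
  ext z
  simp only [cube, mem_image, mem_univ, true_and, box, mem_product, mem_range, Prod.exists]
  constructor
  · rintro ⟨y, rfl⟩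
    refine ⟨y 0, y 1, y 2, ⟨(y 0).2, (y 1).2, (y 2).2⟩, ?_⟩
    rw [tp]
    congr 1
    ext i
    fin_cases i <;> rfl
  · rintro ⟨a, b, c, ⟨ha, hb, hc⟩, rfl⟩
    refine ⟨![⟨a, ha⟩, ⟨b, hb⟩, ⟨c, hc⟩], ?_⟩
    rw [tp]
    congr 1
    ext i
    fin_cases i <;> rfl

theorem tp_injOn {n : ℕ} (x : Tor n) {l : ℕ} (hl : l ≤ n) :
    Set.InjOn (fun q : ℕ × ℕ × ℕ => tp n x q.1 q.2.1 q.2.2) (box l) := by
  rintro ⟨a, b, c⟩ h ⟨a', b', c'⟩ h' he
  simp only [box, coe_product, coe_range, Set.mem_prod, Set.mem_Iio] at h h'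
  obtain ⟨h1, h2, h3⟩ := h
  obtain ⟨h1', h2', h3'⟩ := h'
  obtain ⟨e0, e1, e2⟩ := tp_inj x (h1.trans_le hl) (h2.trans_le hl) (h3.trans_le hl)
    (h1'.trans_le hl) (h2'.trans_le hl) (h3'.trans_le hl) he
  subst e0 e1 e2
  rfl

theorem card_cube {n : ℕ} [NeZero n] (x : Tor n) {l : ℕ} (hl : l ≤ n) :
    (cube n x l).card = l ^ 3 := by
  rw [cube_eq_image, card_image_of_injOn (tp_injOn x hl), box, card_product, card_product,
    card_range]
  ring

theorem sum_cube {n : ℕ} [NeZero n] (x : Tor n) {l : ℕ} (hl : l ≤ n) (f : Tor n → ℝ) :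
    ∑ z ∈ cube n x l, f z =
      ∑ a ∈ range l, ∑ b ∈ range l, ∑ c ∈ range l, f (tp n x a b c) := by
  rw [cube_eq_image, sum_image (tp_injOn x hl)]
  exact sum_box l fun a b c => f (tp n x a b c)

theorem pairSum_eq {n : ℕ} [NeZero n] (x : Tor n) {w : ℕ} (hw : w ≤ n)
    (F : Tor n → Tor n → ℝ) :
    ∑ z ∈ cube n x w, ∑ z' ∈ cube n x w, F z z' = pairSum (tp n x) F w := by
  rw [sum_cube x hw, pairSum]
  refine sum_congr rfl fun a _ => sum_congr rfl fun b _ => sum_congr rfl fun c _ => ?_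
  rw [sum_cube x hw]

theorem tp_shift (n : ℕ) (x : Tor n) (w u0 u1 u2 : ℕ) :
    tp n (x + fun i => ((w * (![u0, u1, u2] i) : ℕ) : ZMod n)) = shp (tp n x) w u0 u1 u2 := by
  funext a b c
  rw [shp, tp, tp, add_assoc]
  congr 1
  ext i
  fin_cases i <;> simp

/-- The index set of the edges of the torus. -/
theorem tp_succ0 (n : ℕ) (x : Tor n) (t b c : ℕ) :
    tp n x (t + 1) b c = tp n x t b c + Pi.single 0 1 := by
  rw [tp, tp, add_assoc]
  congr 1
  ext i
  fin_cases i <;> simp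

theorem tp_succ1 (n : ℕ) (x : Tor n) (a t c : ℕ) :
    tp n x a (t + 1) c = tp n x a t c + Pi.single 1 1 := by
  rw [tp, tp, add_assoc]
  congr 1
  ext i
  fin_cases i <;> simp

theorem tp_succ2 (n : ℕ) (x : Tor n) (a b t : ℕ) :
    tp n x a b (t + 1) = tp n x a b t + Pi.single 2 1 := by
  rw [tp, tp, add_assoc]
  congr 1
  ext i
  fin_cases i <;> simp

theorem mem_cube_iff {n : ℕ} [NeZero n] (x : Tor n) (l : ℕ) (z : Tor n) :
    z ∈ cube n x l ↔ ∃ a b c, a < l ∧ b < l ∧ c < l ∧ tp n x a b c = z := by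
  rw [cube_eq_image]
  simp only [mem_image, box, mem_product, mem_range, Prod.exists]
  constructor
  · rintro ⟨a, b, c, ⟨ha, hb, hc⟩, h⟩; exact ⟨a, b, c, ha, hb, hc, h⟩
  · rintro ⟨a, b, c, ha, hb, hc, h⟩; exact ⟨a, b, c, ⟨ha, hb, hc⟩, h⟩

theorem ed_le_aux {n : ℕ} [NeZero n] (x : Tor n) {l : ℕ} (hl : l ≤ n) (F : Tor n → Tor n → ℝ)
    (hF : ∀ x y, 0 ≤ F x y) (i : Fin 3) (s : Finset (ℕ × ℕ × ℕ)) (hs : s ⊆ box l)
    (hs' : ∀ q ∈ s, tp n x q.1 q.2.1 q.2.2 + Pi.single i 1 ∈ cube n x l) :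
    ∑ q ∈ s, F (tp n x q.1 q.2.1 q.2.2) (tp n x q.1 q.2.1 q.2.2 + Pi.single i 1) ≤
      ∑ z with (z ∈ cube n x l ∧ z + Pi.single i 1 ∈ cube n x l), F z (z + Pi.single i 1) := by
  have e : ∑ z ∈ s.image (fun q : ℕ × ℕ × ℕ => tp n x q.1 q.2.1 q.2.2),
      F z (z + Pi.single i 1) =
      ∑ q ∈ s, F (tp n x q.1 q.2.1 q.2.2) (tp n x q.1 q.2.1 q.2.2 + Pi.single i 1) :=
    sum_image ((tp_injOn x hl).mono (by exact_mod_cast hs))
  rw [← e]
  apply sum_le_sum_of_subset_of_nonneg
  · intro z hz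
    obtain ⟨q, hq, rfl⟩ := mem_image.mp hz
    rw [mem_filter]
    refine ⟨mem_univ _, ?_, hs' q hq⟩
    rw [cube_eq_image]
    exact mem_image_of_mem (fun q : ℕ × ℕ × ℕ => tp n x q.1 q.2.1 q.2.2) (hs hq)
  · intro z _ _; exact hF _ _

/-- The nearest neighbour sum of the parametrised cube is a sum over edges inside the cube. -/
theorem edgeSum_le {n : ℕ} [NeZero n] (x : Tor n) {l : ℕ} (hl : l ≤ n) (F : Tor n → Tor n → ℝ)
    (hF : ∀ x y, 0 ≤ F x y) :
    edgeSum (tp n x) F l ≤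
      ∑ e : Tor n × Fin 3 with (e.1 ∈ cube n x l ∧ e.1 + Pi.single e.2 1 ∈ cube n x l),
        F e.1 (e.1 + Pi.single e.2 1) := by
  have h0 : ed0 (tp n x) F l ≤
      ∑ z with (z ∈ cube n x l ∧ z + Pi.single 0 1 ∈ cube n x l), F z (z + Pi.single 0 1) := by
    have := ed_le_aux x hl F hF 0 (range (l - 1) ×ˢ range l ×ˢ range l) (by
      intro q hq
      simp only [box, mem_product, mem_range] at hq ⊢
      omega) (by
      intro q hq
      simp only [mem_product, mem_range] at hq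
      rw [mem_cube_iff]
      exact ⟨q.1 + 1, q.2.1, q.2.2, by omega, hq.2.1, hq.2.2, tp_succ0 _ _ _ _ _⟩)
    refine le_trans (le_of_eq ?_) this
    rw [sum_product]
    unfold ed0
    refine sum_congr rfl fun a _ => ?_
    rw [sum_product]
    refine sum_congr rfl fun b _ => sum_congr rfl fun c _ => ?_
    rw [tp_succ0]
  have h1 : ed1 (tp n x) F l ≤
      ∑ z with (z ∈ cube n x l ∧ z + Pi.single 1 1 ∈ cube n x l), F z (z + Pi.single 1 1) := by
    have := ed_le_aux x hl F hF 1 (range l ×ˢ range (l - 1) ×ˢ range l) (by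
      intro q hq
      simp only [box, mem_product, mem_range] at hq ⊢
      omega) (by
      intro q hq
      simp only [mem_product, mem_range] at hq
      rw [mem_cube_iff]
      exact ⟨q.1, q.2.1 + 1, q.2.2, hq.1, by omega, hq.2.2, tp_succ1 _ _ _ _ _⟩)
    refine le_trans (le_of_eq ?_) this
    rw [sum_product]
    unfold ed1
    refine sum_congr rfl fun a _ => ?_
    rw [sum_product]
    refine sum_congr rfl fun b _ => sum_congr rfl fun c _ => ?_
    rw [tp_succ1]
  have h2 : ed2 (tp n x) F l ≤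
      ∑ z with (z ∈ cube n x l ∧ z + Pi.single 2 1 ∈ cube n x l), F z (z + Pi.single 2 1) := by
    have := ed_le_aux x hl F hF 2 (range l ×ˢ range l ×ˢ range (l - 1)) (by
      intro q hq
      simp only [box, mem_product, mem_range] at hq ⊢
      omega) (by
      intro q hq
      simp only [mem_product, mem_range] at hq
      rw [mem_cube_iff]
      exact ⟨q.1, q.2.1, q.2.2 + 1, hq.1, hq.2.1, by omega, tp_succ2 _ _ _ _ _⟩)
    refine le_trans (le_of_eq ?_) this
    rw [sum_product]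
    unfold ed2
    refine sum_congr rfl fun a _ => ?_
    rw [sum_product]
    refine sum_congr rfl fun b _ => sum_congr rfl fun c _ => ?_
    rw [tp_succ2]
  have h3 : ∑ e : Tor n × Fin 3 with (e.1 ∈ cube n x l ∧ e.1 + Pi.single e.2 1 ∈ cube n x l),
        F e.1 (e.1 + Pi.single e.2 1) =
      ∑ i : Fin 3, ∑ z with (z ∈ cube n x l ∧ z + Pi.single i 1 ∈ cube n x l),
        F z (z + Pi.single i 1) := by
    rw [sum_filter, Fintype.sum_prod_type_right]
    refine sum_congr rfl fun i _ => ?_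
    rw [sum_filter]
  rw [h3, Fin.sum_univ_three, edgeSum]
  linarith

end

end Vale.Agent.P361.LRO.EnR
end

section

/-!
P361, low-temperature order, block LOC (4), part (b): expansion of the law of a product of
independent random transpositions over the gates touching a window `B`.
-/

namespace Vale.Agent.P361.LRO.Loc

open Finset

variable {X : Type} [DecidableEq X]

/-- Expectation under `law l σ`, recursive form. -/
noncomputable def EL (σ : Equiv.Perm X) : List (X × X × ℝ) → (Equiv.Perm X → ℝ) → ℝ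
  | [], f => f σ
  | g :: l, f => (1 - g.2.2) * EL σ l f +
      g.2.2 * EL σ l (fun π => f (Equiv.swap g.1 g.2.1 * π))

theorem sum_law [Fintype X] (σ : Equiv.Perm X) (l : List (X × X × ℝ)) (f : Equiv.Perm X → ℝ) :
    ∑ π, law l σ π * f π = EL σ l f := by
  induction l generalizing f with
  | nil => simp [law, EL, Pi.single_apply]
  | cons g l ih =>
    have h1 : ∑ π, law l σ (Equiv.swap g.1 g.2.1 * π) * f π =
        ∑ π, law l σ π * f (Equiv.swap g.1 g.2.1 * π) := by
      rw [← Equiv.sum_comp (Equiv.mulLeft (Equiv.swap g.1 g.2.1))]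
      refine Finset.sum_congr rfl fun π _ => ?_
      simp [← mul_assoc]
    simp only [law, EL]
    rw [← ih, ← ih, ← h1]
    simp only [add_mul, Finset.sum_add_distrib, Finset.mul_sum, mul_assoc]

/-- All gate probabilities are in `[0, 1]`. -/
def Pr (l : List (X × X × ℝ)) : Prop := ∀ g ∈ l, 0 ≤ g.2.2 ∧ g.2.2 ≤ 1

omit [DecidableEq X] in
theorem Pr.head {g : X × X × ℝ} {l : List (X × X × ℝ)} (h : Pr (g :: l)) :
    0 ≤ g.2.2 ∧ g.2.2 ≤ 1 := h g (by simp)

omit [DecidableEq X] in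
theorem Pr.tail {g : X × X × ℝ} {l : List (X × X × ℝ)} (h : Pr (g :: l)) : Pr l :=
  fun g' hg' => h g' (by simp [hg'])

theorem EL_mono (σ : Equiv.Perm X) {l : List (X × X × ℝ)} (hl : Pr l) {f f' : Equiv.Perm X → ℝ}
    (h : ∀ π, f π ≤ f' π) : EL σ l f ≤ EL σ l f' := by
  induction l generalizing f f' with
  | nil => exact h σ
  | cons g l ih =>
    have hp := hl.head
    simp only [EL]
    exact add_le_add (mul_le_mul_of_nonneg_left (ih hl.tail h) (by linarith [hp.2]))
      (mul_le_mul_of_nonneg_left (ih hl.tail fun π => h _) hp.1)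

theorem EL_const_mul (σ : Equiv.Perm X) (l : List (X × X × ℝ)) (c : ℝ) (f : Equiv.Perm X → ℝ) :
    EL σ l (fun π => c * f π) = c * EL σ l f := by
  induction l generalizing f with
  | nil => rfl
  | cons g l ih =>
    simp only [EL]
    rw [ih, ih (fun π => f (Equiv.swap g.1 g.2.1 * π))]
    ring

theorem EL_nonneg (σ : Equiv.Perm X) {l : List (X × X × ℝ)} (hl : Pr l) {f : Equiv.Perm X → ℝ}
    (h : ∀ π, 0 ≤ f π) : 0 ≤ EL σ l f := by
  induction l generalizing f with
  | nil => exact h σ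
  | cons g l ih =>
    have hp := hl.head
    simp only [EL]
    exact add_nonneg (mul_nonneg (by linarith [hp.2]) (ih hl.tail h))
      (mul_nonneg hp.1 (ih hl.tail fun π => h _))

/-- The gate touches the window. -/
def Bad (B : Finset X) (g : X × X × ℝ) : Prop := g.1 ∈ B ∨ g.2.1 ∈ B

instance (B : Finset X) : DecidablePred (Bad B) := fun g => by unfold Bad; infer_instance

/-- All gates touching the window are closed. -/
noncomputable def E0 (σ : Equiv.Perm X) (B : Finset X) :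
    List (X × X × ℝ) → (Equiv.Perm X → ℝ) → ℝ
  | [], f => f σ
  | g :: l, f => (1 - g.2.2) * E0 σ B l f +
      if Bad B g then 0 else g.2.2 * E0 σ B l (fun π => f (Equiv.swap g.1 g.2.1 * π))

/-- Exactly one gate touching the window is open, and it is good. -/
noncomputable def E1 (σ : Equiv.Perm X) (B : Finset X) (good : X × X × ℝ → Prop)
    [DecidablePred good] : List (X × X × ℝ) → (Equiv.Perm X → ℝ) → ℝ
  | [], _ => 0
  | g :: l, f => (1 - g.2.2) * E1 σ B good l f +
      if Bad B g then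
        (if good g then g.2.2 * E0 σ B l (fun π => f (Equiv.swap g.1 g.2.1 * π)) else 0)
      else g.2.2 * E1 σ B good l (fun π => f (Equiv.swap g.1 g.2.1 * π))

/-- `π` follows `σ` in the window. -/
def Agr (σ : Equiv.Perm X) (B : Finset X) (π : Equiv.Perm X) : Prop := ∀ z, σ z ∈ B → π z = σ z

theorem Agr.swap {σ : Equiv.Perm X} {B : Finset X} {π : Equiv.Perm X} (h : Agr σ B π)
    {g : X × X × ℝ} (hg : ¬ Bad B g) : Agr σ B (Equiv.swap g.1 g.2.1 * π) := by
  intro z hz
  unfold Bad at hg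
  push Not at hg
  rw [Equiv.Perm.mul_apply, h z hz]
  apply Equiv.swap_apply_of_ne_of_ne
  · intro h1; exact hg.1 (h1 ▸ hz)
  · intro h1; exact hg.2 (h1 ▸ hz)

theorem E0_mono_on (σ : Equiv.Perm X) (B : Finset X) {l : List (X × X × ℝ)} (hl : Pr l)
    {f f' : Equiv.Perm X → ℝ} (h : ∀ π, Agr σ B π → f π ≤ f' π) : E0 σ B l f ≤ E0 σ B l f' := by
  induction l generalizing f f' with
  | nil => exact h σ fun z _ => rfl
  | cons g l ih =>
    have hp := hl.head
    simp only [E0]
    refine add_le_add (mul_le_mul_of_nonneg_left (ih hl.tail h) (by linarith [hp.2])) ?_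
    split_ifs with hb
    · exact le_rfl
    · exact mul_le_mul_of_nonneg_left (ih hl.tail fun π hπ => h _ (hπ.swap hb)) hp.1

theorem E0_const_mul (σ : Equiv.Perm X) (B : Finset X) (l : List (X × X × ℝ)) (c : ℝ)
    (f : Equiv.Perm X → ℝ) : E0 σ B l (fun π => c * f π) = c * E0 σ B l f := by
  induction l generalizing f with
  | nil => rfl
  | cons g l ih =>
    simp only [E0]
    rw [ih, ih (fun π => f (Equiv.swap g.1 g.2.1 * π))]
    split_ifs <;> ring

theorem E0_nonneg (σ : Equiv.Perm X) (B : Finset X) {l : List (X × X × ℝ)} (hl : Pr l)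
    {f : Equiv.Perm X → ℝ} (h : ∀ π, 0 ≤ f π) : 0 ≤ E0 σ B l f := by
  have h1 := E0_mono_on σ B hl (f := fun _ => 0 * 0) (f' := f) (fun π _ => by simpa using h π)
  rw [E0_const_mul σ B l 0 (fun _ => 0)] at h1
  simpa using h1

theorem E0_le_EL (σ : Equiv.Perm X) (B : Finset X) {l : List (X × X × ℝ)} (hl : Pr l)
    {f : Equiv.Perm X → ℝ} (h : ∀ π, 0 ≤ f π) : E0 σ B l f ≤ EL σ l f := by
  induction l generalizing f with
  | nil => exact le_rfl
  | cons g l ih =>
    have hp := hl.head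
    simp only [E0, EL]
    refine add_le_add (mul_le_mul_of_nonneg_left (ih hl.tail h) (by linarith [hp.2])) ?_
    split_ifs with hb
    · exact mul_nonneg hp.1 (EL_nonneg σ hl.tail fun π => h _)
    · exact mul_le_mul_of_nonneg_left (ih hl.tail fun π => h _) hp.1

theorem E1_le_EL (σ : Equiv.Perm X) (B : Finset X) (good : X × X × ℝ → Prop)
    [DecidablePred good] {l : List (X × X × ℝ)} (hl : Pr l)
    {f : Equiv.Perm X → ℝ} (h : ∀ π, 0 ≤ f π) : E1 σ B good l f ≤ EL σ l f := by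
  induction l generalizing f with
  | nil => exact h σ
  | cons g l ih =>
    have hp := hl.head
    simp only [E1, EL]
    refine add_le_add (mul_le_mul_of_nonneg_left (ih hl.tail h) (by linarith [hp.2])) ?_
    split_ifs with hb hg
    · exact mul_le_mul_of_nonneg_left (E0_le_EL σ B hl.tail fun π => h _) hp.1
    · exact mul_nonneg hp.1 (EL_nonneg σ hl.tail fun π => h _)
    · exact mul_le_mul_of_nonneg_left (ih hl.tail fun π => h _) hp.1

/-- Doubling class: one transposition changes `F` by at most a factor `2`. -/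
def Dbl (F : Equiv.Perm X → ℝ) : Prop :=
  (∀ π, 0 ≤ F π) ∧ ∀ a b π, F (Equiv.swap a b * π) ≤ 2 * F π

theorem Dbl.swap {F : Equiv.Perm X → ℝ} (h : Dbl F) (c d : X) :
    Dbl (fun π => F (Equiv.swap c d * π)) := by
  refine ⟨fun π => h.1 _, fun a b π => ?_⟩
  have h1 : Equiv.swap c d * (Equiv.swap a b * π) =
      Equiv.swap (Equiv.swap c d a) (Equiv.swap c d b) * (Equiv.swap c d * π) := by
    rw [Equiv.swap_apply_apply, ← mul_assoc, ← mul_assoc]
    simp [mul_assoc]
  show F (Equiv.swap c d * (Equiv.swap a b * π)) ≤ 2 * F (Equiv.swap c d * π)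
  rw [h1]
  exact h.2 _ _ _

/-- `∏ (1 - p) / (1 + p)` over the gates touching the window. -/
noncomputable def DD (B : Finset X) (l : List (X × X × ℝ)) : ℝ :=
  (l.map fun g => if Bad B g then (1 - g.2.2) / (1 + g.2.2) else 1).prod

theorem DD_cons (B : Finset X) (g : X × X × ℝ) (l : List (X × X × ℝ)) :
    DD B (g :: l) = (if Bad B g then (1 - g.2.2) / (1 + g.2.2) else 1) * DD B l := by
  simp [DD]

theorem DD_nonneg (B : Finset X) {l : List (X × X × ℝ)} (hl : Pr l) : 0 ≤ DD B l := by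
  induction l with
  | nil => simp [DD]
  | cons g l ih =>
    have hp := hl.head
    rw [DD_cons]
    refine mul_nonneg ?_ (ih hl.tail)
    split_ifs
    · exact div_nonneg (by linarith [hp.2]) (by linarith [hp.1])
    · exact zero_le_one

theorem DD_mul_EL_le (σ : Equiv.Perm X) (B : Finset X) {l : List (X × X × ℝ)} (hl : Pr l)
    {F : Equiv.Perm X → ℝ} (hF : Dbl F) : DD B l * EL σ l F ≤ E0 σ B l F := by
  induction l generalizing F with
  | nil => simp [DD, EL, E0]
  | cons g l ih =>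
    have hp := hl.head
    have hD := DD_nonneg B hl.tail
    have h1 := ih hl.tail hF
    rw [DD_cons]
    simp only [EL, E0]
    split_ifs with hb
    · have h2 : EL σ l (fun π => F (Equiv.swap g.1 g.2.1 * π)) ≤ 2 * EL σ l F := by
        rw [← EL_const_mul]
        exact EL_mono σ hl.tail fun π => hF.2 _ _ _
      have h3 : (1 - g.2.2) * EL σ l F +
          g.2.2 * EL σ l (fun π => F (Equiv.swap g.1 g.2.1 * π)) ≤ (1 + g.2.2) * EL σ l F := by
        nlinarith [mul_le_mul_of_nonneg_left h2 hp.1]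
      have h4 : (0 : ℝ) < 1 + g.2.2 := by linarith [hp.1]
      calc (1 - g.2.2) / (1 + g.2.2) * DD B l * ((1 - g.2.2) * EL σ l F +
            g.2.2 * EL σ l (fun π => F (Equiv.swap g.1 g.2.1 * π)))
          ≤ (1 - g.2.2) / (1 + g.2.2) * DD B l * ((1 + g.2.2) * EL σ l F) :=
            mul_le_mul_of_nonneg_left h3
              (mul_nonneg (div_nonneg (by linarith [hp.2]) h4.le) hD)
        _ = (1 - g.2.2) * (DD B l * EL σ l F) := by field_simp
        _ ≤ (1 - g.2.2) * E0 σ B l F := mul_le_mul_of_nonneg_left h1 (by linarith [hp.2])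
        _ = (1 - g.2.2) * E0 σ B l F + 0 := by ring
    · have h2 := ih hl.tail (hF.swap g.1 g.2.1)
      have h5 := mul_le_mul_of_nonneg_left h1 (by linarith [hp.2] : 0 ≤ 1 - g.2.2)
      have h6 := mul_le_mul_of_nonneg_left h2 hp.1
      linarith [h5, h6, mul_add (DD B l) ((1 - g.2.2) * EL σ l F)
        (g.2.2 * EL σ l (fun π => F (Equiv.swap g.1 g.2.1 * π)))]

/-- **(b1)** -/
theorem EL_ge_of_agr (σ : Equiv.Perm X) (B : Finset X) {l : List (X × X × ℝ)} (hl : Pr l)
    {f F : Equiv.Perm X → ℝ} (hf : ∀ π, 0 ≤ f π) (hF : Dbl F) {c : ℝ} (hc : 0 ≤ c)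
    (h : ∀ π, Agr σ B π → c * F π ≤ f π) : c * DD B l * EL σ l F ≤ EL σ l f := by
  calc c * DD B l * EL σ l F = c * (DD B l * EL σ l F) := by ring
    _ ≤ c * E0 σ B l F := mul_le_mul_of_nonneg_left (DD_mul_EL_le σ B hl hF) hc
    _ = E0 σ B l (fun π => c * F π) := (E0_const_mul σ B l c F).symm
    _ ≤ E0 σ B l f := E0_mono_on σ B hl h
    _ ≤ EL σ l f := E0_le_EL σ B hl hf

/-- Sum of the probabilities of the good gates. -/
noncomputable def GG (B : Finset X) (good : X × X × ℝ → Prop) [DecidablePred good]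
    (l : List (X × X × ℝ)) : ℝ :=
  (l.map fun g => if Bad B g ∧ good g then g.2.2 else 0).sum

theorem GG_cons (B : Finset X) (good : X × X × ℝ → Prop) [DecidablePred good]
    (g : X × X × ℝ) (l : List (X × X × ℝ)) :
    GG B good (g :: l) = (if Bad B g ∧ good g then g.2.2 else 0) + GG B good l := by
  simp [GG]

theorem GG_nonneg (B : Finset X) (good : X × X × ℝ → Prop) [DecidablePred good]
    {l : List (X × X × ℝ)} (hl : Pr l) : 0 ≤ GG B good l := by
  induction l with
  | nil => simp [GG]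
  | cons g l ih =>
    have hp := hl.head
    rw [GG_cons]
    refine add_nonneg ?_ (ih hl.tail)
    split_ifs
    · exact hp.1
    · exact le_rfl

theorem swap_comm_of {B : Finset X} {g h : X × X × ℝ} (hg : g.1 ∈ B ∧ g.2.1 ∈ B)
    (hh : ¬ Bad B h) (π : Equiv.Perm X) :
    Equiv.swap h.1 h.2.1 * (Equiv.swap g.1 g.2.1 * π) =
      Equiv.swap g.1 g.2.1 * (Equiv.swap h.1 h.2.1 * π) := by
  unfold Bad at hh
  push Not at hh
  have h1 : g.1 ≠ h.1 := by rintro h1; exact hh.1 (h1 ▸ hg.1)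
  have h2 : g.1 ≠ h.2.1 := by rintro h1; exact hh.2 (h1 ▸ hg.1)
  have h3 : g.2.1 ≠ h.1 := by rintro h1; exact hh.1 (h1 ▸ hg.2)
  have h4 : g.2.1 ≠ h.2.1 := by rintro h1; exact hh.2 (h1 ▸ hg.2)
  have h5 : Equiv.swap h.1 h.2.1 * Equiv.swap g.1 g.2.1 =
      Equiv.swap (Equiv.swap h.1 h.2.1 g.1) (Equiv.swap h.1 h.2.1 g.2.1) *
        Equiv.swap h.1 h.2.1 := by
    rw [Equiv.swap_apply_apply]
    simp [mul_assoc]
  rw [← mul_assoc, ← mul_assoc, h5, Equiv.swap_apply_of_ne_of_ne h1 h2,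
    Equiv.swap_apply_of_ne_of_ne h3 h4]

theorem E1_ge (σ : Equiv.Perm X) (B : Finset X) (good : X × X × ℝ → Prop)
    [DecidablePred good] (hgood : ∀ g, good g → g.1 ∈ B ∧ g.2.1 ∈ B)
    {l : List (X × X × ℝ)} (hl : Pr l)
    {f F : Equiv.Perm X → ℝ} (hF : ∀ π, 0 ≤ F π) {c : ℝ} (hc : 0 ≤ c)
    (h : ∀ g ∈ l, good g → ∀ π, Agr σ B π → c * F π ≤ f (Equiv.swap g.1 g.2.1 * π)) :
    c * GG B good l * E0 σ B l F ≤ E1 σ B good l f := by
  induction l generalizing f F with
  | nil => simp [GG, E1]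
  | cons g l ih =>
    have hp := hl.head
    have hG := GG_nonneg B good hl.tail
    have h0 := E0_nonneg σ B hl.tail hF
    have h1 := ih hl.tail hF fun g' hg' => h g' (by simp [hg'])
    have hp1 : 0 ≤ 1 - g.2.2 := by linarith [hp.2]
    rw [GG_cons]
    simp only [E1, E0]
    by_cases hb : Bad B g
    · by_cases hgd : good g
      · simp only [hb, hgd, and_self, if_true, add_zero]
        have h2 : c * E0 σ B l F ≤ E0 σ B l (fun π => f (Equiv.swap g.1 g.2.1 * π)) := by
          rw [← E0_const_mul]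
          exact E0_mono_on σ B hl.tail (h g (by simp) hgd)
        have h3 := mul_le_mul_of_nonneg_left h1 hp1
        have h4 := mul_le_mul_of_nonneg_left h2 hp.1
        have h5 : 0 ≤ c * E0 σ B l F := mul_nonneg hc h0
        nlinarith [mul_nonneg (mul_nonneg hp.1 hp.1) h5]
      · simp only [hb, hgd, and_false, if_true, if_false, add_zero, zero_add]
        have h3 := mul_le_mul_of_nonneg_left h1 hp1
        linarith
    · simp only [hb, false_and, if_false, zero_add]
      have h2 := ih (f := fun π => f (Equiv.swap g.1 g.2.1 * π))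
        (F := fun π => F (Equiv.swap g.1 g.2.1 * π)) hl.tail (fun π => hF _)
        (fun g' hg' hgd π hπ => by
          rw [swap_comm_of (hgood g' hgd) hb]
          exact h g' (by simp [hg']) hgd _ (hπ.swap hb))
      have h3 := mul_le_mul_of_nonneg_left h1 hp1
      have h4 := mul_le_mul_of_nonneg_left h2 hp.1
      linarith [mul_add (c * GG B good l) ((1 - g.2.2) * E0 σ B l F)
        (g.2.2 * E0 σ B l (fun π => F (Equiv.swap g.1 g.2.1 * π)))]

/-- **(b2)** -/
theorem EL_ge_of_swap (σ : Equiv.Perm X) (B : Finset X) (good : X × X × ℝ → Prop)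
    [DecidablePred good] (hgood : ∀ g, good g → g.1 ∈ B ∧ g.2.1 ∈ B)
    {l : List (X × X × ℝ)} (hl : Pr l)
    {f F : Equiv.Perm X → ℝ} (hf : ∀ π, 0 ≤ f π) (hF : Dbl F) {c : ℝ} (hc : 0 ≤ c)
    (h : ∀ g ∈ l, good g → ∀ π, Agr σ B π → c * F π ≤ f (Equiv.swap g.1 g.2.1 * π)) :
    c * GG B good l * DD B l * EL σ l F ≤ EL σ l f := by
  calc c * GG B good l * DD B l * EL σ l F = c * GG B good l * (DD B l * EL σ l F) := by ring
    _ ≤ c * GG B good l * E0 σ B l F :=
        mul_le_mul_of_nonneg_left (DD_mul_EL_le σ B hl hF) (mul_nonneg hc (GG_nonneg B good hl))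
    _ ≤ E1 σ B good l f := E1_ge σ B good hgood hl hF.1 hc h
    _ ≤ EL σ l f := E1_le_EL σ B good hl hf

end Vale.Agent.P361.LRO.Loc
end

section

/-!
P361, low-temperature order, block LOC (4), part A: Fourier transform on the cycles.
-/

namespace Vale.Agent.P361.LRO.Loc

open Finset Vale.Agent.P361.LRO

noncomputable section

variable {X : Type} [Fintype X] [DecidableEq X]

/-- Characters of `Fin 2`. -/
def ch (t a : Fin 2) : ℝ := if t = 1 ∧ a = 1 then -1 else 1

theorem sum_ch (t t' : Fin 2) : ∑ a : Fin 2, ch t a * ch t' a = if t = t' then 2 else 0 := by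
  fin_cases t <;> fin_cases t' <;> simp [ch, Fin.sum_univ_two] <;> norm_num

theorem fourier_gen (π : Equiv.Perm X) (c : X → Fin 2 → ℝ) (e : X → Fin 2 → Fin 2) :
    ∑ s : X → Fin 2, ∏ x, (1 / 2 * ∑ t, c x t * (ch t (s x) * ch (e x t) (s (π x)))) =
      ∑ t : X → Fin 2, if (∀ x, t (π x) = e x (t x)) then ∏ x, c x (t x) else 0 := by
  have h1 : ∀ s : X → Fin 2,
      ∏ x, (1 / 2 * ∑ t, c x t * (ch t (s x) * ch (e x t) (s (π x)))) =
        ∑ t : X → Fin 2, (∏ x, c x (t x)) * ∏ x, (1 / 2 * (ch (t x) (s x) *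
          ch (e (π.symm x) (t (π.symm x))) (s x))) := by
    intro s
    simp_rw [Finset.mul_sum]
    rw [Finset.prod_univ_sum, Fintype.piFinset_univ]
    refine Finset.sum_congr rfl fun t _ => ?_
    have h2 : ∏ x, ch (e (π.symm x) (t (π.symm x))) (s x) = ∏ x, ch (e x (t x)) (s (π x)) := by
      rw [← Equiv.prod_comp π]
      simp
    simp only [Finset.prod_mul_distrib]
    rw [h2]
    ring
  rw [Finset.sum_congr rfl fun s _ => h1 s, Finset.sum_comm]
  refine Finset.sum_congr rfl fun t _ => ?_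
  rw [← Finset.mul_sum]
  have h3 : ∑ s : X → Fin 2, ∏ x, (1 / 2 * (ch (t x) (s x) *
      ch (e (π.symm x) (t (π.symm x))) (s x))) =
      ∏ x, (1 / 2 * ∑ a : Fin 2, (ch (t x) a * ch (e (π.symm x) (t (π.symm x))) a)) := by
    simp_rw [Finset.mul_sum]
    rw [Finset.prod_univ_sum, Fintype.piFinset_univ]
  rw [h3]
  simp_rw [sum_ch]
  by_cases h : ∀ x, t (π x) = e x (t x)
  · rw [if_pos h]
    have h4 : ∀ x, t x = e (π.symm x) (t (π.symm x)) := fun x => by
      rw [← h]; simp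
    rw [Finset.prod_eq_one (s := Finset.univ)
      (f := fun x => 1 / 2 * if t x = e (π.symm x) (t (π.symm x)) then (2 : ℝ) else 0)]
    · ring
    · intro x _
      rw [if_pos (h4 x)]
      norm_num
  · rw [if_neg h]
    push Not at h
    obtain ⟨x, hx⟩ := h
    have hz : ∏ x, (1 / 2 * if t x = e (π.symm x) (t (π.symm x)) then (2 : ℝ) else 0) = 0 := by
      refine Finset.prod_eq_zero (Finset.mem_univ (π x)) ?_
      have : ¬ (t (π x) = e (π.symm (π x)) (t (π.symm (π x)))) := by simpa using hx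
      rw [if_neg this]
      ring
    rw [hz, mul_zero]

theorem fourierStmt : FourierStmt := by
  intro X _ _ π θ
  refine ⟨?_, ?_, ?_⟩
  · have h := fourier_gen π (fun x t => 1 + θ x * sg t) (fun _ t => t)
    unfold Zp
    rw [← h]
    refine Finset.sum_congr rfl fun s _ => ?_
    unfold wt
    refine Finset.prod_congr rfl fun x _ => ?_
    generalize s x = a
    generalize s (π x) = b
    fin_cases a <;> fin_cases b <;> simp [ch, sg, Fin.sum_univ_two] <;> ring
  · intro u v huv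
    have h := fourier_gen π
      (fun x t => if x = u ∨ x = v then θ x * sg t else 1 + θ x * sg t)
      (fun x t => if x = u ∨ x = v then 1 - t else t)
    have h1 : ∀ s : X → Fin 2, wt θ π s * (jj π s u * jj π s v) =
        ∏ x, (1 / 2 * ∑ t, (if x = u ∨ x = v then θ x * sg t else 1 + θ x * sg t) *
          (ch t (s x) * ch (if x = u ∨ x = v then 1 - t else t) (s (π x)))) := by
      intro s
      have h2 : jj π s u * jj π s v =
          ∏ x, if x = u ∨ x = v then jj π s x else 1 := by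
        rw [Finset.prod_ite, Finset.prod_const_one, mul_one]
        have : Finset.univ.filter (fun x => x = u ∨ x = v) = {u, v} := by
          ext x; simp
        rw [this, Finset.prod_pair huv]
      rw [h2]
      unfold wt
      rw [← Finset.prod_mul_distrib]
      refine Finset.prod_congr rfl fun x _ => ?_
      unfold jj
      generalize s x = a
      generalize s (π x) = b
      by_cases hx : x = u ∨ x = v
      · simp only [hx, if_true]
        fin_cases a <;> fin_cases b <;> simp [ch, sg, Fin.sum_univ_two] <;> ring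
      · simp only [hx, if_false]
        fin_cases a <;> fin_cases b <;> simp [ch, sg, Fin.sum_univ_two] <;> ring
    rw [Finset.sum_congr rfl fun s _ => h1 s, h]
    unfold Zf
    rw [Finset.mul_sum, ← Finset.sum_neg_distrib]
    refine Finset.sum_congr rfl fun t _ => ?_
    have hc : (∀ x, t (π x) = if x = u ∨ x = v then 1 - t x else t x) ↔
        (∀ x, (t (π x) = t x ↔ (x ≠ u ∧ x ≠ v))) := by
      refine forall_congr' fun x => ?_
      by_cases hx : x = u ∨ x = v
      · have hx' : ¬ (x ≠ u ∧ x ≠ v) := by tauto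
        simp only [hx, if_true, hx', iff_false]
        generalize t x = a
        generalize t (π x) = b
        fin_cases a <;> fin_cases b <;> simp
      · have hx' : (x ≠ u ∧ x ≠ v) := by tauto
        simp [hx']
    by_cases hq : ∀ x, (t (π x) = t x ↔ (x ≠ u ∧ x ≠ v))
    · rw [if_pos (hc.2 hq), if_pos hq]
      -- the spins at `u` and `v` are opposite
      have hne : t u ≠ t v := by
        intro huv'
        have hA : ∀ x, t x ≠ t u → t (π x) ≠ t u := by
          intro x hx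
          have : x ≠ u ∧ x ≠ v := ⟨by rintro rfl; exact hx rfl, by rintro rfl; exact hx huv'.symm⟩
          rw [(hq x).2 this]
          exact hx
        have hmap : (Finset.univ.filter fun x => t x ≠ t u).map π.toEmbedding =
            Finset.univ.filter fun x => t x ≠ t u := by
          apply Finset.eq_of_subset_of_card_le
          · intro y hy
            simp only [Finset.mem_map, Finset.mem_filter, Finset.mem_univ, true_and] at hy ⊢
            obtain ⟨x, hx, rfl⟩ := hy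
            exact hA x hx
          · simp
        have h5 : t (π u) ≠ t u := by
          intro h6
          exact ((hq u).1 h6).1 rfl
        have h6 : π u ∈ Finset.univ.filter fun x => t x ≠ t u := by simpa using h5
        rw [← hmap] at h6
        simp at h6
      have hs : sg (t u) * sg (t v) = -1 := by
        revert hne
        generalize t u = a
        generalize t v = b
        fin_cases a <;> fin_cases b <;> simp [sg]
      have h7 : ∀ x, (if x = u ∨ x = v then θ x * sg (t x) else 1 + θ x * sg (t x)) =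
          (if x = u ∨ x = v then θ x * sg (t x) else 1) *
            (if x = u ∨ x = v then 1 else 1 + θ x * sg (t x)) := by
        intro x
        split_ifs <;> ring
      rw [Finset.prod_congr rfl fun x _ => h7 x, Finset.prod_mul_distrib]
      have h8 : ∏ x, (if x = u ∨ x = v then θ x * sg (t x) else 1) =
          (θ u * sg (t u)) * (θ v * sg (t v)) := by
        rw [Finset.prod_ite, Finset.prod_const_one, mul_one]
        have : Finset.univ.filter (fun x => x = u ∨ x = v) = {u, v} := by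
          ext x; simp
        rw [this, Finset.prod_pair huv]
      rw [h8]
      have h9 : θ u * sg (t u) * (θ v * sg (t v)) = θ u * θ v * (sg (t u) * sg (t v)) := by ring
      rw [h9, hs]
      ring
    · rw [if_neg (fun h10 => hq (hc.1 h10)), if_neg hq]
      ring
  · intro u
    have h := fourier_gen π (fun x t => if x = u then θ x * sg t else 1 + θ x * sg t)
      (fun _ t => t)
    have h1 : ∀ s : X → Fin 2, (if s u = s (π u) then 0 else wt θ π s) =
        ∏ x, (1 / 2 * ∑ t, (if x = u then θ x * sg t else 1 + θ x * sg t) *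
          (ch t (s x) * ch t (s (π x)))) := by
      intro s
      have h2 : (if s u = s (π u) then 0 else wt θ π s) =
          ∏ x, if x = u then (if s x = s (π x) then 0 else θ x) else
            (if s x = s (π x) then 1 else θ x) := by
        split_ifs with h0
        · rw [Finset.prod_eq_zero (Finset.mem_univ u)]
          simp [h0]
        · unfold wt
          refine Finset.prod_congr rfl fun x _ => ?_
          by_cases hx : x = u
          · subst hx
            simp [h0]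
          · simp [hx]
      rw [h2]
      refine Finset.prod_congr rfl fun x _ => ?_
      generalize s x = a
      generalize s (π x) = b
      by_cases hx : x = u
      · simp only [hx, if_true]
        fin_cases a <;> fin_cases b <;> simp [ch, sg, Fin.sum_univ_two] <;> ring
      · simp only [hx, if_false]
        fin_cases a <;> fin_cases b <;> simp [ch, sg, Fin.sum_univ_two] <;> ring
    rw [Finset.sum_congr rfl fun s _ => h1 s, h, Finset.mul_sum]
    refine Finset.sum_congr rfl fun t _ => ?_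
    by_cases hq : ∀ x, t (π x) = t x
    · rw [if_pos hq, if_pos hq]
      have h7 : ∀ x, (if x = u then θ x * sg (t x) else 1 + θ x * sg (t x)) =
          (if x = u then θ x else 1) * (if x = u then sg (t x) else 1 + θ x * sg (t x)) := by
        intro x
        split_ifs <;> ring
      rw [Finset.prod_congr rfl fun x _ => h7 x, Finset.prod_mul_distrib]
      simp
    · rw [if_neg hq, if_neg hq]
      ring

end

end Vale.Agent.P361.LRO.Loc
end

section

/-!
P361 LRO, block (4): strand geometry of the physical circuit.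
-/

namespace Vale.Agent.P361.LRO.Loc.Geo

open Finset Vale.Agent.P361.LRO

noncomputable section

variable {X : Type} [Fintype X] [DecidableEq X]

lemma law_cons (g : X × X × ℝ) (l : List (X × X × ℝ)) (σ π : Equiv.Perm X) :
    law (g :: l) σ π = (1 - g.2.2) * law l σ π + g.2.2 * law l σ (Equiv.swap g.1 g.2.1 * π) := by
  rw [law]

lemma law_nonneg {l : List (X × X × ℝ)} (hl : ∀ g ∈ l, 0 ≤ g.2.2 ∧ g.2.2 ≤ 1)
    (σ π : Equiv.Perm X) : 0 ≤ law l σ π := by
  induction l generalizing π with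
  | nil =>
    rw [law]
    by_cases h : π = σ
    · subst h; simp
    · simp [h]
  | cons g l ih =>
    rw [law_cons]
    have hg := hl g (by simp)
    have ih' := fun π => ih (fun g hg => hl g (by simp [hg])) π
    have h1 : 0 ≤ 1 - g.2.2 := by linarith [hg.2]
    exact add_nonneg (mul_nonneg h1 (ih' _)) (mul_nonneg hg.1 (ih' _))

/-- If all permutations of the support of `law l₂ σ` map `z` to `w`, and no gate of `l₁` touches
`w`, then the same holds for `l₁ ++ l₂`. -/
lemma supp_fix (l₁ l₂ : List (X × X × ℝ)) (σ π : Equiv.Perm X) (z w : X)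
    (h2 : ∀ π₂, law l₂ σ π₂ ≠ 0 → π₂ z = w)
    (h1 : ∀ g ∈ l₁, g.2.2 ≠ 0 → w ≠ g.1 ∧ w ≠ g.2.1)
    (h : law (l₁ ++ l₂) σ π ≠ 0) : π z = w := by
  induction l₁ generalizing π with
  | nil => exact h2 π (by simpa using h)
  | cons g l ih =>
    rw [List.cons_append, law_cons] at h
    have ih' := fun π => ih π (fun g hg => h1 g (by simp [hg]))
    by_cases ha : law (l ++ l₂) σ π = 0
    · rw [ha, mul_zero, zero_add] at h
      have hp : g.2.2 ≠ 0 := left_ne_zero_of_mul h
      have hb : law (l ++ l₂) σ (Equiv.swap g.1 g.2.1 * π) ≠ 0 := right_ne_zero_of_mul h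
      have := ih' _ hb
      obtain ⟨e1, e2⟩ := h1 g (by simp) hp
      rw [Equiv.Perm.mul_apply] at this
      have h3 : π z = Equiv.swap g.1 g.2.1 w := by
        rw [← this, Equiv.swap_apply_self]
      rw [h3, Equiv.swap_apply_of_ne_of_ne e1 e2]
    · exact ih' _ ha

lemma supp_base (σ π : Equiv.Perm X) (h : law ([] : List (X × X × ℝ)) σ π ≠ 0) : π = σ := by
  rw [law] at h
  by_contra hne
  exact h (by simp [hne])

/-- No gate touches `w = σ z`. -/
lemma supp_straight (l : List (X × X × ℝ)) (σ π : Equiv.Perm X) (z w : X) (hz : σ z = w)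
    (h1 : ∀ g ∈ l, g.2.2 ≠ 0 → w ≠ g.1 ∧ w ≠ g.2.1) (h : law l σ π ≠ 0) : π z = w := by
  refine supp_fix l [] σ π z w (fun π₂ h2 => ?_) h1 (by simpa using h)
  rw [supp_base σ π₂ h2, hz]

/-- One open gate. -/
lemma supp_hop (l₁ l₂ : List (X × X × ℝ)) (a b : X) (σ π : Equiv.Perm X) (z w w' : X)
    (hz : σ z = w) (hw : Equiv.swap a b w = w')
    (h1 : ∀ g ∈ l₁, g.2.2 ≠ 0 → w' ≠ g.1 ∧ w' ≠ g.2.1)
    (h2 : ∀ g ∈ l₂, g.2.2 ≠ 0 → w ≠ g.1 ∧ w ≠ g.2.1)
    (h : law (l₁ ++ (a, b, 1) :: l₂) σ π ≠ 0) : π z = w' := by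
  refine supp_fix l₁ ((a, b, 1) :: l₂) σ π z w' (fun π₂ hp => ?_) h1 h
  rw [law_cons] at hp
  simp only [sub_self, zero_mul, one_mul, zero_add] at hp
  have := supp_straight l₂ σ _ z w hz h2 hp
  rw [Equiv.Perm.mul_apply] at this
  rw [← hw, ← this, Equiv.swap_apply_self]

lemma ZZ_eq (hF : FourierStmt) (l : List (X × X × ℝ)) (σ : Equiv.Perm X) (θ : X → ℝ) :
    ZZ (law l σ) θ = ev l σ fun π => Zp π θ := by
  unfold ZZ ev
  refine Finset.sum_congr rfl fun π _ => ?_
  rw [← Finset.mul_sum, (hF X π θ).1]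

lemma cc_eq (hF : FourierStmt) (l : List (X × X × ℝ)) (σ : Equiv.Perm X) (θ : X → ℝ)
    (u v : X) (huv : u ≠ v) :
    cc (law l σ) θ u v = θ u * θ v * (ev l σ fun π => Zf π θ u v) /
      (ev l σ fun π => Zp π θ) := by
  unfold cc EE
  rw [ZZ_eq hF, ← neg_div]
  congr 1
  unfold ev
  rw [Finset.mul_sum, ← Finset.sum_neg_distrib]
  refine Finset.sum_congr rfl fun π _ => ?_
  have := (hF X π θ).2.1 u v huv
  have h2 : ∑ s, law l σ π * wt θ π s * (jj π s u * jj π s v) =
      law l σ π * ∑ s, wt θ π s * (jj π s u * jj π s v) := by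
    rw [Finset.mul_sum]
    exact Finset.sum_congr rfl fun s _ => by ring
  rw [h2]
  calc -(law l σ π * ∑ s, wt θ π s * (jj π s u * jj π s v))
      = law l σ π * -(∑ s, wt θ π s * (jj π s u * jj π s v)) := by ring
    _ = _ := by rw [this]; ring

/-- Comparison of `ev` on the support. -/
lemma ev_mono_supp {l : List (X × X × ℝ)} (hl : ∀ g ∈ l, 0 ≤ g.2.2 ∧ g.2.2 ≤ 1)
    (σ : Equiv.Perm X) (F G : Equiv.Perm X → ℝ) (h : ∀ π, law l σ π ≠ 0 → F π ≤ G π) :
    ev l σ F ≤ ev l σ G := by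
  unfold ev
  refine Finset.sum_le_sum fun π _ => ?_
  by_cases hp : law l σ π = 0
  · simp [hp]
  · exact mul_le_mul_of_nonneg_left (h π hp) (law_nonneg hl σ π)

lemma ev_smul (l : List (X × X × ℝ)) (σ : Equiv.Perm X) (c : ℝ) (F : Equiv.Perm X → ℝ) :
    (ev l σ fun π => c * F π) = c * ev l σ F := by
  unfold ev
  rw [Finset.mul_sum]
  exact Finset.sum_congr rfl fun π _ => by ring

lemma ev_pos (hR : RingStmt) {l : List (X × X × ℝ)} (hl : ∀ g ∈ l, 0 ≤ g.2.2 ∧ g.2.2 ≤ 1)
    (σ : Equiv.Perm X) (θ : X → ℝ) (hθ : ∀ x, 0 ≤ θ x ∧ θ x ≤ 1) :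
    0 < ev l σ fun π => Zp π θ := by
  have hpos : ∀ π, 0 < Zp π θ := fun π => (hR X π θ hθ).1
  -- some permutation has positive weight
  have hsum : ∀ (l : List (X × X × ℝ)), ∑ π, law l σ π = 1 := by
    intro l
    induction l with
    | nil => simp [law]
    | cons g l ih =>
      simp only [law]
      rw [Finset.sum_add_distrib, ← Finset.mul_sum, ← Finset.mul_sum, ih]
      have : ∑ π, law l σ (Equiv.swap g.1 g.2.1 * π) = ∑ π, law l σ π :=
        Fintype.sum_equiv (Equiv.mulLeft (Equiv.swap g.1 g.2.1)) _ _ (fun π => rfl)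
      rw [this, ih]; ring
  have h1 := hsum l
  obtain ⟨π, hπ⟩ : ∃ π, 0 < law l σ π := by
    by_contra hcon
    push Not at hcon
    have : ∑ π, law l σ π ≤ 0 := Finset.sum_nonpos fun π _ => hcon π
    linarith
  unfold ev
  refine Finset.sum_pos' (fun π _ => mul_nonneg (law_nonneg hl σ π) (hpos π).le)
    ⟨π, Finset.mem_univ _, mul_pos hπ (hpos π)⟩

end

end Vale.Agent.P361.LRO.Loc.Geo
end

section

/-!
P361 LRO, block (4): the pointwise lower bounds on the conductances of the physical circuit.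
-/

namespace Vale.Agent.P361.LRO.Loc.Geo

open Finset Vale.Agent.P361.LRO

noncomputable section

section Gen

variable {X : Type} [Fintype X] [DecidableEq X]

lemma arc_use (hA : ArcStmt) (π : Equiv.Perm X) (θ : X → ℝ) (hθ : ∀ x, 0 ≤ θ x ∧ θ x ≤ 1)
    (hZ : 0 ≤ Zp π θ) (path : ℕ → X) (m M : ℕ) (hmM : m ≤ M)
    (hstep : ∀ j, j ≤ m → π (path j) = path (j + 1))
    (hinj : ∀ i, i ≤ m + 1 → ∀ j, j ≤ m + 1 → path i = path j → i = j)
    (τ : ℝ) (h0 : 0 ≤ τ) (h1 : τ < 1) (hbd : ∀ j, 1 ≤ j → j ≤ m → θ (path j) ≤ τ) :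
    ((1 / 4) * ((1 - τ) / (1 + τ)) ^ M) * Zp π θ ≤ Zf π θ (path 0) (path (m + 1)) := by
  have hpow : ∀ i, i ≤ m + 1 → (π ^ i) (path 0) = path i := by
    intro i
    induction i with
    | zero => intro _; simp
    | succ i ih =>
      intro hi
      rw [pow_succ', Equiv.Perm.mul_apply, ih (by omega), hstep i (by omega)]
  have huv : path 0 ≠ path (m + 1) := fun h => by
    have := hinj 0 (by omega) (m + 1) le_rfl h
    omega
  obtain ⟨_, hb⟩ := hA X π θ hθ (path 0) (path (m + 1)) huv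
  have hb' := hb m (hpow _ le_rfl)
    (fun i h1i him => by
      rw [hpow i (by omega)]
      refine ⟨fun h => ?_, fun h => ?_⟩
      · have := hinj i (by omega) 0 (by omega) h; omega
      · have := hinj i (by omega) (m + 1) le_rfl h; omega)
    (fun i hi j hj h => by
      rw [hpow i hi, hpow j hj] at h
      exact hinj i hi j hj h)
  refine le_trans ?_ hb'
  refine mul_le_mul_of_nonneg_right ?_ hZ
  have hτ' : 0 ≤ (1 - τ) / (1 + τ) := div_nonneg (by linarith) (by linarith)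
  have hτ1 : (1 - τ) / (1 + τ) ≤ 1 := by
    rw [div_le_one (by linarith)]; linarith
  have hprod : ((1 - τ) / (1 + τ)) ^ M ≤
      ∏ i ∈ Finset.range m, (1 - θ ((π ^ (i + 1)) (path 0))) / (1 + θ ((π ^ (i + 1)) (path 0))) := by
    calc ((1 - τ) / (1 + τ)) ^ M ≤ ((1 - τ) / (1 + τ)) ^ m := pow_le_pow_of_le_one hτ' hτ1 hmM
      _ = ∏ i ∈ Finset.range m, ((1 - τ) / (1 + τ)) := by
        rw [Finset.prod_const, Finset.card_range]
      _ ≤ _ := by
        refine Finset.prod_le_prod (fun i _ => hτ') fun i hi => ?_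
        have hi' : i < m := Finset.mem_range.1 hi
        rw [hpow (i + 1) (by omega)]
        have hb2 := hbd (i + 1) (by omega) (by omega)
        have hn := (hθ (path (i + 1))).1
        rw [div_le_div_iff₀ (by linarith) (by linarith)]
        nlinarith
  have hu := hθ (path 0)
  have hv := hθ (path (m + 1))
  have hden : 0 < (1 + θ (path 0)) * (1 + θ (path (m + 1))) :=
    mul_pos (by linarith) (by linarith)
  have hden4 : (1 + θ (path 0)) * (1 + θ (path (m + 1))) ≤ 4 := by nlinarith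
  rw [le_div_iff₀ hden]
  have hM0 : 0 ≤ ((1 - τ) / (1 + τ)) ^ M := pow_nonneg hτ' _
  nlinarith [mul_le_mul_of_nonneg_left hden4 hM0]

lemma prod_ite_pow (l : List (X × X × ℝ)) (S : X × X × ℝ → Prop) [DecidablePred S] (p : ℝ)
    (hp : ∀ g ∈ l, g.2.2 = p) (f : ℝ → ℝ) :
    (l.map fun g => if S g then f g.2.2 else 1).prod = f p ^ (l.countP fun g => S g) := by
  induction l with
  | nil => simp
  | cons g l ih =>
    rw [List.map_cons, List.prod_cons, ih (fun g hg => hp g (by simp [hg])), List.countP_cons]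
    by_cases h : S g
    · simp [h, hp g (by simp), pow_succ, mul_comm]
    · simp [h]

end Gen

variable {V : Type} [Fintype V] [DecidableEq V]

/-- Gates in the layers `[lo, hi)` touching a site satisfying `Q`. -/
def tch (N : ℕ) (Q : V → Prop) (lo hi : ℕ)
    (g : (Fin (N + 1) × V) × (Fin (N + 1) × V) × ℝ) : Prop :=
  lo ≤ (g.1.1 : ℕ) ∧ (g.1.1 : ℕ) < hi ∧ (Q g.1.2 ∨ Q g.2.1.2)

instance (N : ℕ) (Q : V → Prop) [DecidablePred Q] (lo hi : ℕ) :
    DecidablePred (tch (V := V) N Q lo hi) := fun g => by unfold tch; infer_instance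

lemma mem_gates {L : List (V × V)} {N : ℕ} {p : ℝ}
    {g : (Fin (N + 1) × V) × (Fin (N + 1) × V) × ℝ} (hg : g ∈ gates L N p) :
    ∃ (k : Fin N) (e : V × V), e ∈ L ∧ g = ((k.castSucc, e.1), (k.castSucc, e.2), p) := by
  unfold gates at hg
  rw [List.mem_flatMap] at hg
  obtain ⟨k, _, hk⟩ := hg
  rw [List.mem_map] at hk
  obtain ⟨e, he, h⟩ := hk
  exact ⟨k, e, he, h.symm⟩

lemma countP_gates (L : List (V × V)) (N : ℕ) (p : ℝ) (Q : V → Prop) [DecidablePred Q]
    (lo hi d : ℕ) (hd : (L.countP fun e => Q e.1 ∨ Q e.2) ≤ d) :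
    ((gates L N p).countP fun g => tch N Q lo hi g) ≤ d * (hi - lo) := by
  unfold gates
  rw [List.countP_flatMap, ← Fin.sum_univ_def]
  have h1 : ∀ k : Fin N, (List.countP (fun g => decide (tch N Q lo hi g)) ∘ fun k : Fin N =>
      L.map fun e => (((k.castSucc, e.1), (k.castSucc, e.2), p) :
        (Fin (N + 1) × V) × (Fin (N + 1) × V) × ℝ)) k ≤
      if lo ≤ (k : ℕ) ∧ (k : ℕ) < hi then d else 0 := by
    intro k
    simp only [Function.comp, List.countP_map]
    by_cases hk : lo ≤ (k : ℕ) ∧ (k : ℕ) < hi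
    · rw [if_pos hk]
      refine le_trans (le_of_eq ?_) hd
      congr 1
      funext e
      simp [tch, hk]
    · rw [if_neg hk]
      apply le_of_eq
      rw [List.countP_eq_zero]
      intro e _
      intro h
      exact hk ⟨(of_decide_eq_true h).1, (of_decide_eq_true h).2.1⟩
  refine le_trans (Finset.sum_le_sum fun k _ => h1 k) ?_
  rw [Fin.sum_univ_eq_sum_range (fun k => if lo ≤ k ∧ k < hi then d else 0) N,
    ← Finset.sum_filter, Finset.sum_const, smul_eq_mul, mul_comm]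
  refine Nat.mul_le_mul_left _ ?_
  rw [← Nat.card_Ico]
  refine Finset.card_le_card fun k hk => ?_
  rw [Finset.mem_filter] at hk
  rw [Finset.mem_Ico]
  exact hk.2

/-- The layer `n`. -/
def fn (N n : ℕ) : Fin (N + 1) := Fin.ofNat (N + 1) n

lemma cast_val {N n : ℕ} (h : n ≤ N) : (fn N n : ℕ) = n := by
  unfold fn
  rw [Fin.val_ofNat, Nat.mod_eq_of_lt (by omega)]

lemma fn_val {N : ℕ} (k : Fin (N + 1)) : fn N k = k := by
  apply Fin.ext
  exact cast_val (by have := k.2; omega)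

lemma base_apply (N n : ℕ) (hn : n + 1 ≤ N) (x : V) :
    base (V := V) N (fn N (n + 1), x) = (fn N n, x) := by
  have h : fn N (n + 1) - 1 = fn N n := by
    have h1 : fn N (n + 1) = fn N n + 1 := by
      apply Fin.ext
      rw [cast_val hn, Fin.val_add_one_of_lt, cast_val (by omega)]
      rw [Fin.lt_def, cast_val (by omega), Fin.val_last]
      omega
    rw [h1, add_sub_cancel_right]
  simp [base, h]

lemma mem_closeG {X : Type} {S : X × X × ℝ → Prop} [DecidablePred S] {l : List (X × X × ℝ)}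
    {g : X × X × ℝ} (hg : g ∈ closeG S l) (h0 : g.2.2 ≠ 0) : g ∈ l ∧ ¬ S g := by
  unfold closeG at hg
  rw [List.mem_map] at hg
  obtain ⟨g0, hg0, h⟩ := hg
  by_cases hS : S g0
  · rw [if_pos hS] at h
    subst h
    exact absurd rfl h0
  · rw [if_neg hS] at h
    subst h
    exact ⟨hg0, hS⟩

lemma closeG_ok {X : Type} {S : X × X × ℝ → Prop} [DecidablePred S] {l : List (X × X × ℝ)}
    (hl : OKg l) : ∀ g ∈ closeG S l, 0 ≤ g.2.2 ∧ g.2.2 ≤ 1 := by
  intro g hg
  unfold closeG at hg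
  rw [List.mem_map] at hg
  obtain ⟨g0, hg0, h⟩ := hg
  have := hl g0 hg0
  by_cases hS : S g0
  · rw [if_pos hS] at h
    subst h
    simp
  · rw [if_neg hS] at h
    subst h
    exact ⟨this.1, by linarith [this.2]⟩

lemma gates_ok {L : List (V × V)} {N : ℕ} {p : ℝ} (h0 : 0 ≤ p) (h1 : p ≤ 1 / 2) :
    OKg (gates L N p) := by
  intro g hg
  obtain ⟨k, e, _, rfl⟩ := mem_gates hg
  exact ⟨h0, h1⟩

lemma gates_p {L : List (V × V)} {N : ℕ} {p : ℝ} : ∀ g ∈ gates L N p, g.2.2 = p := by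
  intro g hg
  obtain ⟨k, e, _, rfl⟩ := mem_gates hg
  rfl

lemma close_step {L : List (V × V)} {N : ℕ} {p : ℝ} (Q : V → Prop) [DecidablePred Q]
    (lo hi : ℕ) (hhi : hi ≤ N) (π : Equiv.Perm (Fin (N + 1) × V))
    (h : law (closeG (tch N Q lo hi) (gates L N p)) (base N) π ≠ 0)
    (n : ℕ) (hn1 : lo ≤ n) (hn2 : n < hi) (x : V) (hx : Q x) :
    π (fn N (n + 1), x) = (fn N n, x) := by
  refine supp_straight _ _ π _ _ (base_apply N n (by omega) x) (fun g hg hp => ?_) h
  obtain ⟨hg1, hg2⟩ := mem_closeG hg hp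
  obtain ⟨k, e, _, rfl⟩ := mem_gates hg1
  have hv := cast_val (N := N) (n := n) (by omega)
  refine ⟨fun heq => hg2 ?_, fun heq => hg2 ?_⟩
  · have e1 := congrArg Prod.fst heq
    have e2 := congrArg Prod.snd heq
    simp only at e1 e2
    have e3 : (k.castSucc : ℕ) = n := by rw [← e1, hv]
    refine ⟨?_, ?_, Or.inl ?_⟩
    · simp only; omega
    · simp only; omega
    · simp only; rw [← e2]; exact hx
  · have e1 := congrArg Prod.fst heq
    have e2 := congrArg Prod.snd heq
    simp only at e1 e2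
    have e3 : (k.castSucc : ℕ) = n := by rw [← e1, hv]
    refine ⟨?_, ?_, Or.inr ?_⟩
    · simp only; omega
    · simp only; omega
    · simp only; rw [← e2]; exact hx

/-- Final algebra. -/
lemma final_alg {A B A' B' c P1 P2 a b q : ℝ} (ha : 0 ≤ a) (hb : 0 ≤ b) (hB : 0 < B)
    (hc : 0 ≤ c) (hP1 : 0 ≤ P1) (hP2 : 0 < P2)
    (h1 : P1 * A' ≤ A) (h2 : B ≤ P2 * B') (h3 : c * B' ≤ A') (hq : q ≤ P1 / P2) :
    a * b * (c * q) ≤ a * b * A / B := by
  rw [mul_div_assoc]
  refine mul_le_mul_of_nonneg_left ?_ (mul_nonneg ha hb)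
  rw [le_div_iff₀ hB]
  have h4 : c * q * B ≤ c * (P1 / P2) * B :=
    mul_le_mul_of_nonneg_right (mul_le_mul_of_nonneg_left hq hc) hB.le
  have h5 : c * (P1 / P2) * B ≤ c * (P1 / P2) * (P2 * B') :=
    mul_le_mul_of_nonneg_left h2 (mul_nonneg hc (div_nonneg hP1 hP2.le))
  have h6 : c * (P1 / P2) * (P2 * B') = P1 * (c * B') := by
    field_simp
  have h7 : P1 * (c * B') ≤ P1 * A' := mul_le_mul_of_nonneg_left h3 hP1
  linarith

theorem locSame (hF : FourierStmt) (hR : RingStmt) (hA : ArcStmt) (hC : CloseStmt)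
    (L : List (V × V)) (d : ℕ) : LocSame V L d := by
  intro β N hβ hβN hdeg θ hθ x k k' τ h0 h1 hkk hbd
  have hN : (0 : ℝ) < N := lt_of_lt_of_le hβ hβN
  set p : ℝ := β / (2 * N) with hp
  have hp0 : 0 ≤ p := by positivity
  have hp1 : p ≤ 1 / 2 := by
    rw [hp, div_le_div_iff₀ (by positivity) (by norm_num)]
    linarith
  have hok := gates_ok (L := L) (N := N) hp0 hp1
  set lo : ℕ := (k : ℕ) with hlo
  set hi : ℕ := (k' : ℕ) with hhi
  have hlt : lo < hi := hkk
  have hhiN : hi ≤ N := by have := k'.2; omega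
  set Q : V → Prop := fun y => y = x with hQ
  set S := tch N Q lo hi with hS
  have hne : (k', x) ≠ (k, x) := fun h => by
    have := congrArg Prod.fst h
    simp only at this
    exact absurd this (ne_of_gt hkk)
  unfold phys
  rw [cc_eq hF _ _ θ _ _ hne]
  have hokc := closeG_ok (S := S) hok
  have hok1 : ∀ g ∈ gates L N p, 0 ≤ g.2.2 ∧ g.2.2 ≤ 1 := fun g hg =>
    ⟨(hok g hg).1, by linarith [(hok g hg).2]⟩
  obtain ⟨hC1, hC2⟩ := hC _ (gates L N p) (base N) S hok
  have hZf0 : ∀ π, 0 ≤ Zf π θ (k', x) (k, x) := fun π => (hA _ π θ hθ _ _ hne).1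
  have hA1 := hC1 (fun π => Zf π θ (k', x) (k, x)) hZf0
  have hA2 := hC2 θ hθ
  rw [prod_ite_pow (gates L N p) S p gates_p (fun t => 1 - t)] at hA1
  rw [prod_ite_pow (gates L N p) S p gates_p (fun t => 1 + t)] at hA2
  set n := (gates L N p).countP fun g => S g with hn
  have hnle : n ≤ d * (hi - lo) := countP_gates L N p Q lo hi d (hdeg x)
  have hτ' : 0 ≤ (1 - τ) / (1 + τ) := div_nonneg (by linarith) (by linarith)
  have h3 : ((1 / 4) * ((1 - τ) / (1 + τ)) ^ (hi - lo)) *
      (ev (closeG S (gates L N p)) (base N) fun π => Zp π θ) ≤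
      ev (closeG S (gates L N p)) (base N) fun π => Zf π θ (k', x) (k, x) := by
    rw [← ev_smul]
    refine ev_mono_supp hokc _ _ _ fun π hπ => ?_
    have hstep := close_step (L := L) (p := p) Q lo hi hhiN π hπ
    have := arc_use hA π θ hθ ((hR _ π θ hθ).1).le
      (fun j => (fn N (hi - j), x)) (hi - lo - 1) (hi - lo) (by omega)
      (fun j hj => by
        have hs := hstep (hi - (j + 1)) (by omega) (by omega) x rfl
        have e : hi - (j + 1) + 1 = hi - j := by omega
        rw [e] at hs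
        exact hs)
      (fun i hi' j hj' h => by
        have e1 := congrArg Prod.fst h
        simp only at e1
        have e2 := congrArg Fin.val e1
        rw [cast_val (by omega), cast_val (by omega)] at e2
        omega)
      τ h0 h1
      (fun j hj1 hj2 => by
        refine hbd _ ?_ ?_
        · rw [Fin.lt_def, cast_val (by omega)]; omega
        · rw [Fin.lt_def, cast_val (by omega)]; omega)
    have e0 : (fn N (hi - 0), x) = (k', x) := by
      rw [Nat.sub_zero, hhi, fn_val]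
    have e1 : (fn N (hi - (hi - lo - 1 + 1)), x) = (k, x) := by
      have : hi - (hi - lo - 1 + 1) = lo := by omega
      rw [this, hlo, fn_val]
    rw [e0, e1] at this
    exact this
  have hZpos := ev_pos hR hok1 (base (V := V) N) θ hθ
  have hq : ((1 - p) / (1 + p)) ^ (d * (hi - lo)) ≤ (1 - p) ^ n / (1 + p) ^ n := by
    rw [← div_pow]
    have hpp : 0 ≤ (1 - p) / (1 + p) := div_nonneg (by linarith) (by linarith)
    have hpp1 : (1 - p) / (1 + p) ≤ 1 := by
      rw [div_le_one (by linarith)]; linarith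
    exact pow_le_pow_of_le_one hpp hpp1 hnle
  have := final_alg (a := θ (k', x)) (b := θ (k, x)) (hθ _).1 (hθ _).1 hZpos
    (by positivity) (pow_nonneg (by linarith) n) (pow_pos (by linarith) n) hA1 hA2 h3 hq
  refine le_trans (le_of_eq ?_) this
  ring

end

end Vale.Agent.P361.LRO.Loc.Geo
end

section

/-!
P361 LRO, block (4), final form: from `LocSame` and `LocNN` to windows of unit time length.
-/

namespace Vale.Agent.P361.LRO

open Finset

noncomputable section

/-- number of entries of `L` touching `x` -/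
def deg {V : Type} [DecidableEq V] (L : List (V × V)) (x : V) : ℕ :=
  (L.filter fun e => e.1 = x ∨ e.2 = x).length

namespace Loc.Final

open Vale.Agent.P361.LRO.Loc

lemma pow_lower {p : ℝ} (h0 : 0 ≤ p) (h1 : p ≤ 1 / 4) (m : ℕ) :
    Real.exp (-(4 * p * m)) ≤ ((1 - p) / (1 + p)) ^ m := by
  have h2 : Real.exp (-(4 * p)) ≤ (1 - p) / (1 + p) := by
    have h3 : 1 + 4 * p ≤ Real.exp (4 * p) := by
      have := Real.add_one_le_exp (4 * p); linarith
    rw [Real.exp_neg, inv_eq_one_div, div_le_div_iff₀ (Real.exp_pos _) (by linarith)]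
    nlinarith
  calc Real.exp (-(4 * p * m)) = Real.exp (-(4 * p)) ^ m := by
        rw [← Real.exp_nat_mul]; ring_nf
    _ ≤ _ := pow_le_pow_left₀ (Real.exp_pos _).le h2 m

variable {V : Type} [Fintype V] [DecidableEq V]

lemma cc_comm' {X : Type} [Fintype X] [DecidableEq X] (μ : Equiv.Perm X → ℝ) (θ : X → ℝ)
    (u v : X) : cc μ θ u v = cc μ θ v u := by
  unfold cc
  congr 2
  funext π s
  exact mul_comm _ _

lemma countP_le {L : List (V × V)} (hL : ∀ x, deg L x ≤ 6) (x : V) :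
    (L.countP fun e => e.1 = x ∨ e.2 = x) ≤ 6 := by
  rw [List.countP_eq_length_filter]
  exact hL x

lemma th_mem {β : ℝ} {N : ℕ} (h1 : 1 ≤ β) (hN : 8 * β ≤ N) {h T : V → ℝ}
    (hh : ∀ x, 0 ≤ h x ∧ h x ≤ 1) (hT : ∀ x, 0 ≤ T x ∧ T x ≤ 1) (z : Fin (N + 1) × V) :
    0 ≤ th β N h T z ∧ th β N h T z ≤ 1 := by
  have hN0 : (0 : ℝ) < N := by linarith
  unfold th
  split_ifs
  · exact hT _
  · refine ⟨div_nonneg (mul_nonneg (by linarith) (hh _).1) (by linarith), ?_⟩
    rw [div_le_one (by linarith)]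
    nlinarith [(hh z.2).2, (hh z.2).1]

lemma th_le {β : ℝ} {N : ℕ} (h1 : 1 ≤ β) (hN : 8 * β ≤ N) {h T : V → ℝ}
    (hh : ∀ x, 0 ≤ h x ∧ h x ≤ 1) {k i : Fin (N + 1)} (hi : k < i) (x : V) :
    th β N h T (i, x) ≤ β / (2 * N) := by
  have hN0 : (0 : ℝ) < N := by linarith
  unfold th
  have : i ≠ 0 := fun h => absurd hi (by rw [h]; exact Fin.not_lt_zero k)
  rw [if_neg this]
  refine div_le_div_of_nonneg_right ?_ (by linarith)
  nlinarith [(hh x).2]

lemma th_eq {β : ℝ} {N : ℕ} {h T : V → ℝ} {k i : Fin (N + 1)} (hi : k < i) (x : V) :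
    th β N h T (i, x) = β * h x / (2 * N) := by
  unfold th
  have : i ≠ 0 := fun h => absurd hi (by rw [h]; exact Fin.not_lt_zero k)
  rw [if_neg this]

lemma same (hS : ∀ L : List (V × V), LocSame V L 6) (L : List (V × V))
    (hL : ∀ x, deg L x ≤ 6) {β : ℝ} (h1 : 1 ≤ β) {N : ℕ} (hN : 8 * β ≤ N) {h T : V → ℝ}
    (hh : ∀ x, 0 ≤ h x ∧ h x ≤ 1) (hT : ∀ x, 0 ≤ T x ∧ T x ≤ 1)
    (k k' : Fin (N + 1)) (x : V) (hk : k < k') (ht : ((k' : ℝ) - (k : ℝ)) * β / N ≤ 1) :
    Real.exp (-26) / 64 * (th β N h T (k, x) * th β N h T (k', x)) ≤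
      cc (phys L β N) (th β N h T) (k, x) (k', x) := by
  have hN0 : (0 : ℝ) < N := by linarith
  have hβ0 : (0 : ℝ) < β := by linarith
  set p : ℝ := β / (2 * N) with hp
  have hp0 : 0 ≤ p := by positivity
  have hp1 : p ≤ 1 / 16 := by
    rw [hp, div_le_div_iff₀ (by positivity) (by norm_num)]
    linarith
  have hθ := th_mem h1 hN hh hT
  have key := hS L β N hβ0 (by linarith) (countP_le hL) (th β N h T) hθ x k k' p hp0
    (by linarith) hk (fun i hi _ => th_le h1 hN hh hi x)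
  rw [cc_comm']
  refine le_trans ?_ key
  rw [← pow_add]
  have hkk : (k : ℕ) ≤ (k' : ℕ) := le_of_lt hk
  set n : ℕ := (k' : ℕ) - (k : ℕ) with hn
  have hnr : (n : ℝ) = (k' : ℝ) - (k : ℝ) := by rw [hn]; push_cast [hkk]; ring
  have hpn : 2 * p * n ≤ 1 := by
    rw [hnr, hp]
    refine le_trans (le_of_eq ?_) ht
    field_simp
  have hpow := pow_lower hp0 (by linarith) (6 * n + n)
  have hexp : Real.exp (-26) ≤ Real.exp (-(4 * p * ((6 * n + n : ℕ) : ℝ))) := by
    apply Real.exp_le_exp.2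
    push_cast
    nlinarith
  have hab : 0 ≤ th β N h T (k', x) * th β N h T (k, x) := mul_nonneg (hθ _).1 (hθ _).1
  have e0 : Real.exp (-26) / 64 ≤ 1 / 4 * ((1 - p) / (1 + p)) ^ (6 * n + n) := by
    have := Real.exp_pos (-26)
    linarith [hexp.trans hpow]
  calc Real.exp (-26) / 64 * (th β N h T (k, x) * th β N h T (k', x))
      = (th β N h T (k', x) * th β N h T (k, x)) * (Real.exp (-26) / 64) := by ring
    _ ≤ _ := mul_le_mul_of_nonneg_left e0 hab

lemma nn (hS : ∀ L : List (V × V), LocNN V L 6) (L : List (V × V))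
    (hL : ∀ x, deg L x ≤ 6) {β : ℝ} (h1 : 1 ≤ β) {N : ℕ} (hN : 8 * β ≤ N) {h T : V → ℝ}
    (hh : ∀ x, 0 ≤ h x ∧ h x ≤ 1) (hT : ∀ x, 0 ≤ T x ∧ T x ≤ 1)
    (k k' : Fin (N + 1)) (x y : V) (hk : k < k') (ht : ((k' : ℝ) - (k : ℝ)) * β / N ≤ 1)
    (ht' : 1 / 4 ≤ ((k' : ℝ) - (k : ℝ)) * β / N) (hxy : (x, y) ∈ L ∨ (y, x) ∈ L) (hne : x ≠ y) :
    Real.exp (-26) / 64 * (th β N h T (k, x) * th β N h T (k', y)) ≤
      cc (phys L β N) (th β N h T) (k, x) (k', y) := by
  have hN0 : (0 : ℝ) < N := by linarith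
  have hβ0 : (0 : ℝ) < β := by linarith
  set p : ℝ := β / (2 * N) with hp
  have hp0 : 0 ≤ p := by positivity
  have hp1 : p ≤ 1 / 16 := by
    rw [hp, div_le_div_iff₀ (by positivity) (by norm_num)]
    linarith
  have hθ := th_mem h1 hN hh hT
  have key := hS L β N hβ0 (by linarith) (countP_le hL) (th β N h T) hθ y x k k' p hne.symm
    (hxy.symm) hp0 (by linarith) hk (fun i hi _ => ⟨th_le h1 hN hh hi y, th_le h1 hN hh hi x⟩)
  rw [cc_comm']
  refine le_trans ?_ key
  rw [← pow_add]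
  have hkk : (k : ℕ) ≤ (k' : ℕ) := le_of_lt hk
  set n : ℕ := (k' : ℕ) - (k : ℕ) with hn
  have hnr : (n : ℝ) = (k' : ℝ) - (k : ℝ) := by rw [hn]; push_cast [hkk]; ring
  have e2 : 2 * p * n = ((k' : ℝ) - (k : ℝ)) * β / N := by
    rw [hnr, hp]
    field_simp
  have hpn : 2 * p * n ≤ 1 := by rw [e2]; exact ht
  have hpn' : 1 / 4 ≤ 2 * p * n := by rw [e2]; exact ht'
  have hpow := pow_lower hp0 (by linarith) (2 * 6 * n + n)
  have hexp : Real.exp (-26) ≤ Real.exp (-(4 * p * ((2 * 6 * n + n : ℕ) : ℝ))) := by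
    apply Real.exp_le_exp.2
    push_cast
    nlinarith
  have hab : 0 ≤ th β N h T (k', y) * th β N h T (k, x) := mul_nonneg (hθ _).1 (hθ _).1
  have hE := Real.exp_pos (-26)
  have e0 : Real.exp (-26) / 64 ≤
      1 / 8 * (p * (n : ℝ)) * ((1 - p) / (1 + p)) ^ (2 * 6 * n + n) := by
    have h3 : 1 / 64 ≤ 1 / 8 * (p * (n : ℝ)) := by linarith
    calc Real.exp (-26) / 64 = 1 / 64 * Real.exp (-26) := by ring
      _ ≤ 1 / 8 * (p * (n : ℝ)) * ((1 - p) / (1 + p)) ^ (2 * 6 * n + n) :=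
        mul_le_mul h3 (hexp.trans hpow) hE.le (by linarith)
  calc Real.exp (-26) / 64 * (th β N h T (k, x) * th β N h T (k', y))
      = (th β N h T (k', y) * th β N h T (k, x)) * (Real.exp (-26) / 64) := by ring
    _ ≤ _ := mul_le_mul_of_nonneg_left e0 hab

end Loc.Final

theorem loc_of (hS : ∀ (V : Type) [Fintype V] [DecidableEq V] (L : List (V × V)),
      Loc.LocSame V L 6)
    (hNN : ∀ (V : Type) [Fintype V] [DecidableEq V] (L : List (V × V)), Loc.LocNN V L 6) :
    ∃ c0 : ℝ, 0 < c0 ∧ ∀ {V : Type} [Fintype V] [DecidableEq V] (L : List (V × V)),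
    (∀ x, deg L x ≤ 6) → ∀ (β : ℝ), 1 ≤ β → ∀ N : ℕ, 8 * β ≤ N → ∀ h T : V → ℝ,
    (∀ x, 0 ≤ h x ∧ h x ≤ 1) → (∀ x, 0 ≤ T x ∧ T x ≤ 1) →
    (∀ (k k' : Fin (N + 1)) (x : V), 0 < k → k < k' → ((k' : ℝ) - (k : ℝ)) * β / N ≤ 1 →
      c0 * (β * h x / (2 * N)) ^ 2 ≤ cc (phys L β N) (th β N h T) (k, x) (k', x)) ∧
    (∀ (k k' : Fin (N + 1)) (x y : V), 0 < k → k < k' → 1 / 4 ≤ ((k' : ℝ) - (k : ℝ)) * β / N →
      ((k' : ℝ) - (k : ℝ)) * β / N ≤ 1 → ((x, y) ∈ L ∨ (y, x) ∈ L) → x ≠ y →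
      c0 * (β * h x / (2 * N)) * (β * h y / (2 * N)) ≤
        cc (phys L β N) (th β N h T) (k, x) (k', y)) ∧
    (∀ (k : Fin (N + 1)) (x : V), 0 < k → (k : ℝ) * β / N ≤ 1 →
      c0 * T x * (β * h x / (2 * N)) ≤ cc (phys L β N) (th β N h T) (0, x) (k, x)) := by
  refine ⟨Real.exp (-26) / 64, by positivity, ?_⟩
  intro V _ _ L hL β h1 N hN h T hh hT
  refine ⟨?_, ?_, ?_⟩
  · intro k k' x hk hkk ht
    have := Loc.Final.same (hS V) L hL h1 hN hh hT k k' x hkk ht
    rw [Loc.Final.th_eq hk, Loc.Final.th_eq hkk] at this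
    refine le_trans (le_of_eq ?_) this
    ring
  · intro k k' x y hk hkk ht' ht hxy hne
    have := Loc.Final.nn (hNN V) L hL h1 hN hh hT k k' x y hkk ht ht' hxy hne
    rw [Loc.Final.th_eq hk, Loc.Final.th_eq hkk] at this
    refine le_trans (le_of_eq ?_) this
    ring
  · intro k x hk ht
    have := Loc.Final.same (hS V) L hL h1 hN hh hT 0 k x hk (by
      have e : (((0 : Fin (N + 1)) : ℕ) : ℝ) = 0 := by simp
      rw [e, sub_zero]; exact ht)
    rw [Loc.Final.th_eq hk] at this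
    refine le_trans (le_of_eq ?_) this
    simp only [th, if_true]
    ring

end

end Vale.Agent.P361.LRO
end

section

/-!
Theorem 1 (star-mesh inequality) for symmetric homogeneous stable laws.
-/

namespace Vale.Agent.P361.LRO.T1

open MvPolynomial

section thm

variable {Om V : Type*} [Fintype Om] [Fintype V] [DecidableEq V]

/-- sums over the configurations which are charged at `z` -/
noncomputable def sA (W : Om → ℝ) (n : Om → V → ℕ) (z : V) (F : Om → ℝ) : ℝ :=
  ∑ w, if n w z = 1 then 0 else W w * F w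

/-- sums over the configurations which are not charged at `z` -/
noncomputable def sB (W : Om → ℝ) (n : Om → V → ℕ) (z : V) (F : Om → ℝ) : ℝ :=
  ∑ w, if n w z = 1 then W w * F w else 0

/-- the conditional expectations -/
noncomputable def EA (W : Om → ℝ) (n : Om → V → ℕ) (z : V) (F : Om → ℝ) : ℝ :=
  sA W n z F / sA W n z fun _ => 1

noncomputable def EB (W : Om → ℝ) (n : Om → V → ℕ) (z : V) (F : Om → ℝ) : ℝ :=
  sB W n z F / sB W n z fun _ => 1

omit [Fintype V] [DecidableEq V] in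
theorem sA_eq {W : Om → ℝ} {n : Om → V → ℕ} (hn : ∀ w x, n w x ≤ 2) (z : V) (F : Om → ℝ) :
    sA W n z F = Sk W n z 0 F + Sk W n z 2 F := by
  rw [sA, Sk, Sk, ← Finset.sum_add_distrib]
  refine Finset.sum_congr rfl fun w _ => ?_
  have h := hn w z
  interval_cases h1 : n w z <;> simp

omit [Fintype V] [DecidableEq V] in
theorem sB_eq (W : Om → ℝ) (n : Om → V → ℕ) (z : V) (F : Om → ℝ) :
    sB W n z F = Sk W n z 1 F := rfl

omit [Fintype V] [DecidableEq V] in
theorem Sk_symm {W : Om → ℝ} {n : Om → V → ℕ} (hn : ∀ w x, n w x ≤ 2) (ι : Equiv.Perm Om)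
    (hWι : ∀ w, W (ι w) = W w) (hnι : ∀ w x, n (ι w) x = 2 - n w x) (z : V) {k : ℕ} (hk : k ≤ 2)
    (F : Om → ℝ) : Sk W n z k F = Sk W n z (2 - k) fun w => F (ι w) := by
  rw [Sk, Sk, ← Equiv.sum_comp ι]
  refine Finset.sum_congr rfl fun w _ => ?_
  have h := hn w z
  rw [hnι, hWι]
  by_cases h1 : n w z = 2 - k
  · rw [if_pos (by omega), if_pos h1]
  · rw [if_neg (by omega), if_neg h1]

/-- the two weights: `2 w₁ ≤ w₀` -/
theorem two_mul_le {W : Om → ℝ} {n : Om → V → ℕ} (hn : ∀ w x, n w x ≤ 2) {N : ℕ}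
    (hdeg : ∀ w, W w ≠ 0 → ∑ x, n w x = N) (hst : RStable (gen W n)) (z : V) (w0 w1 : ℝ)
    (hw1 : 0 < w1) (hw0 : 0 ≤ w0)
    (h00 : Sk W n z 0 (fun _ => 1) = w1) (h20 : Sk W n z 2 (fun _ => 1) = w1)
    (h10 : Sk W n z 1 (fun _ => 1) = w0) : 2 * w1 ≤ w0 := by
  by_contra hlt
  rw [not_le] at hlt
  set r : ℝ := Real.sqrt (4 * w1 ^ 2 - w0 ^ 2) with hr
  have hr2 : r ^ 2 = 4 * w1 ^ 2 - w0 ^ 2 := Real.sq_sqrt (by nlinarith)
  have hrpos : 0 < r := Real.sqrt_pos.2 (by nlinarith)
  set t : ℂ := ⟨-w0 / (2 * w1), r / (2 * w1)⟩ with ht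
  have htim : 0 < t.im := by
    change 0 < r / (2 * w1)
    positivity
  have hzero : (w1 : ℂ) + w0 * t + w1 * t ^ 2 = 0 := by
    apply Complex.ext
    · simp only [ht, Complex.add_re, Complex.mul_re, Complex.ofReal_re, Complex.ofReal_im,
        pow_two, Complex.mul_im, zero_mul, sub_zero, Complex.zero_re]
      field_simp
      nlinarith [hr2]
    · simp only [ht, Complex.add_im, Complex.mul_re, Complex.ofReal_re, Complex.ofReal_im,
        pow_two, Complex.mul_im, zero_mul, Complex.zero_im]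
      field_simp
      ring
  set u : ℂ := ⟨(|t.re| + 1) / t.im, 1⟩ with hu
  have hval : aeval (fun x => u * (if x = z then t else 1)) (gen W n) = 0 := by
    rw [aeval_smul_hom (gen_hom hdeg), gen_aeval]
    have h1 : ∀ w, (W w : ℂ) * ∏ x, (if x = z then t else 1) ^ n w x =
        ((if n w z = 0 then W w * 1 else 0 : ℝ) : ℂ) +
          ((if n w z = 1 then W w * 1 else 0 : ℝ) : ℂ) * t +
          ((if n w z = 2 then W w * 1 else 0 : ℝ) : ℂ) * t ^ 2 := by
      intro w
      have h2 : ∏ x, (if x = z then t else (1 : ℂ)) ^ n w x = t ^ n w z := by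
        rw [Finset.prod_eq_single z]
        · rw [if_pos rfl]
        · intro x _ hx
          rw [if_neg hx, one_pow]
        · intro h
          exact absurd (Finset.mem_univ z) h
      rw [h2]
      have h := hn w z
      interval_cases h1 : n w z <;> simp
    simp only [h1]
    rw [Finset.sum_add_distrib, Finset.sum_add_distrib, ← Finset.sum_mul, ← Finset.sum_mul,
      ← Complex.ofReal_sum, ← Complex.ofReal_sum, ← Complex.ofReal_sum]
    have e0 : ∑ w, (if n w z = 0 then W w * 1 else 0) = w1 := h00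
    have e1 : ∑ w, (if n w z = 1 then W w * 1 else 0) = w0 := h10
    have e2 : ∑ w, (if n w z = 2 then W w * 1 else 0) = w1 := h20
    rw [e0, e1, e2, hzero, mul_zero]
  refine hst _ (fun x => ?_) hval
  by_cases hx : x = z
  · rw [if_pos hx, Complex.mul_im]
    change 0 < (|t.re| + 1) / t.im * t.im + 1 * t.re
    rw [div_mul_cancel₀ _ htim.ne', one_mul]
    have := neg_abs_le t.re
    linarith
  · rw [if_neg hx, mul_one]
    change (0 : ℝ) < 1
    exact one_pos

/-- **Theorem 1.** -/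
theorem theorem_one {W : Om → ℝ} (hW : ∀ w, 0 ≤ W w) {n : Om → V → ℕ} (hn : ∀ w x, n w x ≤ 2)
    (hdeg : ∀ w, W w ≠ 0 → ∑ x, n w x = Fintype.card V) (ι : Equiv.Perm Om)
    (hWι : ∀ w, W (ι w) = W w) (hnι : ∀ w x, n (ι w) x = 2 - n w x)
    (hst : ∀ y : V → ℂ, (∀ x, 0 < (y x).im) → ∑ w, (W w : ℂ) * ∏ x, y x ^ n w x ≠ 0)
    (z : V) (a : V → ℝ) (π : V → ℝ) (abar L eps : ℝ)
    (hπ : ∀ x, π x = EA W n z fun w => -((n w z : ℝ) - 1) * ((n w x : ℝ) - 1))
    (habar : abar = ∑ x, π x * (a x - a z)) (hL : L = ∑ x, π x * (a x - a z) ^ 2)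
    (heps : eps = Real.sqrt (1 - 2 * sA W n z (fun _ => 1) /
      (sA W n z (fun _ => 1) + sB W n z (fun _ => 1)))) :
    EA W n z (fun w => (∑ x, a x * ((n w x : ℝ) - 1)) ^ 2) -
        EB W n z (fun w => (∑ x, a x * ((n w x : ℝ) - 1)) ^ 2) ≤
      abar ^ 2 + 2 * eps / (1 + eps ^ 2) * (L - abar ^ 2) := by
  have hst' : RStable (gen W n) := by
    intro y hy
    rw [gen_aeval]
    exact hst y hy
  set w1 : ℝ := Sk W n z 2 (fun _ => 1) with hw1
  set w0 : ℝ := Sk W n z 1 (fun _ => 1) with hw0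
  have h00 : Sk W n z 0 (fun _ => 1) = w1 := Sk_symm hn ι hWι hnι z (by norm_num) _
  have hw1n : 0 ≤ w1 := Finset.sum_nonneg fun w _ => by
    split_ifs
    · rw [mul_one]
      exact hW w
    · exact le_rfl
  have hw0n : 0 ≤ w0 := Finset.sum_nonneg fun w _ => by
    split_ifs
    · rw [mul_one]
      exact hW w
    · exact le_rfl
  have hsA1 : sA W n z (fun _ => 1) = 2 * w1 := by
    rw [sA_eq hn, h00]
    ring
  have hsB1 : sB W n z (fun _ => 1) = w0 := rfl
  have hEBn : 0 ≤ EB W n z (fun w => (∑ x, a x * ((n w x : ℝ) - 1)) ^ 2) := by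
    refine div_nonneg (Finset.sum_nonneg fun w _ => ?_) (by rw [hsB1]; exact hw0n)
    split_ifs
    · exact mul_nonneg (hW w) (sq_nonneg _)
    · exact le_rfl
  rcases hw1n.eq_or_lt with h0 | h0
  · -- no charge at `z`
    have hEA0 : ∀ F, EA W n z F = 0 := by
      intro F
      rw [EA, hsA1, ← h0, mul_zero, div_zero]
    have h1 : abar = 0 := by
      rw [habar]
      refine Finset.sum_eq_zero fun x _ => ?_
      rw [hπ, hEA0, zero_mul]
    have h2 : L = 0 := by
      rw [hL]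
      refine Finset.sum_eq_zero fun x _ => ?_
      rw [hπ, hEA0, zero_mul]
    rw [hEA0, h1, h2]
    simp only [zero_sub, ne_eq, OfNat.ofNat_ne_zero, not_false_eq_true, zero_pow, sub_self,
      mul_zero, add_zero]
    linarith
  -- the shifted coefficients
  set b : V → ℝ := fun x => a x - a z with hb
  have hbz : b z = 0 := sub_self _
  set A : Om → ℝ := fun w => ∑ x, ((n w x : ℝ) - 1) * b x with hA
  set Q : Om → ℝ := fun w => ∑ x, ((n w x : ℝ) - 1) * b x ^ 2 with hQ
  have hjι : ∀ w x, ((n (ι w) x : ℝ) - 1) = -((n w x : ℝ) - 1) := by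
    intro w x
    rw [hnι, Nat.cast_sub (hn w x)]
    push_cast
    ring
  have hAι : ∀ w, A (ι w) = -A w := by
    intro w
    simp only [hA]
    rw [← Finset.sum_neg_distrib]
    refine Finset.sum_congr rfl fun x _ => ?_
    rw [hjι]
    ring
  have hQι : ∀ w, Q (ι w) = -Q w := by
    intro w
    simp only [hQ]
    rw [← Finset.sum_neg_distrib]
    refine Finset.sum_congr rfl fun x _ => ?_
    rw [hjι]
    ring
  have hneg : ∀ (k : ℕ) (F : Om → ℝ), Sk W n z k (fun w => -F w) = -Sk W n z k F := by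
    intro k F
    have h := Sk_smul W n z k (-1) F
    have h' : (fun w => -1 * F w) = fun w => -F w := by
      funext w
      ring
    rw [h'] at h
    rw [h]
    ring
  set al : ℝ := Sk W n z 2 A with hal
  set E2 : ℝ := Sk W n z 2 (fun w => A w ^ 2) with hE2
  set E0 : ℝ := Sk W n z 1 (fun w => A w ^ 2) with hE0
  set la : ℝ := -Sk W n z 2 Q with hla
  have h0A : Sk W n z 0 A = -al := by
    rw [Sk_symm hn ι hWι hnι z (by norm_num) A]
    simp only [hAι]
    exact hneg 2 A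
  have h1A : Sk W n z 1 A = 0 := by
    have h := Sk_symm hn ι hWι hnι z (k := 1) (by norm_num) A
    simp only [hAι] at h
    have h' := hneg 1 A
    have h2 : Sk W n z 1 A = -Sk W n z 1 A := h.trans h'
    linarith
  have h0E : Sk W n z 0 (fun w => A w ^ 2) = E2 := by
    rw [Sk_symm hn ι hWι hnι z (by norm_num) fun w => A w ^ 2]
    simp only [hAι, neg_sq]
    rfl
  have h0L : Sk W n z 0 Q = la := by
    rw [Sk_symm hn ι hWι hnι z (by norm_num) Q]
    simp only [hQι]
    exact hneg 2 Q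
  have h1L : Sk W n z 1 Q = 0 := by
    have h := Sk_symm hn ι hWι hnι z (k := 1) (by norm_num) Q
    simp only [hQι] at h
    have h' := hneg 1 Q
    have h2 : Sk W n z 1 Q = -Sk W n z 1 Q := h.trans h'
    linarith
  have h2L : Sk W n z 2 Q = -la := by
    rw [hla, neg_neg]
  have hle : 2 * w1 ≤ w0 := two_mul_le hn hdeg hst' z w0 w1 h0 hw0n h00 rfl rfl
  have hw0p : 0 < w0 := by linarith
  -- the root
  have heps2 : eps ^ 2 = (w0 - 2 * w1) / (w0 + 2 * w1) := by
    rw [heps, hsA1, hsB1, Real.sq_sqrt]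
    · field_simp
      ring
    · rw [sub_nonneg, div_le_one (by positivity)]
      linarith
  have heps0 : 0 ≤ eps := by
    rw [heps]
    exact Real.sqrt_nonneg _
  have heps1 : eps < 1 := by
    have h1 : eps ^ 2 < 1 := by
      rw [heps2, div_lt_one (by positivity)]
      linarith
    nlinarith
  have h1e : 0 < 1 - eps := by linarith
  have h1e' : 0 < 1 + eps := by linarith
  have heq : w1 * (1 + ((1 - eps) / (1 + eps)) ^ 2) = w0 * ((1 - eps) / (1 + eps)) := by
    have h1 : eps ^ 2 * (w0 + 2 * w1) = w0 - 2 * w1 := by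
      rw [heps2]
      field_simp
    field_simp
    linear_combination h1
  have hcore := one_node_core hn hdeg hst' z b hbz w0 w1 al E2 E0 la h0 h00 rfl rfl h0A h1A rfl
    h0E rfl rfl h0L h1L h2L ((1 - eps) / (1 + eps)) (div_pos h1e h1e')
    ((div_le_one h1e').2 (by linarith)) heq
  -- the conditional expectations
  have hsum : ∀ w, W w ≠ 0 → ∑ x, a x * ((n w x : ℝ) - 1) = A w := by
    intro w hw
    have h1 : ∑ x, ((n w x : ℝ) - 1) = 0 := by
      rw [Finset.sum_sub_distrib, ← Nat.cast_sum, hdeg w hw]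
      simp
    have h2 : A w = ∑ x, a x * ((n w x : ℝ) - 1) - a z * ∑ x, ((n w x : ℝ) - 1) := by
      simp only [hA, hb]
      rw [Finset.mul_sum, ← Finset.sum_sub_distrib]
      refine Finset.sum_congr rfl fun x _ => ?_
      ring
    rw [h2, h1, mul_zero, sub_zero]
  have hSk : ∀ k, Sk W n z k (fun w => (∑ x, a x * ((n w x : ℝ) - 1)) ^ 2) =
      Sk W n z k (fun w => A w ^ 2) := by
    intro k
    rw [Sk, Sk]
    refine Finset.sum_congr rfl fun w _ => ?_
    by_cases hw : W w = 0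
    · rw [hw, zero_mul, zero_mul]
    · rw [hsum w hw]
  have hEA2 : EA W n z (fun w => (∑ x, a x * ((n w x : ℝ) - 1)) ^ 2) = E2 / w1 := by
    rw [EA, hsA1, sA_eq hn, hSk, hSk, h0E]
    field_simp
    ring
  have hEB2 : EB W n z (fun w => (∑ x, a x * ((n w x : ℝ) - 1)) ^ 2) = E0 / w0 := by
    rw [EB, hsB1, sB_eq, hSk]
  have hpi : ∀ c : V → ℝ, ∑ x, π x * c x =
      (Sk W n z 0 (fun w => ∑ x, ((n w x : ℝ) - 1) * c x) -
        Sk W n z 2 (fun w => ∑ x, ((n w x : ℝ) - 1) * c x)) / (2 * w1) := by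
    intro c
    have h1 : ∀ x, π x * c x = (sA W n z (fun w => -((n w z : ℝ) - 1) *
        (((n w x : ℝ) - 1) * c x))) / (2 * w1) := by
      intro x
      rw [hπ, EA, hsA1, div_mul_eq_mul_div, sA, sA, Finset.sum_mul]
      congr 1
      refine Finset.sum_congr rfl fun w _ => ?_
      split_ifs
      · ring
      · ring
    simp only [h1]
    rw [← Finset.sum_div]
    congr 1
    simp only [sA, Sk]
    rw [Finset.sum_comm, ← Finset.sum_sub_distrib]
    refine Finset.sum_congr rfl fun w _ => ?_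
    have h := hn w z
    have h2 : ∑ x, -((n w z : ℝ) - 1) * (((n w x : ℝ) - 1) * c x) =
        -((n w z : ℝ) - 1) * ∑ x, ((n w x : ℝ) - 1) * c x := by
      rw [Finset.mul_sum]
    by_cases h3 : n w z = 1
    · simp [h3]
    · simp only [if_neg h3]
      rw [← Finset.mul_sum, h2]
      interval_cases h1 : n w z
      · simp
      · exact absurd rfl h3
      · simp
        ring
  have habar2 : abar = -al / w1 := by
    have h1 := hpi b
    rw [← habar] at h1
    rw [h1]
    change (Sk W n z 0 A - Sk W n z 2 A) / (2 * w1) = _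
    rw [h0A]
    field_simp
    ring
  have hL2 : L = la / w1 := by
    have h1 := hpi fun x => b x ^ 2
    rw [← hL] at h1
    rw [h1]
    change (Sk W n z 0 Q - Sk W n z 2 Q) / (2 * w1) = _
    rw [h0L, h2L]
    field_simp
    ring
  rw [hEA2, hEB2, habar2, hL2]
  set s : ℝ := (1 - eps) / (1 + eps) with hs
  have hs0 : 0 < s := div_pos h1e h1e'
  have hK : 2 * eps / (1 + eps ^ 2) = (1 - s ^ 2) / (1 + s ^ 2) := by
    rw [hs, div_eq_div_iff (by positivity) (by positivity)]
    field_simp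
    ring
  have hw0s : w0 = w1 * (1 + s ^ 2) / s := by
    rw [eq_div_iff hs0.ne', ← heq]
  rw [hK, hw0s]
  have h5 : 0 < w1 * (1 + s ^ 2) := by positivity
  have h6 : E2 / w1 - E0 / (w1 * (1 + s ^ 2) / s) =
      (E2 * (1 + s ^ 2) - s * E0) / (w1 * (1 + s ^ 2)) := by
    field_simp
  have h7 : (-al / w1) ^ 2 + (1 - s ^ 2) / (1 + s ^ 2) * (la / w1 - (-al / w1) ^ 2) =
      (la * (1 - s ^ 2) + 2 * s ^ 2 * al ^ 2 / w1) / (w1 * (1 + s ^ 2)) := by
    field_simp
    ring
  rw [h6, h7]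
  exact div_le_div_of_nonneg_right (by linarith) h5.le

end thm

end Vale.Agent.P361.LRO.T1
end

section

/-!
P361, stage 3, K2: the bound `δ` of the defects in `LongLoc` (hypothesis `hX` of `long_trace`), for
`N ≥ N0`, from the bound for `N = ∞` (`TX`) and the uniform Trotter estimate.
-/

namespace Vale.Agent.P361.LRO.Bloch.Delta

open Finset Matrix NormedSpace Vale.Agent.P361.LRO Vale.Agent.P361.LRO.Bloch

attribute [local instance] Matrix.linftyOpNormedRing Matrix.linftyOpNormedAlgebra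

noncomputable section

set_option linter.unusedSectionVars false

variable {V : Type} [Fintype V] [DecidableEq V]

/-- `mt l - 1`. -/
def lg (l : Lt V) : MM V := mt l - 1

lemma wd_eq (w : List (Lt V)) : wd w = ((w.map lg).map fun x => 1 + x).prod := by
  unfold wd
  rw [List.map_map]
  congr 1
  refine List.map_congr_left fun l _ => ?_
  simp [lg]

lemma wd_append (w w' : List (Lt V)) : wd (w ++ w') = wd w * wd w' := by
  unfold wd
  rw [List.map_append, List.prod_append]

lemma one_norm : ‖(1 : MM V)‖ ≤ 1 := Disc.norm_one_le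

/-- Total size of the letters. -/
def sz (w : List (Lt V)) : ℝ := ((w.map lg).map norm).sum

lemma sz_append (w w' : List (Lt V)) : sz (w ++ w') = sz w + sz w' := by
  unfold sz
  simp

lemma sz_nonneg (w : List (Lt V)) : 0 ≤ sz w := by
  unfold sz
  apply List.sum_nonneg
  intro r hr
  rw [List.mem_map] at hr
  obtain ⟨y, _, rfl⟩ := hr
  exact norm_nonneg _

lemma wd_bounds (w : List (Lt V)) :
    ‖wd w‖ ≤ Real.exp (sz w) ∧ ‖wd w - 1‖ ≤ Real.exp (sz w) - 1 := by
  have h := Disc.prod_one_add_bounds (one_norm (V := V)) (w.map lg)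
  rw [← wd_eq] at h
  exact ⟨h.1, h.2.1⟩

lemma exp_sub_one_le {x : ℝ} (_h0 : 0 ≤ x) : Real.exp x - 1 ≤ x * Real.exp x := by
  have h1 := Real.add_one_le_exp (-x)
  have h2 := Real.exp_pos x
  have h3 : Real.exp (-x) * Real.exp x = 1 := by rw [← Real.exp_add]; simp
  nlinarith

/-! ### Near -/

/-- `M` is close to `exp (-s H)`. -/
def Near (H : MM V) (C : ℝ) (N : ℕ) (M : MM V) (s : ℝ) : Prop :=
  ‖M‖ ≤ C ∧ ‖exp (-s • H)‖ ≤ C ∧ ‖M - exp (-s • H)‖ ≤ C / N

lemma Near.pos {H : MM V} {C : ℝ} {N : ℕ} {M : MM V} {s : ℝ} (h : Near H C N M s) : 0 ≤ C :=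
  (norm_nonneg _).trans h.1

lemma exp_add_H (H : MM V) (s t : ℝ) :
    exp (-(s + t) • H) = exp (-s • H) * exp (-t • H) := by
  rw [← Matrix.exp_add_of_commute, ← add_smul]
  · congr 2; ring
  · exact ((Commute.refl H).smul_left _).smul_right _

lemma Near.mul {H : MM V} {C C' : ℝ} {N : ℕ} {M M' : MM V} {s s' : ℝ} (h : Near H C N M s)
    (h' : Near H C' N M' s') : Near H (2 * (C * C')) N (M * M') (s + s') := by
  have hC := h.pos
  have hC' := h'.pos
  have hCC : 0 ≤ C * C' := mul_nonneg hC hC'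
  refine ⟨?_, ?_, ?_⟩
  · have := (norm_mul_le M M').trans (mul_le_mul h.1 h'.1 (norm_nonneg _) hC)
    linarith
  · rw [exp_add_H]
    have := (norm_mul_le (exp (-s • H)) (exp (-s' • H))).trans
      (mul_le_mul h.2.1 h'.2.1 (norm_nonneg _) hC)
    linarith
  · rw [exp_add_H]
    have e : M * M' - exp (-s • H) * exp (-s' • H) =
        (M - exp (-s • H)) * M' + exp (-s • H) * (M' - exp (-s' • H)) := by noncomm_ring
    rw [e]
    have h1 : ‖(M - exp (-s • H)) * M'‖ ≤ C / N * C' :=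
      (norm_mul_le _ _).trans (mul_le_mul h.2.2 h'.1 (norm_nonneg _) (by positivity))
    have h2 : ‖exp (-s • H) * (M' - exp (-s' • H))‖ ≤ C * (C' / N) :=
      (norm_mul_le _ _).trans (mul_le_mul h.2.1 h'.2.2 (norm_nonneg _) hC)
    calc _ ≤ C / N * C' + C * (C' / N) := (norm_add_le _ _).trans (add_le_add h1 h2)
      _ = _ := by ring

lemma Near.mono {H : MM V} {C C' : ℝ} {N : ℕ} {M : MM V} {s : ℝ} (h : Near H C N M s)
    (hC : C ≤ C') : Near H C' N M s :=
  ⟨h.1.trans hC, h.2.1.trans hC, h.2.2.trans (by gcongr)⟩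

lemma near_small {H : MM V} {c : ℝ} (hc : 0 ≤ c) {N : ℕ} (hN : 1 ≤ N) {X : MM V}
    (hX : ‖X - 1‖ ≤ c / N) : Near H (1 + c) N X 0 := by
  have hN' : (1 : ℝ) ≤ N := by exact_mod_cast hN
  have h0 : exp (-(0 : ℝ) • H) = 1 := by simp
  have hcN : c / N ≤ c := div_le_self hc hN'
  refine ⟨?_, ?_, ?_⟩
  · calc ‖X‖ = ‖1 + (X - 1)‖ := by congr 1; abel
      _ ≤ 1 + c := (norm_add_le _ _).trans (add_le_add one_norm (hX.trans hcN))
  · rw [h0]; exact one_norm.trans (by linarith)
  · rw [h0]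
    refine hX.trans ?_
    gcongr
    linarith

lemma near_wd {H : MM V} {c : ℝ} (hc : 0 ≤ c) {N : ℕ} (hN : 1 ≤ N) {w : List (Lt V)}
    (hw : sz w ≤ c / N) : Near H (1 + c * Real.exp c) N (wd w) 0 := by
  have hN' : (1 : ℝ) ≤ N := by exact_mod_cast hN
  have hcN : c / N ≤ c := div_le_self hc hN'
  refine near_small (by positivity) hN ?_
  refine (wd_bounds w).2.trans ((exp_sub_one_le (sz_nonneg w)).trans ?_)
  calc sz w * Real.exp (sz w) ≤ c / N * Real.exp c := by
        gcongr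
        exact hw.trans hcN
    _ = _ := by ring

/-- The layer hypothesis. -/
structure Lay (H : MM V) (β c : ℝ) (N : ℕ) (l : List (Lt V)) : Prop where
  sum : (l.map lg).sum = -((β / N : ℝ) • H)
  size : sz l ≤ c / N

lemma Lay.norm {H : MM V} {β c : ℝ} {N : ℕ} {l : List (Lt V)} (h : Lay H β c N l) (hN : 1 ≤ N) :
    ‖β • H‖ ≤ c := by
  have hN' : (0 : ℝ) < N := by exact_mod_cast hN
  have h1 : ‖(β / N : ℝ) • H‖ ≤ c / N := by
    rw [← norm_neg, ← h.sum]
    exact (Disc.norm_sum_le _).trans h.size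
  have h2 : β • H = (N : ℝ) • ((β / N : ℝ) • H) := by
    rw [smul_smul]; congr 1; field_simp
  rw [h2, norm_smul, Real.norm_natCast]
  calc (N : ℝ) * ‖(β / N : ℝ) • H‖ ≤ N * (c / N) := by gcongr
    _ = c := by field_simp

lemma norm_expH {H : MM V} {β c s : ℝ} (hβ : 0 < β) (hc : ‖β • H‖ ≤ c) (hs : |s| ≤ β) :
    ‖exp (-s • H)‖ ≤ Real.exp c := by
  refine (Trot.norm_exp_le one_norm _).trans (Real.exp_le_exp.2 ?_)
  have h2 : -s • H = (-s / β) • (β • H) := by
    rw [smul_smul]; congr 1; field_simp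
  rw [h2, norm_smul, Real.norm_eq_abs, abs_div, abs_neg, abs_of_pos hβ]
  have h3 : |s| / β ≤ 1 := by rw [div_le_one hβ]; exact hs
  calc |s| / β * ‖β • H‖ ≤ 1 * c := mul_le_mul h3 hc (norm_nonneg _) zero_le_one
    _ = c := one_mul c

lemma near_pow {H : MM V} {β c : ℝ} (hβ : 0 < β) (hc0 : 0 ≤ c) {N : ℕ} (hN : 1 ≤ N)
    {l : List (Lt V)} (h : Lay H β c N l) {r : ℕ} (hr : r ≤ N) :
    Near H ((1 + 2 * c ^ 2) * Real.exp (2 * c)) N (wd l ^ r) (r * (β / N)) := by
  have hN' : (0 : ℝ) < N := by exact_mod_cast hN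
  have hN1 : (1 : ℝ) ≤ N := by exact_mod_cast hN
  have hr' : (r : ℝ) ≤ N := by exact_mod_cast hr
  have hcN : c / N ≤ c := div_le_self hc0 hN1
  have hec : Real.exp c ≤ Real.exp (2 * c) := Real.exp_le_exp.2 (by linarith)
  have he1 : 0 < Real.exp (2 * c) := Real.exp_pos _
  refine ⟨?_, ?_, ?_⟩
  · have h1 : ‖wd l ^ r‖ ≤ Real.exp c := by
      have hM := (wd_bounds l).1.trans (Real.exp_le_exp.2 h.size)
      have : ‖wd l ^ r‖ ≤ Real.exp (c / N) ^ r := by
        clear hr hr'
        induction r with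
        | zero => rw [pow_zero, pow_zero]; exact one_norm
        | succ r ih =>
          rw [pow_succ, pow_succ]
          exact (norm_mul_le _ _).trans (mul_le_mul ih hM (norm_nonneg _) (by positivity))
      refine this.trans ?_
      rw [← Real.exp_nat_mul]
      apply Real.exp_le_exp.2
      calc (r : ℝ) * (c / N) ≤ N * (c / N) := by gcongr
        _ = c := by field_simp
    nlinarith [sq_nonneg c]
  · have h1 := norm_expH (s := r * (β / N)) hβ (h.norm hN) (by
      rw [abs_of_nonneg (by positivity)]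
      calc (r : ℝ) * (β / N) ≤ N * (β / N) := by gcongr
        _ = β := by field_simp)
    nlinarith [sq_nonneg c]
  · have hd := Disc.disc_bound (one_norm (V := V)) (l.map lg) (p := 1) (c := c / N) zero_le_one
      (by exact h.size) r
    have e1 : ((l.map lg).map fun x => 1 + (1 : ℝ) • x).prod = wd l := by
      rw [wd_eq]; congr 1
      refine List.map_congr_left fun x _ => ?_
      rw [one_smul]
    have e2 : ((r : ℝ) * 1) • (l.map lg).sum = -((r : ℝ) * (β / N)) • H := by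
      rw [h.sum, mul_one, smul_neg, smul_smul, neg_smul]
    rw [e1, e2, one_mul] at hd
    refine hd.trans ?_
    have e3 : ((r : ℝ) + 1) * (c / N) ≤ 2 * c := by
      have : ((r : ℝ) + 1) * (c / N) ≤ (N + N) * (c / N) := by gcongr
      have e4 : ((N : ℝ) + N) * (c / N) = 2 * c := by field_simp; ring
      linarith
    calc 2 * (r : ℝ) * (c / N) ^ 2 * Real.exp ((r + 1) * (c / N))
        ≤ 2 * N * (c / N) ^ 2 * Real.exp (2 * c) := by gcongr
      _ = 2 * c ^ 2 * Real.exp (2 * c) / N := by field_simp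
      _ ≤ (1 + 2 * c ^ 2) * Real.exp (2 * c) / N := by
        gcongr
        linarith

lemma near_shift {H : MM V} {β c : ℝ} (hβ : 0 < β) (hc0 : 0 ≤ c) (hH : ‖β • H‖ ≤ c) {N : ℕ}
    (hN : 1 ≤ N) {C s s' : ℝ} {M : MM V} (h : Near H C N M s) (hs' : |s'| ≤ β) {k : ℝ}
    (hk : 0 ≤ k) (hss : |s' - s| ≤ k * (β / N)) (hkN : k ≤ N) :
    Near H (C + C * (k * c * Real.exp c) + Real.exp c) N M s' := by
  have hN' : (0 : ℝ) < N := by exact_mod_cast hN
  have hC := h.pos
  have hec := Real.exp_pos c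
  have hX : 0 ≤ C * (k * c * Real.exp c) := by positivity
  refine ⟨h.1.trans (by linarith), (norm_expH hβ hH hs').trans (by linarith), ?_⟩
  have e0 : s' = s + (s' - s) := by ring
  have e1 : M - exp (-s' • H) = (M - exp (-s • H)) -
      exp (-s • H) * (exp (-(s' - s) • H) - 1) := by
    conv_lhs => rw [e0, exp_add_H]
    noncomm_ring
  have h1 : ‖exp (-(s' - s) • H) - 1‖ ≤ k * c * Real.exp c / N := by
    refine (Trot.norm_exp_sub_one_le _).trans ((exp_sub_one_le (norm_nonneg _)).trans ?_)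
    have h2 : -(s' - s) • H = (-(s' - s) / β) • (β • H) := by
      rw [smul_smul]; congr 1; field_simp
    have h3 : ‖-(s' - s) • H‖ ≤ k * c / N := by
      rw [h2, norm_smul, Real.norm_eq_abs, abs_div, abs_neg, abs_of_pos hβ]
      have h4 : |s' - s| / β ≤ k / N := by
        rw [div_le_iff₀ hβ]
        calc |s' - s| ≤ k * (β / N) := hss
          _ = k / N * β := by ring
      calc |s' - s| / β * ‖β • H‖ ≤ k / N * c :=
            mul_le_mul h4 hH (norm_nonneg _) (by positivity)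
        _ = _ := by ring
    have h5 : k * c / N ≤ c := by
      rw [div_le_iff₀ hN']
      nlinarith
    calc ‖-(s' - s) • H‖ * Real.exp ‖-(s' - s) • H‖ ≤ k * c / N * Real.exp c := by
          gcongr
          exact h3.trans h5
      _ = _ := by ring
  rw [e1]
  have h6 : ‖exp (-s • H) * (exp (-(s' - s) • H) - 1)‖ ≤ C * (k * c * Real.exp c / N) :=
    (norm_mul_le _ _).trans (mul_le_mul h.2.1 h1 (norm_nonneg _) hC)
  calc _ ≤ C / N + C * (k * c * Real.exp c / N) :=
        (norm_sub_le _ _).trans (add_le_add h.2.2 h6)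
    _ = (C + C * (k * c * Real.exp c)) / N := by ring
    _ ≤ _ := div_le_div_of_nonneg_right (by linarith) hN'.le

/-! ### Traces -/

/-- Entry `(0, 0)` (all up) of a product. -/
lemma entry_zero_mul {A B : MM V} (hA : Le 0 A) (hB : Le 0 B) (h1 : 1 ≤ A 0 0)
    (h2 : 1 ≤ B 0 0) : 1 ≤ (A * B) 0 0 := by
  rw [Matrix.mul_apply]
  have h3 : A 0 0 * B 0 0 ≤ ∑ j, A 0 j * B j 0 :=
    Finset.single_le_sum (f := fun j => A 0 j * B j 0)
      (fun j _ => mul_nonneg (hA 0 j) (hB j 0)) (mem_univ 0)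
  nlinarith

lemma mt_zero {l : Lt V} (h : Ok l) : 1 ≤ mt l 0 0 := by
  cases l with
  | gate a b p =>
    have : swapM a b (0 : V → Fin 2) 0 = 1 := by simp [swapM]
    change 1 ≤ ((1 - p) • (1 : MM V) + p • swapM a b) 0 0
    simp only [Matrix.add_apply, Matrix.smul_apply, Matrix.one_apply_eq, this, smul_eq_mul]
    linarith
  | node z t =>
    have h' : 0 ≤ t ∧ t ≤ 1 := h
    have : szM z (0 : V → Fin 2) 0 = 1 := by simp [szM]
    change 1 ≤ ((1 : MM V) + t • szM z) 0 0
    simp only [Matrix.add_apply, Matrix.smul_apply, Matrix.one_apply_eq, this, smul_eq_mul]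
    linarith [h'.1]

lemma wd_zero {w : List (Lt V)} (h : ∀ l ∈ w, Ok l) : 1 ≤ wd w 0 0 := by
  induction w with
  | nil => simp [wd]
  | cons l w ih =>
    rw [wd_cons]
    exact entry_zero_mul (mt_nonneg (h l (by simp))) (wd_nonneg fun l' hl' => h l' (by simp [hl']))
      (mt_zero (h l (by simp))) (ih fun l' hl' => h l' (by simp [hl']))

lemma trace_ge_entry {A : MM V} (hA : Le 0 A) : A 0 0 ≤ trace A := by
  unfold Matrix.trace
  exact Finset.single_le_sum (f := fun i => A.diag i) (fun i _ => hA i i) (mem_univ 0)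

lemma abs_trace_le (A : MM V) : |trace A| ≤ Fintype.card (V → Fin 2) * ‖A‖ := by
  unfold Matrix.trace
  calc |∑ i, A.diag i| ≤ ∑ i, |A.diag i| := Finset.abs_sum_le_sum_abs _ _
    _ ≤ ∑ _i : V → Fin 2, ‖A‖ := Finset.sum_le_sum fun i _ => Disc.entry_le_norm A i i
    _ = _ := by rw [Finset.sum_const, Finset.card_univ, nsmul_eq_mul]


/-- Comparison of the traces with an insertion. -/
lemma insert_le {H T X : MM V} {C : ℝ} {N : ℕ} (hN : 1 ≤ N) {Lf Rt Fu : MM V} {s t β δ : ℝ}
    (hst : s + t = β) (hL : Near H C N Lf s) (hR : Near H C N Rt t) (hF : Near H C N Fu β)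
    (hX : ‖X‖ ≤ 2) (hδ : 0 < δ)
    (hTX : trace (T * exp (-s • H) * X * exp (-t • H)) ≤
      δ * trace (T * exp (-s • H) * exp (-t • H)))
    (hF1 : 1 ≤ trace (Fu * T))
    (hNN : Fintype.card (V → Fin 2) * ‖T‖ * (δ * C + 4 * C ^ 2) ≤ δ * N) :
    trace (Lf * X * Rt * T) ≤ 2 * δ * trace (Fu * T) := by
  have hN' : (0 : ℝ) < N := by exact_mod_cast hN
  have hC := hL.pos
  set κ : ℝ := (Fintype.card (V → Fin 2) : ℝ) with hκ
  have hκ0 : 0 ≤ κ := Nat.cast_nonneg _
  have hT := norm_nonneg T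
  have e1 : trace (T * exp (-s • H) * X * exp (-t • H)) =
      trace (exp (-s • H) * X * exp (-t • H) * T) := by
    rw [Matrix.mul_assoc, Matrix.mul_assoc, Matrix.trace_mul_comm]
    congr 1
    simp only [Matrix.mul_assoc]
  have e2 : trace (T * exp (-s • H) * exp (-t • H)) = trace (exp (-β • H) * T) := by
    rw [Matrix.mul_assoc, Matrix.trace_mul_comm, ← exp_add_H, hst]
  rw [e1, e2] at hTX
  have h1 : |trace (Lf * X * Rt * T) - trace (exp (-s • H) * X * exp (-t • H) * T)| ≤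
      κ * ‖T‖ * (4 * C ^ 2) / N := by
    rw [← Matrix.trace_sub]
    refine (abs_trace_le _).trans ?_
    have e3 : Lf * X * Rt * T - exp (-s • H) * X * exp (-t • H) * T =
        ((Lf - exp (-s • H)) * X * Rt + exp (-s • H) * X * (Rt - exp (-t • H))) * T := by
      noncomm_ring
    have h2 : ‖(Lf - exp (-s • H)) * X * Rt‖ ≤ C / N * 2 * C := by
      refine (norm_mul_le _ _).trans (mul_le_mul ?_ hR.1 (norm_nonneg _) (by positivity))
      exact (norm_mul_le _ _).trans (mul_le_mul hL.2.2 hX (norm_nonneg _) (by positivity))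
    have h3 : ‖exp (-s • H) * X * (Rt - exp (-t • H))‖ ≤ C * 2 * (C / N) := by
      refine (norm_mul_le _ _).trans (mul_le_mul ?_ hR.2.2 (norm_nonneg _) (by positivity))
      exact (norm_mul_le _ _).trans (mul_le_mul hL.2.1 hX (norm_nonneg _) hC)
    have h4 : ‖Lf * X * Rt * T - exp (-s • H) * X * exp (-t • H) * T‖ ≤
        (C / N * 2 * C + C * 2 * (C / N)) * ‖T‖ := by
      rw [e3]
      refine (norm_mul_le _ _).trans (mul_le_mul_of_nonneg_right ?_ hT)
      exact (norm_add_le _ _).trans (add_le_add h2 h3)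
    calc κ * ‖Lf * X * Rt * T - exp (-s • H) * X * exp (-t • H) * T‖
        ≤ κ * ((C / N * 2 * C + C * 2 * (C / N)) * ‖T‖) := mul_le_mul_of_nonneg_left h4 hκ0
      _ = _ := by ring
  have h5 : |trace (Fu * T) - trace (exp (-β • H) * T)| ≤ κ * ‖T‖ * C / N := by
    rw [← Matrix.trace_sub, ← Matrix.sub_mul]
    refine (abs_trace_le _).trans ?_
    calc κ * ‖(Fu - exp (-β • H)) * T‖ ≤ κ * (C / N * ‖T‖) :=
          mul_le_mul_of_nonneg_left ((norm_mul_le _ _).trans
            (mul_le_mul_of_nonneg_right hF.2.2 hT)) hκ0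
      _ = _ := by ring
  have h6 := (abs_le.1 h1).2
  have h7 := (abs_le.1 h5).1
  have h8 : δ * (κ * ‖T‖ * C / N) + κ * ‖T‖ * (4 * C ^ 2) / N ≤ δ := by
    have e4 : δ * (κ * ‖T‖ * C / N) + κ * ‖T‖ * (4 * C ^ 2) / N =
        κ * ‖T‖ * (δ * C + 4 * C ^ 2) / N := by ring
    rw [e4, div_le_iff₀ hN']
    exact hNN
  have h9 : δ * trace (exp (-β • H) * T) ≤ δ * (trace (Fu * T) + κ * ‖T‖ * C / N) :=
    mul_le_mul_of_nonneg_left (by linarith) hδ.le
  have h10 : δ * 1 ≤ δ * trace (Fu * T) := mul_le_mul_of_nonneg_left hF1 hδ.le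
  linarith

/-! ### Splittings of the word -/

lemma HX_of_split (C : MM V) (B : ℝ) : ∀ (w : List (Lt V)) (Q : MM V),
    (∀ pre a b p post, w = pre ++ Lt.gate a b p :: post →
      trace (Q * wd pre * exM a b * (wd post * C)) ≤ B ∧
      trace (Q * wd pre * neM a b * (wd post * C)) ≤ B) → HX C B w Q := by
  intro w
  induction w with
  | nil => intro Q _; trivial
  | cons l w ih =>
    intro Q h
    have h2 : HX C B w (Q * mt l) := by
      refine ih _ fun pre a b p post hw => ?_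
      have := h (l :: pre) a b p post (by rw [hw]; rfl)
      rw [wd_cons, ← Matrix.mul_assoc Q (mt l) (wd pre)] at this
      exact this
    cases l with
    | gate a b p =>
      have := h [] a b p w rfl
      have e : wd ([] : List (Lt V)) = 1 := by simp [wd]
      rw [e, Matrix.mul_one, ← Matrix.mul_assoc, ← Matrix.mul_assoc] at this
      exact ⟨this, h2⟩
    | node z t => exact h2

lemma split_rep {α : Type*} (lay : List α) (g : α) : ∀ (r : ℕ) (pre post : List α),
    (List.replicate r lay).flatten = pre ++ g :: post →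
    ∃ (j : ℕ) (u v : List α), j < r ∧ lay = u ++ g :: v ∧
      pre = (List.replicate j lay).flatten ++ u ∧
      post = v ++ (List.replicate (r - 1 - j) lay).flatten := by
  intro r
  induction r with
  | zero =>
    intro pre post h
    simp at h
  | succ r ih =>
    intro pre post h
    rw [List.replicate_succ, List.flatten_cons, List.append_eq_append_iff] at h
    rcases h with ⟨a', h1, h2⟩ | ⟨c', h1, h2⟩
    · obtain ⟨j, u, v, hj, h3, h4, h5⟩ := ih a' post h2
      refine ⟨j + 1, u, v, by omega, h3, ?_, ?_⟩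
      · rw [h1, h4, List.replicate_succ, List.flatten_cons, List.append_assoc]
      · have e : r + 1 - 1 - (j + 1) = r - 1 - j := by omega
        rw [h5, e]
    · cases c' with
      | nil =>
        rw [List.nil_append] at h2
        obtain ⟨j, u, v, hj, h3, h4, h5⟩ := ih [] post (by rw [List.nil_append]; exact h2.symm)
        have h6 := List.append_eq_nil_iff.1 h4.symm
        refine ⟨j + 1, u, v, by omega, h3, ?_, ?_⟩
        · rw [List.append_nil] at h1
          rw [List.replicate_succ, List.flatten_cons, h6.1, h6.2, List.append_nil,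
            List.append_nil]
          exact h1.symm
        · have e : r + 1 - 1 - (j + 1) = r - 1 - j := by omega
          rw [h5, e]
      | cons x c' =>
        rw [List.cons_append, List.cons.injEq] at h2
        obtain ⟨h3, h4⟩ := h2
        subst h3
        refine ⟨0, pre, c', by omega, h1, by simp, ?_⟩
        rw [h4]; congr 4

lemma wd_rep (l : List (Lt V)) (r : ℕ) : wd (List.replicate r l).flatten = wd l ^ r := by
  induction r with
  | zero => simp [wd]
  | succ r ih => rw [List.replicate_succ, List.flatten_cons, wd_append, ih, pow_succ']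


/-! ### The theorem -/

lemma norm_swapM (a b : V) : ‖(swapM a b : MM V)‖ ≤ 1 := by
  rw [Matrix.linfty_opNorm_def]
  have : ((Finset.univ : Finset (V → Fin 2)).sup fun i => ∑ j, ‖(swapM a b : MM V) i j‖₊) ≤ 1 := by
    refine Finset.sup_le fun i _ => ?_
    rw [Finset.sum_eq_single (i ∘ Equiv.swap a b)]
    · simp only [swapM, Matrix.of_apply]
      split_ifs <;> simp
    · intro j _ hj
      have : ¬ i = j ∘ Equiv.swap a b := by
        intro h
        apply hj
        rw [h]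
        funext z
        simp
      simp [swapM, this]
    · simp
  exact_mod_cast this

lemma norm_diag_le (d : (V → Fin 2) → ℝ) (hd : ∀ i, |d i| ≤ 1) :
    ‖(Matrix.diagonal d : MM V)‖ ≤ 1 := by
  rw [Matrix.linfty_opNorm_diagonal]
  exact (pi_norm_le_iff_of_nonneg zero_le_one).2 fun i => by rw [Real.norm_eq_abs]; exact hd i

lemma norm_eqM (a b : V) : ‖(eqM a b : MM V)‖ ≤ 1 :=
  norm_diag_le _ fun σ => by split_ifs <;> simp

lemma norm_exM (a b : V) : ‖(exM a b : MM V)‖ ≤ 2 := by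
  unfold exM
  have := (norm_sub_le (swapM a b : MM V) (eqM a b)).trans
    (add_le_add (norm_swapM a b) (norm_eqM a b))
  linarith

lemma norm_neM (a b : V) : ‖(neM a b : MM V)‖ ≤ 2 := by
  unfold neM
  have := (norm_sub_le (1 : MM V) (eqM a b)).trans (add_le_add one_norm (norm_eqM a b))
  linarith

/-- constants -/
def cA (c : ℝ) : ℝ := 1 + c + c * Real.exp c + (1 + 2 * c ^ 2) * Real.exp (2 * c)

lemma cA_bounds {c : ℝ} (hc : 0 ≤ c) : 1 ≤ cA c ∧ 1 + c ≤ cA c ∧ 1 + c * Real.exp c ≤ cA c ∧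
    (1 + 2 * c ^ 2) * Real.exp (2 * c) ≤ cA c := by
  have h1 : 0 ≤ c * Real.exp c := by positivity
  have h2 : 0 ≤ (1 + 2 * c ^ 2) * Real.exp (2 * c) := by positivity
  unfold cA
  exact ⟨by linarith, by linarith, by linarith, by linarith⟩

/-- the common constant -/
def cK (c : ℝ) : ℝ := 64 * cA c ^ 7 + 64 * cA c ^ 7 * (4 * c * Real.exp c) + Real.exp c

section shapes

variable {H : MM V} {β c : ℝ} {N : ℕ} {lay : List (Lt V)}

lemma near_left (hβ : 0 < β) (hc : 0 ≤ c) (hN : 1 ≤ N) (hl : Lay H β c N lay) {D1 : MM V}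
    (hD1 : ‖D1 - 1‖ ≤ c / N) {g1 u : List (Lt V)} (hg1 : sz g1 ≤ c / N) (hu : sz u ≤ c / N)
    {a j : ℕ} (ha : a ≤ N) (hj : j ≤ N) :
    Near H (16 * cA c ^ 5) N (wd lay ^ a * D1 * wd g1 * wd lay ^ j * wd u)
      ((a + j : ℕ) * (β / N)) := by
  obtain ⟨b1, b2, b3, b4⟩ := cA_bounds hc
  have h1 := ((((near_pow hβ hc hN hl ha).mono b4).mul ((near_small hc hN hD1).mono b2)).mul
    ((near_wd hc hN hg1).mono b3)).mul ((near_pow hβ hc hN hl hj).mono b4)
  have h2 := h1.mul ((near_wd hc hN hu).mono b3)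
  have e1 : (a : ℝ) * (β / N) + 0 + 0 + j * (β / N) + 0 = ((a + j : ℕ) : ℝ) * (β / N) := by
    push_cast; ring
  have e2 : 2 * (2 * (2 * (2 * (cA c * cA c) * cA c) * cA c) * cA c) = 16 * cA c ^ 5 := by ring
  rw [e1, e2] at h2
  exact h2

lemma near_right (hβ : 0 < β) (hc : 0 ≤ c) (hN : 1 ≤ N) (hl : Lay H β c N lay) {D2 : MM V}
    (hD2 : ‖D2 - 1‖ ≤ c / N) {v : List (Lt V)} (hv : sz v ≤ c / N)
    {r b : ℕ} (hr : r ≤ N) (hb : b ≤ N) :
    Near H (8 * cA c ^ 4) N (wd v * wd lay ^ r * D2 * wd lay ^ b) ((r + b : ℕ) * (β / N)) := by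
  obtain ⟨b1, b2, b3, b4⟩ := cA_bounds hc
  have h2 := ((((near_wd hc hN hv).mono b3).mul ((near_pow hβ hc hN hl hr).mono b4)).mul
    ((near_small hc hN hD2).mono b2)).mul ((near_pow hβ hc hN hl hb).mono b4)
  have e1 : 0 + (r : ℝ) * (β / N) + 0 + b * (β / N) = ((r + b : ℕ) : ℝ) * (β / N) := by
    push_cast; ring
  have e2 : 2 * (2 * (2 * (cA c * cA c) * cA c) * cA c) = 8 * cA c ^ 4 := by ring
  rw [e1, e2] at h2
  exact h2

lemma near_full (hβ : 0 < β) (hc : 0 ≤ c) (hN : 1 ≤ N) (hl : Lay H β c N lay) {D1 D2 : MM V}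
    (hD1 : ‖D1 - 1‖ ≤ c / N) (hD2 : ‖D2 - 1‖ ≤ c / N) {g1 : List (Lt V)} (hg1 : sz g1 ≤ c / N)
    {a r b : ℕ} (ha : a ≤ N) (hr : r ≤ N) (hb : b ≤ N) :
    Near H (32 * cA c ^ 6) N (wd lay ^ a * D1 * wd g1 * wd lay ^ r * D2 * wd lay ^ b)
      ((a + r + b : ℕ) * (β / N)) := by
  obtain ⟨b1, b2, b3, b4⟩ := cA_bounds hc
  have h1 := ((((near_pow hβ hc hN hl ha).mono b4).mul ((near_small hc hN hD1).mono b2)).mul
    ((near_wd hc hN hg1).mono b3)).mul ((near_pow hβ hc hN hl hr).mono b4)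
  have h2 := (h1.mul ((near_small hc hN hD2).mono b2)).mul ((near_pow hβ hc hN hl hb).mono b4)
  have e1 : (a : ℝ) * (β / N) + 0 + 0 + r * (β / N) + 0 + b * (β / N) =
      ((a + r + b : ℕ) : ℝ) * (β / N) := by
    push_cast; ring
  have e2 : 2 * (2 * (2 * (2 * (2 * (cA c * cA c) * cA c) * cA c) * cA c) * cA c) =
      32 * cA c ^ 6 := by ring
  rw [e1, e2] at h2
  exact h2

end shapes


lemma cK_bounds {c : ℝ} (hc : 0 ≤ c) {C : ℝ} (_hC0 : 0 ≤ C) (hC : C ≤ 64 * cA c ^ 7) {k : ℝ}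
    (hk : 0 ≤ k) (hk4 : k ≤ 4) :
    C + C * (k * c * Real.exp c) + Real.exp c ≤ cK c := by
  unfold cK
  have h1 : 0 ≤ c * Real.exp c := by positivity
  have h2 : k * c * Real.exp c ≤ 4 * c * Real.exp c := by nlinarith
  have h3 : 0 ≤ 4 * c * Real.exp c := by positivity
  have h4 : C * (k * c * Real.exp c) ≤ 64 * cA c ^ 7 * (4 * c * Real.exp c) :=
    mul_le_mul hC h2 (by positivity) (_hC0.trans hC)
  linarith

lemma core {H T X : MM V} {β c δ : ℝ} (hβ : 0 < β) (hc : 0 ≤ c) (hδ : 0 < δ) {N : ℕ}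
    (hN : 4 ≤ N) (hX : ‖X‖ ≤ 2) (hT0 : Le 0 T) (hT1 : 1 ≤ T 0 0)
    (hTX : ∀ s t : ℝ, 0 ≤ s → 0 ≤ t → s + t = β →
      trace (T * exp (-s • H) * X * exp (-t • H)) ≤ δ * trace (T * exp (-s • H) * exp (-t • H)))
    {lay : List (Lt V)} (hl : Lay H β c N lay) (hok : ∀ l ∈ lay, Ok l) {D1 D2 : MM V}
    (hD1 : ‖D1 - 1‖ ≤ c / N) (hD2 : ‖D2 - 1‖ ≤ c / N) (hD10 : Le 0 D1) (hD20 : Le 0 D2)
    (hD11 : 1 ≤ D1 0 0) (hD21 : 1 ≤ D2 0 0) {g0 g1 u v : List (Lt V)} (hg0 : sz g0 ≤ c / N)
    (hg1 : sz g1 ≤ c / N) (hu : sz u ≤ c / N) (hv : sz v ≤ c / N) (hok0 : ∀ l ∈ g0, Ok l)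
    {a j r r' b : ℕ} (h1 : a + j + r' + b ≤ N) (h2 : N ≤ a + j + r' + b + 4)
    (h3 : a + r + b ≤ N) (h4 : N ≤ a + r + b + 3)
    (hNN : Fintype.card (V → Fin 2) * ‖T‖ * (δ * cK c + 4 * cK c ^ 2) ≤ δ * N) :
    trace ((wd lay ^ a * D1 * wd g1 * wd lay ^ j * wd u) * X *
      (wd v * wd lay ^ r' * D2 * wd lay ^ b) * T) ≤
      2 * δ * trace ((wd lay ^ a * D1 * wd g0 * wd lay ^ r * D2 * wd lay ^ b) * T) := by
  have hN1 : 1 ≤ N := by omega
  have hN' : (0 : ℝ) < N := by exact_mod_cast (by omega : 0 < N)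
  have hN4 : (4 : ℝ) ≤ N := by exact_mod_cast hN
  have hβN : 0 < β / N := by positivity
  have hH := hl.norm hN1
  obtain ⟨cb, _, _, _⟩ := cA_bounds hc
  have hp : ∀ m : ℕ, m ≤ 7 → cA c ^ m ≤ cA c ^ 7 := fun m hm => pow_le_pow_right₀ cb hm
  have hp0 : ∀ m : ℕ, 0 ≤ cA c ^ m := fun m => pow_nonneg (by linarith) m
  have hL := near_left hβ hc hN1 hl hD1 hg1 hu (a := a) (j := j) (by omega) (by omega)
  have hR := near_right hβ hc hN1 hl hD2 hv (r := r') (b := b) (by omega) (by omega)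
  have hF := near_full hβ hc hN1 hl hD1 hD2 hg0 (a := a) (r := r) (b := b) (by omega) (by omega)
    (by omega)
  set s : ℝ := ((a + j : ℕ) : ℝ) * (β / N) with hs
  have hs0 : 0 ≤ s := by positivity
  have haj : ((a + j : ℕ) : ℝ) ≤ N := by exact_mod_cast (by omega : a + j ≤ N)
  have eNβ : (N : ℝ) * (β / N) = β := by field_simp
  have hsβ : s ≤ β := by
    calc s ≤ N * (β / N) := mul_le_mul_of_nonneg_right haj hβN.le
      _ = β := eNβ
  have hR' : Near H (cK c) N (wd v * wd lay ^ r' * D2 * wd lay ^ b) (β - s) := by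
    refine (near_shift hβ hc hH hN1 hR (s' := β - s) (k := 4) ?_ (by norm_num) ?_ hN4).mono
      (cK_bounds hc (by have := hp0 4; positivity) ?_ (by norm_num) le_rfl)
    · rw [abs_of_nonneg (by linarith)]; linarith
    · have e1 : β - s - ((r' + b : ℕ) : ℝ) * (β / N) =
          ((N : ℝ) - ((a + j + r' + b : ℕ) : ℝ)) * (β / N) := by
        rw [hs]; push_cast; linarith [eNβ]
      rw [e1, abs_mul, abs_of_pos hβN]
      refine mul_le_mul_of_nonneg_right ?_ hβN.le
      have q1 : ((a + j + r' + b : ℕ) : ℝ) ≤ N := by exact_mod_cast h1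
      have q2 : (N : ℝ) ≤ ((a + j + r' + b : ℕ) : ℝ) + 4 := by exact_mod_cast h2
      rw [abs_of_nonneg (by linarith)]
      linarith
    · have := hp 4 (by norm_num); have := hp0 4; linarith
  have hF' : Near H (cK c) N (wd lay ^ a * D1 * wd g0 * wd lay ^ r * D2 * wd lay ^ b) β := by
    refine (near_shift hβ hc hH hN1 hF (s' := β) (k := 4) ?_ (by norm_num) ?_ hN4).mono
      (cK_bounds hc (by have := hp0 6; positivity) ?_ (by norm_num) le_rfl)
    · rw [abs_of_pos hβ]
    · have e1 : β - ((a + r + b : ℕ) : ℝ) * (β / N) =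
          ((N : ℝ) - ((a + r + b : ℕ) : ℝ)) * (β / N) := by
        rw [sub_mul, eNβ]
      rw [e1, abs_mul, abs_of_pos hβN]
      refine mul_le_mul_of_nonneg_right ?_ hβN.le
      have q1 : ((a + r + b : ℕ) : ℝ) ≤ N := by exact_mod_cast h3
      have q2 : (N : ℝ) ≤ ((a + r + b : ℕ) : ℝ) + 3 := by exact_mod_cast h4
      rw [abs_of_nonneg (by linarith)]
      linarith
    · have := hp 6 (by norm_num); have := hp0 6; linarith
  have hL' : Near H (cK c) N (wd lay ^ a * D1 * wd g1 * wd lay ^ j * wd u) s := by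
    refine hL.mono ?_
    have h5 := cK_bounds hc (C := 16 * cA c ^ 5) (by have := hp0 5; positivity)
      (by have := hp 5 (by norm_num); have := hp0 5; linarith) (k := 0) le_rfl (by norm_num)
    have h6 := Real.exp_pos c
    have h7 := hp0 5
    nlinarith
  -- positivity
  have wpow : ∀ n : ℕ, Le 0 (wd lay ^ n) ∧ 1 ≤ (wd lay ^ n) 0 0 := by
    intro n
    have : ∀ l ∈ (List.replicate n lay).flatten, Ok l := by
      intro l hl'
      rw [List.mem_flatten] at hl'
      obtain ⟨l', hl1, hl2⟩ := hl'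
      rw [List.mem_replicate] at hl1
      rw [hl1.2] at hl2
      exact hok l hl2
    rw [← wd_rep]
    exact ⟨wd_nonneg this, wd_zero this⟩
  have hg : Le 0 (wd g0) ∧ 1 ≤ wd g0 0 0 := ⟨wd_nonneg hok0, wd_zero hok0⟩
  have p1 : Le 0 (wd lay ^ a * D1) ∧ 1 ≤ (wd lay ^ a * D1) 0 0 :=
    ⟨(wpow a).1.zero_mul hD10, entry_zero_mul (wpow a).1 hD10 (wpow a).2 hD11⟩
  have p2 : Le 0 (wd lay ^ a * D1 * wd g0) ∧ 1 ≤ (wd lay ^ a * D1 * wd g0) 0 0 :=
    ⟨p1.1.zero_mul hg.1, entry_zero_mul p1.1 hg.1 p1.2 hg.2⟩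
  have p3 : Le 0 (wd lay ^ a * D1 * wd g0 * wd lay ^ r) ∧
      1 ≤ (wd lay ^ a * D1 * wd g0 * wd lay ^ r) 0 0 :=
    ⟨p2.1.zero_mul (wpow r).1, entry_zero_mul p2.1 (wpow r).1 p2.2 (wpow r).2⟩
  have p4 : Le 0 (wd lay ^ a * D1 * wd g0 * wd lay ^ r * D2) ∧
      1 ≤ (wd lay ^ a * D1 * wd g0 * wd lay ^ r * D2) 0 0 :=
    ⟨p3.1.zero_mul hD20, entry_zero_mul p3.1 hD20 p3.2 hD21⟩
  have p5 : Le 0 (wd lay ^ a * D1 * wd g0 * wd lay ^ r * D2 * wd lay ^ b) ∧
      1 ≤ (wd lay ^ a * D1 * wd g0 * wd lay ^ r * D2 * wd lay ^ b) 0 0 :=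
    ⟨p4.1.zero_mul (wpow b).1, entry_zero_mul p4.1 (wpow b).1 p4.2 (wpow b).2⟩
  have hF1 : 1 ≤ trace ((wd lay ^ a * D1 * wd g0 * wd lay ^ r * D2 * wd lay ^ b) * T) :=
    (entry_zero_mul p5.1 hT0 p5.2 hT1).trans (trace_ge_entry (p5.1.zero_mul hT0))
  exact insert_le hN1 (s := s) (t := β - s) (β := β) (by ring) hL' hR' hF' hX hδ
    (hTX s (β - s) hs0 (by linarith) (by ring)) hF1 hNN

/-- **General form.** -/
theorem gen {β c CT δ : ℝ} (hβ : 0 < β) (hc : 0 ≤ c) (hδ : 0 < δ) :
    ∃ N0 : ℕ, ∀ N : ℕ, N0 ≤ N → ∀ H T X : MM V, ‖X‖ ≤ 2 → ‖T‖ ≤ CT → Le 0 T → 1 ≤ T 0 0 →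
      (∀ s t : ℝ, 0 ≤ s → 0 ≤ t → s + t = β →
        trace (T * exp (-s • H) * X * exp (-t • H)) ≤
          δ * trace (T * exp (-s • H) * exp (-t • H))) →
      ∀ lay gt : List (Lt V), Lay H β c N lay → sz gt ≤ c / N → (∀ l ∈ lay, Ok l) →
      (∀ l ∈ gt, Ok l) →
      ∀ D1 D2 : MM V, ‖D1 - 1‖ ≤ c / N → ‖D2 - 1‖ ≤ c / N → Le 0 D1 → Le 0 D2 →
      1 ≤ D1 0 0 → 1 ≤ D2 0 0 → ∀ a r b : ℕ, a + r + b ≤ N → N ≤ a + r + b + 3 →
      ∀ (w1 : List (Lt V)) (g : Lt V) (w2 : List (Lt V)),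
      gt ++ (List.replicate r lay).flatten = w1 ++ g :: w2 →
      trace (wd lay ^ a * D1 * wd w1 * X * wd w2 * (D2 * wd lay ^ b * T)) ≤
        2 * δ * trace (wd lay ^ a * D1 *
          wd (gt ++ (List.replicate r lay).flatten) * (D2 * wd lay ^ b * T)) := by
  obtain ⟨N1, hN1⟩ := exists_nat_gt
    ((Fintype.card (V → Fin 2) : ℝ) * CT * (δ * cK c + 4 * cK c ^ 2) / δ)
  refine ⟨N1 + 4, ?_⟩
  intro N hN H T X hX hT hT0 hT1 hTX lay gt hl hgt hok hokg D1 D2 hD1 hD2 hD10 hD20 hD11 hD21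
    a r b h1 h2 w1 g w2 hw
  have hcK : 0 ≤ cK c := by
    obtain ⟨cb, _, _, _⟩ := cA_bounds hc
    unfold cK
    have := pow_nonneg (by linarith : 0 ≤ cA c) 7
    positivity
  have hNN : (Fintype.card (V → Fin 2) : ℝ) * ‖T‖ * (δ * cK c + 4 * cK c ^ 2) ≤ δ * N := by
    have h3 : (Fintype.card (V → Fin 2) : ℝ) * CT * (δ * cK c + 4 * cK c ^ 2) ≤ δ * N1 := by
      rw [div_lt_iff₀ hδ] at hN1
      linarith
    have h4 : (N1 : ℝ) ≤ N := by exact_mod_cast (by omega : N1 ≤ N)
    have h5 : (Fintype.card (V → Fin 2) : ℝ) * ‖T‖ * (δ * cK c + 4 * cK c ^ 2) ≤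
        (Fintype.card (V → Fin 2) : ℝ) * CT * (δ * cK c + 4 * cK c ^ 2) := by
      gcongr
    have h6 : δ * (N1 : ℝ) ≤ δ * N := mul_le_mul_of_nonneg_left h4 hδ.le
    linarith
  have hsz : sz lay ≤ c / N := hl.size
  have hfull : wd lay ^ a * D1 * wd (gt ++ (List.replicate r lay).flatten) *
      (D2 * wd lay ^ b * T) =
      (wd lay ^ a * D1 * wd gt * wd lay ^ r * D2 * wd lay ^ b) * T := by
    rw [wd_append, wd_rep]
    simp only [Matrix.mul_assoc]
  rw [hfull]
  have hnil : sz ([] : List (Lt V)) ≤ c / N := by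
    have : sz ([] : List (Lt V)) = 0 := by simp [sz]
    rw [this]
    positivity
  have hwnil : wd ([] : List (Lt V)) = 1 := by simp [wd]
  -- the case inside a later layer
  have later : ∀ a' : List (Lt V), w1 = gt ++ a' →
      (List.replicate r lay).flatten = a' ++ g :: w2 →
      trace (wd lay ^ a * D1 * wd w1 * X * wd w2 * (D2 * wd lay ^ b * T)) ≤
        2 * δ * trace ((wd lay ^ a * D1 * wd gt * wd lay ^ r * D2 * wd lay ^ b) * T) := by
    intro a' e1 e2
    obtain ⟨j, u, v, hj, h3, h4, h5⟩ := split_rep lay g r a' w2 e2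
    have hsp : sz lay = sz u + (sz [g] + sz v) := by
      rw [h3, show u ++ g :: v = u ++ ([g] ++ v) from rfl, sz_append, sz_append]
    have hu0 := sz_nonneg u
    have hv0 := sz_nonneg v
    have hg0 := sz_nonneg [g]
    have key := core hβ hc hδ (N := N) (by omega) hX hT0 hT1 hTX hl hok hD1 hD2 hD10 hD20 hD11
      hD21 (g0 := gt) (g1 := gt) (u := u) (v := v) hgt hgt (by linarith) (by linarith) hokg
      (a := a) (j := j) (r := r) (r' := r - 1 - j) (b := b) (by omega) (by omega) h1 h2 hNN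
    have e3 : wd lay ^ a * D1 * wd w1 * X * wd w2 * (D2 * wd lay ^ b * T) =
        (wd lay ^ a * D1 * wd gt * wd lay ^ j * wd u) * X *
          (wd v * wd lay ^ (r - 1 - j) * D2 * wd lay ^ b) * T := by
      rw [e1, h4, h5, wd_append, wd_append, wd_append, wd_rep, wd_rep]
      simp only [Matrix.mul_assoc]
    rw [e3]
    exact key
  rw [List.append_eq_append_iff] at hw
  rcases hw with ⟨a', e1, e2⟩ | ⟨c', e1, e2⟩
  · exact later a' e1 e2
  · cases c' with
    | nil =>
      rw [List.nil_append] at e2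
      rw [List.append_nil] at e1
      exact later [] (by rw [List.append_nil]; exact e1.symm)
        (by rw [List.nil_append]; exact e2.symm)
    | cons x c' =>
      rw [List.cons_append, List.cons.injEq] at e2
      obtain ⟨e3, e4⟩ := e2
      have hsp : sz gt = sz w1 + (sz [x] + sz c') := by
        rw [e1, show w1 ++ x :: c' = w1 ++ ([x] ++ c') from rfl, sz_append, sz_append]
      have hu0 := sz_nonneg w1
      have hv0 := sz_nonneg c'
      have hg0 := sz_nonneg [x]
      have key := core hβ hc hδ (N := N) (by omega) hX hT0 hT1 hTX hl hok hD1 hD2 hD10 hD20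
        hD11 hD21 (g0 := gt) (g1 := w1) (u := []) (v := c') hgt (by linarith) hnil
        (by linarith) hokg (a := a) (j := 0) (r := r) (r' := r) (b := b) (by omega) (by omega)
        h1 h2 hNN
      have e5 : wd lay ^ a * D1 * wd w1 * X * wd w2 * (D2 * wd lay ^ b * T) =
          (wd lay ^ a * D1 * wd w1 * wd lay ^ 0 * wd []) * X *
            (wd c' * wd lay ^ r * D2 * wd lay ^ b) * T := by
        rw [e4, wd_append, wd_rep, hwnil, pow_zero]
        simp only [Matrix.mul_assoc, Matrix.mul_one, Matrix.one_mul]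
      rw [e5]
      exact key

end

end Vale.Agent.P361.LRO.Bloch.Delta
end
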