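import Mathlib
import Vale.Agent.P361.Bdl.B1
import Vale.Agent.P361.MathlibUsed
import Vale.Agent.P361.Bdl.B2
import Vale.Agent.P361.Bdl.B7
import Vale.Agent.P361.ModelB
import Vale.Agent.P361.Bdl.B6
import Vale.Agent.P361.Bdl.B4

set_option linter.all false

section

/-!
Bridge between the real swap model of `LRO/Defs.lean` and `Model.hamiltonian 1`.
-/

namespace Vale.Agent.P361.LRO

open Matrix Filter Topology Finset
open scoped ComplexOrder

section Pair

variable {V : Type} [Fintype V] [DecidableEq V] {d : Type*} [Fintype d] [DecidableEq d]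

theorem siteOpV_pair_apply {x y : V} (hxy : x ≠ y) (A B : Matrix d d ℂ) (σ τ : V → d) :
    (siteOpV x A * siteOpV y B) σ τ = A (σ x) (τ x) * (B (σ y) (τ y) *
      ∏ z ∈ (Finset.univ.erase x).erase y, (1 : Matrix d d ℂ) (σ z) (τ z)) := by
  simp only [siteOpV, prodOp_mul]
  simp only [prodOp, Matrix.of_apply]
  rw [← Finset.mul_prod_erase _ _ (Finset.mem_univ x),
    ← Finset.mul_prod_erase _ _ (Finset.mem_erase.2 ⟨hxy.symm, Finset.mem_univ y⟩)]
  congr 1
  · simp [hxy]
  · congr 1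
    · simp [hxy.symm]
    · refine Finset.prod_congr rfl fun z hz => ?_
      have h1 := Finset.ne_of_mem_erase hz
      have h2 := Finset.ne_of_mem_erase (Finset.mem_of_mem_erase hz)
      rw [if_neg h1, if_neg h2, Matrix.one_mul]

end Pair

theorem spinLower_one : spinLower 1 = !![0, 0; 1, 0] := by
  ext i j
  fin_cases i <;> fin_cases j <;> simp [spinLower]

theorem spin_one_sum (i i' j j' : Fin 2) :
    ∑ a : Fin 3, spin 1 a i i' * spin 1 a j j' =
      (1 / 2 : ℂ) * (if i = j' ∧ j = i' then 1 else 0) -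
        (1 / 4 : ℂ) * (if i = i' ∧ j = j' then 1 else 0) := by
  have h0 : spin 1 0 = (1 / 2 : ℂ) • ((spinLower 1)ᴴ + spinLower 1) := rfl
  have h1 : spin 1 1 = (1 / (2 * Complex.I) : ℂ) • ((spinLower 1)ᴴ - spinLower 1) := rfl
  have h2 : spin 1 2 = spinZ 1 := rfl
  rw [Fin.sum_univ_three, h0, h1, h2, spinLower_one]
  fin_cases i <;> fin_cases i' <;> fin_cases j <;> fin_cases j' <;>
    simp [spinZ, Matrix.conjTranspose, Matrix.transpose, Matrix.diagonal] <;>
    first
    | done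
    | (ring_nf; rw [Complex.I_sq]; norm_num)
    | norm_num

section Gen

variable {V : Type} [Fintype V] [DecidableEq V]

theorem cM_swap {x y : V} (hxy : x ≠ y) :
    cM (swapM x y) = (2 : ℂ) • ∑ a : Fin 3, siteOpV x (spin 1 a) * siteOpV y (spin 1 a) +
      (1 / 2 : ℂ) • (1 : Matrix (V → Fin 2) (V → Fin 2) ℂ) := by
  ext σ τ
  rw [cM_apply, Matrix.add_apply, Matrix.smul_apply, Matrix.smul_apply, Matrix.sum_apply]
  simp only [siteOpV_pair_apply hxy]
  rw [show (∑ a : Fin 3, spin 1 a (σ x) (τ x) * (spin 1 a (σ y) (τ y) *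
      ∏ z ∈ (Finset.univ.erase x).erase y, (1 : Matrix (Fin 2) (Fin 2) ℂ) (σ z) (τ z))) =
      (∑ a : Fin 3, spin 1 a (σ x) (τ x) * spin 1 a (σ y) (τ y)) *
      ∏ z ∈ (Finset.univ.erase x).erase y, (1 : Matrix (Fin 2) (Fin 2) ℂ) (σ z) (τ z) by
    rw [Finset.sum_mul]; exact Finset.sum_congr rfl fun a _ => by ring]
  rw [spin_one_sum]
  have hprod : (∏ z ∈ (Finset.univ.erase x).erase y,
      (1 : Matrix (Fin 2) (Fin 2) ℂ) (σ z) (τ z)) =
      if (∀ z, z ≠ x → z ≠ y → σ z = τ z) then 1 else 0 := by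
    split_ifs with h
    · refine Finset.prod_eq_one fun z hz => ?_
      have h1 := Finset.ne_of_mem_erase hz
      have h2 := Finset.ne_of_mem_erase (Finset.mem_of_mem_erase hz)
      rw [Matrix.one_apply, if_pos (h z h2 h1)]
    · push Not at h
      obtain ⟨z, h1, h2, h3⟩ := h
      refine Finset.prod_eq_zero (i := z) ?_ (by rw [Matrix.one_apply, if_neg h3])
      exact Finset.mem_erase.2 ⟨h2, Finset.mem_erase.2 ⟨h1, Finset.mem_univ z⟩⟩
  rw [hprod]
  have hsw : (σ = τ ∘ Equiv.swap x y) ↔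
      ((σ x = τ y ∧ σ y = τ x) ∧ ∀ z, z ≠ x → z ≠ y → σ z = τ z) := by
    constructor
    · intro h
      refine ⟨⟨by rw [h]; simp, by rw [h]; simp⟩, fun z h1 h2 => by
        rw [h]; simp [Equiv.swap_apply_of_ne_of_ne h1 h2]⟩
    · rintro ⟨⟨h1, h2⟩, h3⟩
      funext z
      simp only [Function.comp_apply]
      by_cases hz : z = x
      · subst hz; simpa using h1
      · by_cases hz2 : z = y
        · subst hz2; simpa using h2
        · rw [Equiv.swap_apply_of_ne_of_ne hz hz2]; exact h3 z hz hz2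
  have hone : (σ = τ) ↔ ((σ x = τ x ∧ σ y = τ y) ∧ ∀ z, z ≠ x → z ≠ y → σ z = τ z) := by
    constructor
    · rintro rfl; simp
    · rintro ⟨⟨h1, h2⟩, h3⟩
      funext z
      by_cases hz : z = x
      · subst hz; exact h1
      · by_cases hz2 : z = y
        · subst hz2; exact h2
        · exact h3 z hz hz2
  rw [swapM, Matrix.of_apply, Matrix.one_apply]
  simp only [hsw, hone, smul_eq_mul]
  have key : ∀ (P1 P2 P3 : Prop) [Decidable P1] [Decidable P2] [Decidable P3],
      (((if P1 ∧ P3 then (1 : ℝ) else 0) : ℝ) : ℂ) =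
        2 * (((1 / 2 : ℂ) * (if P1 then 1 else 0) - (1 / 4 : ℂ) * (if P2 then 1 else 0)) *
          (if P3 then 1 else 0)) + 1 / 2 * (if P2 ∧ P3 then 1 else 0) := by
    intro P1 P2 P3 _ _ _
    by_cases h1 : P1 <;> by_cases h2 : P2 <;> by_cases h3 : P3 <;> simp [h1, h2, h3] <;> norm_num
  exact key _ _ _

theorem cM_sz (x : V) : cM (szM x) = (2 : ℂ) • siteOpV x (spin 1 2) := by
  ext σ τ
  rw [cM_apply, Matrix.smul_apply, siteOpV_apply, szM]
  have h2 : spin 1 2 = spinZ 1 := rfl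
  by_cases h : σ = τ
  · subst h
    rw [Matrix.diagonal_apply_eq, Finset.prod_eq_one (fun z _ => by rw [Matrix.one_apply_eq]), h2]
    simp only [spinZ, Matrix.diagonal_apply_eq]
    rcases Fin.exists_fin_two.1 ⟨σ x, rfl⟩ with h | h
    · rw [h]; norm_num
    · rw [h]; norm_num
  · rw [Matrix.diagonal_apply_ne _ h]
    by_cases hx : σ x = τ x
    · have : ∃ z, z ≠ x ∧ σ z ≠ τ z := by
        by_contra hcon
        push Not at hcon
        apply h
        funext z
        by_cases hz : z = x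
        · subst hz; exact hx
        · exact hcon z hz
      obtain ⟨z, hz, hz2⟩ := this
      rw [Finset.prod_eq_zero (Finset.mem_erase.2 ⟨hz, Finset.mem_univ z⟩)
        (by rw [Matrix.one_apply, if_neg hz2])]
      simp
    · rw [h2, spinZ, Matrix.diagonal_apply_ne _ hx]
      simp

end Gen

end Vale.Agent.P361.LRO
end

section

/-! # The swap form of the spin-1/2 model on the torus -/

namespace Vale.Agent.P361.LRO

open Matrix Finset Filter Topology

section torus

variable {n : ℕ}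

theorem single_one_inj (hn : 1 < n) {i j : Fin 3}
    (h : (Pi.single i 1 : Fin 3 → ZMod n) = Pi.single j 1) : i = j := by
  have : Fact (1 < n) := ⟨hn⟩
  by_contra hij
  have := congrFun h i
  rw [Pi.single_eq_same, Pi.single_eq_of_ne hij] at this
  exact one_ne_zero this

theorem single_one_add_ne (hn : 3 ≤ n) (i j : Fin 3) :
    (Pi.single i 1 : Fin 3 → ZMod n) + Pi.single j 1 ≠ 0 := by
  have : Fact (1 < n) := ⟨by omega⟩
  intro h
  have h1 := congrFun h i
  rw [Pi.add_apply, Pi.single_eq_same, Pi.zero_apply] at h1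
  by_cases hij : i = j
  · subst hij
    rw [Pi.single_eq_same] at h1
    have h2 : ((2 : ℕ) : ZMod n) = 0 := by
      rw [← h1]; norm_num
    rw [ZMod.natCast_eq_zero_iff] at h2
    have := Nat.le_of_dvd (by norm_num) h2
    omega
  · rw [Pi.single_eq_of_ne hij, add_zero] at h1
    exact one_ne_zero h1

theorem torusAdj_iff_single (x y : Fin 3 → ZMod n) :
    torusAdj n x y ↔ ∃ i, y = x + Pi.single i 1 ∨ x = y + Pi.single i 1 := by
  have key : ∀ (i : Fin 3) (u v : Fin 3 → ZMod n),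
      (u i = v i + 1 ∧ ∀ j, j ≠ i → u j = v j) ↔ u = v + Pi.single i 1 := by
    intro i u v
    constructor
    · rintro ⟨h1, h2⟩
      funext j
      by_cases hj : j = i
      · subst hj
        rw [Pi.add_apply, Pi.single_eq_same, h1]
      · rw [Pi.add_apply, Pi.single_eq_of_ne hj, add_zero, h2 j hj]
    · rintro rfl
      refine ⟨by rw [Pi.add_apply, Pi.single_eq_same], fun j hj => ?_⟩
      rw [Pi.add_apply, Pi.single_eq_of_ne hj, add_zero]
  unfold torusAdj
  refine exists_congr fun i => ?_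
  rw [← key i y x, ← key i x y]
  constructor
  · rintro ⟨h1 | h1, h2⟩
    · exact Or.inr ⟨h1, h2⟩
    · exact Or.inl ⟨h1, fun j hj => (h2 j hj).symm⟩
  · rintro (⟨h1, h2⟩ | ⟨h1, h2⟩)
    · exact ⟨Or.inr h1, fun j hj => (h2 j hj).symm⟩
    · exact ⟨Or.inl h1, h2⟩

theorem ite_torusAdj (hn : 3 ≤ n) {M : Type*} [AddCommMonoid M] (x y : Fin 3 → ZMod n) (m : M) :
    (if torusAdj n x y then m else 0) =
      (∑ i : Fin 3, if y = x + Pi.single i 1 then m else 0) +
        ∑ i : Fin 3, if x = y + Pi.single i 1 then m else 0 := by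
  have hn1 : 1 < n := by omega
  by_cases h : torusAdj n x y
  · rw [if_pos h]
    rw [torusAdj_iff_single] at h
    obtain ⟨i, rfl | rfl⟩ := h
    · have e1 : ∀ j : Fin 3, (if x + Pi.single i 1 = x + Pi.single j (1 : ZMod n) then m else 0) =
          if j = i then m else 0 := by
        intro j
        by_cases hj : j = i
        · subst hj; simp
        · rw [if_neg hj, if_neg]
          intro h2
          exact hj (single_one_inj hn1 (add_left_cancel h2)).symm
      have e2 : ∀ j : Fin 3, (if x = x + Pi.single i 1 + Pi.single j (1 : ZMod n) then m else 0) =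
          0 := by
        intro j
        rw [if_neg]
        intro h2
        apply single_one_add_ne hn i j
        rw [add_assoc] at h2
        exact (left_eq_add.1 h2)
      simp only [e1, e2, Finset.sum_const_zero, add_zero, Finset.sum_ite_eq', Finset.mem_univ,
        if_true]
    · have e1 : ∀ j : Fin 3, (if y + Pi.single i 1 = y + Pi.single j (1 : ZMod n) then m else 0) =
          if j = i then m else 0 := by
        intro j
        by_cases hj : j = i
        · subst hj; simp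
        · rw [if_neg hj, if_neg]
          intro h2
          exact hj (single_one_inj hn1 (add_left_cancel h2)).symm
      have e2 : ∀ j : Fin 3, (if y = y + Pi.single i 1 + Pi.single j (1 : ZMod n) then m else 0) =
          0 := by
        intro j
        rw [if_neg]
        intro h2
        apply single_one_add_ne hn i j
        rw [add_assoc] at h2
        exact (left_eq_add.1 h2)
      simp only [e1, e2, Finset.sum_const_zero, zero_add, Finset.sum_ite_eq', Finset.mem_univ,
        if_true]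
  · rw [if_neg h]
    rw [torusAdj_iff_single] at h
    push Not at h
    rw [Finset.sum_eq_zero fun i _ => if_neg (h i).1, Finset.sum_eq_zero fun i _ => if_neg (h i).2,
      add_zero]

theorem sum_torusAdj [NeZero n] (hn : 3 ≤ n) {M : Type*} [AddCommMonoid M]
    (f : (Fin 3 → ZMod n) → (Fin 3 → ZMod n) → M) :
    (∑ x, ∑ y, if torusAdj n x y then f x y else 0) =
      (∑ z : (Fin 3 → ZMod n) × Fin 3, f z.1 (z.1 + Pi.single z.2 1)) +
        ∑ z : (Fin 3 → ZMod n) × Fin 3, f (z.1 + Pi.single z.2 1) z.1 := by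
  simp only [ite_torusAdj hn, Finset.sum_add_distrib, Fintype.sum_prod_type]
  congr 1
  · refine Finset.sum_congr rfl fun x _ => ?_
    rw [Finset.sum_comm]
    refine Finset.sum_congr rfl fun i _ => ?_
    rw [Finset.sum_ite_eq' Finset.univ (x + Pi.single i 1) (fun y => f x y), if_pos (mem_univ _)]
  · rw [Finset.sum_comm]
    refine Finset.sum_congr rfl fun y _ => ?_
    rw [Finset.sum_comm]
    refine Finset.sum_congr rfl fun i _ => ?_
    rw [Finset.sum_ite_eq' Finset.univ (y + Pi.single i 1) (fun x => f x y), if_pos (mem_univ _)]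

theorem sum_edges [NeZero n] {M : Type*} [AddCommMonoid M] (f : Tor n × Tor n → M) :
    ((edges n).map f).sum = ∑ z : (Fin 3 → ZMod n) × Fin 3, f (z.1, z.1 + Pi.single z.2 1) := by
  rw [edges, List.map_map, Finset.sum_map_toList]
  rfl

end torus

section gen

variable {V : Type} [Fintype V] [DecidableEq V]

theorem exp_add_smul_one {ι : Type*} [Fintype ι] [DecidableEq ι] (X : Matrix ι ι ℂ) (k : ℝ) :
    NormedSpace.exp (X + (k : ℂ) • (1 : Matrix ι ι ℂ)) =
      ((Real.exp k : ℝ) : ℂ) • NormedSpace.exp X := by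
  have hcomm : Commute X ((k : ℂ) • (1 : Matrix ι ι ℂ)) :=
    (Commute.one_right X).smul_right (k : ℂ)
  have h : (k : ℂ) • (1 : Matrix ι ι ℂ) = diagonal (fun _ => (k : ℂ)) := by
    ext i j
    by_cases hij : i = j
    · subst hij; simp
    · simp [hij]
  rw [Matrix.exp_add_of_commute _ _ hcomm, h, Matrix.exp_diagonal]
  have h2 : diagonal (NormedSpace.exp fun _ : ι => (k : ℂ)) =
      ((Real.exp k : ℝ) : ℂ) • (1 : Matrix ι ι ℂ) := by
    ext i j
    by_cases hij : i = j
    · subst hij; simp [Pi.exp_def, ← Complex.exp_eq_exp_ℂ]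
    · simp [hij]
  rw [h2, Matrix.mul_smul, Matrix.mul_one]

theorem cM_hM {x y : V} (hxy : x ≠ y) :
    cM (hM x y) = (1 / 4 : ℂ) • (1 : Matrix (V → Fin 2) (V → Fin 2) ℂ) -
      ∑ a : Fin 3, siteOpV x (spin 1 a) * siteOpV y (spin 1 a) := by
  have h1 := cM_swap hxy
  unfold hM
  rw [cM_smul, cM_sub, cM_one, h1]
  push_cast
  module

theorem siteDot_comm {x y : V} (hxy : x ≠ y) :
    ∑ a : Fin 3, siteOpV y (spin 1 a) * siteOpV x (spin 1 a) =
      ∑ a : Fin 3, siteOpV x (spin 1 a) * siteOpV y (spin 1 a) :=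
  Finset.sum_congr rfl fun _ _ => siteOpV_commute hxy.symm _ _

theorem rho_eq_gib [Nonempty V] (L : List (V × V)) (β : ℝ) (h : V → ℝ) (x : V)
    (hZ : Matrix.trace (NormedSpace.exp (-β • ham L h)) ≠ 0) :
    1 / 2 - rho L β h x = gib L β h ((1 / 2 : ℝ) • szM x) := by
  unfold rho gib
  rw [smul_sub, Matrix.mul_sub, Matrix.trace_sub, Matrix.mul_smul, Matrix.mul_one,
    Matrix.trace_smul, smul_eq_mul, Matrix.mul_smul, Matrix.trace_smul, smul_eq_mul]
  field_simp
  ring

end gen

section final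

variable {n : ℕ} [NeZero n]

theorem expoV_eq_cM (hn : 3 ≤ n) (β h : ℝ) :
    expoV 1 (torusAdj n) β h = cM (-β • ham (edges n) (fun _ => h)) +
      ((β / 4 * (Fintype.card (Tor n × Fin 3)) : ℝ) : ℂ) •
        (1 : Matrix (Tor n → Fin 2) (Tor n → Fin 2) ℂ) := by
  have hn1 : 1 < n := by omega
  have hne : ∀ z : Tor n × Fin 3, z.1 ≠ z.1 + Pi.single z.2 1 := by
    intro z hz
    have : Fact (1 < n) := ⟨hn1⟩
    have h2 : (Pi.single z.2 1 : Tor n) = 0 := (left_eq_add.1 hz)
    have h3 := congrFun h2 z.2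
    rw [Pi.single_eq_same, Pi.zero_apply] at h3
    exact one_ne_zero h3
  have hM : Model.magnetization 1 (Tor n) = cM (∑ x : Tor n, (1 / 2 : ℝ) • szM x) := by
    have hM : Model.magnetization 1 (Tor n) = ∑ x : Tor n, siteOpV x (spin 1 2) := rfl
    rw [hM, cM_sum]
    refine Finset.sum_congr rfl fun x _ => ?_
    rw [cM_smul, cM_sz]
    push_cast
    module
  have hH : Model.hamiltonian 1 (torusAdj n) =
      -∑ z : Tor n × Fin 3, ∑ a : Fin 3, siteOpV z.1 (spin 1 a) *
        siteOpV (z.1 + Pi.single z.2 1) (spin 1 a) := by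
    have e0 : Model.hamiltonian 1 (torusAdj n) = -((1 / 2 : ℂ) • ∑ x : Tor n, ∑ y : Tor n,
      if torusAdj n x y then ∑ a : Fin 3, siteOpV x (spin 1 a) * siteOpV y (spin 1 a) else 0) := rfl
    rw [e0, sum_torusAdj hn (fun x y => ∑ a : Fin 3, siteOpV x (spin 1 a) * siteOpV y (spin 1 a))]
    have e1 : (∑ z : Tor n × Fin 3, ∑ a : Fin 3, siteOpV (z.1 + Pi.single z.2 1) (spin 1 a) *
        siteOpV z.1 (spin 1 a)) = ∑ z : Tor n × Fin 3, ∑ a : Fin 3, siteOpV z.1 (spin 1 a) *
        siteOpV (z.1 + Pi.single z.2 1) (spin 1 a) :=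
      Finset.sum_congr rfl fun z _ => siteDot_comm (hne z)
    rw [e1]
    have e2 : ∀ X : Matrix (Tor n → Fin 2) (Tor n → Fin 2) ℂ,
        -((1 / 2 : ℂ) • (X + X)) = -X := fun X => by module
    exact e2 _
  have hham : cM (ham (edges n) (fun _ => h)) =
      ((Fintype.card (Tor n × Fin 3) : ℂ) * (1 / 4)) • (1 : Matrix (Tor n → Fin 2) (Tor n → Fin 2) ℂ) -
        (∑ z : Tor n × Fin 3, ∑ a : Fin 3, siteOpV z.1 (spin 1 a) *
        siteOpV (z.1 + Pi.single z.2 1) (spin 1 a)) - (h : ℂ) • Model.magnetization 1 (Tor n) := by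
    unfold ham
    rw [sum_edges, cM_sub, cM_sum]
    have e1 : ∀ z : Tor n × Fin 3, cM (LRO.hM (z.1, z.1 + Pi.single z.2 1).1
        (z.1, z.1 + Pi.single z.2 1).2) = (1 / 4 : ℂ) • (1 : Matrix (Tor n → Fin 2) (Tor n → Fin 2) ℂ) -
      ∑ a : Fin 3, siteOpV z.1 (spin 1 a) * siteOpV (z.1 + Pi.single z.2 1) (spin 1 a) :=
      fun z => cM_hM (hne z)
    rw [Finset.sum_congr rfl fun z _ => e1 z, Finset.sum_sub_distrib, Finset.sum_const,
      Finset.card_univ, hM, ← cM_smul, Finset.smul_sum, ← Nat.cast_smul_eq_nsmul ℂ, smul_smul]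
    congr 2
    refine Finset.sum_congr rfl fun x _ => ?_
    rw [smul_smul]
    congr 1
    ring
  have hex : expoV 1 (torusAdj n) β h = -(β : ℂ) • (Model.hamiltonian 1 (torusAdj n) -
    (h : ℂ) • Model.magnetization 1 (Tor n)) := rfl
  rw [hex, cM_smul, hham, hH]
  push_cast
  module

/-- Total magnetization in the swap form. -/
theorem gibbsMagV_eq (hn : 3 ≤ n) (β h : ℝ) :
    gibbsMagV 1 (torusAdj n) β h =
      ∑ x : Tor n, (1 / 2 - rho (edges n) β (fun _ => h) x) := by
  have hex : NormedSpace.exp (expoV 1 (torusAdj n) β h) =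
      ((Real.exp (β / 4 * (Fintype.card (Tor n × Fin 3))) : ℝ) : ℂ) •
        cM (NormedSpace.exp (-β • ham (edges n) (fun _ => h))) := by
    rw [expoV_eq_cM hn, exp_add_smul_one, exp_cM]
  have hM : Model.magnetization 1 (Tor n) = cM (∑ x : Tor n, (1 / 2 : ℝ) • szM x) := by
    have hM : Model.magnetization 1 (Tor n) = ∑ x : Tor n, siteOpV x (spin 1 2) := rfl
    rw [hM, cM_sum]
    refine Finset.sum_congr rfl fun x _ => ?_
    rw [cM_smul, cM_sz]
    push_cast
    module
  have hc : Real.exp (β / 4 * (Fintype.card (Tor n × Fin 3))) ≠ 0 := (Real.exp_pos _).ne'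
  set c := Real.exp (β / 4 * (Fintype.card (Tor n × Fin 3))) with hcdef
  unfold gibbsMagV
  rw [hex, hM, Matrix.smul_mul, ← cM_mul, Matrix.trace_smul, Matrix.trace_smul, trace_cM,
    trace_cM, smul_eq_mul, smul_eq_mul, ← Complex.ofReal_mul, ← Complex.ofReal_mul,
    Complex.ofReal_re, Complex.ofReal_re, mul_div_mul_left _ _ hc]
  have hpos : 0 < Matrix.trace (NormedSpace.exp (-β • ham (edges n) (fun _ : Tor n => h))) := by
    have h1 := trace_exp_pos (expoV_isHermitian 1 (torusAdj n) (torusAdj_irrefl (by omega)) β h)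
    rw [hex, Matrix.trace_smul, trace_cM, smul_eq_mul, ← Complex.ofReal_mul,
      Complex.ofReal_re] at h1
    exact (mul_pos_iff_of_pos_left (Real.exp_pos _)).1 h1
  simp only [rho_eq_gib _ _ _ _ hpos.ne', gib]
  rw [← Finset.sum_div, ← Matrix.trace_sum, ← Finset.mul_sum]

end final

end Vale.Agent.P361.LRO
end

section

/-! # From the bootstrap to the spontaneous magnetization -/

namespace Vale.Agent.P361.LRO

open Matrix Finset Filter Topology

/-- Small densities on large tori at fields `h ≥ n^{-1/4}` give spontaneous magnetization. -/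
theorem spontMag_ge_of_rho {β η : ℝ} (hβ : 0 < β) {n0 : ℕ}
    (H : ∀ (n : ℕ) [NeZero n], n0 ≤ n → Odd n → ∀ h : ℝ, (n : ℝ) ^ (-(1 / 4) : ℝ) ≤ h → h ≤ 1 →
      ∀ x : Tor n, rho (edges n) β (fun _ => h) x ≤ η) :
    1 / 2 - η ≤ Model.spontMag 1 β := by
  refine spontMag_ge 1 hβ (a := fun N : ℕ => ((2 * N + 1 : ℕ) : ℝ) ^ (-(1 / 4) : ℝ)) ?_ ?_
  · have h1 : Tendsto (fun N : ℕ => ((2 * N + 1 : ℕ) : ℝ)) atTop atTop := by
      refine tendsto_natCast_atTop_atTop.comp (tendsto_atTop_mono (fun n => ?_) tendsto_id)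
      simp only [id]; omega
    exact (tendsto_rpow_neg_atTop (by norm_num : (0 : ℝ) < 1 / 4)).comp h1
  · filter_upwards [eventually_ge_atTop (max n0 1)] with N hN h hh1 hh2
    have hN1 : 1 ≤ N := le_trans (le_max_right _ _) hN
    have hN0 : n0 ≤ 2 * N + 1 := by
      have := le_trans (le_max_left _ _) hN
      omega
    have hodd : Odd (2 * N + 1) := ⟨N, rfl⟩
    have h2 := H (2 * N + 1) hN0 hodd h hh1 hh2
    rw [gibbsMagV_eq (by omega) β h]
    have hcard : (Fintype.card (Tor (2 * N + 1)) : ℝ) = (2 * (N : ℝ) + 1) ^ 3 := by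
      rw [Fintype.card_fun, ZMod.card, Fintype.card_fin]
      push_cast
      ring
    rw [le_div_iff₀ (by positivity), ← hcard, mul_comm, ← nsmul_eq_mul, ← Finset.card_univ]
    refine Finset.card_nsmul_le_sum _ _ _ fun x _ => ?_
    linarith [h2 x]

/-- The output of the bootstrap gives long range order. -/
theorem main_of_boot
    (H : ∃ β0 : ℝ, ∀ β : ℝ, β0 ≤ β → ∃ n0 : ℕ, ∀ (n : ℕ) [NeZero n], n0 ≤ n → Odd n →
      ∀ h : ℝ, (n : ℝ) ^ (-(1 / 4) : ℝ) ≤ h → h ≤ 1 →
        ∀ x : Tor n, rho (edges n) β (fun _ => h) x ≤ β ^ (-(1 / 100) : ℝ)) :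
    ∃ β0 : ℝ, 0 < β0 ∧ ∀ β : ℝ, β0 ≤ β → 1 / 2 - β ^ (-(1 / 100) : ℝ) ≤ Model.spontMag 1 β := by
  obtain ⟨β0, H⟩ := H
  refine ⟨max β0 1, lt_max_of_lt_right one_pos, fun β hβ => ?_⟩
  have h1 : β0 ≤ β := le_trans (le_max_left _ _) hβ
  have h2 : 0 < β := lt_of_lt_of_le one_pos (le_trans (le_max_right _ _) hβ)
  obtain ⟨n0, hn0⟩ := H β h1
  exact spontMag_ge_of_rho h2 hn0

end Vale.Agent.P361.LRO
end

section

/-!
P361, stage 3, block (B): the start of the bootstrap at the uniform field `h = 1/β` (helper10).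

`M_n(h)/n³ ≥ (p_n(h) - p_n(h/2))/(h/2) → (p(h) - p(h/2))/(h/2) ≥ mag(h/2)`, and
`mag(1/(2β)) ≥ 1/2 - C β^{-3/2}` is the landed uniform law `BridgeB.mag_uniform`.
-/

namespace Vale.Agent.P361.LRO.S3

open Filter Topology Finset

/-- The mean density on a torus in terms of the torus pressure. -/
theorem rho_le_slope {N : ℕ} (hN : 1 ≤ N) {β h : ℝ} (hβ : 0 < β) (hh : 0 < h)
    (x : Tor (2 * N + 1)) :
    rho (edges (2 * N + 1)) β (fun _ => h) x ≤
      1 / 2 - (pressTorus 1 N β h - pressTorus 1 N β (h / 2)) / (h / 2) := by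
  have h1 := pressTorus_support 1 N hN hβ h (h / 2)
  rw [gibbsMagV_eq (by omega) β h] at h1
  have htr : ∀ y : Tor (2 * N + 1), rho (edges (2 * N + 1)) β (fun _ => h) y =
      rho (edges (2 * N + 1)) β (fun _ => h) x := by
    intro y
    have h3 := transStmt (2 * N + 1) β (fun _ => h) x (y - x)
    rw [add_sub_cancel] at h3
    exact h3.symm
  rw [Finset.sum_congr rfl fun y _ => by rw [htr y], Finset.sum_const, Finset.card_univ,
    nsmul_eq_mul] at h1
  have hcard : (Fintype.card (Tor (2 * N + 1)) : ℝ) = (2 * (N : ℝ) + 1) ^ 3 := by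
    rw [Fintype.card_fun, ZMod.card, Fintype.card_fin]
    push_cast
    ring
  rw [hcard] at h1
  have hpos : (0 : ℝ) < (2 * (N : ℝ) + 1) ^ 3 := by positivity
  rw [mul_div_cancel_left₀ _ hpos.ne'] at h1
  rw [le_sub_comm, div_le_iff₀ (by positivity)]
  nlinarith

/-- **Start of the bootstrap** from the uniform law. -/
theorem start3_of (hU : ∀ κ : ℝ, κ < 1 / 21 → ∀ ε : ℝ, 0 < ε →
    ∀ᶠ β : ℝ in atTop, ∀ h : ℝ, β ^ (-1 - κ) ≤ h →
      |β ^ (3 / 2 : ℝ) * (((1 : ℕ) : ℝ) / 2 - Model.mag 1 β h) -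
        Model.idealDeficit (((1 : ℕ) : ℝ) / 2) (β * h)| ≤ ε) : StartStmt3 := by
  set I := Model.idealDeficit (((1 : ℕ) : ℝ) / 2) (1 / 2) with hI
  have h1 := hU (1 / 42) (by norm_num) 1 one_pos
  obtain ⟨β1, hβ1⟩ := eventually_atTop.1 h1
  refine ⟨|I| + 2, max β1 (2 ^ 42), fun β hβ => ?_⟩
  have hb1 : β1 ≤ β := le_trans (le_max_left _ _) hβ
  have hb2 : (2 : ℝ) ^ 42 ≤ β := le_trans (le_max_right _ _) hβ
  have hb0 : (0 : ℝ) < β := lt_of_lt_of_le (by norm_num) hb2
  set h : ℝ := 1 / β with hh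
  have hpos : 0 < h := by positivity
  -- the magnetization at `h / 2`
  have hfield : β ^ (-1 - 1 / 42 : ℝ) ≤ h / 2 := by
    have e1 : β ^ (-1 - 1 / 42 : ℝ) = β⁻¹ * (β ^ (1 / 42 : ℝ))⁻¹ := by
      rw [← Real.rpow_neg hb0.le, ← Real.rpow_neg_one, ← Real.rpow_add hb0]
      congr 1
    have e2 : (2 : ℝ) ≤ β ^ (1 / 42 : ℝ) := by
      have e3 : (2 : ℝ) = ((2 : ℝ) ^ 42) ^ (1 / 42 : ℝ) := by
        rw [← Real.rpow_natCast, ← Real.rpow_mul (by norm_num)]
        norm_num
      rw [e3]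
      exact Real.rpow_le_rpow (by norm_num) hb2 (by norm_num)
    have e4 : (β ^ (1 / 42 : ℝ))⁻¹ ≤ 2⁻¹ := inv_anti₀ (by norm_num) e2
    have e5 : h / 2 = β⁻¹ * 2⁻¹ := by rw [hh, one_div, div_eq_mul_inv]
    rw [e1, e5]
    exact mul_le_mul_of_nonneg_left e4 (inv_nonneg.2 hb0.le)
  have h2 := hβ1 β hb1 (h / 2) hfield
  have hbh : β * (h / 2) = 1 / 2 := by
    rw [hh]; field_simp
  rw [hbh, ← hI] at h2
  have hb32 : 0 < β ^ (3 / 2 : ℝ) := Real.rpow_pos_of_pos hb0 _
  have hneg : β ^ (-(3 / 2) : ℝ) = (β ^ (3 / 2 : ℝ))⁻¹ := Real.rpow_neg hb0.le _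
  have hb32' : 0 < β ^ (-(3 / 2) : ℝ) := Real.rpow_pos_of_pos hb0 _
  have h3 : 1 / 2 - Model.mag 1 β (h / 2) ≤ (|I| + 1) * β ^ (-(3 / 2) : ℝ) := by
    have e1 := (abs_le.1 h2).2
    have e2 := le_abs_self I
    rw [Nat.cast_one] at e1
    rw [hneg, ← div_eq_mul_inv, le_div_iff₀ hb32]
    linarith
  -- the pressures on tori
  have h4 := Vale.Agent.P361.rightDeriv_le_slope' 1 hb0 (h₀ := h / 2) (h := h) (by linarith)
  have h4' : Model.mag 1 β (h / 2) ≤
      (Model.pressure 1 β h - Model.pressure 1 β (h / 2)) / (h / 2) := by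
    have e1 : h - h / 2 = h / 2 := by ring
    rw [e1] at h4
    exact h4
  have h5 : Tendsto (fun N : ℕ => (pressTorus 1 N β h - pressTorus 1 N β (h / 2)) / (h / 2)) atTop
      (𝓝 ((Model.pressure 1 β h - Model.pressure 1 β (h / 2)) / (h / 2))) :=
    ((pressTorus_tendsto 1 hb0 h).sub (pressTorus_tendsto 1 hb0 (h / 2))).div_const _
  have h6 := (tendsto_order.1 h5).1
    ((Model.pressure 1 β h - Model.pressure 1 β (h / 2)) / (h / 2) - β ^ (-(3 / 2) : ℝ))
    (by linarith)
  obtain ⟨N0, hN0⟩ := eventually_atTop.1 h6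
  refine ⟨2 * N0 + 3, fun n _ hn hodd x => ?_⟩
  obtain ⟨N, rfl⟩ := hodd
  have hN1 : 1 ≤ N := by omega
  have hNN : N0 ≤ N := by omega
  have h7 := hN0 N hNN
  have h8 := rho_le_slope hN1 hb0 hpos x
  have h9 : (|I| + 1) * β ^ (-(3 / 2) : ℝ) + β ^ (-(3 / 2) : ℝ) =
      (|I| + 2) * β ^ (-(3 / 2) : ℝ) := by ring
  linarith

end Vale.Agent.P361.LRO.S3
end

section

/-!
Block (9): symmetry and positivity of the matrices of `LRO/Defs.lean`, translation covariance of
`rho` on the torus, and the base case `ρ ≤ log 2 / β` in the uniform field `1`.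
-/

namespace Vale.Agent.P361.LRO.Bs

open Matrix Finset
open scoped ComplexOrder

section Gen

variable {V : Type} [Fintype V] [DecidableEq V]

theorem swapM_isSymm (x y : V) : (swapM x y).IsSymm := by
  ext σ τ
  rw [Matrix.transpose_apply, swapM, Matrix.of_apply, Matrix.of_apply]
  have h : (τ = σ ∘ Equiv.swap x y) ↔ (σ = τ ∘ Equiv.swap x y) := by
    constructor
    · rintro rfl; funext z; simp
    · rintro rfl; funext z; simp
  simp only [h]

theorem swapM_sq (x y : V) : swapM x y * swapM x y = 1 := by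
  ext σ τ
  rw [Matrix.mul_apply]
  simp only [swapM, Matrix.of_apply]
  rw [Finset.sum_eq_single (σ ∘ Equiv.swap x y)]
  · have h1 : σ = (σ ∘ Equiv.swap x y) ∘ Equiv.swap x y := by funext z; simp
    rw [if_pos h1, one_mul, Matrix.one_apply]
    have h2 : (σ ∘ Equiv.swap x y = τ ∘ Equiv.swap x y) ↔ σ = τ := by
      constructor
      · intro h
        funext z
        have := congrFun h (Equiv.swap x y z)
        simpa using this
      · rintro rfl; rfl
    simp only [h2]
  · intro ρ _ hρ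
    rw [if_neg, zero_mul]
    rintro rfl
    exact hρ (by funext z; simp)
  · intro h; exact absurd (Finset.mem_univ _) h

theorem hM_isSymm (x y : V) : (hM x y).IsSymm := by
  unfold hM
  rw [Matrix.IsSymm, Matrix.transpose_smul, Matrix.transpose_sub, Matrix.transpose_one,
    swapM_isSymm x y]

theorem hM_sq (x y : V) : hM x y * hM x y = hM x y := by
  unfold hM
  rw [Matrix.smul_mul, Matrix.mul_smul, Matrix.sub_mul, Matrix.mul_sub, Matrix.mul_sub,
    swapM_sq, Matrix.mul_one, Matrix.one_mul, Matrix.mul_one]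
  module

theorem hM_posSemidef (x y : V) : (hM x y).PosSemidef := by
  have h1 : hM x y = (hM x y)ᴴ * hM x y := by
    rw [Matrix.conjTranspose_eq_transpose_of_trivial, hM_isSymm x y, hM_sq]
  rw [h1]
  exact Matrix.posSemidef_conjTranspose_mul_self _

theorem szM_isSymm (x : V) : (szM x).IsSymm := Matrix.isSymm_diagonal _

theorem down_posSemidef (x : V) : ((1 / 2 : ℝ) • (1 - szM x)).PosSemidef := by
  have h1 : (1 / 2 : ℝ) • (1 - szM x) =
      Matrix.diagonal (fun σ : V → Fin 2 => if σ x = 0 then (0 : ℝ) else 1) := by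
    ext σ τ
    by_cases h : σ = τ
    · subst h
      simp only [szM, Matrix.smul_apply, Matrix.sub_apply, Matrix.one_apply_eq,
        Matrix.diagonal_apply_eq, smul_eq_mul]
      split_ifs <;> norm_num
    · simp [szM, h]
  rw [h1]
  exact Matrix.PosSemidef.diagonal fun σ => by
    simp only [Pi.zero_apply]
    split_ifs <;> norm_num

theorem list_sum_isSymm (L : List (V × V)) : ((L.map fun e => hM e.1 e.2).sum).IsSymm := by
  induction L with
  | nil => simp [Matrix.IsSymm]
  | cons a L ih =>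
    rw [List.map_cons, List.sum_cons, Matrix.IsSymm, Matrix.transpose_add, hM_isSymm, ih]

theorem list_sum_posSemidef (L : List (V × V)) :
    ((L.map fun e => hM e.1 e.2).sum).PosSemidef := by
  induction L with
  | nil => exact Matrix.PosSemidef.zero
  | cons a L ih =>
    rw [List.map_cons, List.sum_cons]
    exact (hM_posSemidef _ _).add ih

theorem sum_szM_isSymm (c : V → ℝ) : (∑ x, c x • szM x).IsSymm := by
  rw [Matrix.IsSymm, Matrix.transpose_sum]
  exact Finset.sum_congr rfl fun x _ => by rw [Matrix.transpose_smul, szM_isSymm x]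

theorem ham_isSymm (L : List (V × V)) (h : V → ℝ) : (ham L h).IsSymm := by
  unfold ham
  rw [Matrix.IsSymm, Matrix.transpose_sub, list_sum_isSymm L, sum_szM_isSymm]

theorem smul_ham_isSymm (L : List (V × V)) (β : ℝ) (h : V → ℝ) : (-β • ham L h).IsSymm := by
  rw [Matrix.IsSymm, Matrix.transpose_smul, ham_isSymm L h]

theorem trace_ham_pos (L : List (V × V)) (β : ℝ) (h : V → ℝ) :
    0 < trace (NormedSpace.exp (-β • ham L h)) := trace_exp_pos_real (smul_ham_isSymm L β h)

theorem gib_add (L : List (V × V)) (β : ℝ) (h : V → ℝ) (A B : Matrix (V → Fin 2) (V → Fin 2) ℝ) :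
    gib L β h (A + B) = gib L β h A + gib L β h B := by
  unfold gib
  rw [Matrix.mul_add, Matrix.trace_add, add_div]

theorem gib_smul (L : List (V × V)) (β : ℝ) (h : V → ℝ) (c : ℝ)
    (A : Matrix (V → Fin 2) (V → Fin 2) ℝ) : gib L β h (c • A) = c * gib L β h A := by
  unfold gib
  rw [Matrix.mul_smul, Matrix.trace_smul, smul_eq_mul, mul_div_assoc]

theorem gib_sub (L : List (V × V)) (β : ℝ) (h : V → ℝ) (A B : Matrix (V → Fin 2) (V → Fin 2) ℝ) :
    gib L β h (A - B) = gib L β h A - gib L β h B := by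
  unfold gib
  rw [Matrix.mul_sub, Matrix.trace_sub, sub_div]

theorem gib_sum (L : List (V × V)) (β : ℝ) (h : V → ℝ) {κ : Type*} (s : Finset κ)
    (A : κ → Matrix (V → Fin 2) (V → Fin 2) ℝ) :
    gib L β h (∑ k ∈ s, A k) = ∑ k ∈ s, gib L β h (A k) := by
  unfold gib
  rw [Matrix.mul_sum, Matrix.trace_sum, Finset.sum_div]

theorem gib_one (L : List (V × V)) (β : ℝ) (h : V → ℝ) : gib L β h 1 = 1 := by
  unfold gib
  rw [Matrix.mul_one, div_self (trace_ham_pos L β h).ne']

theorem gib_nonneg (L : List (V × V)) (β : ℝ) (h : V → ℝ)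
    {A : Matrix (V → Fin 2) (V → Fin 2) ℝ} (hA : A.PosSemidef) : 0 ≤ gib L β h A :=
  div_nonneg (trace_exp_mul_nonneg_real (smul_ham_isSymm L β h) hA) (trace_ham_pos L β h).le

theorem rho_eq (L : List (V × V)) (β : ℝ) (h : V → ℝ) (x : V) :
    rho L β h x = 1 / 2 - 1 / 2 * gib L β h (szM x) := by
  unfold rho
  rw [gib_smul, gib_sub, gib_one]
  ring

theorem rho_nonneg (L : List (V × V)) (β : ℝ) (h : V → ℝ) (x : V) : 0 ≤ rho L β h x :=
  gib_nonneg L β h (down_posSemidef x)

/-- Adding a multiple of the identity to the exponent. -/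
theorem exp_add_smul_one {ι : Type*} [Fintype ι] [DecidableEq ι] (X : Matrix ι ι ℝ) (k : ℝ) :
    NormedSpace.exp (X + k • (1 : Matrix ι ι ℝ)) = Real.exp k • NormedSpace.exp X := by
  have hcomm : Commute X (k • (1 : Matrix ι ι ℝ)) := (Commute.one_right X).smul_right k
  rw [Matrix.exp_add_of_commute _ _ hcomm]
  have h2 : NormedSpace.exp (k • (1 : Matrix ι ι ℝ)) = Real.exp k • (1 : Matrix ι ι ℝ) := by
    have h3 : k • (1 : Matrix ι ι ℝ) = diagonal (fun _ => k) := by
      ext i j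
      by_cases hij : i = j
      · subst hij; simp
      · simp [hij]
    rw [h3, Matrix.exp_diagonal]
    ext i j
    by_cases hij : i = j
    · subst hij; simp [Pi.exp_def, ← Real.exp_eq_exp_ℝ]
    · simp [hij]
  rw [h2, Matrix.mul_smul, Matrix.mul_one]

/-- The nonnegative matrix `∑ h_e + ∑ (1/2) (1 - σ³_x) = H - ∑ S³_x + |V| / 2`. -/
noncomputable def groundM (L : List (V × V)) : Matrix (V → Fin 2) (V → Fin 2) ℝ :=
  (L.map fun e => hM e.1 e.2).sum + ∑ x, (1 / 2 : ℝ) • (1 - szM x)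

theorem ham_one_eq (L : List (V × V)) : ham L (fun _ => 1) =
    groundM L - ((Fintype.card V : ℝ) / 2) • (1 : Matrix (V → Fin 2) (V → Fin 2) ℝ) := by
  unfold ham groundM
  have h1 : (∑ x : V, (1 / 2 : ℝ) • (1 - szM x)) =
      ((Fintype.card V : ℝ) / 2) • (1 : Matrix (V → Fin 2) (V → Fin 2) ℝ) -
        ∑ x : V, (1 / 2 : ℝ) • szM x := by
    simp only [smul_sub, Finset.sum_sub_distrib, Finset.sum_const, Finset.card_univ]
    congr 1
    rw [← Nat.cast_smul_eq_nsmul ℝ, smul_smul]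
    congr 1
    ring
  rw [h1]
  abel

theorem groundM_posSemidef (L : List (V × V)) : (groundM L).PosSemidef :=
  (list_sum_posSemidef L).add (Matrix.posSemidef_sum _ fun x _ => down_posSemidef x)

theorem groundM_isSymm (L : List (V × V)) : (groundM L).IsSymm := by
  have := (groundM_posSemidef L).1
  rwa [Matrix.IsHermitian, Matrix.conjTranspose_eq_transpose_of_trivial] at this

theorem groundM_up (L : List (V × V)) : groundM L 0 0 = 0 := by
  unfold groundM
  rw [Matrix.add_apply]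
  have h1 : ∀ L : List (V × V), (L.map fun e => hM e.1 e.2).sum (0 : V → Fin 2) 0 = 0 := by
    intro L
    induction L with
    | nil => rfl
    | cons a L ih =>
      rw [List.map_cons, List.sum_cons, Matrix.add_apply, ih, add_zero]
      have h2 : (0 : V → Fin 2) = (0 : V → Fin 2) ∘ Equiv.swap a.1 a.2 := by funext z; rfl
      simp only [hM, Matrix.smul_apply, Matrix.sub_apply, Matrix.one_apply_eq, swapM,
        Matrix.of_apply, smul_eq_mul]
      rw [if_pos h2]; norm_num
  rw [h1, zero_add, Matrix.sum_apply]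
  refine Finset.sum_eq_zero fun x _ => ?_
  simp [szM]

theorem one_le_trace_ground (L : List (V × V)) (β : ℝ) :
    1 ≤ trace (NormedSpace.exp (-β • groundM L)) := by
  have hs : (-β • groundM L).IsSymm := by
    rw [Matrix.IsSymm, Matrix.transpose_smul, groundM_isSymm L]
  have h := peierls (cM_isHermitian hs) (V := 1) (by simp)
  rw [exp_cM, trace_cM_re] at h
  refine le_trans ?_ h
  have h1 : star (1 : Matrix (V → Fin 2) (V → Fin 2) ℂ) * cM (-β • groundM L) * 1 =
      cM (-β • groundM L) := by simp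
  rw [h1]
  have h0 : (1 : ℝ) = Real.exp (cM (-β • groundM L) 0 0).re := by
    simp [cM_apply, groundM_up]
  rw [h0]
  exact Finset.single_le_sum (f := fun i => Real.exp (cM (-β • groundM L) i i).re)
    (fun i _ => (Real.exp_pos _).le) (Finset.mem_univ (0 : V → Fin 2))

/-- Total number of down spins in the uniform field `1`. -/
theorem sum_rho_le (L : List (V × V)) {β : ℝ} (hβ : 0 < β) :
    β * ∑ x, rho L β (fun _ => 1) x ≤ Fintype.card V * Real.log 2 := by
  set G := groundM L with hG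
  have hs : (-β • G).IsSymm := by
    rw [Matrix.IsSymm, Matrix.transpose_smul, groundM_isSymm L]
  have hs2 : (β • G).IsSymm := by
    rw [Matrix.IsSymm, Matrix.transpose_smul, groundM_isSymm L]
  have hpb := peierls_bogoliubov_real hs hs2
  have h0 : -β • G + β • G = 0 := by module
  rw [h0, NormedSpace.exp_zero, Matrix.trace_one, Matrix.mul_smul, Matrix.trace_smul,
    smul_eq_mul] at hpb
  have hlog : 0 ≤ Real.log (trace (NormedSpace.exp (-β • G))) :=
    Real.log_nonneg (one_le_trace_ground L β)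
  have hcard : Real.log ((Fintype.card (V → Fin 2) : ℕ) : ℝ) = Fintype.card V * Real.log 2 := by
    rw [Fintype.card_fun, Fintype.card_fin]
    push_cast
    rw [Real.log_pow]
  rw [hcard] at hpb
  have hE : β * trace (NormedSpace.exp (-β • G) * G) / trace (NormedSpace.exp (-β • G)) ≤
      Fintype.card V * Real.log 2 := by linarith
  refine le_trans ?_ hE
  have hexp : NormedSpace.exp (-β • ham L (fun _ => 1)) =
      Real.exp (β * (Fintype.card V / 2)) • NormedSpace.exp (-β • G) := by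
    rw [← exp_add_smul_one]
    congr 1
    rw [ham_one_eq]
    module
  have hg : ∀ A, gib L β (fun _ => 1) A =
      trace (NormedSpace.exp (-β • G) * A) / trace (NormedSpace.exp (-β • G)) := by
    intro A
    unfold gib
    rw [hexp, Matrix.smul_mul, Matrix.trace_smul, Matrix.trace_smul, smul_eq_mul, smul_eq_mul]
    rw [mul_div_mul_left _ _ (Real.exp_pos _).ne']
  rw [mul_div_assoc, ← hg]
  refine mul_le_mul_of_nonneg_left ?_ hβ.le
  rw [hG]
  unfold groundM
  rw [gib_add, gib_sum]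
  have := gib_nonneg L β (fun _ => 1) (list_sum_posSemidef L)
  unfold rho
  linarith

/-! ### Relabelling -/

theorem subm_sub {ι κ : Type*} (e : ι ≃ κ) (A B : Matrix κ κ ℝ) :
    (A - B).submatrix e e = A.submatrix e e - B.submatrix e e := rfl

theorem subm_add {ι κ : Type*} (e : ι ≃ κ) (A B : Matrix κ κ ℝ) :
    (A + B).submatrix e e = A.submatrix e e + B.submatrix e e := rfl

theorem subm_smul {ι κ : Type*} (e : ι ≃ κ) (c : ℝ) (A : Matrix κ κ ℝ) :
    (c • A).submatrix e e = c • A.submatrix e e := rfl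

theorem subm_sum {ι κ ω : Type*} (e : ι ≃ κ) (s : Finset ω) (A : ω → Matrix κ κ ℝ) :
    (∑ k ∈ s, A k).submatrix e e = ∑ k ∈ s, (A k).submatrix e e := by
  ext i j
  simp [Matrix.sum_apply]

theorem exp_submatrix_real {ι κ : Type*} [Fintype ι] [DecidableEq ι] [Fintype κ] [DecidableEq κ]
    (e : ι ≃ κ) (Y : Matrix κ κ ℝ) :
    NormedSpace.exp (Y.submatrix e e) = (NormedSpace.exp Y).submatrix e e := by
  apply cM_injective
  rw [← exp_cM]
  have h1 : cM (Y.submatrix e e) = (cM Y).submatrix e e := rfl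
  have h2 : cM ((NormedSpace.exp Y).submatrix e e) = (cM (NormedSpace.exp Y)).submatrix e e := rfl
  rw [h1, h2, exp_submatrix_equiv, exp_cM]

theorem trace_submatrix_real {ι κ : Type*} [Fintype ι] [Fintype κ]
    (e : ι ≃ κ) (Y : Matrix κ κ ℝ) : trace (Y.submatrix e e) = trace Y := by
  simp only [Matrix.trace, Matrix.diag_apply, Matrix.submatrix_apply]
  exact Equiv.sum_comp e (fun i => Y i i)

/-- The relabelling of configurations `σ ↦ σ ∘ g⁻¹`. -/
def relab (g : V ≃ V) : (V → Fin 2) ≃ (V → Fin 2) := Equiv.arrowCongr g (Equiv.refl _)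

omit [Fintype V] [DecidableEq V] in
theorem relab_apply (g : V ≃ V) (σ : V → Fin 2) (x : V) : relab g σ (g x) = σ x := by
  simp [relab, Equiv.arrowCongr]

theorem szM_relab (g : V ≃ V) (x : V) :
    (szM (g x)).submatrix (relab g) (relab g) = szM x := by
  ext σ τ
  rw [Matrix.submatrix_apply, szM, szM]
  by_cases h : σ = τ
  · subst h
    rw [Matrix.diagonal_apply_eq, Matrix.diagonal_apply_eq, relab_apply]
  · rw [Matrix.diagonal_apply_ne _ h, Matrix.diagonal_apply_ne]
    exact fun h2 => h ((relab g).injective h2)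

theorem swapM_relab (g : V ≃ V) (x y : V) :
    (swapM (g x) (g y)).submatrix (relab g) (relab g) = swapM x y := by
  ext σ τ
  rw [Matrix.submatrix_apply, swapM, swapM, Matrix.of_apply, Matrix.of_apply]
  have hsw : ∀ z, Equiv.swap (g x) (g y) (g z) = g (Equiv.swap x y z) := by
    intro z
    rw [Equiv.swap_apply_def, Equiv.swap_apply_def]
    simp only [EmbeddingLike.apply_eq_iff_eq]
    split_ifs <;> rfl
  have h : (relab g σ = relab g τ ∘ Equiv.swap (g x) (g y)) ↔ (σ = τ ∘ Equiv.swap x y) := by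
    constructor
    · intro h
      funext z
      have := congrFun h (g z)
      rw [relab_apply, Function.comp_apply, hsw, relab_apply] at this
      exact this
    · intro h
      funext z
      obtain ⟨w, rfl⟩ := g.surjective z
      rw [relab_apply, Function.comp_apply, hsw, relab_apply, h]
      rfl
  simp only [h]

theorem hM_relab (g : V ≃ V) (x y : V) :
    (hM (g x) (g y)).submatrix (relab g) (relab g) = hM x y := by
  unfold hM
  rw [subm_smul, subm_sub, Matrix.submatrix_one_equiv, swapM_relab]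

/-- If the sum over the edges is invariant under `g`, then `rho` is covariant. -/
theorem rho_relab (L : List (V × V)) (g : V ≃ V)
    (hL : ∀ f : V → V → Matrix (V → Fin 2) (V → Fin 2) ℝ,
      (L.map fun e => f e.1 e.2).sum = (L.map fun e => f (g e.1) (g e.2)).sum)
    (β : ℝ) (h : V → ℝ) (x : V) :
    rho L β (fun y => h (g y)) x = rho L β h (g x) := by
  have h1 : (ham L h).submatrix (relab g) (relab g) = ham L (fun y => h (g y)) := by
    unfold ham
    rw [subm_sub]
    congr 1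
    · have h2 : ∀ L : List (V × V),
          ((L.map fun e => hM (g e.1) (g e.2)).sum).submatrix (relab g) (relab g) =
            (L.map fun e => hM e.1 e.2).sum := by
        intro L
        induction L with
        | nil => ext i j; rfl
        | cons a L ih =>
          rw [List.map_cons, List.sum_cons, List.map_cons, List.sum_cons, subm_add, ih, hM_relab]
      conv_lhs => rw [hL hM]
      exact h2 L
    · rw [subm_sum, ← Equiv.sum_comp g]
      refine Finset.sum_congr rfl fun y _ => ?_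
      rw [subm_smul, szM_relab]
  have h2 : NormedSpace.exp (-β • ham L (fun y => h (g y))) =
      (NormedSpace.exp (-β • ham L h)).submatrix (relab g) (relab g) := by
    rw [← exp_submatrix_real, ← h1]
    congr 1
  unfold rho gib
  rw [h2, trace_submatrix_real]
  congr 1
  have h3 : ((1 / 2 : ℝ) • (1 - szM x)) =
      ((1 / 2 : ℝ) • (1 - szM (g x))).submatrix (relab g) (relab g) := by
    rw [subm_smul, subm_sub, Matrix.submatrix_one_equiv, szM_relab]
  rw [h3, Matrix.submatrix_mul_equiv, trace_submatrix_real]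

end Gen

section Torus

variable {n : ℕ} [NeZero n]

theorem edges_map_sum {M : Type*} [AddCommMonoid M] (f : Tor n → Tor n → M) :
    ((edges n).map fun e => f e.1 e.2).sum =
      ∑ z : Tor n × Fin 3, f z.1 (z.1 + Pi.single z.2 1) := by
  unfold edges
  rw [List.map_map, ← Finset.sum_map_toList]
  rfl

theorem edges_translate {M : Type*} [AddCommMonoid M] (f : Tor n → Tor n → M) (v : Tor n) :
    ((edges n).map fun e => f e.1 e.2).sum =
      ((edges n).map fun e => f (e.1 + v) (e.2 + v)).sum := by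
  rw [edges_map_sum, edges_map_sum (fun a b => f (a + v) (b + v))]
  rw [← Equiv.sum_comp (Equiv.prodCongr (Equiv.addRight v) (Equiv.refl (Fin 3)))]
  refine Finset.sum_congr rfl fun z _ => ?_
  change f (z.1 + v) ((z.1 + v) + Pi.single z.2 1) = f (z.1 + v) ((z.1 + Pi.single z.2 1) + v)
  rw [add_right_comm]

/-- Translation covariance of `rho`. -/
theorem rho_translate (β : ℝ) (h : Tor n → ℝ) (v x : Tor n) :
    rho (edges n) β (fun y => h (y + v)) x = rho (edges n) β h (x + v) :=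
  rho_relab (edges n) (Equiv.addRight v) (fun f => edges_translate f v) β h x

/-- Base case of the bootstrap. -/
theorem base_rho {β : ℝ} (hβ : 0 < β) (x : Tor n) :
    rho (edges n) β (fun _ => 1) x ≤ Real.log 2 / β := by
  have h1 : ∀ y : Tor n, rho (edges n) β (fun _ => 1) y = rho (edges n) β (fun _ => 1) x := by
    intro y
    have := rho_translate β (fun _ : Tor n => (1 : ℝ)) (y - x) x
    rw [add_sub_cancel] at this
    exact this.symm
  have h2 := sum_rho_le (edges n) hβ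
  simp only [h1, Finset.sum_const, Finset.card_univ, nsmul_eq_mul] at h2
  have hc : (0 : ℝ) < Fintype.card (Tor n) := by exact_mod_cast Fintype.card_pos
  rw [le_div_iff₀ hβ]
  have h3 : (Fintype.card (Tor n) : ℝ) * (rho (edges n) β (fun _ => 1) x * β) ≤
      Fintype.card (Tor n) * Real.log 2 := by linarith
  exact le_of_mul_le_mul_left h3 hc

end Torus

end Vale.Agent.P361.LRO.Bs
end

section

/-!
P361, stage 3, pair inequality, part 1: the block twist polynomial of two nodes is a real rooted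
quadratic polynomial.
-/

namespace Vale.Agent.P361.LRO.PairS

open Finset Matrix

noncomputable section

variable {X : Type} [Fintype X] [DecidableEq X]

theorem cos_int_quad {q : ℤ} (hq : |q| ≤ 2) (φ : ℝ) :
    Real.cos (φ * q) = Real.cos (Real.pi / 2 * q) +
      (Real.cos (0 * q) - Real.cos (Real.pi * q)) / 2 * Real.cos φ +
      ((Real.cos (0 * q) + Real.cos (Real.pi * q)) / 2 - Real.cos (Real.pi / 2 * q)) *
        Real.cos φ ^ 2 := by
  obtain ⟨h1, h2⟩ := abs_le.1 hq
  have hc : q = -2 ∨ q = -1 ∨ q = 0 ∨ q = 1 ∨ q = 2 := by omega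
  have e2 : Real.cos (φ * 2) = 2 * Real.cos φ ^ 2 - 1 := by
    rw [mul_comm, Real.cos_two_mul]
  have p2 : Real.cos (Real.pi * 2) = 1 := by rw [mul_comm]; exact Real.cos_two_pi
  rcases hc with rfl | rfl | rfl | rfl | rfl
  · push_cast
    have n1 : Real.cos (φ * -2) = Real.cos (φ * 2) := by rw [mul_neg, Real.cos_neg]
    have n2 : Real.cos (Real.pi * -2) = Real.cos (Real.pi * 2) := by rw [mul_neg, Real.cos_neg]
    have n3 : Real.cos (Real.pi / 2 * -2) = Real.cos Real.pi := by
      rw [mul_neg, Real.cos_neg]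
      congr 1
      ring
    rw [n1, n2, n3, e2, p2]
    simp
    ring
  · push_cast
    simp
  · simp
  · simp
  · push_cast
    rw [e2, p2]
    have : Real.pi / 2 * 2 = Real.pi := by ring
    rw [this]
    simp
    ring

omit [Fintype X] [DecidableEq X] in
theorem abs_qz_le (π : Equiv.Perm X) (s : X → Fin 2) (b : Finset X) :
    |qz π s b| ≤ b.card := by
  unfold qz
  refine (Finset.abs_sum_le_sum_abs _ _).trans ?_
  have : ∀ x ∈ b, |((s x : ℕ) : ℤ) - ((s (π x) : ℕ) : ℤ)| ≤ 1 := by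
    intro x _
    have h1 := (s x).isLt
    have h2 := (s (π x)).isLt
    rw [abs_le]
    constructor <;> omega
  calc ∑ x ∈ b, |((s x : ℕ) : ℤ) - ((s (π x) : ℕ) : ℤ)| ≤ ∑ _x ∈ b, (1 : ℤ) :=
        Finset.sum_le_sum this
    _ = b.card := by simp

/-- The twist polynomial of at most two nodes is quadratic. -/
theorem Zf_quad (μ : Equiv.Perm X → ℝ) (θ : X → ℝ) {b : Finset X} (hb : b.card ≤ 2) (φ : ℝ) :
    Zf μ θ b φ = Zf μ θ b (Real.pi / 2) +
      (Zf μ θ b 0 - Zf μ θ b Real.pi) / 2 * Real.cos φ +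
      ((Zf μ θ b 0 + Zf μ θ b Real.pi) / 2 - Zf μ θ b (Real.pi / 2)) * Real.cos φ ^ 2 := by
  have key : ∀ (π : Equiv.Perm X) (s : X → Fin 2),
      μ π * wt θ π s * Real.cos (φ * ∑ x ∈ b, jj π s x) =
      μ π * wt θ π s * Real.cos (Real.pi / 2 * ∑ x ∈ b, jj π s x) +
      (μ π * wt θ π s * Real.cos (0 * ∑ x ∈ b, jj π s x) -
        μ π * wt θ π s * Real.cos (Real.pi * ∑ x ∈ b, jj π s x)) / 2 * Real.cos φ +
      ((μ π * wt θ π s * Real.cos (0 * ∑ x ∈ b, jj π s x) +
        μ π * wt θ π s * Real.cos (Real.pi * ∑ x ∈ b, jj π s x)) / 2 -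
        μ π * wt θ π s * Real.cos (Real.pi / 2 * ∑ x ∈ b, jj π s x)) * Real.cos φ ^ 2 := by
    intro π s
    have hq : |qz π s b| ≤ 2 := (abs_qz_le π s b).trans (by exact_mod_cast hb)
    have h := cos_int_quad hq φ
    rw [qz_cast] at h
    rw [h]
    ring
  unfold Zf
  rw [Finset.sum_congr rfl fun π _ => Finset.sum_congr rfl fun s _ => key π s]
  simp only [Finset.sum_add_distrib, Finset.sum_sub_distrib, ← Finset.sum_mul, ← Finset.sum_div]

/-- **Discriminant of the twist polynomial of two nodes.** -/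
theorem disc_two {μ : Equiv.Perm X → ℝ} {θ : X → ℝ} (hμ : ∀ π, 0 ≤ μ π)
    (hθ : ∀ x, 0 ≤ θ x) (hZ : 0 < ZZ μ θ) (hst : Stable μ θ) {b : Finset X} (hb : b.card ≤ 2) :
    8 * (Zf μ θ b (Real.pi / 2) *
        (Zf μ θ b 0 + Zf μ θ b Real.pi - 2 * Zf μ θ b (Real.pi / 2))) ≤
      (Zf μ θ b 0 - Zf μ θ b Real.pi) ^ 2 := by
  classical
  set α := Zf μ θ b (Real.pi / 2) with hα
  set β := (Zf μ θ b 0 - Zf μ θ b Real.pi) / 2 with hβ
  set γ := (Zf μ θ b 0 + Zf μ θ b Real.pi) / 2 - Zf μ θ b (Real.pi / 2) with hγ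
  have hpoly : FP μ θ b = Polynomial.C α + Polynomial.C β * Polynomial.X +
      Polynomial.C γ * Polynomial.X ^ 2 := by
    refine Polynomial.eq_of_infinite_eval_eq _ _ ?_
    refine Set.Infinite.mono (s := Set.Icc (-1 : ℝ) 1) ?_ (Set.Icc_infinite (by norm_num))
    intro t ht
    have h1 : Real.cos (Real.arccos t) = t := Real.cos_arccos ht.1 ht.2
    show (FP μ θ b).eval t = _
    rw [← h1, FP_eval_cos, Zf_quad μ θ hb]
    simp
    rfl
  by_contra hcon
  push Not at hcon
  have hdisc : β ^ 2 < 4 * α * γ := by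
    rw [hβ, hγ]
    nlinarith
  have hγ0 : γ ≠ 0 := by
    intro h0
    rw [h0] at hdisc
    nlinarith [sq_nonneg β]
  set D := Real.sqrt (4 * α * γ - β ^ 2) with hD
  have hDpos : 0 < D := Real.sqrt_pos.2 (by linarith)
  have hD2 : D ^ 2 = 4 * α * γ - β ^ 2 := Real.sq_sqrt (by linarith)
  set τ : ℂ := (-(β : ℂ) + (D : ℂ) * Complex.I) / (2 * (γ : ℂ)) with hτ
  have hγc : (γ : ℂ) ≠ 0 := by exact_mod_cast hγ0
  have hD2c : (D : ℂ) ^ 2 = 4 * (α : ℂ) * (γ : ℂ) - (β : ℂ) ^ 2 := by exact_mod_cast hD2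
  have hroot : ((FP μ θ b).map (algebraMap ℝ ℂ)).eval τ = 0 := by
    rw [hpoly]
    simp only [Polynomial.map_add, Polynomial.map_mul, Polynomial.map_pow, Polynomial.map_C,
      Polynomial.map_X, Polynomial.eval_add, Polynomial.eval_mul, Polynomial.eval_pow,
      Polynomial.eval_C, Polynomial.eval_X, Complex.coe_algebraMap]
    rw [hτ]
    field_simp
    have hI : Complex.I ^ 2 = -1 := Complex.I_sq
    linear_combination (-1 : ℂ) * hD2c + (D : ℂ) ^ 2 * hI
  obtain ⟨r, -, hr⟩ := FP_roots hμ hθ hZ hst b τ hroot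
  have him : τ.im = 0 := by rw [hr]; simp
  have him2 : τ.im = D / (2 * γ) := by
    rw [hτ]
    have : (-(β : ℂ) + (D : ℂ) * Complex.I) / (2 * (γ : ℂ)) =
        (((-β / (2 * γ) : ℝ) : ℂ) + ((D / (2 * γ) : ℝ) : ℂ) * Complex.I) := by
      push_cast
      field_simp
    rw [this, Complex.add_im, Complex.ofReal_im, Complex.im_ofReal_mul, Complex.I_im]
    ring
  rw [him2] at him
  have : D / (2 * γ) ≠ 0 := div_ne_zero hDpos.ne' (by simpa using hγ0)
  exact this him

end

end Vale.Agent.P361.LRO.PairS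
end

section

/-!
Block (1) of the low temperature order proof (P361): the twisted partition function as a sum over
subsets of the block, and its moments.
-/

namespace Vale.Agent.P361.LRO.Tw

open Finset Matrix MeasureTheory intervalIntegral

set_option linter.unusedSectionVars false

variable {V : Type} [Fintype V] [DecidableEq V]

/-! ### Beta integrals -/

theorem cont_bern (p r : ℕ) : Continuous fun q : ℝ => (1 - q) ^ p * q ^ r := by fun_prop

theorem beta_step (p r : ℕ) :
    ((r : ℝ) + 1) * ∫ q in (0 : ℝ)..1, (1 - q) ^ (p + 1) * q ^ r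
      = ((p : ℝ) + 1) * ∫ q in (0 : ℝ)..1, (1 - q) ^ p * q ^ (r + 1) := by
  have hder : ∀ q ∈ Set.uIcc (0 : ℝ) 1,
      HasDerivAt (fun q : ℝ => (1 - q) ^ (p + 1) * q ^ (r + 1))
        (((r : ℝ) + 1) * ((1 - q) ^ (p + 1) * q ^ r)
          - ((p : ℝ) + 1) * ((1 - q) ^ p * q ^ (r + 1))) q := by
    intro q _
    have h1 : HasDerivAt (fun q : ℝ => 1 - q) (-1) q := by
      simpa using (hasDerivAt_id q).const_sub 1
    have h2 := (h1.fun_pow (p + 1)).fun_mul ((hasDerivAt_id' q).fun_pow (r + 1))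
    have e : ((r : ℝ) + 1) * ((1 - q) ^ (p + 1) * q ^ r) - ((p : ℝ) + 1) * ((1 - q) ^ p * q ^ (r + 1))
        = ((p + 1 : ℕ) : ℝ) * (1 - q) ^ (p + 1 - 1) * -1 * q ^ (r + 1)
          + (1 - q) ^ (p + 1) * (((r + 1 : ℕ) : ℝ) * q ^ (r + 1 - 1) * 1) := by
      simp only [Nat.add_sub_cancel, Nat.cast_add, Nat.cast_one]
      ring
    rw [e]
    exact h2
  have hint : IntervalIntegrable (fun q : ℝ => ((r : ℝ) + 1) * ((1 - q) ^ (p + 1) * q ^ r)
          - ((p : ℝ) + 1) * ((1 - q) ^ p * q ^ (r + 1))) volume 0 1 := by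
    apply Continuous.intervalIntegrable
    fun_prop
  have h := integral_eq_sub_of_hasDerivAt hder hint
  rw [intervalIntegral.integral_sub, intervalIntegral.integral_const_mul,
    intervalIntegral.integral_const_mul] at h
  · simp at h
    linarith
  · apply Continuous.intervalIntegrable; fun_prop
  · apply Continuous.intervalIntegrable; fun_prop

theorem beta_int (p : ℕ) : ∀ r : ℕ, ∫ q in (0 : ℝ)..1, (1 - q) ^ p * q ^ r
    = ((p.factorial * r.factorial : ℕ) : ℝ) / ((p + r + 1).factorial : ℕ) := by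
  induction p with
  | zero =>
    intro r
    simp only [pow_zero, one_mul, Nat.factorial_zero, integral_pow]
    rw [zero_add, Nat.factorial_succ]
    have h1 : ((r.factorial : ℕ) : ℝ) ≠ 0 := by exact_mod_cast Nat.factorial_ne_zero r
    have h2 : ((r : ℝ) + 1) ≠ 0 := by positivity
    push_cast
    field_simp
    simp
  | succ p ih =>
    intro r
    have h := beta_step p r
    rw [ih (r + 1)] at h
    have h2 : ((r : ℝ) + 1) ≠ 0 := by positivity
    have h3 : p + (r + 1) + 1 = p + 1 + r + 1 := by ring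
    rw [h3] at h
    have h4 : (((p + 1 + r + 1).factorial : ℕ) : ℝ) ≠ 0 := by
      exact_mod_cast Nat.factorial_ne_zero _
    have h5 : (∫ q in (0 : ℝ)..1, (1 - q) ^ (p + 1) * q ^ r)
        = (((p : ℝ) + 1) * (((p.factorial * (r + 1).factorial : ℕ) : ℝ)
            / ((p + 1 + r + 1).factorial : ℕ))) / ((r : ℝ) + 1) := by
      rw [← h]; field_simp
    rw [h5, Nat.factorial_succ r, Nat.factorial_succ p]
    push_cast
    field_simp

theorem beta_choose {a m : ℕ} (h : m ≤ a) :
    ∫ q in (0 : ℝ)..1, (1 - q) ^ (a - m) * q ^ m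
      = (((a : ℝ) + 1))⁻¹ * ((a.choose m : ℕ) : ℝ)⁻¹ := by
  rw [beta_int, Nat.sub_add_cancel h, Nat.factorial_succ]
  have h1 := Nat.choose_mul_factorial_mul_factorial h
  have h2 : (((a.choose m : ℕ) : ℝ)) * (m.factorial : ℕ) * ((a - m).factorial : ℕ)
      = (a.factorial : ℕ) := by exact_mod_cast h1
  have h3 : (((a.choose m : ℕ) : ℝ)) ≠ 0 := by exact_mod_cast (Nat.choose_pos h).ne'
  have h4 : ((m.factorial : ℕ) : ℝ) ≠ 0 := by exact_mod_cast Nat.factorial_ne_zero _
  have h5 : (((a - m).factorial : ℕ) : ℝ) ≠ 0 := by exact_mod_cast Nat.factorial_ne_zero _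
  have h6 : ((a : ℝ) + 1) ≠ 0 := by positivity
  push_cast
  rw [← h2]
  field_simp

theorem beta_choose' {a m : ℕ} (h : m ≤ a) :
    ∫ q in (0 : ℝ)..1, q * ((1 - q) ^ (a - m) * q ^ m)
      = (((a : ℝ) + 1) * ((a : ℝ) + 2))⁻¹ * (((m : ℝ) + 1) * ((a.choose m : ℕ) : ℝ)⁻¹) := by
  have h0 : (∫ q in (0 : ℝ)..1, q * ((1 - q) ^ (a - m) * q ^ m))
      = ∫ q in (0 : ℝ)..1, (1 - q) ^ (a - m) * q ^ (m + 1) := by
    congr 1; funext q; ring
  have e : a - m + (m + 1) + 1 = a + 1 + 1 := by omega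
  rw [h0, beta_int, e, Nat.factorial_succ (a + 1), Nat.factorial_succ a, Nat.factorial_succ m]
  have h1 := Nat.choose_mul_factorial_mul_factorial h
  have h2 : (((a.choose m : ℕ) : ℝ)) * (m.factorial : ℕ) * ((a - m).factorial : ℕ)
      = (a.factorial : ℕ) := by exact_mod_cast h1
  have h3 : (((a.choose m : ℕ) : ℝ)) ≠ 0 := by exact_mod_cast (Nat.choose_pos h).ne'
  have h4 : ((m.factorial : ℕ) : ℝ) ≠ 0 := by exact_mod_cast Nat.factorial_ne_zero _
  have h5 : (((a - m).factorial : ℕ) : ℝ) ≠ 0 := by exact_mod_cast Nat.factorial_ne_zero _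
  have h6 : ((a : ℝ) + 1) ≠ 0 := by positivity
  have h7 : ((a : ℝ) + 2) ≠ 0 := by positivity
  have h8 : ((a : ℝ) + 1 + 1) ≠ 0 := by positivity
  push_cast
  rw [← h2]
  field_simp
  ring

/-! ### The twist -/

/-- The spin 1/2 coherent vector. -/
noncomputable def vq (q : ℝ) (i : Fin 2) : ℝ := if i = 0 then √(1 - q) else √q

/-- The twisted slice on the block `b`: `(1 - θ) + 2 θ |v⟩⟨v|` at each site of `b`. -/
noncomputable def TM (b : Finset V) (θ q : ℝ) : Matrix (V → Fin 2) (V → Fin 2) ℝ :=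
  Matrix.of fun σ τ => ∏ x, (if x ∈ b then
    (1 - θ) * (if σ x = τ x then 1 else 0) + 2 * θ * (vq q (σ x) * vq q (τ x))
    else (if σ x = τ x then 1 else 0))

/-- The weight of a subset. -/
noncomputable def wS (θ : ℝ) (n k : ℕ) : ℝ := (2 * θ) ^ k * (1 - θ) ^ (n - k)

theorem prod_vq (A : Finset V) (q : ℝ) (σ : V → Fin 2) :
    ∏ x ∈ A, vq q (σ x) = √(1 - q) ^ (A.card - dn A σ) * √q ^ (dn A σ) := by
  unfold vq
  rw [Finset.prod_ite, Finset.prod_const, Finset.prod_const]
  have h0 := card_filter_zero A σ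
  have h1 : (A.filter fun x => ¬ σ x = 0).card = dn A σ := by
    have := Finset.card_filter_add_card_filter_not (s := A) (fun y => σ y = 0)
    omega
  rw [h1]
  congr 2
  omega

theorem prod_vq_vq (A : Finset V) {q : ℝ} (h0 : 0 ≤ q) (h1 : q ≤ 1) {σ τ : V → Fin 2}
    (h : dn A σ = dn A τ) :
    ∏ x ∈ A, (vq q (σ x) * vq q (τ x)) = (1 - q) ^ (A.card - dn A σ) * q ^ (dn A σ) := by
  rw [Finset.prod_mul_distrib, prod_vq, prod_vq, ← h]
  have e1 : √(1 - q) * √(1 - q) = 1 - q := Real.mul_self_sqrt (by linarith)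
  have e2 : √q * √q = q := Real.mul_self_sqrt h0
  calc √(1 - q) ^ (A.card - dn A σ) * √q ^ dn A σ * (√(1 - q) ^ (A.card - dn A σ) * √q ^ dn A σ)
      = (√(1 - q) * √(1 - q)) ^ (A.card - dn A σ) * (√q * √q) ^ dn A σ := by
        rw [mul_pow, mul_pow]; ring
    _ = _ := by rw [e1, e2]

theorem TM_expand (b : Finset V) (θ q : ℝ) (σ τ : V → Fin 2) :
    TM b θ q σ τ = ∑ A ∈ b.powerset, wS θ b.card A.card *
      (if ∀ x, x ∉ A → σ x = τ x then ∏ x ∈ A, (vq q (σ x) * vq q (τ x)) else 0) := by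
  unfold TM
  simp only [Matrix.of_apply]
  rw [← Finset.prod_mul_prod_compl b]
  have e1 : ∏ x ∈ b, (if x ∈ b then
      (1 - θ) * (if σ x = τ x then 1 else 0) + 2 * θ * (vq q (σ x) * vq q (τ x))
      else (if σ x = τ x then (1 : ℝ) else 0))
      = ∏ x ∈ b, (2 * θ * (vq q (σ x) * vq q (τ x))
          + (1 - θ) * (if σ x = τ x then 1 else 0)) := by
    refine Finset.prod_congr rfl fun x hx => ?_
    rw [if_pos hx, add_comm]
  have e2 : ∏ x ∈ bᶜ, (if x ∈ b then
      (1 - θ) * (if σ x = τ x then 1 else 0) + 2 * θ * (vq q (σ x) * vq q (τ x))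
      else (if σ x = τ x then (1 : ℝ) else 0))
      = ∏ x ∈ bᶜ, (if σ x = τ x then (1 : ℝ) else 0) := by
    refine Finset.prod_congr rfl fun x hx => ?_
    rw [if_neg (Finset.mem_compl.1 hx)]
  rw [e1, e2, Finset.prod_add, Finset.sum_mul]
  refine Finset.sum_congr rfl fun A hA => ?_
  have hAb : A ⊆ b := Finset.mem_powerset.1 hA
  rw [Finset.prod_mul_distrib (f := fun _ => 2 * θ), Finset.prod_const,
    Finset.prod_mul_distrib (f := fun _ => 1 - θ), Finset.prod_const,
    Finset.card_sdiff_of_subset hAb]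
  unfold wS
  have e3 : (∏ x ∈ b \ A, (if σ x = τ x then (1 : ℝ) else 0))
      * ∏ x ∈ bᶜ, (if σ x = τ x then (1 : ℝ) else 0)
      = if ∀ x, x ∉ A → σ x = τ x then 1 else 0 := by
    rw [Finset.prod_ite_zero, Finset.prod_ite_zero, Finset.prod_const_one, Finset.prod_const_one]
    by_cases h : ∀ x, x ∉ A → σ x = τ x
    · rw [if_pos h, if_pos, if_pos, one_mul]
      · intro x hx; exact h x fun h' => (Finset.mem_compl.1 hx) (hAb h')
      · intro x hx; exact h x (Finset.mem_sdiff.1 hx).2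
    · rw [if_neg h]
      push Not at h
      obtain ⟨x, hx, hne⟩ := h
      by_cases hxb : x ∈ b
      · rw [if_neg (c := ∀ i ∈ b \ A, σ i = τ i), zero_mul]
        intro h'; exact hne (h' x (Finset.mem_sdiff.2 ⟨hxb, hx⟩))
      · rw [if_neg (c := ∀ i ∈ bᶜ, σ i = τ i), mul_zero]
        intro h'; exact hne (h' x (Finset.mem_compl.2 hxb))
  calc (2 * θ) ^ A.card * (∏ x ∈ A, (vq q (σ x) * vq q (τ x)))
        * ((1 - θ) ^ (b.card - A.card) * ∏ x ∈ b \ A, (if σ x = τ x then (1 : ℝ) else 0))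
        * ∏ x ∈ bᶜ, (if σ x = τ x then (1 : ℝ) else 0)
      = (2 * θ) ^ A.card * (1 - θ) ^ (b.card - A.card)
        * ((∏ x ∈ A, (vq q (σ x) * vq q (τ x)))
        * ((∏ x ∈ b \ A, (if σ x = τ x then (1 : ℝ) else 0))
            * ∏ x ∈ bᶜ, (if σ x = τ x then (1 : ℝ) else 0))) := by ring
    _ = _ := by
        rw [e3]
        congr 1
        split_ifs <;> simp

/-- `R` conserves the total number of down spins. -/
def Cons (R : Matrix (V → Fin 2) (V → Fin 2) ℝ) : Prop :=
  ∀ σ τ, R σ τ ≠ 0 → dn univ σ = dn univ τ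

theorem dn_eq_of_off {A : Finset V} {σ τ : V → Fin 2} (h : ∀ x, x ∉ A → σ x = τ x)
    (hd : dn univ σ = dn univ τ) : dn A σ = dn A τ := by
  unfold dn at hd ⊢
  rw [← Finset.sum_add_sum_compl A, ← Finset.sum_add_sum_compl A (fun x => (τ x : ℕ))] at hd
  have : ∑ x ∈ Aᶜ, (σ x : ℕ) = ∑ x ∈ Aᶜ, (τ x : ℕ) :=
    Finset.sum_congr rfl fun x hx => by rw [h x (Finset.mem_compl.1 hx)]
  omega

theorem trace_TM (b : Finset V) (θ : ℝ) {q : ℝ} (h0 : 0 ≤ q) (h1 : q ≤ 1)
    {R : Matrix (V → Fin 2) (V → Fin 2) ℝ} (hR : Cons R) :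
    Matrix.trace (R * TM b θ q) = ∑ A ∈ b.powerset, wS θ b.card A.card *
      ∑ σ, ∑ τ, (if Rel A τ σ then R σ τ else 0) *
        ((1 - q) ^ (A.card - dn A σ) * q ^ (dn A σ)) := by
  rw [Matrix.trace]
  simp only [Matrix.diag_apply, Matrix.mul_apply]
  have h : ∀ σ τ, R σ τ * TM b θ q τ σ = ∑ A ∈ b.powerset, wS θ b.card A.card *
      ((if Rel A τ σ then R σ τ else 0) * ((1 - q) ^ (A.card - dn A σ) * q ^ (dn A σ))) := by
    intro σ τ
    rw [TM_expand, Finset.mul_sum]
    refine Finset.sum_congr rfl fun A _ => ?_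
    by_cases hz : R σ τ = 0
    · rw [hz]; simp
    · have hd := hR σ τ hz
      by_cases hoff : ∀ x, x ∉ A → τ x = σ x
      · have hdA : dn A τ = dn A σ := dn_eq_of_off hoff hd.symm
        have hrel : Rel A τ σ := ⟨hoff, hdA⟩
        rw [if_pos hoff, if_pos hrel, prod_vq_vq A h0 h1 hdA, hdA]
        ring
      · have hrel : ¬ Rel A τ σ := fun h' => hoff h'.1
        rw [if_neg hoff, if_neg hrel]; ring
  rw [Finset.sum_congr rfl fun σ _ => Finset.sum_congr rfl fun τ _ => h σ τ]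
  rw [Finset.sum_congr rfl fun σ _ => Finset.sum_comm]
  rw [Finset.sum_comm]
  refine Finset.sum_congr rfl fun A _ => ?_
  rw [Finset.mul_sum]
  refine Finset.sum_congr rfl fun σ _ => ?_
  rw [Finset.mul_sum]

theorem integral_TM (b : Finset V) (θ : ℝ) {R : Matrix (V → Fin 2) (V → Fin 2) ℝ} (hR : Cons R)
    {g : ℝ → ℝ} (hg : Continuous g) :
    ∫ q in (0 : ℝ)..1, g q * Matrix.trace (R * TM b θ q) = ∑ A ∈ b.powerset, wS θ b.card A.card *
      ∑ σ, ∑ τ, (if Rel A τ σ then R σ τ else 0) *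
        ∫ q in (0 : ℝ)..1, g q * ((1 - q) ^ (A.card - dn A σ) * q ^ (dn A σ)) := by
  have h : ∫ q in (0 : ℝ)..1, g q * Matrix.trace (R * TM b θ q)
      = ∫ q in (0 : ℝ)..1, ∑ A ∈ b.powerset, ∑ σ : V → Fin 2, ∑ τ : V → Fin 2,
        wS θ b.card A.card * ((if Rel A τ σ then R σ τ else 0) *
          (g q * ((1 - q) ^ (A.card - dn A σ) * q ^ (dn A σ)))) := by
    refine integral_congr fun q hq => ?_
    rw [Set.uIcc_of_le (by norm_num)] at hq
    rw [trace_TM b θ hq.1 hq.2 hR, Finset.mul_sum]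
    refine Finset.sum_congr rfl fun A _ => ?_
    rw [Finset.mul_sum, Finset.mul_sum]
    refine Finset.sum_congr rfl fun σ _ => ?_
    rw [Finset.mul_sum, Finset.mul_sum]
    refine Finset.sum_congr rfl fun τ _ => ?_
    ring
  rw [h, intervalIntegral.integral_finsetSum]
  · refine Finset.sum_congr rfl fun A _ => ?_
    rw [intervalIntegral.integral_finsetSum]
    · rw [Finset.mul_sum]
      refine Finset.sum_congr rfl fun σ _ => ?_
      rw [intervalIntegral.integral_finsetSum]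
      · rw [Finset.mul_sum]
        refine Finset.sum_congr rfl fun τ _ => ?_
        rw [intervalIntegral.integral_const_mul, intervalIntegral.integral_const_mul]
      · intro τ _
        apply Continuous.intervalIntegrable
        fun_prop
    · intro σ _
      apply Continuous.intervalIntegrable
      fun_prop
  · intro A _
    apply Continuous.intervalIntegrable
    fun_prop

/-- Number of down spins in `A`, as a matrix. -/
def NM (A : Finset V) : Matrix (V → Fin 2) (V → Fin 2) ℝ :=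
  Matrix.diagonal fun σ => (dn A σ : ℝ)

theorem integral_Z (b : Finset V) (θ : ℝ) {R : Matrix (V → Fin 2) (V → Fin 2) ℝ} (hR : Cons R) :
    ∫ q in (0 : ℝ)..1, Matrix.trace (R * TM b θ q) = ∑ A ∈ b.powerset, wS θ b.card A.card *
      (((A.card : ℝ) + 1)⁻¹ * Matrix.trace (R * symM A)) := by
  have h := integral_TM b θ hR (g := fun _ => 1) continuous_const
  simp only [one_mul] at h
  rw [h]
  refine Finset.sum_congr rfl fun A _ => ?_
  congr 1
  rw [Matrix.trace, Finset.mul_sum]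
  refine Finset.sum_congr rfl fun σ _ => ?_
  rw [Matrix.diag_apply, Matrix.mul_apply, Finset.mul_sum]
  refine Finset.sum_congr rfl fun τ _ => ?_
  rw [beta_choose (dn_le A σ)]
  unfold symM
  simp only [Matrix.of_apply]
  by_cases hr : Rel A τ σ
  · rw [if_pos hr, if_pos hr, hr.2]; ring
  · rw [if_neg hr, if_neg hr]; ring

theorem integral_qZ (b : Finset V) (θ : ℝ) {R : Matrix (V → Fin 2) (V → Fin 2) ℝ} (hR : Cons R) :
    ∫ q in (0 : ℝ)..1, q * Matrix.trace (R * TM b θ q)
      = ∑ A ∈ b.powerset, wS θ b.card A.card *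
      ((((A.card : ℝ) + 1) * ((A.card : ℝ) + 2))⁻¹ *
        (Matrix.trace (R * symM A) + Matrix.trace (R * (symM A * NM A)))) := by
  rw [integral_TM b θ hR (g := fun q => q) continuous_id]
  refine Finset.sum_congr rfl fun A _ => ?_
  congr 1
  rw [Matrix.trace, Matrix.trace, ← Finset.sum_add_distrib, Finset.mul_sum]
  refine Finset.sum_congr rfl fun σ _ => ?_
  rw [Matrix.diag_apply, Matrix.diag_apply, Matrix.mul_apply, Matrix.mul_apply,
    ← Finset.sum_add_distrib, Finset.mul_sum]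
  refine Finset.sum_congr rfl fun τ _ => ?_
  rw [beta_choose' (dn_le A σ)]
  unfold NM
  rw [Matrix.mul_diagonal]
  unfold symM
  simp only [Matrix.of_apply]
  by_cases hr : Rel A τ σ
  · rw [if_pos hr, if_pos hr, hr.2]; ring
  · rw [if_neg hr, if_neg hr]; ring

end Vale.Agent.P361.LRO.Tw
end

section

/-!
Block (1) of the low temperature order proof (P361): binomial sums over the subsets of the block.
-/

namespace Vale.Agent.P361.LRO.Tw

open Finset

set_option linter.unusedSectionVars false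

variable {V : Type} [DecidableEq V]

theorem sum_pow_card (b : Finset V) (g : ℕ → ℝ) :
    ∑ A ∈ b.powerset, g A.card = ∑ k ∈ range (b.card + 1), (b.card.choose k : ℝ) * g k := by
  rw [Finset.sum_powerset_apply_card]
  refine Finset.sum_congr rfl fun k _ => ?_
  rw [nsmul_eq_mul]

/-- `∑_k C(n,k) x^k y^{n-k} / (k+1)` -/
theorem bin_one (x y : ℝ) (n : ℕ) :
    ((n : ℝ) + 1) * x * ∑ k ∈ range (n + 1), (n.choose k : ℝ) * (x ^ k * y ^ (n - k) * ((k : ℝ) + 1)⁻¹)
      = (x + y) ^ (n + 1) - y ^ (n + 1) := by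
  have hexp : (x + y) ^ (n + 1) = ∑ k ∈ range (n + 1),
      x ^ (k + 1) * y ^ (n + 1 - (k + 1)) * ((n + 1).choose (k + 1) : ℝ) + y ^ (n + 1) := by
    rw [add_pow, Finset.sum_range_succ']; simp
  rw [hexp, add_sub_cancel_right, Finset.mul_sum]
  refine Finset.sum_congr rfl fun k hk => ?_
  have h := Nat.add_one_mul_choose_eq n k
  have h' : ((n : ℝ) + 1) * (n.choose k : ℝ) = ((n + 1).choose (k + 1) : ℝ) * ((k : ℝ) + 1) := by
    exact_mod_cast h
  have hk1 : ((k : ℝ) + 1) ≠ 0 := by positivity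
  have e : n + 1 - (k + 1) = n - k := by omega
  rw [e]
  calc ((n : ℝ) + 1) * x * ((n.choose k : ℝ) * (x ^ k * y ^ (n - k) * ((k : ℝ) + 1)⁻¹))
      = (((n : ℝ) + 1) * (n.choose k : ℝ)) * (x ^ (k + 1) * y ^ (n - k) * ((k : ℝ) + 1)⁻¹) := by
        ring
    _ = ((n + 1).choose (k + 1) : ℝ) * ((k : ℝ) + 1)
          * (x ^ (k + 1) * y ^ (n - k) * ((k : ℝ) + 1)⁻¹) := by rw [h']
    _ = x ^ (k + 1) * y ^ (n - k) * ((n + 1).choose (k + 1) : ℝ) := by
        field_simp

theorem bin_two (x y : ℝ) (n : ℕ) :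
    ((n : ℝ) + 1) * ((n : ℝ) + 2) * x ^ 2 * ∑ k ∈ range (n + 1),
      (n.choose k : ℝ) * (x ^ k * y ^ (n - k) * (((k : ℝ) + 1) * ((k : ℝ) + 2))⁻¹)
      = (x + y) ^ (n + 2) - y ^ (n + 2) - ((n : ℝ) + 2) * x * y ^ (n + 1) := by
  have hexp : (x + y) ^ (n + 2) = ∑ k ∈ range (n + 1),
      x ^ (k + 1 + 1) * y ^ (n + 2 - (k + 1 + 1)) * ((n + 2).choose (k + 1 + 1) : ℝ)
      + x * y ^ (n + 1) * ((n + 2 : ℕ) : ℝ) + y ^ (n + 2) := by
    rw [add_pow, Finset.sum_range_succ', Finset.sum_range_succ']; simp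
  rw [hexp]
  have e1 : ∀ S : ℝ, S + x * y ^ (n + 1) * ((n + 2 : ℕ) : ℝ) + y ^ (n + 2) - y ^ (n + 2)
      - ((n : ℝ) + 2) * x * y ^ (n + 1) = S := by
    intro S; push_cast; ring
  rw [e1, Finset.mul_sum]
  refine Finset.sum_congr rfl fun k hk => ?_
  have h := Nat.add_one_mul_choose_eq n k
  have h' : ((n : ℝ) + 1) * (n.choose k : ℝ) = ((n + 1).choose (k + 1) : ℝ) * ((k : ℝ) + 1) := by
    exact_mod_cast h
  have g := Nat.add_one_mul_choose_eq (n + 1) (k + 1)
  have g' : ((n : ℝ) + 2) * ((n + 1).choose (k + 1) : ℝ)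
      = ((n + 2).choose (k + 2) : ℝ) * ((k : ℝ) + 2) := by
    have : (((n + 1 : ℕ) : ℝ) + 1) * ((n + 1).choose (k + 1) : ℝ)
      = ((n + 2).choose (k + 2) : ℝ) * (((k + 1 : ℕ) : ℝ) + 1) := by exact_mod_cast g
    push_cast at this
    linarith
  have hk1 : ((k : ℝ) + 1) ≠ 0 := by positivity
  have hk2 : ((k : ℝ) + 2) ≠ 0 := by positivity
  have e : n + 2 - (k + 1 + 1) = n - k := by omega
  rw [e]
  calc ((n : ℝ) + 1) * ((n : ℝ) + 2) * x ^ 2 *
        ((n.choose k : ℝ) * (x ^ k * y ^ (n - k) * (((k : ℝ) + 1) * ((k : ℝ) + 2))⁻¹))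
      = ((n : ℝ) + 2) * (((n : ℝ) + 1) * (n.choose k : ℝ)) *
          (x ^ (k + 2) * y ^ (n - k) * (((k : ℝ) + 1) * ((k : ℝ) + 2))⁻¹) := by ring
    _ = (((n : ℝ) + 2) * ((n + 1).choose (k + 1) : ℝ)) * ((k : ℝ) + 1) *
          (x ^ (k + 2) * y ^ (n - k) * (((k : ℝ) + 1) * ((k : ℝ) + 2))⁻¹) := by rw [h']; ring
    _ = ((n + 2).choose (k + 2) : ℝ) * ((k : ℝ) + 2) * ((k : ℝ) + 1) *
          (x ^ (k + 2) * y ^ (n - k) * (((k : ℝ) + 1) * ((k : ℝ) + 2))⁻¹) := by rw [g']
    _ = x ^ (k + 1 + 1) * y ^ (n - k) * ((n + 2).choose (k + 1 + 1) : ℝ) := by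
        field_simp

/-- Upper bound for the first sum. -/
theorem sum_one_le {x y : ℝ} (hx : 0 < x) (hy : 0 ≤ y) (b : Finset V) :
    ∑ A ∈ b.powerset, x ^ A.card * y ^ (b.card - A.card) * ((A.card : ℝ) + 1)⁻¹
      ≤ (x + y) ^ (b.card + 1) / (((b.card : ℝ) + 1) * x) := by
  have h := sum_pow_card b (fun k => x ^ k * y ^ (b.card - k) * ((k : ℝ) + 1)⁻¹)
  rw [h, le_div_iff₀ (by positivity), mul_comm, bin_one]
  have := pow_nonneg hy (b.card + 1)
  linarith

/-- Lower bound for the second sum. -/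
theorem le_sum_two {x y : ℝ} (hx : 0 < x) (hy : 0 ≤ y) (b : Finset V)
    (h6 : 6 * (x + y) ≤ (b.card : ℝ) * x) :
    (2 / 3) * ((x + y) ^ (b.card + 1) / (((b.card : ℝ) + 1) * x)) ≤
      ∑ A ∈ b.powerset, x ^ A.card * y ^ (b.card - A.card) *
        (((A.card : ℝ) + 1) * ((A.card : ℝ) + 2))⁻¹ * (A.card : ℝ) := by
  have h := sum_pow_card b (fun k => x ^ k * y ^ (b.card - k) *
        (((k : ℝ) + 1) * ((k : ℝ) + 2))⁻¹ * (k : ℝ))
  rw [h]
  have hsplit : ∑ k ∈ range (b.card + 1), (b.card.choose k : ℝ) * (x ^ k * y ^ (b.card - k) *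
        (((k : ℝ) + 1) * ((k : ℝ) + 2))⁻¹ * (k : ℝ))
      = ∑ k ∈ range (b.card + 1), (b.card.choose k : ℝ) * (x ^ k * y ^ (b.card - k) * ((k : ℝ) + 1)⁻¹)
        - 2 * ∑ k ∈ range (b.card + 1),
          (b.card.choose k : ℝ) * (x ^ k * y ^ (b.card - k) * (((k : ℝ) + 1) * ((k : ℝ) + 2))⁻¹) := by
    rw [Finset.mul_sum, ← Finset.sum_sub_distrib]
    refine Finset.sum_congr rfl fun k _ => ?_
    have hk1 : ((k : ℝ) + 1) ≠ 0 := by positivity
    have hk2 : ((k : ℝ) + 2) ≠ 0 := by positivity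
    field_simp
    ring
  rw [hsplit]
  set F1 := ∑ k ∈ range (b.card + 1),
    (b.card.choose k : ℝ) * (x ^ k * y ^ (b.card - k) * ((k : ℝ) + 1)⁻¹) with hF1
  set F2 := ∑ k ∈ range (b.card + 1),
    (b.card.choose k : ℝ) * (x ^ k * y ^ (b.card - k) * (((k : ℝ) + 1) * ((k : ℝ) + 2))⁻¹) with hF2
  have h1 := bin_one x y b.card
  have h2 := bin_two x y b.card
  rw [← hF1] at h1
  rw [← hF2] at h2
  set n : ℝ := (b.card : ℝ) with hn
  have hn0 : 0 ≤ n := by positivity
  set W := (x + y) ^ (b.card + 1) with hW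
  set Y := y ^ (b.card + 1) with hY
  have hW2 : (x + y) ^ (b.card + 2) = (x + y) * W := by rw [hW]; ring
  have hY2 : y ^ (b.card + 2) = y * Y := by rw [hY]; ring
  rw [hW2, hY2] at h2
  have hWY : 0 ≤ Y := by rw [hY]; positivity
  have hWpos : 0 ≤ W := by rw [hW]; positivity
  have hF1' : F1 = (W - Y) / ((n + 1) * x) := by
    rw [eq_div_iff (by positivity)]; linarith
  have hF2' : F2 = ((x + y) * W - y * Y - (n + 2) * x * Y) / ((n + 1) * (n + 2) * x ^ 2) := by
    rw [eq_div_iff (by positivity)]; linarith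
  have key : (n + 1) * (n + 2) * x ^ 2 * (F1 - 2 * F2)
      = (n + 2) * x * (W - Y) - 2 * ((x + y) * W - y * Y - (n + 2) * x * Y) := by
    rw [hF1', hF2']
    field_simp
  have goal' : (n + 1) * (n + 2) * x ^ 2 * ((2 / 3) * (W / ((n + 1) * x)))
      ≤ (n + 1) * (n + 2) * x ^ 2 * (F1 - 2 * F2) := by
    rw [key]
    have e : (n + 1) * (n + 2) * x ^ 2 * ((2 / 3) * (W / ((n + 1) * x)))
        = (2 / 3) * ((n + 2) * x * W) := by field_simp
    rw [e]
    have p1 : 2 * (x + y) * W ≤ (1 / 3) * ((n + 2) * x * W) := by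
      have : 2 * (x + y) ≤ (1 / 3) * ((n + 2) * x) := by nlinarith
      nlinarith
    have p2 : 0 ≤ (n + 2) * x * Y := by positivity
    have p3 : 0 ≤ y * Y := by positivity
    nlinarith
  exact le_of_mul_le_mul_left goal' (by positivity)

/-- The weights of the subsets containing `x` and `y`. -/
theorem sum_pair {X Y : ℝ} (b : Finset V) {x y : V} (hx : x ∈ b) (hy : y ∈ b) (hxy : x ≠ y) :
    ∑ A ∈ b.powerset, (if x ∈ A ∧ y ∈ A then X ^ A.card * Y ^ (b.card - A.card) else 0)
      = X ^ 2 * (X + Y) ^ (b.card - 2) := by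
  have h := Finset.prod_add (fun _ : V => X) (fun z => if z ≠ x ∧ z ≠ y then Y else 0) b
  have e1 : ∏ z ∈ b, (X + if z ≠ x ∧ z ≠ y then Y else 0) = X ^ 2 * (X + Y) ^ (b.card - 2) := by
    have hb : b = insert x (insert y ((b.erase x).erase y)) := by
      rw [Finset.insert_erase (Finset.mem_erase.2 ⟨hxy.symm, hy⟩), Finset.insert_erase hx]
    have hc : ((b.erase x).erase y).card = b.card - 2 := by
      rw [Finset.card_erase_of_mem (Finset.mem_erase.2 ⟨hxy.symm, hy⟩),
        Finset.card_erase_of_mem hx]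
      omega
    have hy' : y ∉ (b.erase x).erase y := Finset.notMem_erase y _
    have hx' : x ∉ insert y ((b.erase x).erase y) := by
      rw [Finset.insert_erase (Finset.mem_erase.2 ⟨hxy.symm, hy⟩)]
      exact Finset.notMem_erase x b
    have hprod : ∏ z ∈ (b.erase x).erase y, (X + if z ≠ x ∧ z ≠ y then Y else 0)
        = (X + Y) ^ (b.card - 2) := by
      rw [← hc, ← Finset.prod_const]
      refine Finset.prod_congr rfl fun z hz => ?_
      have h1 : z ≠ y := (Finset.mem_erase.1 hz).1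
      have h2 : z ≠ x := (Finset.mem_erase.1 (Finset.mem_erase.1 hz).2).1
      rw [if_pos ⟨h2, h1⟩]
    conv_lhs => rw [hb]
    rw [Finset.prod_insert hx', Finset.prod_insert hy', hprod]
    simp
    ring
  rw [e1] at h
  rw [h]
  refine Finset.sum_congr rfl fun A hA => ?_
  have hAb : A ⊆ b := Finset.mem_powerset.1 hA
  rw [Finset.prod_const, Finset.prod_ite_zero, Finset.prod_const,
    Finset.card_sdiff_of_subset hAb]
  by_cases hm : x ∈ A ∧ y ∈ A
  · rw [if_pos hm, if_pos]
    intro z hz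
    have hz' := (Finset.mem_sdiff.1 hz).2
    exact ⟨fun h' => hz' (h' ▸ hm.1), fun h' => hz' (h' ▸ hm.2)⟩
  · rw [if_neg hm, if_neg, mul_zero]
    intro h'
    apply hm
    constructor
    · by_contra hxA
      exact (h' x (Finset.mem_sdiff.2 ⟨hx, hxA⟩)).1 rfl
    · by_contra hyA
      exact (h' y (Finset.mem_sdiff.2 ⟨hy, hyA⟩)).2 rfl

/-- Sums of `f |A|` over the subsets containing `x` do not depend on `x`. -/
theorem sum_mem_eq (b : Finset V) {x : V} (hx : x ∈ b) (f : ℕ → ℝ) :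
    ∑ A ∈ b.powerset, (if x ∈ A then f A.card else 0)
      = ∑ k ∈ range b.card, ((b.card - 1).choose k : ℝ) * f (k + 1) := by
  have hb : b = insert x (b.erase x) := (Finset.insert_erase hx).symm
  have hxe : x ∉ b.erase x := Finset.notMem_erase x b
  have hpos : 0 < b.card := Finset.card_pos.2 ⟨x, hx⟩
  conv_lhs => rw [hb]
  rw [Finset.sum_powerset_insert hxe]
  have e1 : ∑ A ∈ (b.erase x).powerset, (if x ∈ A then f A.card else 0) = 0 := by
    refine Finset.sum_eq_zero fun A hA => ?_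
    rw [if_neg fun h => hxe (Finset.mem_powerset.1 hA h)]
  have e2 : ∑ A ∈ (b.erase x).powerset, (if x ∈ insert x A then f (insert x A).card else 0)
      = ∑ A ∈ (b.erase x).powerset, f (A.card + 1) := by
    refine Finset.sum_congr rfl fun A hA => ?_
    rw [if_pos (Finset.mem_insert_self x A), Finset.card_insert_of_notMem
      fun h => hxe (Finset.mem_powerset.1 hA h)]
  rw [e1, e2, zero_add]
  have h := sum_pow_card (b.erase x) (fun k => f (k + 1))
  rw [h, Finset.card_erase_of_mem hx, Nat.sub_add_cancel hpos]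

/-- `∑_A f |A| ∑_{x ∈ A} r_x = (avg r) ∑_A f |A| |A|`. -/
theorem sum_mem_avg (b : Finset V) (f : ℕ → ℝ) (r : V → ℝ) :
    (b.card : ℝ) * ∑ A ∈ b.powerset, f A.card * ∑ x ∈ A, r x
      = (∑ A ∈ b.powerset, f A.card * (A.card : ℝ)) * ∑ x ∈ b, r x := by
  set G := ∑ k ∈ range b.card, ((b.card - 1).choose k : ℝ) * f (k + 1) with hG
  have hgen : ∀ s : V → ℝ, ∑ A ∈ b.powerset, f A.card * ∑ x ∈ A, s x = G * ∑ x ∈ b, s x := by
    intro s
    have h1 : ∑ A ∈ b.powerset, f A.card * ∑ x ∈ A, s x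
        = ∑ A ∈ b.powerset, ∑ x ∈ b, s x * (if x ∈ A then f A.card else 0) := by
      refine Finset.sum_congr rfl fun A hA => ?_
      have hAb : A ⊆ b := Finset.mem_powerset.1 hA
      rw [Finset.mul_sum, ← Finset.sum_subset hAb]
      · refine Finset.sum_congr rfl fun x hx => ?_
        rw [if_pos hx, mul_comm]
      · intro x _ hx; rw [if_neg hx, mul_zero]
    rw [h1, Finset.sum_comm, Finset.mul_sum]
    refine Finset.sum_congr rfl fun x hx => ?_
    rw [← Finset.mul_sum, sum_mem_eq b hx f, mul_comm]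
  have h1 := hgen (fun _ => 1)
  simp only [Finset.sum_const, nsmul_eq_mul, mul_one] at h1
  rw [hgen r, h1]
  ring

end Vale.Agent.P361.LRO.Tw
end

section

/-!
Block (1) of the low temperature order proof (P361): the operator part.
-/

namespace Vale.Agent.P361.LRO.Tw

open Finset Matrix MeasureTheory intervalIntegral

set_option linter.unusedSectionVars false

variable {V : Type} [Fintype V] [DecidableEq V]

open scoped MatrixOrder in
theorem exists_factor_real {m : Type*} [Fintype m] [DecidableEq m] {A : Matrix m m ℝ}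
    (hA : A.PosSemidef) : ∃ B : Matrix m m ℝ, A = Bᴴ * B := by
  obtain ⟨b, hb⟩ := CStarAlgebra.nonneg_iff_eq_star_mul_self.mp hA.nonneg
  exact ⟨b, hb⟩

theorem tr_mul_nonneg {m : Type*} [Fintype m] [DecidableEq m] {A B : Matrix m m ℝ}
    (hA : A.PosSemidef) (hB : B.PosSemidef) : 0 ≤ Matrix.trace (A * B) := by
  obtain ⟨C, rfl⟩ := exists_factor_real hB
  rw [← Matrix.mul_assoc, Matrix.trace_mul_comm, ← Matrix.mul_assoc]
  exact (hA.mul_mul_conjTranspose_same C).trace_nonneg

/-- The density of down spins. -/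
theorem half_sub_szM (x : V) : (1 / 2 : ℝ) • (1 - szM x)
    = (Matrix.diagonal fun σ : V → Fin 2 => ((σ x : ℕ) : ℝ)) := by
  unfold szM
  rw [← Matrix.diagonal_one, Matrix.diagonal_sub, ← Matrix.diagonal_smul]
  congr 1
  funext σ
  simp only [Pi.smul_apply, smul_eq_mul]
  rcases Fin.exists_fin_two.1 ⟨σ x, rfl⟩ with h | h
  · rw [h]; norm_num
  · rw [h]; norm_num

theorem NM_eq_sum (A : Finset V) : (NM A : Matrix (V → Fin 2) (V → Fin 2) ℝ)
    = ∑ x ∈ A, (1 / 2 : ℝ) • (1 - szM x) := by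
  rw [Finset.sum_congr rfl fun x _ => half_sub_szM x]
  ext σ τ
  rw [Matrix.sum_apply]
  unfold NM dn
  by_cases h : σ = τ
  · subst h
    simp only [Matrix.diagonal_apply_eq]
    push_cast
    rfl
  · simp only [Matrix.diagonal_apply_ne _ h]
    simp

/-- `symM A` commutes with `NM A`. -/
theorem symM_NM (A : Finset V) : symM A * NM A = NM A * symM A := by
  ext σ τ
  unfold NM
  rw [Matrix.mul_diagonal, Matrix.diagonal_mul]
  by_cases h : Rel A σ τ
  · rw [h.2, mul_comm]
  · have : symM A σ τ = 0 := by unfold symM; simp only [Matrix.of_apply]; rw [if_neg h]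
    rw [this, mul_zero, zero_mul]

theorem card_sub_NM_posSemidef (A : Finset V) :
    (((A.card : ℝ) • (1 : Matrix (V → Fin 2) (V → Fin 2) ℝ)) - NM A).PosSemidef := by
  have h : ((A.card : ℝ) • (1 : Matrix (V → Fin 2) (V → Fin 2) ℝ)) - NM A
      = Matrix.diagonal fun σ : V → Fin 2 => (A.card : ℝ) - (dn A σ : ℝ) := by
    unfold NM
    rw [← Matrix.diagonal_one, ← Matrix.diagonal_smul, Matrix.diagonal_sub]
    congr 1
    funext σ
    simp
  rw [h]
  refine Matrix.PosSemidef.diagonal fun σ => ?_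
  have : (dn A σ : ℝ) ≤ (A.card : ℝ) := by exact_mod_cast dn_le A σ
  simp only [Pi.zero_apply]
  linarith

/-- `N (1 - Π) ≤ |A| (1 - Π)`. -/
theorem card_NM_psd (A : Finset V) :
    ((symM A * NM A) - (NM A - (A.card : ℝ) • (1 - symM A))).PosSemidef := by
  have h : (symM A * NM A) - (NM A - (A.card : ℝ) • (1 - symM A))
      = (1 - symM A)ᴴ * (((A.card : ℝ) • (1 : Matrix (V → Fin 2) (V → Fin 2) ℝ)) - NM A)
        * (1 - symM A) := by
    rw [Matrix.conjTranspose_eq_transpose_of_trivial, Matrix.transpose_sub,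
      Matrix.transpose_one, symM_transpose]
    have e1 : symM A * NM A * symM A = symM A * NM A := by
      rw [mul_assoc, ← symM_NM, ← mul_assoc, symM_mul_self]
    have e2 : NM A * symM A = symM A * NM A := (symM_NM A).symm
    simp only [sub_mul, mul_sub, one_mul, mul_one, Matrix.smul_mul, Matrix.mul_smul, smul_sub,
      symM_mul_self, e1, e2]
    abel
  rw [h]
  exact (card_sub_NM_posSemidef A).conjTranspose_mul_mul_same _

theorem sum_hM (A : Finset V) : (1 / 4 : ℝ) • (∑ x ∈ A, ∑ y ∈ A, (1 - swapM x y))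
    = (1 / 2 : ℝ) • ∑ x ∈ A, ∑ y ∈ A, (hM x y : Matrix (V → Fin 2) (V → Fin 2) ℝ) := by
  unfold hM
  simp only [← Finset.smul_sum]
  rw [smul_smul]
  norm_num

theorem hM_posSemidef (x y : V) : (hM x y).PosSemidef := by
  unfold hM
  exact (one_sub_swapM_posSemidef x y).smul (by norm_num)

theorem hM_self (x : V) : (hM x x : Matrix (V → Fin 2) (V → Fin 2) ℝ) = 0 := by
  unfold hM
  rw [swapM_self, sub_self, smul_zero]

theorem rotM_eq (θ : ℝ) {φ : ℝ} (h0 : 0 ≤ φ) (h1 : φ ≤ Real.pi) (i j : Fin 2) :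
    rotM θ φ i j = (1 - θ) * (if i = j then 1 else 0)
      + 2 * θ * (vq ((1 - Real.cos φ) / 2) i * vq ((1 - Real.cos φ) / 2) j) := by
  have hc : √(1 - (1 - Real.cos φ) / 2) = Real.cos (φ / 2) := by
    have e : 1 - (1 - Real.cos φ) / 2 = Real.cos (φ / 2) ^ 2 := by
      rw [Real.cos_sq]; ring_nf
    rw [e, Real.sqrt_sq]
    exact Real.cos_nonneg_of_mem_Icc ⟨by linarith [Real.pi_pos], by linarith⟩
  have hs : √((1 - Real.cos φ) / 2) = Real.sin (φ / 2) := by
    have e : (1 - Real.cos φ) / 2 = Real.sin (φ / 2) ^ 2 := by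
      rw [Real.sin_sq, Real.cos_sq]; ring_nf
    rw [e, Real.sqrt_sq]
    exact Real.sin_nonneg_of_nonneg_of_le_pi (by linarith) (by linarith)
  have hcos : Real.cos φ = 2 * Real.cos (φ / 2) ^ 2 - 1 := by
    rw [← Real.cos_two_mul]; ring_nf
  have hsin : Real.sin φ = 2 * Real.sin (φ / 2) * Real.cos (φ / 2) := by
    rw [← Real.sin_two_mul]; ring_nf
  have hsq := Real.sin_sq_add_cos_sq (φ / 2)
  unfold rotM vq
  rw [hc, hs]
  fin_cases i <;> fin_cases j
  · simp; rw [hcos]; ring
  · simp; rw [hsin]; ring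
  · simp; rw [hsin]; ring
  · have hs2 : Real.sin (φ / 2) * Real.sin (φ / 2) = 1 - Real.cos (φ / 2) ^ 2 := by
      linarith [hsq, sq (Real.sin (φ / 2))]
    simp; rw [hcos, hs2]; ring

theorem rotT_eq (b : Finset V) (θ : ℝ) {φ : ℝ} (h0 : 0 ≤ φ) (h1 : φ ≤ Real.pi) :
    rotT b θ φ = TM b θ ((1 - Real.cos φ) / 2) := by
  ext σ τ
  unfold rotT TM
  simp only [Matrix.of_apply]
  refine Finset.prod_congr rfl fun x _ => ?_
  by_cases hx : x ∈ b
  · rw [if_pos hx, if_pos hx, rotM_eq θ h0 h1]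
  · rw [if_neg hx, if_neg hx]

theorem continuous_vq (i : Fin 2) : Continuous fun q : ℝ => vq q i := by
  unfold vq
  split_ifs
  · exact Real.continuous_sqrt.comp (continuous_const.sub continuous_id)
  · exact Real.continuous_sqrt

theorem continuous_TM (b : Finset V) (θ : ℝ) (W : Matrix (V → Fin 2) (V → Fin 2) ℝ) :
    Continuous fun q : ℝ => Matrix.trace (W * TM b θ q) := by
  have h : (fun q : ℝ => Matrix.trace (W * TM b θ q))
      = fun q : ℝ => ∑ σ, ∑ τ, W σ τ * TM b θ q τ σ := by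
    funext q; rw [Matrix.trace]; rfl
  rw [h]
  refine continuous_finsetSum _ fun σ _ => continuous_finsetSum _ fun τ _ => ?_
  refine continuous_const.mul ?_
  unfold TM
  simp only [Matrix.of_apply]
  refine continuous_finsetProd _ fun x _ => ?_
  by_cases hx : x ∈ b
  · simp only [if_pos hx]
    exact continuous_const.add (continuous_const.mul
      ((continuous_vq _).mul (continuous_vq _)))
  · simp only [if_neg hx]
    exact continuous_const

theorem change_var {F : ℝ → ℝ} (hF : Continuous F) :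
    ∫ φ in (0 : ℝ)..Real.pi, Real.sin φ * F ((1 - Real.cos φ) / 2)
      = 2 * ∫ q in (0 : ℝ)..1, F q := by
  have h := intervalIntegral.integral_comp_mul_deriv (a := 0) (b := Real.pi)
    (f := fun φ => (1 - Real.cos φ) / 2) (f' := fun φ => Real.sin φ / 2) (g := F)
    (fun φ _ => by
      have := ((Real.hasDerivAt_cos φ).const_sub 1).div_const 2
      simpa using this)
    (by fun_prop) hF
  simp only [Function.comp_apply, Real.cos_zero, sub_self, zero_div, Real.cos_pi, sub_neg_eq_add] at h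
  have e : ((1 : ℝ) + 1) / 2 = 1 := by norm_num
  rw [e] at h
  rw [← h, ← intervalIntegral.integral_const_mul]
  congr 1
  funext φ
  ring

/-- The final inequality with `θ`. -/
theorem op_core {W : Matrix (V → Fin 2) (V → Fin 2) ℝ} (hW : W.PosSemidef) (hsym : Cons W)
    {b : Finset V} {θ κ : ℝ} (hθ : 0 < θ) (hθ1 : θ ≤ 1)
    (h6 : 6 * (1 + θ) ≤ (b.card : ℝ) * (2 * θ)) (hκ : 0 < κ)
    (hk : 2 * κ * ∫ q in (0 : ℝ)..1, q * Matrix.trace (W * TM b θ q)
      ≤ ∫ q in (0 : ℝ)..1, Matrix.trace (W * TM b θ q)) :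
    2 * κ * ((2 / 3) * ((1 + θ) ^ (b.card + 1) / (((b.card : ℝ) + 1) * (2 * θ)))
        * ((∑ x ∈ b, Matrix.trace (W * ((1 / 2 : ℝ) • (1 - szM x)))) / b.card)
      - (1 / 12) * ((2 * θ) ^ 2 * (1 + θ) ^ (b.card - 2))
        * ∑ x ∈ b, ∑ y ∈ b, Matrix.trace (W * hM x y))
      ≤ (1 + θ) ^ (b.card + 1) / (((b.card : ℝ) + 1) * (2 * θ)) * Matrix.trace W := by
  set n : ℝ := (b.card : ℝ) with hn
  have hn6 : 6 ≤ n := by
    by_contra hlt
    push Not at hlt
    have : n * (2 * θ) < 6 * (2 * θ) := by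
      exact mul_lt_mul_of_pos_right hlt (by linarith)
    nlinarith
  have hnpos : 0 < n := by linarith
  set r : V → ℝ := fun x => Matrix.trace (W * ((1 / 2 : ℝ) • (1 - szM x))) with hr
  set H : V → V → ℝ := fun x y => Matrix.trace (W * hM x y) with hH
  have hH0 : ∀ x y, 0 ≤ H x y := fun x y => tr_mul_nonneg hW (hM_posSemidef x y)
  have hHd : ∀ x, H x x = 0 := by
    intro x; rw [hH]; simp only [hM_self]; simp
  have hWtr : 0 ≤ Matrix.trace W := hW.trace_nonneg
  set Q := (1 + θ) ^ (b.card + 1) / ((n + 1) * (2 * θ)) with hQ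
  have hQ0 : 0 ≤ Q := by rw [hQ]; positivity
  have hw0 : ∀ A : Finset V, 0 ≤ wS θ b.card A.card := fun A => by
    unfold wS
    exact mul_nonneg (by positivity) (pow_nonneg (by linarith) _)
  have hxy : 2 * θ + (1 - θ) = 1 + θ := by ring
  -- first integral
  have I1 : ∫ q in (0 : ℝ)..1, Matrix.trace (W * TM b θ q) ≤ Q * Matrix.trace W := by
    rw [integral_Z b θ hsym]
    have h1 := sum_one_le (x := 2 * θ) (y := 1 - θ) (by linarith) (by linarith) b
    rw [hxy] at h1
    calc ∑ A ∈ b.powerset, wS θ b.card A.card *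
          (((A.card : ℝ) + 1)⁻¹ * Matrix.trace (W * symM A))
        ≤ ∑ A ∈ b.powerset, (2 * θ) ^ A.card * (1 - θ) ^ (b.card - A.card)
            * ((A.card : ℝ) + 1)⁻¹ * Matrix.trace W := by
          refine Finset.sum_le_sum fun A _ => ?_
          have h2 : Matrix.trace (W * symM A) ≤ Matrix.trace W := by
            have := tr_mul_nonneg hW (one_sub_symM_posSemidef A)
            rw [mul_sub, mul_one, Matrix.trace_sub] at this
            linarith
          have h3 : 0 ≤ (2 * θ) ^ A.card * (1 - θ) ^ (b.card - A.card) := hw0 A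
          calc wS θ b.card A.card * (((A.card : ℝ) + 1)⁻¹ * Matrix.trace (W * symM A))
              = (2 * θ) ^ A.card * (1 - θ) ^ (b.card - A.card)
                  * ((A.card : ℝ) + 1)⁻¹ * Matrix.trace (W * symM A) := by unfold wS; ring
            _ ≤ _ := mul_le_mul_of_nonneg_left h2 (by positivity)
      _ = (∑ A ∈ b.powerset, (2 * θ) ^ A.card * (1 - θ) ^ (b.card - A.card)
            * ((A.card : ℝ) + 1)⁻¹) * Matrix.trace W := by rw [Finset.sum_mul]
      _ ≤ Q * Matrix.trace W := mul_le_mul_of_nonneg_right h1 hWtr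
  -- second integral
  have I2 : (∑ A ∈ b.powerset, (wS θ b.card A.card * (((A.card : ℝ) + 1) * ((A.card : ℝ) + 2))⁻¹)
        * ∑ x ∈ A, r x)
      - (1 / 12) * ∑ A ∈ b.powerset, wS θ b.card A.card * ∑ x ∈ A, ∑ y ∈ A, H x y
      ≤ ∫ q in (0 : ℝ)..1, q * Matrix.trace (W * TM b θ q) := by
    rw [integral_qZ b θ hsym, Finset.mul_sum, ← Finset.sum_sub_distrib]
    refine Finset.sum_le_sum fun A _ => ?_
    have ha : (0 : ℝ) ≤ (A.card : ℝ) := by positivity
    set a : ℝ := (A.card : ℝ) with haa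
    have p1 : 0 ≤ Matrix.trace (W * symM A) := tr_mul_nonneg hW (symM_posSemidef A)
    have p2 : ∑ x ∈ A, r x - a * Matrix.trace (W * (1 - symM A))
        ≤ Matrix.trace (W * (symM A * NM A)) := by
      have h := tr_mul_nonneg hW (card_NM_psd A)
      have e : Matrix.trace (W * NM A) = ∑ x ∈ A, r x := by
        rw [NM_eq_sum, Finset.mul_sum, Matrix.trace_sum]
      rw [mul_sub, mul_sub, Matrix.trace_sub, Matrix.trace_sub, e, Matrix.mul_smul,
        Matrix.trace_smul, smul_eq_mul] at h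
      linarith
    have p3 : Matrix.trace (W * (1 - symM A)) ≤ (1 / 2) * ∑ x ∈ A, ∑ y ∈ A, H x y := by
      have h := tr_mul_nonneg hW (sym_psd A)
      rw [sum_hM, mul_sub, Matrix.trace_sub, Matrix.mul_smul, Matrix.trace_smul, smul_eq_mul,
        Finset.mul_sum, Matrix.trace_sum] at h
      have e : ∑ x ∈ A, Matrix.trace (W * ∑ y ∈ A, hM x y) = ∑ x ∈ A, ∑ y ∈ A, H x y := by
        refine Finset.sum_congr rfl fun x _ => ?_
        rw [Finset.mul_sum, Matrix.trace_sum]
      rw [e] at h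
      linarith
    have p4 : 0 ≤ ∑ x ∈ A, ∑ y ∈ A, H x y :=
      Finset.sum_nonneg fun x _ => Finset.sum_nonneg fun y _ => hH0 x y
    set SH := ∑ x ∈ A, ∑ y ∈ A, H x y with hSH
    set Sr := ∑ x ∈ A, r x with hSr
    have hc : 0 ≤ ((a + 1) * (a + 2))⁻¹ := by positivity
    have hc6 : ((a + 1) * (a + 2))⁻¹ * a ≤ 1 / 6 := by
      rw [inv_mul_le_iff₀ (by positivity)]
      -- a ≤ (a+1)(a+2)/6, integer a
      rcases Nat.eq_zero_or_pos A.card with h0 | h0
      · rw [haa, h0]; norm_num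
      · rcases Nat.eq_or_lt_of_le h0 with h1 | h1
        · have : a = 1 := by rw [haa, ← h1]; norm_num
          rw [this]; norm_num
        · have : (2 : ℝ) ≤ a := by rw [haa]; exact_mod_cast h1
          nlinarith
    have q1 : Sr - a * ((1 / 2) * SH) ≤ Matrix.trace (W * symM A) + Matrix.trace (W * (symM A * NM A)) := by
      have : a * Matrix.trace (W * (1 - symM A)) ≤ a * ((1 / 2) * SH) :=
        mul_le_mul_of_nonneg_left p3 ha
      linarith
    have q2 := mul_le_mul_of_nonneg_left q1 hc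
    have q3 : ((a + 1) * (a + 2))⁻¹ * Sr - (1 / 12) * SH
        ≤ ((a + 1) * (a + 2))⁻¹ * (Matrix.trace (W * symM A) + Matrix.trace (W * (symM A * NM A))) := by
      refine le_trans ?_ q2
      have : (((a + 1) * (a + 2))⁻¹ * a) * ((1 / 2) * SH) ≤ (1 / 6) * ((1 / 2) * SH) :=
        mul_le_mul_of_nonneg_right hc6 (by linarith)
      nlinarith
    have q4 := mul_le_mul_of_nonneg_left q3 (hw0 A)
    calc wS θ b.card A.card * ((a + 1) * (a + 2))⁻¹ * Sr - 1 / 12 * (wS θ b.card A.card * SH)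
        = wS θ b.card A.card * (((a + 1) * (a + 2))⁻¹ * Sr - (1 / 12) * SH) := by ring
      _ ≤ _ := q4
  -- averages
  have hr0 : ∀ x, 0 ≤ r x := by
    intro x
    rw [hr]
    refine tr_mul_nonneg hW ?_
    rw [half_sub_szM]
    exact Matrix.PosSemidef.diagonal fun σ => by simp
  have I3 : (2 / 3) * Q * ((∑ x ∈ b, r x) / n)
      ≤ ∑ A ∈ b.powerset, (wS θ b.card A.card * (((A.card : ℝ) + 1) * ((A.card : ℝ) + 2))⁻¹)
        * ∑ x ∈ A, r x := by
    have h1 := sum_mem_avg b (fun k => wS θ b.card k * (((k : ℝ) + 1) * ((k : ℝ) + 2))⁻¹) r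
    have h2 := le_sum_two (x := 2 * θ) (y := 1 - θ) (by linarith) (by linarith) b
      (by rw [hxy]; exact h6)
    rw [hxy] at h2
    have h3 : (2 / 3) * Q ≤ ∑ A ∈ b.powerset,
        wS θ b.card A.card * (((A.card : ℝ) + 1) * ((A.card : ℝ) + 2))⁻¹ * (A.card : ℝ) := h2
    have hs : 0 ≤ ∑ x ∈ b, r x := Finset.sum_nonneg fun x _ => hr0 x
    have h4 := mul_le_mul_of_nonneg_right h3 hs
    rw [← h1] at h4
    rw [← mul_div_assoc, div_le_iff₀ hnpos]
    linarith
  -- pairs
  have I4 : ∑ A ∈ b.powerset, wS θ b.card A.card * ∑ x ∈ A, ∑ y ∈ A, H x y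
      = (2 * θ) ^ 2 * (1 + θ) ^ (b.card - 2) * ∑ x ∈ b, ∑ y ∈ b, H x y := by
    have h1 : ∑ A ∈ b.powerset, wS θ b.card A.card * ∑ x ∈ A, ∑ y ∈ A, H x y
        = ∑ A ∈ b.powerset, ∑ x ∈ b, ∑ y ∈ b,
            H x y * (if x ∈ A ∧ y ∈ A then wS θ b.card A.card else 0) := by
      refine Finset.sum_congr rfl fun A hA => ?_
      have hAb : A ⊆ b := Finset.mem_powerset.1 hA
      rw [Finset.mul_sum, ← Finset.sum_subset hAb]
      · refine Finset.sum_congr rfl fun x hx => ?_
        rw [Finset.mul_sum, ← Finset.sum_subset hAb]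
        · refine Finset.sum_congr rfl fun y hy => ?_
          rw [if_pos ⟨hx, hy⟩, mul_comm]
        · intro y _ hy; rw [if_neg fun h' => hy h'.2, mul_zero]
      · intro x _ hx
        refine Finset.sum_eq_zero fun y _ => ?_
        rw [if_neg fun h' => hx h'.1, mul_zero]
    rw [h1, Finset.sum_comm, Finset.mul_sum]
    refine Finset.sum_congr rfl fun x hx => ?_
    rw [Finset.sum_comm, Finset.mul_sum]
    refine Finset.sum_congr rfl fun y hy => ?_
    by_cases hxy' : x = y
    · subst hxy'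
      rw [hHd]; simp
    · rw [← Finset.mul_sum]
      unfold wS
      rw [sum_pair b hx hy hxy', hxy, mul_comm]
  have hfin : 2 * κ * ((2 / 3) * Q * ((∑ x ∈ b, r x) / n)
      - (1 / 12) * ((2 * θ) ^ 2 * (1 + θ) ^ (b.card - 2)) * ∑ x ∈ b, ∑ y ∈ b, H x y)
      ≤ 2 * κ * ∫ q in (0 : ℝ)..1, q * Matrix.trace (W * TM b θ q) := by
    refine mul_le_mul_of_nonneg_left ?_ (by linarith)
    rw [I4] at I2
    linarith
  exact hfin.trans (hk.trans I1)

theorem tanh_eq (u : ℝ) : Real.tanh u = (Real.exp (2 * u) - 1) / (Real.exp (2 * u) + 1) := by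
  rw [Real.tanh_eq_sinh_div_cosh, Real.sinh_eq, Real.cosh_eq]
  have h1 : Real.exp (2 * u) = Real.exp u * Real.exp u := by rw [← Real.exp_add]; ring_nf
  have h2 : Real.exp (-u) = (Real.exp u)⁻¹ := Real.exp_neg u
  have h3 := Real.exp_pos u
  rw [h1, h2]
  field_simp

/-- **The operator part of the block twist.** -/
theorem op_part {W : Matrix (V → Fin 2) (V → Fin 2) ℝ} (hW : W.PosSemidef)
    (hsym : ∀ σ τ : V → Fin 2, W σ τ ≠ 0 → ∑ x, (σ x : ℕ) = ∑ x, (τ x : ℕ))
    {b : Finset V} {K κ : ℝ} (hK : 10 ≤ K) (hKb : K ≤ b.card) (hκ : 0 < κ)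
    (hk : κ * ∫ φ in (0 : ℝ)..Real.pi, Real.sin φ * (1 - Real.cos φ)
        * Matrix.trace (W * rotT b (Real.tanh (K / (2 * b.card))) φ)
      ≤ ∫ φ in (0 : ℝ)..Real.pi, Real.sin φ
        * Matrix.trace (W * rotT b (Real.tanh (K / (2 * b.card))) φ)) :
    (∑ x ∈ b, Matrix.trace (W * ((1 / 2 : ℝ) • (1 - szM x)))) / b.card
      ≤ (1 / κ) * Matrix.trace W
        + K ^ 3 * (2 / (b.card : ℝ) ^ 2 * ∑ x ∈ b, ∑ y ∈ b, Matrix.trace (W * hM x y)) := by
  have hn10 : (10 : ℝ) ≤ b.card := hK.trans hKb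
  have hnpos : (0 : ℝ) < b.card := by linarith
  set θ := Real.tanh (K / (2 * b.card)) with hθdef
  set v : ℝ := K / b.card with hv
  have hv0 : 0 < v := by rw [hv]; positivity
  have hv1 : v ≤ 1 := by rw [hv]; exact (div_le_one hnpos).2 hKb
  have hnv : (b.card : ℝ) * v = K := by rw [hv]; field_simp
  set E := Real.exp v with hE
  have hE1 : 1 + v + v ^ 2 / 2 ≤ E := Real.quadratic_le_exp_of_nonneg hv0.le
  have hEpos : 0 < E := Real.exp_pos v
  have hEgt : 1 < E := by nlinarith
  have hθE : θ = (E - 1) / (E + 1) := by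
    rw [hθdef, tanh_eq, hE, hv]
    have : 2 * (K / (2 * (b.card : ℝ))) = K / b.card := by field_simp
    rw [this]
  have hθ0 : 0 < θ := by rw [hθE]; exact div_pos (by linarith) (by linarith)
  have hθ1 : θ ≤ 1 := by
    rw [hθE]; exact (div_le_one (by linarith)).2 (by linarith)
  have hE1' : (E + 1) * θ = E - 1 := by rw [hθE]; field_simp
  -- 6 (1 + θ) ≤ n 2 θ
  have hEn : 6 * E ≤ (b.card : ℝ) * (E - 1) := by
    have h1 : 0.6 * v * E ≤ E - 1 := by
      have hq : 0 < 1 - 0.6 * v := by linarith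
      have h2 : (1 + v + v ^ 2 / 2) * (1 - 0.6 * v) ≤ E * (1 - 0.6 * v) :=
        mul_le_mul_of_nonneg_right hE1 hq.le
      have h3 : 1 ≤ (1 + v + v ^ 2 / 2) * (1 - 0.6 * v) := by nlinarith [mul_nonneg hv0.le (sub_nonneg.2 hv1), mul_nonneg (mul_nonneg hv0.le hv0.le) (sub_nonneg.2 hv1)]
      linarith
    have h4 : (b.card : ℝ) * (0.6 * v * E) ≤ (b.card : ℝ) * (E - 1) :=
      mul_le_mul_of_nonneg_left h1 hnpos.le
    have h5 : (b.card : ℝ) * (0.6 * v * E) = 0.6 * K * E := by rw [← hnv]; ring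
    rw [h5] at h4
    nlinarith
  have h6 : 6 * (1 + θ) ≤ (b.card : ℝ) * (2 * θ) := by
    have hpos : 0 < E + 1 := by linarith
    refine le_of_mul_le_mul_left ?_ hpos
    have e1 : (E + 1) * (6 * (1 + θ)) = 12 * E := by
      have : (E + 1) * (6 * (1 + θ)) = 6 * ((E + 1) + (E + 1) * θ) := by ring
      rw [this, hE1']; ring
    have e2 : (E + 1) * ((b.card : ℝ) * (2 * θ)) = 2 * ((b.card : ℝ) * (E - 1)) := by
      have : (E + 1) * ((b.card : ℝ) * (2 * θ)) = 2 * ((b.card : ℝ) * ((E + 1) * θ)) := by ring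
      rw [this, hE1']
    rw [e1, e2]; linarith
  -- 2 θ ≤ v (1 + θ)
  have hpr : 2 * θ ≤ v * (1 + θ) := by
    have hpos : 0 < E + 1 := by linarith
    refine le_of_mul_le_mul_left ?_ hpos
    have e1 : (E + 1) * (v * (1 + θ)) = 2 * (v * E) := by
      have : (E + 1) * (v * (1 + θ)) = v * ((E + 1) + (E + 1) * θ) := by ring
      rw [this, hE1']; ring
    have e2 : (E + 1) * (2 * θ) = 2 * (E - 1) := by rw [← hE1']; ring
    rw [e1, e2]
    have h7 : 1 - v ≤ Real.exp (-v) := by
      have := Real.add_one_le_exp (-v); linarith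
    have h8 : Real.exp (-v) * E = 1 := by rw [hE, ← Real.exp_add]; simp
    have h9 : (1 - v) * E ≤ Real.exp (-v) * E := mul_le_mul_of_nonneg_right h7 hEpos.le
    rw [h8] at h9
    linarith
  -- the twist inequality in the variable q
  have hkq : 2 * κ * ∫ q in (0 : ℝ)..1, q * Matrix.trace (W * TM b θ q)
      ≤ ∫ q in (0 : ℝ)..1, Matrix.trace (W * TM b θ q) := by
    have c1 := change_var (continuous_TM b θ W)
    have c2 := change_var (continuous_id.mul (continuous_TM b θ W))
    have hI1 : ∫ φ in (0 : ℝ)..Real.pi, Real.sin φ * Matrix.trace (W * rotT b θ φ)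
        = 2 * ∫ q in (0 : ℝ)..1, Matrix.trace (W * TM b θ q) := by
      rw [← c1]
      refine integral_congr fun φ hφ => ?_
      rw [Set.uIcc_of_le Real.pi_pos.le] at hφ
      rw [rotT_eq b θ hφ.1 hφ.2]
    have hI2 : ∫ φ in (0 : ℝ)..Real.pi, Real.sin φ * (1 - Real.cos φ) * Matrix.trace (W * rotT b θ φ)
        = 4 * ∫ q in (0 : ℝ)..1, q * Matrix.trace (W * TM b θ q) := by
      have c2' : ∫ φ in (0 : ℝ)..Real.pi, Real.sin φ *
          ((1 - Real.cos φ) / 2 * Matrix.trace (W * TM b θ ((1 - Real.cos φ) / 2)))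
          = 2 * ∫ q in (0 : ℝ)..1, q * Matrix.trace (W * TM b θ q) := c2
      have : (4 : ℝ) * ∫ q in (0 : ℝ)..1, q * Matrix.trace (W * TM b θ q)
          = 2 * (2 * ∫ q in (0 : ℝ)..1, q * Matrix.trace (W * TM b θ q)) := by ring
      rw [this, ← c2', ← intervalIntegral.integral_const_mul]
      refine integral_congr fun φ hφ => ?_
      rw [Set.uIcc_of_le Real.pi_pos.le] at hφ
      rw [rotT_eq b θ hφ.1 hφ.2]
      ring
    rw [hI1, hI2] at hk
    linarith
  have core := op_core hW (fun σ τ h => hsym σ τ h) hθ0 hθ1 h6 hκ hkq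
  set n : ℝ := (b.card : ℝ) with hn
  set SR := (∑ x ∈ b, Matrix.trace (W * ((1 / 2 : ℝ) • (1 - szM x)))) / n with hSR
  set SH := ∑ x ∈ b, ∑ y ∈ b, Matrix.trace (W * hM x y) with hSH
  have hSH0 : 0 ≤ SH := Finset.sum_nonneg fun x _ => Finset.sum_nonneg fun y _ =>
    tr_mul_nonneg hW (hM_posSemidef x y)
  have hWtr : 0 ≤ Matrix.trace W := hW.trace_nonneg
  set Q := (1 + θ) ^ (b.card + 1) / ((n + 1) * (2 * θ)) with hQ
  have hQpos : 0 < Q := by rw [hQ]; positivity
  have hcard2 : 2 ≤ b.card := by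
    have : (2 : ℝ) ≤ (b.card : ℝ) := by linarith
    exact_mod_cast this
  -- (2θ)^2 (1+θ)^(n-2) ≤ Q * (2 K^3 / n^2)
  have hpair : (2 * θ) ^ 2 * (1 + θ) ^ (b.card - 2) ≤ Q * (2 * K ^ 3 / n ^ 2) := by
    have e3 : (1 + θ) ^ (b.card + 1) = (1 + θ) ^ 3 * (1 + θ) ^ (b.card - 2) := by
      rw [← pow_add]; congr 1; omega
    have hc3 : (2 * θ) ^ 3 ≤ (v * (1 + θ)) ^ 3 := pow_le_pow_left₀ (by linarith) hpr 3
    have hP : 0 ≤ (1 + θ) ^ (b.card - 2) := by positivity
    have e4 : K ^ 3 = n ^ 3 * v ^ 3 := by rw [← hnv]; ring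
    have e5 : Q * (2 * K ^ 3 / n ^ 2)
        = ((1 + θ) ^ 3 * (1 + θ) ^ (b.card - 2)) * (2 * n * v ^ 3) / ((n + 1) * (2 * θ)) := by
      rw [hQ, e3, e4]; field_simp
    rw [e5, le_div_iff₀ (by positivity)]
    have h10 : (n + 1) * (2 * θ) ^ 3 ≤ (2 * n) * (v * (1 + θ)) ^ 3 :=
      mul_le_mul (by linarith) hc3 (by positivity) (by positivity)
    calc (2 * θ) ^ 2 * (1 + θ) ^ (b.card - 2) * ((n + 1) * (2 * θ))
        = ((n + 1) * (2 * θ) ^ 3) * (1 + θ) ^ (b.card - 2) := by ring
      _ ≤ ((2 * n) * (v * (1 + θ)) ^ 3) * (1 + θ) ^ (b.card - 2) :=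
          mul_le_mul_of_nonneg_right h10 hP
      _ = _ := by ring
  have h11 : (2 * θ) ^ 2 * (1 + θ) ^ (b.card - 2) * SH ≤ Q * (2 * K ^ 3 / n ^ 2) * SH :=
    mul_le_mul_of_nonneg_right hpair hSH0
  have h12 : Q * (2 * κ * ((2 / 3) * SR - (1 / 12) * (2 * K ^ 3 / n ^ 2) * SH))
      ≤ Q * Matrix.trace W := by
    refine le_trans ?_ core
    have : Q * (2 * κ * ((2 / 3) * SR - (1 / 12) * (2 * K ^ 3 / n ^ 2) * SH))
        = 2 * κ * ((2 / 3) * Q * SR - (1 / 12) * (Q * (2 * K ^ 3 / n ^ 2) * SH)) := by ring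
    rw [this]
    refine mul_le_mul_of_nonneg_left ?_ (by linarith)
    linarith
  have h13 := le_of_mul_le_mul_left h12 hQpos
  have h14 : (2 / 3) * SR - (1 / 12) * (2 * K ^ 3 / n ^ 2) * SH ≤ Matrix.trace W / (2 * κ) := by
    rw [le_div_iff₀ (by linarith)]; linarith
  have h15 : 0 ≤ K ^ 3 * (2 / n ^ 2 * SH) := by positivity
  have h16 : (1 / 12) * (2 * K ^ 3 / n ^ 2) * SH = (1 / 12) * (K ^ 3 * (2 / n ^ 2 * SH)) := by ring
  have h17 : Matrix.trace W / (2 * κ) = (1 / 2) * ((1 / κ) * Matrix.trace W) := by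
    field_simp
  have h18 : 0 ≤ (1 / κ) * Matrix.trace W := by positivity
  rw [h16, h17] at h14
  linarith

end Vale.Agent.P361.LRO.Tw
end

section

/-!
P361, block (1): the block twist.
-/

namespace Vale.Agent.P361.LRO

open Finset Matrix Filter Topology

noncomputable section

variable {V : Type} [Fintype V] [DecidableEq V]

/-- **Block twist.** -/
theorem block_twist (L : List (V × V)) {β : ℝ} (hβ : 0 < β) {h : V → ℝ} (hh : ∀ x, 0 ≤ h x)
    {b : Finset V} {K κ : ℝ} (hK : 10 ≤ K) (hKb : K ≤ b.card) (hκ : 0 < κ)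
    (hf : ∃ᶠ N : ℕ in atTop, κ ≤ kap L β N h K b) :
    (∑ x ∈ b, rho L β h x) / b.card ≤ 1 / κ + K ^ 3 * Dst L β h b := by
  have h1 := twist_gibbs (fun X _ _ μ θ hμ hθ => SR.stable_of_isLaw hμ hθ) L hβ hh
    (by linarith) b hf
  have h2 := Tw.op_part (Tw.expH_psd L β h) (fun σ τ hd => Tw.expH_cons L β h σ τ hd)
    hK hKb hκ h1
  have h3 := Tw.trace_expH_pos L β h
  have h4 := div_le_div_of_nonneg_right h2 h3.le
  set T := Matrix.trace (NormedSpace.exp (-β • ham L h)) with hT
  have e1 : (∑ x ∈ b, rho L β h x) / b.card =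
      (∑ x ∈ b, Matrix.trace (NormedSpace.exp (-β • ham L h) * ((1 / 2 : ℝ) • (1 - szM x)))) /
        b.card / T := by
    unfold rho gib
    rw [← hT, ← Finset.sum_div]
    ring
  have e2 : 1 / κ + K ^ 3 * Dst L β h b = (1 / κ * T + K ^ 3 * (2 / (b.card : ℝ) ^ 2 *
      ∑ x ∈ b, ∑ y ∈ b, Matrix.trace (NormedSpace.exp (-β • ham L h) * hM x y))) / T := by
    unfold Dst gib
    rw [← hT]
    have e3 : ∑ x ∈ b, ∑ y ∈ b, Matrix.trace (NormedSpace.exp (-β • ham L h) * hM x y) / T =
        (∑ x ∈ b, ∑ y ∈ b, Matrix.trace (NormedSpace.exp (-β • ham L h) * hM x y)) / T := by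
      rw [Finset.sum_div]
      exact Finset.sum_congr rfl fun x _ => (Finset.sum_div _ _ _).symm
    rw [e3, add_div, mul_div_assoc (1 / κ), div_self h3.ne', mul_one]
    ring
  rw [e1, e2]
  exact h4

theorem gib_nonneg_of_form (L : List (V × V)) (β : ℝ) (h : V → ℝ)
    {A : Matrix (V → Fin 2) (V → Fin 2) ℝ} (hA : A.PosSemidef) : 0 ≤ gib L β h A := by
  have h1 := EnR.gib_le_of_form_le L β h (A := 0) (B := A) fun ψ => by
    have := hA.dotProduct_mulVec_nonneg ψ
    simpa using this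
  have h2 : gib L β h (0 : Matrix (V → Fin 2) (V → Fin 2) ℝ) = 0 := by
    unfold gib
    simp
  linarith

theorem Dst_nonneg (L : List (V × V)) (β : ℝ) (h : V → ℝ) (b : Finset V) : 0 ≤ Dst L β h b := by
  unfold Dst
  refine mul_nonneg (by positivity) (Finset.sum_nonneg fun x _ => Finset.sum_nonneg fun y _ => ?_)
  refine gib_nonneg_of_form L β h ?_
  unfold hM
  exact (Tw.one_sub_swapM_posSemidef x y).smul (by norm_num)

/-- **Block (1).** -/
theorem pTwist : PTwist := by
  refine ⟨1, one_pos, ?_⟩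
  intro V _ _ L _ β hβ h hh b K κ _ hK hKb hκ hf
  have h1 := block_twist L hβ (fun x => (hh x).1.le) hK hKb hκ hf
  have h2 := Dst_nonneg L β h b
  have hK0 : 0 < K := by linarith
  have h3 : K ^ 3 ≤ (1 + K) ^ 4 := by
    have e : (1 + K) ^ 4 - K ^ 3 = 1 + 4 * K + 6 * K ^ 2 + 3 * K ^ 3 + K ^ 4 := by ring
    have : 0 ≤ 1 + 4 * K + 6 * K ^ 2 + 3 * K ^ 3 + K ^ 4 := by positivity
    linarith
  have h4 : K ^ 3 * Dst L β h b ≤ (1 + K) ^ 4 * Dst L β h b := mul_le_mul_of_nonneg_right h3 h2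
  linarith

end

end Vale.Agent.P361.LRO
end

section

/-!
P361, stage 3, pair inequality: `<n_x n_y> (1 - ρ_x - ρ_y) ≤ (ρ_x + ρ_y)²`.
-/

namespace Vale.Agent.P361.LRO.PairS

open Finset Matrix Filter Topology

noncomputable section

variable {V : Type} [Fintype V] [DecidableEq V]

theorem tendsto_ZTw {W : ℕ → Matrix (V → Fin 2) (V → Fin 2) ℝ}
    {W0 : Matrix (V → Fin 2) (V → Fin 2) ℝ} (hW : Tendsto W atTop (𝓝 W0)) (b : Finset V)
    (θ φ : ℝ) : Tendsto (fun N => ZTw (W N) b θ φ) atTop (𝓝 (ZTw W0 b θ φ)) := by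
  simp only [ZTw_eq]
  refine tendsto_finsetSum _ fun σ _ => tendsto_finsetSum _ fun τ _ => ?_
  refine Tendsto.mul_const _ ?_
  have h1 := tendsto_pi_nhds.1 hW σ
  exact tendsto_pi_nhds.1 h1 τ

/-- The discriminant inequality for the Gibbs operator, `θ < 1`. -/
theorem disc_gibbs_lt (L : List (V × V)) {β : ℝ} (hβ : 0 < β) {h : V → ℝ} (hh : ∀ x, 0 ≤ h x)
    {b : Finset V} (hb : b.card ≤ 2) (hb0 : 0 < b.card) {θ : ℝ} (hθ : 0 ≤ θ) (hθ1 : θ < 1) :
    8 * (ZTw (NormedSpace.exp (-β • ham L h)) b θ (Real.pi / 2) *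
        (ZTw (NormedSpace.exp (-β • ham L h)) b θ 0 +
          ZTw (NormedSpace.exp (-β • ham L h)) b θ Real.pi -
          2 * ZTw (NormedSpace.exp (-β • ham L h)) b θ (Real.pi / 2))) ≤
      (ZTw (NormedSpace.exp (-β • ham L h)) b θ 0 -
        ZTw (NormedSpace.exp (-β • ham L h)) b θ Real.pi) ^ 2 := by
  have hcb : (0 : ℝ) < b.card := by exact_mod_cast hb0
  set K : ℝ := 2 * b.card * Real.artanh θ with hK
  have hKt : Real.tanh (K / (2 * b.card)) = θ := by
    rw [hK, mul_div_cancel_left₀ _ (by positivity)]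
    exact Real.tanh_artanh ⟨by linarith, hθ1⟩
  have hgood : ∀ᶠ N : ℕ in atTop, IsLaw (phys L β N) ∧
      ∀ z, 0 ≤ th β N h (blk K b) z ∧ th β N h (blk K b) z ≤ 1 := by
    have h1 : ∀ᶠ N : ℕ in atTop, β ≤ N := eventually_atTop.2 (by
      obtain ⟨n, hn⟩ := exists_nat_ge β
      exact ⟨n, fun m hm => hn.trans (by exact_mod_cast hm)⟩)
    have h2 : ∀ᶠ N : ℕ in atTop, β * (∑ x, h x) / 2 ≤ N := eventually_atTop.2 (by
      obtain ⟨n, hn⟩ := exists_nat_ge (β * (∑ x, h x) / 2)
      exact ⟨n, fun m hm => hn.trans (by exact_mod_cast hm)⟩)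
    filter_upwards [h1, h2, eventually_gt_atTop 0] with N hN1 hN2 hN0
    have hN' : (0 : ℝ) < N := by exact_mod_cast hN0
    refine ⟨isLaw_phys' L hβ.le hN1, fun z => ?_⟩
    unfold th
    split_ifs with hz
    · unfold blk
      split_ifs
      · rw [hKt]; exact ⟨hθ, hθ1.le⟩
      · exact ⟨le_rfl, zero_le_one⟩
    · constructor
      · exact div_nonneg (mul_nonneg hβ.le (hh _)) (by positivity)
      · rw [div_le_one (by positivity)]
        have h3 : h z.2 ≤ ∑ x, h x := Finset.single_le_sum (fun x _ => hh x) (Finset.mem_univ _)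
        have h4 : β * h z.2 ≤ β * ∑ x, h x := mul_le_mul_of_nonneg_left h3 hβ.le
        linarith
  have t0 := tendsto_ZTw (stepM_tendsto L β h) b θ 0
  have tp := tendsto_ZTw (stepM_tendsto L β h) b θ Real.pi
  have tm := tendsto_ZTw (stepM_tendsto L β h) b θ (Real.pi / 2)
  refine le_of_tendsto_of_tendsto ((tm.mul ((t0.add tp).sub (tm.const_mul 2))).const_mul 8)
    ((t0.sub tp).pow 2) ?_
  filter_upwards [hgood] with N hN
  obtain ⟨hl, ht⟩ := hN
  have hc : (hatb N b).card ≤ 2 := by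
    unfold hatb
    rw [Finset.card_product]
    simpa using hb
  have := disc_two hl.nonneg (fun z => (ht z).1) (ZZ_pos hl fun z => (ht z).1)
    (SR.stable_of_isLaw hl ht) hc
  simp only [Zf_phys, hKt] at this
  exact this

theorem continuous_ZTw_theta (W : Matrix (V → Fin 2) (V → Fin 2) ℝ) (b : Finset V) (φ : ℝ) :
    Continuous fun θ => ZTw W b θ φ := by
  simp only [ZTw_eq]
  refine continuous_finsetSum _ fun σ _ => continuous_finsetSum _ fun τ _ => ?_
  refine continuous_const.mul ?_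
  unfold rotT
  simp only [Matrix.of_apply]
  refine continuous_finsetProd _ fun x _ => ?_
  by_cases hx : x ∈ b
  · simp only [hx, if_true]
    generalize τ x = i
    generalize σ x = j
    fin_cases i <;> fin_cases j <;> simp only [rotM] <;> simp <;> fun_prop
  · simp only [hx, if_false]
    exact continuous_const

/-- The discriminant inequality for the Gibbs operator, `θ = 1`. -/
theorem disc_gibbs (L : List (V × V)) {β : ℝ} (hβ : 0 < β) {h : V → ℝ} (hh : ∀ x, 0 ≤ h x)
    {b : Finset V} (hb : b.card ≤ 2) (hb0 : 0 < b.card) :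
    8 * (ZTw (NormedSpace.exp (-β • ham L h)) b 1 (Real.pi / 2) *
        (ZTw (NormedSpace.exp (-β • ham L h)) b 1 0 +
          ZTw (NormedSpace.exp (-β • ham L h)) b 1 Real.pi -
          2 * ZTw (NormedSpace.exp (-β • ham L h)) b 1 (Real.pi / 2))) ≤
      (ZTw (NormedSpace.exp (-β • ham L h)) b 1 0 -
        ZTw (NormedSpace.exp (-β • ham L h)) b 1 Real.pi) ^ 2 := by
  set W := NormedSpace.exp (-β • ham L h) with hW
  have c0 := continuous_ZTw_theta W b 0
  have cp := continuous_ZTw_theta W b Real.pi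
  have cm := continuous_ZTw_theta W b (Real.pi / 2)
  have hcl : IsClosed {θ : ℝ | 8 * (ZTw W b θ (Real.pi / 2) *
      (ZTw W b θ 0 + ZTw W b θ Real.pi - 2 * ZTw W b θ (Real.pi / 2))) ≤
      (ZTw W b θ 0 - ZTw W b θ Real.pi) ^ 2} :=
    isClosed_le (continuous_const.mul (cm.mul ((c0.add cp).sub (continuous_const.mul cm))))
      ((c0.sub cp).pow 2)
  have hsub : Set.Ico (0 : ℝ) 1 ⊆ {θ : ℝ | 8 * (ZTw W b θ (Real.pi / 2) *
      (ZTw W b θ 0 + ZTw W b θ Real.pi - 2 * ZTw W b θ (Real.pi / 2))) ≤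
      (ZTw W b θ 0 - ZTw W b θ Real.pi) ^ 2} := fun θ hθ =>
    disc_gibbs_lt L hβ hh hb hb0 hθ.1 hθ.2
  have h2 := closure_minimal hsub hcl
  rw [closure_Ico (by norm_num : (0 : ℝ) ≠ 1)] at h2
  exact h2 ⟨zero_le_one, le_rfl⟩

/-! ### The values at `θ = 1` -/

theorem rotM_one_zero (i j : Fin 2) : rotM 1 0 i j = if i = 0 ∧ j = 0 then 2 else 0 := by
  fin_cases i <;> fin_cases j <;> simp [rotM] <;> norm_num

theorem rotM_one_pi (i j : Fin 2) : rotM 1 Real.pi i j = if i = 1 ∧ j = 1 then 2 else 0 := by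
  fin_cases i <;> fin_cases j <;> simp [rotM] <;> norm_num

theorem rotM_one_half (i j : Fin 2) : rotM 1 (Real.pi / 2) i j = 1 := by
  fin_cases i <;> fin_cases j <;> simp [rotM]

theorem rotT_pair (x y : V) (hxy : x ≠ y) (θ φ : ℝ) (σ τ : V → Fin 2) :
    rotT {x, y} θ φ σ τ = rotM θ φ (σ x) (τ x) * rotM θ φ (σ y) (τ y) *
      if ∀ z, z ≠ x → z ≠ y → σ z = τ z then 1 else 0 := by
  unfold rotT
  rw [Matrix.of_apply]
  have h1 : ∏ z, (if z ∈ ({x, y} : Finset V) then rotM θ φ (σ z) (τ z)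
      else if σ z = τ z then 1 else 0) =
      (∏ z ∈ ({x, y} : Finset V), rotM θ φ (σ z) (τ z)) *
        ∏ z ∈ ({x, y} : Finset V)ᶜ, (if σ z = τ z then 1 else 0) := by
    rw [← Finset.prod_mul_prod_compl ({x, y} : Finset V)]
    congr 1
    · exact Finset.prod_congr rfl fun z hz => if_pos hz
    · exact Finset.prod_congr rfl fun z hz => if_neg (Finset.mem_compl.1 hz)
  rw [h1, Finset.prod_pair hxy]
  congr 1
  split_ifs with hall
  · refine Finset.prod_eq_one fun z hz => ?_
    rw [Finset.mem_compl, Finset.mem_insert, Finset.mem_singleton, not_or] at hz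
    rw [if_pos (hall z hz.1 hz.2)]
  · push Not at hall
    obtain ⟨z, hz1, hz2, hz3⟩ := hall
    refine Finset.prod_eq_zero (i := z) ?_ (if_neg hz3)
    rw [Finset.mem_compl, Finset.mem_insert, Finset.mem_singleton, not_or]
    exact ⟨hz1, hz2⟩

omit [Fintype V] in
theorem eq_of_pair {x y : V} {σ τ : V → Fin 2} (hx : σ x = τ x) (hy : σ y = τ y)
    (h : ∀ z, z ≠ x → z ≠ y → σ z = τ z) : σ = τ := by
  funext z
  by_cases hzx : z = x
  · rw [hzx]; exact hx
  · by_cases hzy : z = y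
    · rw [hzy]; exact hy
    · exact h z hzx hzy

theorem ZTw_zero (W : Matrix (V → Fin 2) (V → Fin 2) ℝ) {x y : V} (hxy : x ≠ y) :
    ZTw W {x, y} 1 0 = 4 * ∑ σ, if σ x = 0 ∧ σ y = 0 then W σ σ else 0 := by
  rw [ZTw_eq, Finset.mul_sum]
  refine Finset.sum_congr rfl fun σ _ => ?_
  rw [Finset.sum_eq_single σ]
  · rw [rotT_pair x y hxy, rotM_one_zero, rotM_one_zero]
    by_cases h1 : σ x = 0 <;> by_cases h2 : σ y = 0 <;> simp [h1, h2]
    ring
  · intro τ _ hτ
    rw [rotT_pair x y hxy, rotM_one_zero, rotM_one_zero]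
    split_ifs with h1 h2 h3
    · exact absurd (eq_of_pair (h1.1.trans h1.2.symm) (h2.1.trans h2.2.symm) h3) hτ
    all_goals simp
  · intro h
    exact absurd (Finset.mem_univ _) h

theorem ZTw_pi (W : Matrix (V → Fin 2) (V → Fin 2) ℝ) {x y : V} (hxy : x ≠ y) :
    ZTw W {x, y} 1 Real.pi = 4 * ∑ σ, if σ x = 1 ∧ σ y = 1 then W σ σ else 0 := by
  rw [ZTw_eq, Finset.mul_sum]
  refine Finset.sum_congr rfl fun σ _ => ?_
  rw [Finset.sum_eq_single σ]
  · rw [rotT_pair x y hxy, rotM_one_pi, rotM_one_pi]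
    by_cases h1 : σ x = 1 <;> by_cases h2 : σ y = 1 <;> simp [h1, h2]
    ring
  · intro τ _ hτ
    rw [rotT_pair x y hxy, rotM_one_pi, rotM_one_pi]
    split_ifs with h1 h2 h3
    · exact absurd (eq_of_pair (h1.1.trans h1.2.symm) (h2.1.trans h2.2.symm) h3) hτ
    all_goals simp
  · intro h
    exact absurd (Finset.mem_univ _) h

/-- `2 |W σ τ| ≤ W σ σ + W τ τ`. -/
theorem psd_entry {m : Type} [Fintype m] [DecidableEq m] {W : Matrix m m ℝ}
    (hW : W.PosSemidef) (i j : m) : |W i j| ≤ (W i i + W j j) / 2 := by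
  have hsym : W j i = W i j := by
    have := hW.isHermitian
    have h2 := congrFun (congrFun this i) j
    rw [Matrix.conjTranspose_apply] at h2
    simpa using h2
  by_cases hij : i = j
  · subst hij
    have h0 := hW.diag_nonneg (i := i)
    rw [abs_of_nonneg h0]
    linarith
  have key : ∀ c : ℝ, 0 ≤ W i i + 2 * c * W i j + c ^ 2 * W j j := by
    intro c
    have h := hW.dotProduct_mulVec_nonneg (Pi.single i 1 + c • Pi.single j 1)
    have e : star (Pi.single i 1 + c • Pi.single j 1 : m → ℝ) ⬝ᵥ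
        (W *ᵥ (Pi.single i 1 + c • Pi.single j 1)) =
        W i i + 2 * c * W i j + c ^ 2 * W j j := by
      rw [star_trivial, Matrix.mulVec_add, Matrix.mulVec_smul, Matrix.mulVec_single_one,
        Matrix.mulVec_single_one, add_dotProduct, smul_dotProduct, dotProduct_add,
        dotProduct_add, dotProduct_smul, dotProduct_smul, single_one_dotProduct,
        single_one_dotProduct, single_one_dotProduct, single_one_dotProduct]
      simp only [Matrix.col_apply, smul_eq_mul]
      rw [hsym]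
      ring
    rw [e] at h
    exact h
  have h1 := key 1
  have h2 := key (-1)
  rw [abs_le]
  constructor <;> linarith

theorem half_term (W : Matrix (V → Fin 2) (V → Fin 2) ℝ) {x y : V} (hxy : x ≠ y)
    (hc : ∀ σ τ, W σ τ ≠ 0 → Tw.dn univ σ = Tw.dn univ τ) (σ τ : V → Fin 2) :
    W σ τ * rotT {x, y} 1 (Real.pi / 2) τ σ =
      (if τ = σ then W σ σ else 0) +
        (if τ = σ ∘ Equiv.swap x y then (if σ x ≠ σ y then W σ (σ ∘ Equiv.swap x y) else 0)
          else 0) := by
  rw [rotT_pair x y hxy, rotM_one_half, rotM_one_half, one_mul, one_mul]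
  have hswne : σ x ≠ σ y → σ ≠ σ ∘ Equiv.swap x y := by
    intro h1 h2
    apply h1
    have := congrFun h2 x
    simpa using this
  by_cases hoff : ∀ z, z ≠ x → z ≠ y → τ z = σ z
  · rw [if_pos hoff, mul_one]
    by_cases hW : W σ τ = 0
    · by_cases h1 : τ = σ
      · subst h1
        rw [if_pos rfl, hW, zero_add]
        by_cases h2 : τ x = τ y
        · simp [h2]
        · rw [if_neg (hswne h2)]
      · rw [if_neg h1, zero_add]
        by_cases h2 : τ = σ ∘ Equiv.swap x y
        · rw [if_pos h2, ← h2, hW]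
          simp
        · rw [if_neg h2, hW]
    · have hd := hc σ τ hW
      have hd2 : Tw.dn {x, y} σ = Tw.dn {x, y} τ := by
        refine Tw.dn_eq_of_off (fun z hz => ?_) hd
        rw [Finset.mem_insert, Finset.mem_singleton, not_or] at hz
        exact (hoff z hz.1 hz.2).symm
      unfold Tw.dn at hd2
      rw [Finset.sum_pair hxy, Finset.sum_pair hxy] at hd2
      have b1 := (σ x).isLt
      have b2 := (σ y).isLt
      have b3 := (τ x).isLt
      have b4 := (τ y).isLt
      by_cases h1 : τ x = σ x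
      · have h2 : τ y = σ y := by
          apply Fin.ext
          have := congrArg Fin.val h1
          omega
        have h3 : τ = σ := eq_of_pair h1 h2 hoff
        subst h3
        rw [if_pos rfl]
        by_cases h4 : τ x = τ y
        · simp [h4]
        · rw [if_neg (hswne h4), add_zero]
      · have h1' : (τ x : ℕ) ≠ (σ x : ℕ) := fun h => h1 (Fin.ext h)
        have h4 : σ x ≠ σ y := by
          intro h
          have := congrArg Fin.val h
          omega
        have h5 : τ x = σ y := by apply Fin.ext; omega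
        have h6 : τ y = σ x := by apply Fin.ext; omega
        have h7 : τ = σ ∘ Equiv.swap x y := by
          refine eq_of_pair (x := x) (y := y) ?_ ?_ ?_
          · simpa using h5
          · simpa using h6
          · intro z hzx hzy
            rw [hoff z hzx hzy, Function.comp_apply, Equiv.swap_apply_of_ne_of_ne hzx hzy]
        rw [if_pos h7, if_pos h4, ← h7]
        have h8 : τ ≠ σ := fun h => h1 (by rw [h])
        rw [if_neg h8, zero_add]
  · rw [if_neg hoff, mul_zero]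
    have h1 : τ ≠ σ := fun h => hoff fun z _ _ => by rw [h]
    have h2 : τ ≠ σ ∘ Equiv.swap x y := fun h => hoff fun z hzx hzy => by
      rw [h, Function.comp_apply, Equiv.swap_apply_of_ne_of_ne hzx hzy]
    rw [if_neg h1, if_neg h2, add_zero]

theorem ZTw_half (W : Matrix (V → Fin 2) (V → Fin 2) ℝ) {x y : V} (hxy : x ≠ y)
    (hc : ∀ σ τ, W σ τ ≠ 0 → Tw.dn univ σ = Tw.dn univ τ) :
    ZTw W {x, y} 1 (Real.pi / 2) = ∑ σ, W σ σ +
      ∑ σ, (if σ x ≠ σ y then W σ (σ ∘ Equiv.swap x y) else 0) := by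
  rw [ZTw_eq, ← Finset.sum_add_distrib]
  refine Finset.sum_congr rfl fun σ _ => ?_
  rw [Finset.sum_congr rfl fun τ _ => half_term W hxy hc σ τ, Finset.sum_add_distrib,
    Finset.sum_ite_eq', Finset.sum_ite_eq', if_pos (Finset.mem_univ _),
    if_pos (Finset.mem_univ _)]

theorem off_le {W : Matrix (V → Fin 2) (V → Fin 2) ℝ} (hW : W.PosSemidef) (x y : V) :
    |∑ σ : V → Fin 2, (if σ x ≠ σ y then W σ (σ ∘ Equiv.swap x y) else 0)| ≤
      ∑ σ : V → Fin 2, (if σ x ≠ σ y then W σ σ else 0) := by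
  have hre : ∑ σ : V → Fin 2, (if σ x ≠ σ y then
      W (σ ∘ Equiv.swap x y) (σ ∘ Equiv.swap x y) else 0) =
      ∑ σ : V → Fin 2, (if σ x ≠ σ y then W σ σ else 0) := by
    let e : (V → Fin 2) ≃ (V → Fin 2) := Equiv.arrowCongr (Equiv.swap x y) (Equiv.refl _)
    rw [← Equiv.sum_comp e]
    refine Finset.sum_congr rfl fun σ _ => ?_
    have he : e σ = σ ∘ Equiv.swap x y := by
      funext z
      simp [e, Equiv.arrowCongr]
    rw [he]
    have h1 : (σ ∘ Equiv.swap x y) ∘ Equiv.swap x y = σ := by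
      funext z
      simp
    rw [h1]
    simp only [Function.comp_apply, Equiv.swap_apply_left, Equiv.swap_apply_right]
    by_cases h2 : σ x = σ y
    · simp [h2]
    · have h3 : ¬ σ y = σ x := fun h => h2 h.symm
      simp [h2, h3]
  refine (Finset.abs_sum_le_sum_abs _ _).trans ?_
  have h1 : ∀ σ : V → Fin 2, |if σ x ≠ σ y then W σ (σ ∘ Equiv.swap x y) else 0| ≤
      ((if σ x ≠ σ y then W σ σ else 0) + (if σ x ≠ σ y then
        W (σ ∘ Equiv.swap x y) (σ ∘ Equiv.swap x y) else 0)) / 2 := by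
    intro σ
    split_ifs
    · exact psd_entry hW _ _
    · simp
  refine (Finset.sum_le_sum fun σ _ => h1 σ).trans ?_
  rw [← Finset.sum_div, Finset.sum_add_distrib, hre]
  linarith

/-- The product form: `P(dn,dn) * P(up,up)` is at most the square of `P(up,dn or dn,up)`. -/
theorem dd_le (L : List (V × V)) {β : ℝ} (hβ : 0 < β) {h : V → ℝ} (hh : ∀ x, 0 ≤ h x)
    {x y : V} (hxy : x ≠ y) :
    (∑ σ : V → Fin 2, if σ x = 0 ∧ σ y = 0 then NormedSpace.exp (-β • ham L h) σ σ else 0) *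
      (∑ σ : V → Fin 2, if σ x = 1 ∧ σ y = 1 then NormedSpace.exp (-β • ham L h) σ σ else 0) ≤
    (∑ σ : V → Fin 2, if σ x ≠ σ y then NormedSpace.exp (-β • ham L h) σ σ else 0) ^ 2 := by
  have hcard : ({x, y} : Finset V).card = 2 := Finset.card_pair hxy
  have h1 := disc_gibbs L hβ hh (b := {x, y}) hcard.le (by rw [hcard]; norm_num)
  rw [ZTw_zero _ hxy, ZTw_pi _ hxy,
    ZTw_half _ hxy (fun σ τ hd => Tw.expH_cons L β h σ τ hd)] at h1
  have h2 := off_le (Tw.expH_psd L β h) x y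
  set W := NormedSpace.exp (-β • ham L h) with hW
  set A := ∑ σ : V → Fin 2, (if σ x = 0 ∧ σ y = 0 then W σ σ else 0) with hA
  set D := ∑ σ : V → Fin 2, (if σ x = 1 ∧ σ y = 1 then W σ σ else 0) with hD
  set Q := ∑ σ : V → Fin 2, (if σ x ≠ σ y then W σ σ else 0) with hQ
  set R := ∑ σ : V → Fin 2, (if σ x ≠ σ y then W σ (σ ∘ Equiv.swap x y) else 0) with hR
  have hT : ∑ σ, W σ σ = A + D + Q := by
    rw [hA, hD, hQ, ← Finset.sum_add_distrib, ← Finset.sum_add_distrib]
    refine Finset.sum_congr rfl fun σ _ => ?_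
    have c1 : σ x = 0 ∨ σ x = 1 := by
      have := (σ x).isLt
      by_cases h0 : (σ x : ℕ) = 0
      · left; exact Fin.ext h0
      · right; apply Fin.ext; show (σ x : ℕ) = 1; omega
    have c2 : σ y = 0 ∨ σ y = 1 := by
      have := (σ y).isLt
      by_cases h0 : (σ y : ℕ) = 0
      · left; exact Fin.ext h0
      · right; apply Fin.ext; show (σ y : ℕ) = 1; omega
    rcases c1 with c1 | c1 <;> rcases c2 with c2 | c2 <;> simp [c1, c2]
  rw [hT] at h1
  obtain ⟨h3, h4⟩ := abs_le.1 h2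
  have h5 : 0 ≤ Q + R := by linarith
  have h6 : (Q + R) ^ 2 ≤ (2 * Q) ^ 2 := pow_le_pow_left₀ h5 (by linarith) 2
  nlinarith

theorem trace_diag_mul (W : Matrix (V → Fin 2) (V → Fin 2) ℝ) (f : (V → Fin 2) → ℝ) :
    Matrix.trace (W * Matrix.diagonal f) = ∑ σ, W σ σ * f σ := by
  simp [Matrix.trace, Matrix.mul_diagonal]

omit [DecidableEq V] in
theorem nM_eq (x : V) : (1 / 2 : ℝ) • (1 - szM x) =
    Matrix.diagonal fun σ : V → Fin 2 => if σ x = 1 then (1 : ℝ) else 0 := by
  unfold szM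
  rw [← Matrix.diagonal_one, Matrix.diagonal_sub, ← Matrix.diagonal_smul]
  congr 1
  funext σ
  have : σ x = 0 ∨ σ x = 1 := by
    have := (σ x).isLt
    by_cases h0 : (σ x : ℕ) = 0
    · left; exact Fin.ext h0
    · right; apply Fin.ext; show (σ x : ℕ) = 1; omega
  rcases this with h | h <;> simp [h]
  norm_num

/-- **Pair inequality.** -/
theorem pair_mul_le (L : List (V × V)) {β : ℝ} (hβ : 0 < β) {h : V → ℝ} (hh : ∀ x, 0 ≤ h x)
    {x y : V} (hxy : x ≠ y) :
    gib L β h (((1 / 2 : ℝ) • (1 - szM x)) * ((1 / 2 : ℝ) • (1 - szM y))) *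
      (1 - rho L β h x - rho L β h y) ≤ (rho L β h x + rho L β h y) ^ 2 ∧
    0 ≤ gib L β h (((1 / 2 : ℝ) • (1 - szM x)) * ((1 / 2 : ℝ) • (1 - szM y))) := by
  have h1 := dd_le L hβ hh hxy
  have hTpos := Tw.trace_expH_pos L β h
  unfold rho gib
  rw [nM_eq, nM_eq, Matrix.diagonal_mul_diagonal, trace_diag_mul, trace_diag_mul,
    trace_diag_mul]
  have hdiag : ∀ σ, 0 ≤ NormedSpace.exp (-β • ham L h) σ σ := fun σ =>
    (Tw.expH_psd L β h).diag_nonneg
  set W := NormedSpace.exp (-β • ham L h) with hW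
  set A := ∑ σ : V → Fin 2, (if σ x = 0 ∧ σ y = 0 then W σ σ else 0) with hA
  set D := ∑ σ : V → Fin 2, (if σ x = 1 ∧ σ y = 1 then W σ σ else 0) with hD
  set Q := ∑ σ : V → Fin 2, (if σ x ≠ σ y then W σ σ else 0) with hQ
  have c : ∀ (σ : V → Fin 2) (z : V), σ z = 0 ∨ σ z = 1 := by
    intro σ z
    have := (σ z).isLt
    by_cases h0 : (σ z : ℕ) = 0
    · left; exact Fin.ext h0
    · right; apply Fin.ext; show (σ z : ℕ) = 1; omega
  have eT : Matrix.trace W = A + D + Q := by
    rw [hA, hD, hQ, ← Finset.sum_add_distrib, ← Finset.sum_add_distrib, Matrix.trace]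
    refine Finset.sum_congr rfl fun σ _ => ?_
    rw [Matrix.diag_apply]
    rcases c σ x with c1 | c1 <;> rcases c σ y with c2 | c2 <;> simp [c1, c2]
  have eD : ∑ σ : V → Fin 2, W σ σ * ((if σ x = 1 then (1 : ℝ) else 0) *
      (if σ y = 1 then 1 else 0)) = D := by
    rw [hD]
    refine Finset.sum_congr rfl fun σ _ => ?_
    rcases c σ x with c1 | c1 <;> rcases c σ y with c2 | c2 <;> simp [c1, c2]
  have eS : ∑ σ : V → Fin 2, W σ σ * (if σ x = 1 then (1 : ℝ) else 0) +
      ∑ σ : V → Fin 2, W σ σ * (if σ y = 1 then (1 : ℝ) else 0) = 2 * D + Q := by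
    rw [hD, hQ, Finset.mul_sum, ← Finset.sum_add_distrib, ← Finset.sum_add_distrib]
    refine Finset.sum_congr rfl fun σ _ => ?_
    rcases c σ x with c1 | c1 <;> rcases c σ y with c2 | c2 <;> simp [c1, c2]
    ring
  have hD0 : 0 ≤ D := by
    rw [hD]
    refine Finset.sum_nonneg fun σ _ => ?_
    split_ifs
    · exact hdiag σ
    · exact le_rfl
  have hQ0 : 0 ≤ Q := by
    rw [hQ]
    refine Finset.sum_nonneg fun σ _ => ?_
    split_ifs
    · exact hdiag σ
    · exact le_rfl
  have hA0 : 0 ≤ A := by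
    rw [hA]
    refine Finset.sum_nonneg fun σ _ => ?_
    split_ifs
    · exact hdiag σ
    · exact le_rfl
  rw [eD]
  set T := Matrix.trace W with hT
  set r1 := ∑ σ : V → Fin 2, W σ σ * (if σ x = 1 then (1 : ℝ) else 0)
  set r2 := ∑ σ : V → Fin 2, W σ σ * (if σ y = 1 then (1 : ℝ) else 0)
  refine ⟨?_, div_nonneg hD0 hTpos.le⟩
  have e1 : D / T * (1 - r1 / T - r2 / T) = D * (T - (r1 + r2)) / T ^ 2 := by
    field_simp
    ring
  have e2 : (r1 / T + r2 / T) ^ 2 = (r1 + r2) ^ 2 / T ^ 2 := by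
    field_simp
  rw [e1, e2, eS]
  refine div_le_div_of_nonneg_right ?_ (by positivity)
  rw [eT]
  nlinarith [mul_nonneg hD0 hQ0, mul_nonneg hD0 hD0]

/-- **Pair inequality**, `ρ ≤ η ≤ 1/4`. -/
theorem pair_le (L : List (V × V)) {β : ℝ} (hβ : 0 < β) {h : V → ℝ} (hh : ∀ x, 0 ≤ h x)
    {x y : V} (hxy : x ≠ y) {η : ℝ} (hη : η ≤ 1 / 4) (hx : rho L β h x ≤ η)
    (hy : rho L β h y ≤ η) :
    gib L β h (((1 / 2 : ℝ) • (1 - szM x)) * ((1 / 2 : ℝ) • (1 - szM y))) ≤ 8 * η ^ 2 := by
  obtain ⟨h1, h2⟩ := pair_mul_le L hβ hh hxy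
  have hx0 : 0 ≤ rho L β h x := by
    unfold rho
    refine gib_nonneg_of_form L β h ?_
    rw [nM_eq]
    refine Matrix.PosSemidef.diagonal fun σ => ?_
    show (0 : ℝ) ≤ if σ x = 1 then (1 : ℝ) else 0
    split_ifs <;> norm_num
  have hy0 : 0 ≤ rho L β h y := by
    unfold rho
    refine gib_nonneg_of_form L β h ?_
    rw [nM_eq]
    refine Matrix.PosSemidef.diagonal fun σ => ?_
    show (0 : ℝ) ≤ if σ y = 1 then (1 : ℝ) else 0
    split_ifs <;> norm_num
  set d := gib L β h (((1 / 2 : ℝ) • (1 - szM x)) * ((1 / 2 : ℝ) • (1 - szM y)))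
  have h3 : d * (1 / 2) ≤ d * (1 - rho L β h x - rho L β h y) :=
    mul_le_mul_of_nonneg_left (by linarith) h2
  have h4 : (rho L β h x + rho L β h y) ^ 2 ≤ (2 * η) ^ 2 :=
    pow_le_pow_left₀ (by linarith) (by linarith) 2
  nlinarith

end

end Vale.Agent.P361.LRO.PairS
end

section

/-!
P361, stage 3: the free energy per site on the torus, `log Tr exp(-β ham) / n³ - β h / 2`, tends to
the reduced pressure `gRed 1 β h`; landed lower bound.
-/

namespace Vale.Agent.P361.LRO.S3

open Finset Matrix Filter Topology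

noncomputable section

/-- `log Tr exp(-β (H + h N))`, `N` = number of down spins. -/
def logZ (n : ℕ) [NeZero n] (β h : ℝ) : ℝ :=
  Real.log (trace (NormedSpace.exp (-β • ham (edges n) fun _ => h))) - β * h / 2 * (n : ℝ) ^ 3

theorem logTr_torus {n : ℕ} [NeZero n] (hn : 3 ≤ n) (β h : ℝ) :
    Model.logTr 1 (torusAdj n) β h = β / 4 * (3 * (n : ℝ) ^ 3) +
      Real.log (trace (NormedSpace.exp (-β • ham (edges n) fun _ => h))) := by
  have hex : NormedSpace.exp (expoV 1 (torusAdj n) β h) =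
      ((Real.exp (β / 4 * (Fintype.card (Tor n × Fin 3))) : ℝ) : ℂ) •
        cM (NormedSpace.exp (-β • ham (edges n) (fun _ => h))) := by
    rw [expoV_eq_cM hn, exp_add_smul_one, exp_cM]
  have h1 : Model.logTr 1 (torusAdj n) β h =
      Real.log (trace (NormedSpace.exp (expoV 1 (torusAdj n) β h))).re := rfl
  have hcard : (Fintype.card (Tor n × Fin 3) : ℝ) = 3 * (n : ℝ) ^ 3 := by
    rw [Fintype.card_prod, Fintype.card_fun, ZMod.card, Fintype.card_fin]
    push_cast
    ring
  have hpos : 0 < trace (NormedSpace.exp (-β • ham (edges n) (fun _ : Tor n => h))) := by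
    have h1 := trace_exp_pos (expoV_isHermitian 1 (torusAdj n) (torusAdj_irrefl (by omega)) β h)
    rw [hex, Matrix.trace_smul, trace_cM, smul_eq_mul, ← Complex.ofReal_mul,
      Complex.ofReal_re] at h1
    exact (mul_pos_iff_of_pos_left (Real.exp_pos _)).1 h1
  rw [h1, hex, Matrix.trace_smul, trace_cM, smul_eq_mul, ← Complex.ofReal_mul,
    Complex.ofReal_re, Real.log_mul (Real.exp_pos _).ne' hpos.ne', Real.log_exp, hcard]

theorem logZ_tendsto {β : ℝ} (hβ : 0 < β) (h : ℝ) :
    Tendsto (fun N : ℕ => logZ (2 * N + 1) β h / ((2 * N + 1 : ℕ) : ℝ) ^ 3) atTop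
      (𝓝 (B.gRed 1 β h)) := by
  have h1 := (pressTorus_tendsto 1 hβ h).const_mul β
  have h2 := (h1.sub_const (β * (3 / 4))).sub_const (β * h / 2)
  have e : β * Model.pressure 1 β h - β * (3 / 4) - β * h / 2 = B.gRed 1 β h := by
    unfold B.gRed
    rw [Bridge.pressure_eq]
    push_cast
    ring
  rw [e] at h2
  refine h2.congr' ?_
  filter_upwards [eventually_ge_atTop 1] with N hN
  unfold pressTorus logZ
  rw [logTr_torus (by omega)]
  have hp : (0 : ℝ) < 2 * (N : ℝ) + 1 := by positivity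
  push_cast
  field_simp
  ring

/-- Lower bound of the free energy on large tori. -/
theorem logZ_lower : ∃ K : ℝ, 1 ≤ K ∧ ∀ β : ℝ, K ≤ β → ∀ h : ℝ, 0 ≤ h → ∀ ε : ℝ, 0 < ε →
    ∃ n0 : ℕ, ∀ (n : ℕ) [NeZero n], n0 ≤ n → Odd n →
      ((1 - K / β) * B.FS (1 / 2) (β * h) / Real.sqrt β ^ 3 - ε) * (n : ℝ) ^ 3 ≤ logZ n β h := by
  obtain ⟨K, hK1, hK⟩ := B.gRed_lower (n := 1) le_rfl
  refine ⟨K, hK1, fun β hβK h hh ε hε => ?_⟩
  have hβ : 0 < β := by linarith
  have hs : 0 < Real.sqrt β ^ 3 := by positivity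
  have hth : 0 ≤ β * h := by positivity
  have h1 : (1 - K / β) * B.FS (1 / 2) (β * h) / Real.sqrt β ^ 3 ≤ B.gRed 1 β h := by
    rw [div_le_iff₀ hs]
    have h2 := (B.FR_tendsto (1 / 2) hth).const_mul (1 - K / β)
    refine le_of_tendsto' h2 fun R => ?_
    have := hK β hβK h hh R
    push_cast at this
    linarith
  have h3 := (tendsto_order.1 (logZ_tendsto hβ h)).1
    ((1 - K / β) * B.FS (1 / 2) (β * h) / Real.sqrt β ^ 3 - ε) (by linarith)
  obtain ⟨N0, hN0⟩ := eventually_atTop.1 h3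
  refine ⟨2 * N0 + 1, fun n _ hn hodd => ?_⟩
  obtain ⟨N, rfl⟩ := hodd
  have h4 := hN0 N (by omega)
  rw [lt_div_iff₀ (by positivity)] at h4
  exact h4.le

end

end Vale.Agent.P361.LRO.S3
end

section

/-!
P361, stage 3, block (T), leaf (T1), part A: the embedding of the operators of a block is a
homomorphism; additivity of the normalised log trace over many disjoint blocks; the Casimir matrix of
a block of the torus is the embedded `casX`.
-/

namespace Vale.Agent.P361.LRO.S3.LT1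

open Matrix Finset Filter Topology
open Vale.Agent.P361.LRO.Energy (Cfg ex cpx)
open Vale.Agent.P361.LRO.Loc3
open scoped ComplexOrder Kronecker

noncomputable section

section Emb

variable {U V : Type} [Fintype U] [DecidableEq U] [Fintype V] [DecidableEq V]

theorem emb_mul {e : U → V} (he : Function.Injective e) (A B : Matrix (Cfg U) (Cfg U) ℂ) :
    emb e (A * B) = emb e A * emb e B := by
  have h : (emb e (A * B)).submatrix (splitE e he) (splitE e he) =
      (emb e A * emb e B).submatrix (splitE e he) (splitE e he) := by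
    rw [emb_split, ← Matrix.submatrix_mul_equiv (emb e A) (emb e B) _ (splitE e he) _, emb_split,
      emb_split, ← Matrix.mul_kronecker_mul, Matrix.one_mul]
  ext σ τ
  have h2 := congrFun (congrFun h ((splitE e he).symm σ)) ((splitE e he).symm τ)
  simpa only [Matrix.submatrix_apply, Equiv.apply_symm_apply] using h2

/-- `emb e` as an algebra homomorphism. -/
def embAlg (e : U → V) (he : Function.Injective e) :
    Matrix (Cfg U) (Cfg U) ℂ →ₐ[ℂ] Matrix (Cfg V) (Cfg V) ℂ :=
  AlgHom.ofLinearMap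
    { toFun := emb e
      map_add' := emb_add e
      map_smul' := fun c A => by rw [RingHom.id_apply, emb_smul] }
    (emb_one e) (emb_mul he)

theorem aeval_emb {e : U → V} (he : Function.Injective e) (A : Matrix (Cfg U) (Cfg U) ℂ)
    (P : Polynomial ℂ) : Polynomial.aeval (emb e A) P = emb e (Polynomial.aeval A P) :=
  Polynomial.aeval_algHom_apply (embAlg e he) A P

/-- Operators of disjoint blocks. -/
theorem off_emb {U' : Type} [Fintype U'] [DecidableEq U'] {e : U → V} {e' : U' → V}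
    (hd : ∀ u u', e u ≠ e' u') (A : Matrix (Cfg U') (Cfg U') ℂ) : Off e (emb e' A) := by
  intro σ τ
  simp only [emb, Matrix.of_apply]
  have key : ∀ σ : Cfg V, (fun x => if ∃ u, e u = x then 0 else σ x) ∘ e' = σ ∘ e' := by
    intro σ
    funext w
    simp only [Function.comp_apply]
    rw [if_neg]
    rintro ⟨u, hu⟩
    exact hd u w hu
  rw [key, key]
  by_cases h1 : ∀ x, (∀ u', e' u' ≠ x) → σ x = τ x
  · have h2 : σ ∘ e = τ ∘ e := by
      funext u
      exact h1 (e u) fun u' => (hd u u').symm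
    have h3 : ∀ x, (∀ u', e' u' ≠ x) → (if ∃ u, e u = x then (0 : Fin 2) else σ x) =
        if ∃ u, e u = x then 0 else τ x := by
      intro x hx
      split_ifs
      · rfl
      · exact h1 x hx
    rw [if_pos h1, if_pos h2, if_pos h3]
  · rw [if_neg h1]
    by_cases h2 : σ ∘ e = τ ∘ e
    · rw [if_pos h2, if_neg]
      intro h3
      apply h1
      intro x hx
      by_cases h4 : ∃ u, e u = x
      · obtain ⟨u, rfl⟩ := h4
        exact congrFun h2 u
      · have := h3 x hx
        rwa [if_neg h4, if_neg h4] at this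
    · rw [if_neg h2]

theorem off_add {e : U → V} {A B : Matrix (Cfg V) (Cfg V) ℂ} (hA : Off e A) (hB : Off e B) :
    Off e (A + B) := by
  intro σ τ
  rw [Matrix.add_apply, hA σ τ, hB σ τ, Matrix.add_apply]
  split_ifs <;> simp

theorem off_zero {e : U → V} : Off e (0 : Matrix (Cfg V) (Cfg V) ℂ) := by
  intro σ τ
  simp

theorem off_sum {κ : Type*} (s : Finset κ) {e : U → V} {A : κ → Matrix (Cfg V) (Cfg V) ℂ}
    (hA : ∀ k ∈ s, Off e (A k)) : Off e (∑ k ∈ s, A k) := by
  classical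
  induction s using Finset.induction_on with
  | empty => rw [Finset.sum_empty]; exact off_zero
  | insert a s ha ih =>
    rw [Finset.sum_insert ha]
    exact off_add (hA a (Finset.mem_insert_self _ _)) (ih fun k hk => hA k (Finset.mem_insert_of_mem hk))

theorem nlt_zero : nlt (0 : Matrix (Cfg V) (Cfg V) ℂ) = 0 := by
  unfold nlt
  rw [NormedSpace.exp_zero, Matrix.trace_one, Fintype.card_fun, Fintype.card_fin]
  push_cast
  have : ((2 : ℂ) ^ Fintype.card V).re = (2 : ℝ) ^ Fintype.card V := by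
    rw [← Complex.ofReal_ofNat, ← Complex.ofReal_pow, Complex.ofReal_re]
  rw [this, Real.log_pow]
  ring

/-- The normalised log trace of a sum over disjoint blocks. -/
theorem nlt_sum {κ : Type*} (s : Finset κ) (e : κ → U → V) (he : ∀ k ∈ s, Function.Injective (e k))
    (hd : ∀ k ∈ s, ∀ l ∈ s, k ≠ l → ∀ u u', e k u ≠ e l u')
    {A : Matrix (Cfg U) (Cfg U) ℂ} (hA : A.IsHermitian) :
    nlt (∑ k ∈ s, emb (e k) A) = s.card * nlt A := by
  classical
  induction s using Finset.induction_on with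
  | empty => rw [Finset.sum_empty, nlt_zero, Finset.card_empty]; simp
  | insert a s ha ih =>
    have ih' := ih (fun k hk => he k (Finset.mem_insert_of_mem hk))
      (fun k hk l hl => hd k (Finset.mem_insert_of_mem hk) l (Finset.mem_insert_of_mem hl))
    rw [Finset.sum_insert ha, add_comm, nlt_add (e a) (he a (Finset.mem_insert_self _ _))
      (off_sum s fun k hk => off_emb (fun u u' => hd a (Finset.mem_insert_self _ _) k
        (Finset.mem_insert_of_mem hk) (fun h => ha (h ▸ hk)) u u') A)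
      (Energy.sum_isHermitian _ fun k _ => emb_isHermitian _ hA) hA, ih', Finset.card_insert_of_notMem ha]
    push_cast
    ring

end Emb

/-! ### `casX` and `hT` in the swap form -/

section Cas

variable {Λ : Finset Site}

theorem hM_self {V : Type} [Fintype V] [DecidableEq V] (x : V) :
    (Energy.hM x x : Matrix (Cfg V) (Cfg V) ℂ) = 0 := by
  have h : (Energy.swapM x x : Matrix (Cfg V) (Cfg V) ℂ) = 1 := by
    ext σ τ
    simp [Energy.swapM, Matrix.one_apply, Equiv.swap_self]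
  rw [Energy.hM, h, sub_self, smul_zero]

theorem hM_eq_dot {x y : Λ} (hxy : x ≠ y) : (((1 : ℕ) : ℂ) / 2) ^ 2 •
      (1 : Matrix (Λ → Fin (1 + 1)) (Λ → Fin (1 + 1)) ℂ) - H.dotOp 1 x y = Energy.hM x y := by
  have h1 := cM_hM hxy
  have h2 : cM (LRO.hM x y) = Energy.hM x y := Energy.cpx_hM x y
  rw [h2] at h1
  rw [h1]
  unfold H.dotOp
  simp only [siteOp_eq_siteOpV]
  congr 2
  norm_num

theorem casX_eq_hM : B.casX 1 Λ = ∑ x : Λ, ∑ y : Λ, Energy.hM x y := by
  unfold B.casX
  refine Finset.sum_congr rfl fun x _ => Finset.sum_congr rfl fun y _ => ?_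
  by_cases h : x = y
  · subst h
    rw [if_pos rfl, hM_self]
  · rw [if_neg h, hM_eq_dot h]

theorem hT_eq_hM : B.hT 1 Λ = (1 / 2 : ℂ) • ∑ x : Λ, ∑ y : Λ,
    if IsNN x.1 y.1 then Energy.hM x y else 0 := by
  unfold B.hT
  congr 1
  refine Finset.sum_congr rfl fun x _ => Finset.sum_congr rfl fun y _ => ?_
  by_cases h : IsNN x.1 y.1
  · rw [if_pos h, if_pos h, hM_eq_dot (H.isNN_ne h)]
  · rw [if_neg h, if_neg h]

end Cas

end

end Vale.Agent.P361.LRO.S3.LT1
end

section

/-!
P361, stage 3, block (T), leaf (T1): Peierls–Bogoliubov on the torus with decoupled blocks.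

For a function `G(C_b)` of the Casimir operator of a block `b` of side `R`,
`⟨G(C_b)⟩ ≤ log Tr_b exp(-β H_b + G(C_b)) - R³ g(β, h) + o(1)` as `n → ∞`, uniformly in `G`.
-/

namespace Vale.Agent.P361.LRO.S3

open Matrix Finset Filter Topology
open Vale.Agent.P361.LRO.Energy (Cfg ex cpx)
open Vale.Agent.P361.LRO.Loc3
open Vale.Agent.P361.LRO.Bs (relab subm_sub subm_sum subm_smul subm_add exp_submatrix_real
  trace_submatrix_real szM_relab hM_relab edges_translate)
open scoped ComplexOrder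

noncomputable section

namespace LT1

/-- The block `x + [0,R)³` of the torus. -/
def bl (n R : ℕ) (x : Tor n) (z : B.cube R) : Tor n := x + fun i => ((z.1 i : ℤ) : ZMod n)

theorem bl_injective {n R : ℕ} (hR : R ≤ n) (x : Tor n) : Function.Injective (bl n R x) := by
  intro u v h
  apply Subtype.ext
  funext i
  have hu := B.mem_cube'.1 u.2 i
  have hv := B.mem_cube'.1 v.2 i
  have h1 := congrFun (add_left_cancel h) i
  refine cast_eq_imp h1 ?_
  have : (R : ℤ) ≤ n := by exact_mod_cast hR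
  rw [abs_lt]
  constructor <;> linarith [hu.1, hu.2, hv.1, hv.2]

theorem cube_eq_bl (n R : ℕ) [NeZero n] (x : Tor n) : cube n x R = univ.image (bl n R x) := by
  ext y
  simp only [cube, Finset.mem_image, Finset.mem_univ, true_and]
  constructor
  · rintro ⟨a, rfl⟩
    refine ⟨⟨fun i => ((a i : ℕ) : ℤ), B.mem_cube'.2 fun i => ⟨by positivity, ?_⟩⟩, ?_⟩
    · exact_mod_cast (a i).2
    · simp [bl]
  · rintro ⟨z, rfl⟩
    have hz := B.mem_cube'.1 z.2
    refine ⟨fun i => ⟨(z.1 i).toNat, by have := hz i; omega⟩, ?_⟩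
    simp only [bl]
    congr 1
    funext i
    have h1 : (((z.1 i).toNat : ℕ) : ℤ) = z.1 i := Int.toNat_of_nonneg (hz i).1
    have h2 : ((((z.1 i).toNat : ℕ) : ℤ) : ZMod n) = ((z.1 i : ℤ) : ZMod n) := by rw [h1]
    rw [← h2, Int.cast_natCast]

theorem cpx_CM {n R : ℕ} [NeZero n] (hR : R ≤ n) (x : Tor n) :
    cpx (CM (cube n x R)) = emb (bl n R x) (B.casX 1 (B.cube R)) := by
  have hinj := bl_injective hR x
  rw [CM, cube_eq_bl, Finset.sum_image fun a _ b _ h => hinj h, Energy.cpx_sum, casX_eq_hM,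
    emb_sum]
  refine Finset.sum_congr rfl fun u _ => ?_
  rw [Finset.sum_image fun a _ b _ h => hinj h, Energy.cpx_sum, emb_sum]
  refine Finset.sum_congr rfl fun v _ => ?_
  rw [Energy.cpx_hM, emb_hM hinj]

theorem cpx_aeval {V : Type} [Fintype V] [DecidableEq V] (A : Matrix (Cfg V) (Cfg V) ℝ)
    (G : Polynomial ℝ) :
    cpx (Polynomial.aeval A G) = Polynomial.aeval (cpx A) (G.map (algebraMap ℝ ℂ)) := by
  rw [Polynomial.aeval_map_algebraMap]
  exact (Polynomial.aeval_algHom_apply (AlgHom.mapMatrix Complex.ofRealAm) A G).symm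

theorem cpx_aeval_CM {n R : ℕ} [NeZero n] (hR : R ≤ n) (x : Tor n) (G : Polynomial ℝ) :
    cpx (Polynomial.aeval (CM (cube n x R)) G) =
      emb (bl n R x) (Polynomial.aeval (B.casX 1 (B.cube R)) (G.map (algebraMap ℝ ℂ))) := by
  rw [cpx_aeval, cpx_CM hR]
  exact aeval_emb (bl_injective hR x) _ _

/-! ### Translation invariance -/

theorem CM_relab {V : Type} [Fintype V] [DecidableEq V] (g : V ≃ V) (b : Finset V) :
    (CM (b.image g)).submatrix (relab g) (relab g) = CM b := by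
  unfold CM
  rw [Finset.sum_image fun a _ b _ h => g.injective h, subm_sum]
  refine Finset.sum_congr rfl fun x _ => ?_
  rw [Finset.sum_image fun a _ b _ h => g.injective h, subm_sum]
  refine Finset.sum_congr rfl fun y _ => ?_
  exact hM_relab g x y

theorem aeval_submatrix {ι : Type*} [Fintype ι] [DecidableEq ι] (E : ι ≃ ι) (M : Matrix ι ι ℝ)
    (G : Polynomial ℝ) :
    (Polynomial.aeval M G).submatrix E E = Polynomial.aeval (M.submatrix E E) G :=
  (Polynomial.aeval_algHom_apply (Matrix.reindexAlgEquiv ℝ ℝ E.symm).toAlgHom M G).symm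

theorem cube_image_add (n R : ℕ) [NeZero n] (x v : Tor n) :
    (cube n x R).image (Equiv.addRight v) = cube n (x + v) R := by
  rw [cube_eq_bl, cube_eq_bl, Finset.image_image]
  congr 1
  funext z
  simp only [Function.comp_apply, Equiv.coe_addRight, bl]
  abel

theorem ham_relab {n : ℕ} [NeZero n] (h : ℝ) (v : Tor n) :
    (ham (edges n) fun _ => h).submatrix (relab (Equiv.addRight v)) (relab (Equiv.addRight v)) =
      ham (edges n) fun _ => h := by
  set g : Tor n ≃ Tor n := Equiv.addRight v with hg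
  unfold ham
  rw [subm_sub]
  congr 1
  · have h2 : ∀ L : List (Tor n × Tor n),
        ((L.map fun e => LRO.hM (g e.1) (g e.2)).sum).submatrix (relab g) (relab g) =
          (L.map fun e => LRO.hM e.1 e.2).sum := by
      intro L
      induction L with
      | nil => ext i j; rfl
      | cons a L ih =>
        rw [List.map_cons, List.sum_cons, List.map_cons, List.sum_cons, subm_add, ih, hM_relab]
    conv_lhs => rw [edges_translate (fun a b => LRO.hM a b) v]
    exact h2 (edges n)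
  · rw [subm_sum, ← Equiv.sum_comp g]
    refine Finset.sum_congr rfl fun y _ => ?_
    rw [subm_smul, szM_relab]

theorem gib_translate {n : ℕ} [NeZero n] (β h : ℝ) (v : Tor n)
    (A : Matrix (Tor n → Fin 2) (Tor n → Fin 2) ℝ) :
    gib (edges n) β (fun _ => h) (A.submatrix (relab (Equiv.addRight v)) (relab (Equiv.addRight v))) =
      gib (edges n) β (fun _ => h) A := by
  have h2 : NormedSpace.exp (-β • ham (edges n) (fun _ => h)) =
      (NormedSpace.exp (-β • ham (edges n) (fun _ => h))).submatrix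
        (relab (Equiv.addRight v)) (relab (Equiv.addRight v)) := by
    conv_lhs => rw [← ham_relab h v]
    rw [← exp_submatrix_real]
    congr 1
  unfold gib
  conv_lhs => rw [h2, Matrix.submatrix_mul_equiv, trace_submatrix_real, trace_submatrix_real]

theorem gib_CM_translate {n : ℕ} [NeZero n] (β h : ℝ) (R : ℕ) (x v : Tor n) (G : Polynomial ℝ) :
    gib (edges n) β (fun _ => h) (Polynomial.aeval (CM (cube n (x + v) R)) G) =
      gib (edges n) β (fun _ => h) (Polynomial.aeval (CM (cube n x R)) G) := by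
  rw [← gib_translate β h v (Polynomial.aeval (CM (cube n (x + v) R)) G), aeval_submatrix,
    ← cube_image_add, CM_relab]

/-! ### The tiling -/

/-- The blocks `R y + [0,R)³`, `y ∈ [0,m)³`. -/
def tl (n R m : ℕ) (y : Fin 3 → Fin m) : B.cube R → Tor n :=
  bl n R fun i => (((R * (y i : ℕ) : ℕ) : ℤ) : ZMod n)

theorem tl_apply (n R m : ℕ) (y : Fin 3 → Fin m) (u : B.cube R) (i : Fin 3) :
    tl n R m y u i = (((R * (y i : ℕ) : ℕ) : ℤ) + u.1 i : ℤ) := by
  simp [tl, bl]

theorem tl_inj {n R m : ℕ} (hm : R * m ≤ n) {y y' : Fin 3 → Fin m} {u u' : B.cube R}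
    (h : tl n R m y u = tl n R m y' u') : y = y' ∧ u = u' := by
  have key : ∀ i, (y i : ℕ) = (y' i : ℕ) ∧ u.1 i = u'.1 i := by
    intro i
    have hu := B.mem_cube'.1 u.2 i
    have hu' := B.mem_cube'.1 u'.2 i
    have h1 := congrFun h i
    rw [tl_apply, tl_apply] at h1
    have hy : (y i : ℕ) + 1 ≤ m := (y i).2
    have hy' : (y' i : ℕ) + 1 ≤ m := (y' i).2
    have b1 : R * (y i : ℕ) + R ≤ n := by
      calc R * (y i : ℕ) + R = R * ((y i : ℕ) + 1) := by ring
        _ ≤ R * m := Nat.mul_le_mul_left _ hy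
        _ ≤ n := hm
    have b2 : R * (y' i : ℕ) + R ≤ n := by
      calc R * (y' i : ℕ) + R = R * ((y' i : ℕ) + 1) := by ring
        _ ≤ R * m := Nat.mul_le_mul_left _ hy'
        _ ≤ n := hm
    have b1' : ((R * (y i : ℕ) : ℕ) : ℤ) + R ≤ n := by exact_mod_cast b1
    have b2' : ((R * (y' i : ℕ) : ℕ) : ℤ) + R ≤ n := by exact_mod_cast b2
    have c1 : (0 : ℤ) ≤ ((R * (y i : ℕ) : ℕ) : ℤ) := by positivity
    have c2 : (0 : ℤ) ≤ ((R * (y' i : ℕ) : ℕ) : ℤ) := by positivity
    have h2 := cast_eq_imp h1 (by rw [abs_lt]; constructor <;> linarith [hu.1, hu.2, hu'.1, hu'.2])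
    have hR : 0 < (R : ℤ) := by linarith [hu.1, hu.2]
    have h3 : (y i : ℤ) = (y' i : ℤ) := by
      push_cast at h2
      rcases lt_trichotomy ((y i : ℕ) : ℤ) ((y' i : ℕ) : ℤ) with h4 | h4 | h4
      · exfalso
        have h5 : ((y i : ℕ) : ℤ) + 1 ≤ (y' i : ℕ) := h4
        have h6 := mul_le_mul_of_nonneg_left h5 hR.le
        linarith [hu.1, hu.2, hu'.1, hu'.2]
      · exact h4
      · exfalso
        have h5 : ((y' i : ℕ) : ℤ) + 1 ≤ (y i : ℕ) := h4
        have h6 := mul_le_mul_of_nonneg_left h5 hR.le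
        linarith [hu.1, hu.2, hu'.1, hu'.2]
    have h4 : (y i : ℕ) = (y' i : ℕ) := by exact_mod_cast h3
    refine ⟨h4, ?_⟩
    rw [h4] at h2
    linarith
  exact ⟨funext fun i => Fin.ext (key i).1, Subtype.ext (funext fun i => (key i).2)⟩

theorem tl_adj {n R m : ℕ} (y : Fin 3 → Fin m) {u v : B.cube R} (h : IsNN u.1 v.1) :
    torusAdj n (tl n R m y u) (tl n R m y v) := by
  obtain ⟨i, h1, h2⟩ := nn_iff.1 h
  refine ⟨i, ?_, fun j hj => ?_⟩
  · rcases h1 with h1 | h1
    · left
      rw [tl_apply, tl_apply, h1]; push_cast; ring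
    · right
      rw [tl_apply, tl_apply, h1]; push_cast; ring
  · rw [tl_apply, tl_apply, h2 j hj]

theorem psd_sub {ι κ σ : Type*} [Fintype σ] [DecidableEq σ] [DecidableEq κ] {s : Finset ι} {t : Finset κ}
    {f : ι → κ} (hinj : Set.InjOn f s) (hf : ∀ i ∈ s, f i ∈ t) {g : κ → Matrix σ σ ℂ}
    (hg : ∀ k, (g k).PosSemidef) : (∑ k ∈ t, g k - ∑ i ∈ s, g (f i)).PosSemidef := by
  have h1 : ∑ i ∈ s, g (f i) = ∑ k ∈ s.image f, g k := (Finset.sum_image hinj).symm
  have h2 : s.image f ⊆ t := by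
    intro k hk
    obtain ⟨i, hi, rfl⟩ := Finset.mem_image.1 hk
    exact hf i hi
  rw [h1, ← Finset.sum_sdiff h2, add_sub_cancel_right]
  exact Matrix.posSemidef_sum _ fun k _ => hg k

theorem hM_comm {V : Type} [Fintype V] [DecidableEq V] (x y : V) :
    (Energy.hM x y : Matrix (Cfg V) (Cfg V) ℂ) = Energy.hM y x := by
  rw [Energy.hM, Energy.hM, Energy.swapM, Energy.swapM, Equiv.swap_comm]

/-- Dropping the bonds between the blocks. -/
theorem bonds_le {n R m : ℕ} [NeZero n] (hn : 3 ≤ n) (hm : R * m ≤ n) :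
    (∑ z : Tor n × Fin 3, Energy.hM z.1 (z.1 + Pi.single z.2 1) -
      ∑ y : Fin 3 → Fin m, emb (tl n R m y) (B.hT 1 (B.cube R))).PosSemidef := by
  have e1 : (∑ z : Tor n × Fin 3, Energy.hM z.1 (z.1 + Pi.single z.2 1) :
      Matrix (Cfg (Tor n)) (Cfg (Tor n)) ℂ) =
      (1 / 2 : ℂ) • ∑ p ∈ (Finset.univ : Finset (Tor n × Tor n)).filter
        (fun p => torusAdj n p.1 p.2), Energy.hM p.1 p.2 := by
    have h1 := sum_torusAdj hn (fun a b => (Energy.hM a b : Matrix (Cfg (Tor n)) (Cfg (Tor n)) ℂ))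
    have h2 : (∑ z : (Fin 3 → ZMod n) × Fin 3, Energy.hM (z.1 + Pi.single z.2 1) z.1 :
        Matrix (Cfg (Tor n)) (Cfg (Tor n)) ℂ) =
        ∑ z : (Fin 3 → ZMod n) × Fin 3, Energy.hM z.1 (z.1 + Pi.single z.2 1) :=
      Finset.sum_congr rfl fun z _ => hM_comm _ _
    rw [h2] at h1
    have h3 : (∑ p : Tor n × Tor n, if torusAdj n p.1 p.2 then Energy.hM p.1 p.2 else 0 :
        Matrix (Cfg (Tor n)) (Cfg (Tor n)) ℂ) =
        ∑ x, ∑ y, if torusAdj n x y then Energy.hM x y else 0 := Fintype.sum_prod_type _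
    rw [Finset.sum_filter, h3, h1, ← two_smul ℂ, smul_smul]
    norm_num
  have e2 : (∑ y : Fin 3 → Fin m, emb (tl n R m y) (B.hT 1 (B.cube R)) :
      Matrix (Cfg (Tor n)) (Cfg (Tor n)) ℂ) =
      (1 / 2 : ℂ) • ∑ q ∈ (Finset.univ : Finset ((Fin 3 → Fin m) × (B.cube R × B.cube R))).filter
        (fun q => IsNN q.2.1.1 q.2.2.1), Energy.hM (tl n R m q.1 q.2.1) (tl n R m q.1 q.2.2) := by
    rw [Finset.sum_filter, Fintype.sum_prod_type, Finset.smul_sum]
    refine Finset.sum_congr rfl fun y _ => ?_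
    rw [hT_eq_hM, emb_smul, emb_sum, Fintype.sum_prod_type]
    congr 1
    refine Finset.sum_congr rfl fun u _ => ?_
    rw [emb_sum]
    refine Finset.sum_congr rfl fun v _ => ?_
    split_ifs with h
    · exact emb_hM (fun a b hab => (tl_inj hm hab).2) u v
    · exact emb_zero _
  rw [e1, e2, ← smul_sub]
  refine Matrix.PosSemidef.smul ?_ (by norm_num [Complex.le_def])
  refine psd_sub (f := fun q : (Fin 3 → Fin m) × (B.cube R × B.cube R) =>
    (tl n R m q.1 q.2.1, tl n R m q.1 q.2.2)) (g := fun p : Tor n × Tor n => Energy.hM p.1 p.2)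
    ?_ ?_ (fun p => Energy.hM_posSemidef _ _)
  · intro q _ q' _ h
    obtain ⟨h1, h2⟩ := Prod.mk.inj h
    obtain ⟨a1, a2⟩ := tl_inj hm h1
    obtain ⟨b1, b2⟩ := tl_inj hm h2
    exact Prod.ext a1 (Prod.ext a2 b2)
  · intro q hq
    rw [Finset.mem_filter] at hq ⊢
    exact ⟨Finset.mem_univ _, tl_adj q.1 hq.2⟩

/-- The exponent of the Gibbs state. -/
theorem cpx_expo {n : ℕ} [NeZero n] (β h : ℝ) :
    cpx (-β • ham (edges n) fun _ => h) =
      -((β : ℂ) • ∑ z : Tor n × Fin 3, Energy.hM z.1 (z.1 + Pi.single z.2 1)) +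
        ∑ x : Tor n, ((β * h : ℝ) : ℂ) • Energy.szM x := by
  rw [ham, Bs.edges_map_sum (fun a b => LRO.hM a b), smul_sub, Energy.cpx_sub, Energy.cpx_smul,
    Energy.cpx_smul, Energy.cpx_sum, Energy.cpx_sum]
  simp only [Energy.cpx_smul, Energy.cpx_szM, Energy.cpx_hM, Finset.smul_sum, smul_smul]
  rw [sub_eq_add_neg, ← Finset.sum_neg_distrib, ← Finset.sum_neg_distrib]
  congr 1
  · refine Finset.sum_congr rfl fun x _ => ?_
    rw [← neg_smul]
    congr 1
    push_cast
    ring
  · refine Finset.sum_congr rfl fun x _ => ?_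
    rw [← neg_smul]
    congr 1
    push_cast
    ring

/-- The decoupled exponent. -/
def dec (n R m : ℕ) [NeZero n] (β h : ℝ) : Matrix (Cfg (Tor n)) (Cfg (Tor n)) ℂ :=
  ((β * h / 2 * (n : ℝ) ^ 3 : ℝ) : ℂ) • (1 : Matrix (Cfg (Tor n)) (Cfg (Tor n)) ℂ) -
    (β : ℂ) • ∑ y : Fin 3 → Fin m, emb (tl n R m y) (B.hT 1 (B.cube R))

theorem dec_sub {n R m : ℕ} [NeZero n] (hn : 3 ≤ n) (hm : R * m ≤ n) {β h : ℝ} (hβ : 0 ≤ β)
    (hh : 0 ≤ h) : (dec n R m β h - cpx (-β • ham (edges n) fun _ => h)).PosSemidef := by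
  have e1 : dec n R m β h - cpx (-β • ham (edges n) fun _ => h) =
      (β : ℂ) • (∑ z : Tor n × Fin 3, Energy.hM z.1 (z.1 + Pi.single z.2 1) -
        ∑ y : Fin 3 → Fin m, emb (tl n R m y) (B.hT 1 (B.cube R))) +
      ∑ x : Tor n, ((β * h : ℝ) : ℂ) •
        ((1 / 2 : ℂ) • (1 : Matrix (Cfg (Tor n)) (Cfg (Tor n)) ℂ) - Energy.szM x) := by
    rw [cpx_expo, dec]
    simp only [smul_sub, Finset.sum_sub_distrib, Finset.sum_const, Finset.card_univ,
      Fintype.card_fun, ZMod.card, Fintype.card_fin]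
    rw [← Nat.cast_smul_eq_nsmul ℂ, smul_smul, smul_smul]
    push_cast
    have e2 : (β : ℂ) * h / 2 * (n : ℂ) ^ 3 = (n : ℂ) ^ 3 * (β * h) * (1 / 2) := by ring
    rw [e2]
    abel
  rw [e1]
  refine (Energy.smul_real_posSemidef (bonds_le hn hm) hβ).add ?_
  exact Matrix.posSemidef_sum _ fun x _ =>
    Energy.smul_real_posSemidef (Energy.half_sub_szM_posSemidef x) (mul_nonneg hβ hh)

theorem casX_isHermitian' (R : ℕ) : (B.casX 1 (B.cube R)).IsHermitian := by
  rw [casX_eq_hM]
  exact Energy.sum_isHermitian _ fun x _ => Energy.sum_isHermitian _ fun y _ =>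
    Energy.hM_isHermitian x y

theorem aeval_isHermitian {ι : Type*} [Fintype ι] [DecidableEq ι] {A : Matrix ι ι ℂ}
    (hA : A.IsHermitian) (G : Polynomial ℝ) :
    (Polynomial.aeval A (G.map (algebraMap ℝ ℂ))).IsHermitian := by
  rw [Polynomial.aeval_map_algebraMap]
  induction G using Polynomial.induction_on' with
  | add p q hp hq => rw [map_add]; exact hp.add hq
  | monomial k a =>
    rw [Polynomial.aeval_monomial, Algebra.algebraMap_eq_smul_one, Matrix.smul_mul, Matrix.one_mul]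
    have h1 : (A ^ k).IsHermitian := hA.pow k
    rw [Matrix.IsHermitian, Matrix.conjTranspose_smul, h1]
    simp

theorem card_cubeB (R : ℕ) : Fintype.card (B.cube R) = R ^ 3 := by
  rw [Fintype.card_coe, B.cube_eq, card_cube]

/-- The inequality in finite volume. -/
theorem lt1_fin {n R m : ℕ} [NeZero n] (hn : 3 ≤ n) (hR : R ≤ n) (hm : R * m ≤ n) {β h : ℝ}
    (hβ : 0 ≤ β) (hh : 0 ≤ h) (x : Tor n) (G : Polynomial ℝ) :
    (m : ℝ) ^ 3 * gib (edges n) β (fun _ => h) (Polynomial.aeval (CM (cube n x R)) G) ≤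
      (m : ℝ) ^ 3 * (Real.log (trace (NormedSpace.exp (-((β : ℂ) • B.hT 1 (B.cube R)) +
        Polynomial.aeval (B.casX 1 (B.cube R)) (G.map (algebraMap ℝ ℂ))))).re -
          (R : ℝ) ^ 3 * Real.log 2) + (n : ℝ) ^ 3 * Real.log 2 - logZ n β h := by
  set w0 := Polynomial.aeval (B.casX 1 (B.cube R)) (G.map (algebraMap ℝ ℂ)) with hw0
  have hw : w0.IsHermitian := aeval_isHermitian (casX_isHermitian' R) G
  have hT : (B.hT 1 (B.cube R)).IsHermitian := B.hT_isHermitian
  set A : Matrix (Cfg (B.cube R)) (Cfg (B.cube R)) ℂ := -((β : ℂ) • B.hT 1 (B.cube R)) + w0 with hA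
  have hAh : A.IsHermitian := (Energy.smul_real_isHermitian hT β).neg.add hw
  set X := cpx (-β • ham (edges n) fun _ => h) with hX
  have hXh : X.IsHermitian := by
    rw [hX, cpx_expo]
    exact (Energy.smul_real_isHermitian (Energy.sum_isHermitian _ fun z _ =>
      Energy.hM_isHermitian _ _) β).neg.add (Energy.sum_isHermitian _ fun x _ =>
      Energy.smul_real_isHermitian (Energy.szM_isHermitian x) _)
  set Y : Matrix (Cfg (Tor n)) (Cfg (Tor n)) ℂ := ∑ y : Fin 3 → Fin m, emb (tl n R m y) w0 with hY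
  have hYh : Y.IsHermitian := Energy.sum_isHermitian _ fun y _ => emb_isHermitian _ hw
  have hPB := Vale.Agent.P361.peierls_bogoliubov hXh hYh
  -- the expectation
  have h1 : (trace (NormedSpace.exp X * Y)).re / (trace (NormedSpace.exp X)).re =
      (m : ℝ) ^ 3 * gib (edges n) β (fun _ => h) (Polynomial.aeval (CM (cube n x R)) G) := by
    have h2 : Vale.Agent.P361.LRO.Energy.ex X Y = ∑ y : Fin 3 → Fin m, Vale.Agent.P361.LRO.Energy.ex X (emb (tl n R m y) w0) :=
      Energy.ex_sum X Finset.univ _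
    have h3 : ∀ y : Fin 3 → Fin m, Vale.Agent.P361.LRO.Energy.ex X (emb (tl n R m y) w0) =
        gib (edges n) β (fun _ => h) (Polynomial.aeval (CM (cube n x R)) G) := by
      intro y
      rw [Energy.gib_eq, tl, ← cpx_aeval_CM hR, ← Energy.gib_eq, ← Energy.gib_eq]
      have h4 := gib_CM_translate β h R x
        ((fun i => (((R * (y i : ℕ) : ℕ) : ℤ) : ZMod n)) - x) G
      rw [add_sub_cancel] at h4
      exact h4
    have h5 : (trace (NormedSpace.exp X * Y)).re / (trace (NormedSpace.exp X)).re = Vale.Agent.P361.LRO.Energy.ex X Y := rfl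
    rw [h5, h2, Finset.sum_congr rfl fun y _ => h3 y, Finset.sum_const, Finset.card_univ,
      Fintype.card_fun, Fintype.card_fin, Fintype.card_fin, nsmul_eq_mul]
    push_cast
    rfl
  -- the decoupled trace
  have hdec : dec n R m β h + Y = ∑ y : Fin 3 → Fin m, emb (tl n R m y) A +
      ((β * h / 2 * (n : ℝ) ^ 3 : ℝ) : ℂ) • (1 : Matrix (Cfg (Tor n)) (Cfg (Tor n)) ℂ) := by
    rw [dec, hY, hA]
    simp only [emb_add, emb_neg, emb_smul, Finset.sum_add_distrib, Finset.sum_neg_distrib,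
      ← Finset.smul_sum]
    abel
  have hSh : (∑ y : Fin 3 → Fin m, emb (tl n R m y) A).IsHermitian :=
    Energy.sum_isHermitian _ fun y _ => emb_isHermitian _ hAh
  have hdh : (dec n R m β h + Y).IsHermitian := by
    rw [hdec]
    exact hSh.add (Energy.smul_real_isHermitian Matrix.isHermitian_one _)
  have hup : (trace (NormedSpace.exp (X + Y))).re ≤
      (trace (NormedSpace.exp (dec n R m β h + Y))).re := by
    refine trace_exp_mono (hXh.add hYh) hdh ?_
    have e : dec n R m β h + Y - (X + Y) = dec n R m β h - X := by abel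
    rw [e]
    exact dec_sub hn hm hβ hh
  have h6 := Real.log_le_log (trace_exp_pos (hXh.add hYh)) hup
  have h7 : Real.log (trace (NormedSpace.exp (dec n R m β h + Y))).re =
      β * h / 2 * (n : ℝ) ^ 3 + ((m : ℝ) ^ 3 * (Real.log (trace (NormedSpace.exp A)).re -
        (R : ℝ) ^ 3 * Real.log 2) + (n : ℝ) ^ 3 * Real.log 2) := by
    rw [hdec, trace_exp_add_smul_one, Real.log_mul (Real.exp_pos _).ne' (trace_exp_pos hSh).ne',
      Real.log_exp]
    congr 1
    have h8 := nlt_sum (Finset.univ : Finset (Fin 3 → Fin m)) (tl n R m)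
      (fun y _ a b hab => (tl_inj hm hab).2)
      (fun y _ y' _ hne u u' he => hne (tl_inj hm he).1) hAh
    unfold nlt at h8
    rw [card_cubeB, Finset.card_univ, Fintype.card_fun, Fintype.card_fun, Fintype.card_fin,
      Fintype.card_fin, ZMod.card] at h8
    push_cast at h8
    linarith
  have h9 : logZ n β h = Real.log (trace (NormedSpace.exp X)).re - β * h / 2 * (n : ℝ) ^ 3 := by
    rw [hX, ← Energy.cpx_exp, Energy.cpx_trace]
    rfl
  rw [h1] at hPB
  rw [h9]
  linarith

theorem div_tendsto {R : ℕ} (hR : 0 < R) :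
    Tendsto (fun N : ℕ => ((2 * N + 1 : ℕ) : ℝ) / (((2 * N + 1) / R : ℕ) : ℝ)) atTop (𝓝 (R : ℝ)) := by
  have hR' : (0 : ℝ) < R := by exact_mod_cast hR
  have hn : Tendsto (fun N : ℕ => ((2 * N + 1 : ℕ) : ℝ)) atTop atTop := by
    refine tendsto_natCast_atTop_atTop.comp ?_
    exact tendsto_atTop_mono (fun N => by show N ≤ 2 * N + 1; omega) tendsto_id
  have h1 : Tendsto (fun N : ℕ => (((2 * N + 1) / R : ℕ) : ℝ) / ((2 * N + 1 : ℕ) : ℝ)) atTop
      (𝓝 ((R : ℝ)⁻¹)) := by
    have hlow : Tendsto (fun N : ℕ => (R : ℝ)⁻¹ - 1 / ((2 * N + 1 : ℕ) : ℝ)) atTop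
        (𝓝 ((R : ℝ)⁻¹ - 0)) :=
      tendsto_const_nhds.sub (tendsto_const_nhds.div_atTop hn)
    rw [sub_zero] at hlow
    refine tendsto_of_tendsto_of_tendsto_of_le_of_le hlow tendsto_const_nhds ?_ ?_
    · intro N
      have hp : (0 : ℝ) < ((2 * N + 1 : ℕ) : ℝ) := by positivity
      show (R : ℝ)⁻¹ - 1 / ((2 * N + 1 : ℕ) : ℝ) ≤ (((2 * N + 1) / R : ℕ) : ℝ) / ((2 * N + 1 : ℕ) : ℝ)
      rw [le_div_iff₀ hp, sub_mul, one_div, inv_mul_cancel₀ hp.ne']
      have h2 : (2 * N + 1) < R * ((2 * N + 1) / R) + R := by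
        have h3 := Nat.div_add_mod (2 * N + 1) R
        have h4 := Nat.mod_lt (2 * N + 1) hR
        omega
      have h3 : ((2 * N + 1 : ℕ) : ℝ) < R * (((2 * N + 1) / R : ℕ) : ℝ) + R := by exact_mod_cast h2
      rw [sub_le_iff_le_add, inv_mul_le_iff₀ hR']
      linarith
    · intro N
      have hp : (0 : ℝ) < ((2 * N + 1 : ℕ) : ℝ) := by positivity
      show (((2 * N + 1) / R : ℕ) : ℝ) / ((2 * N + 1 : ℕ) : ℝ) ≤ (R : ℝ)⁻¹
      rw [div_le_iff₀ hp, inv_mul_eq_div]
      exact Nat.cast_div_le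
  have h2 := h1.inv₀ (by positivity)
  rw [inv_inv] at h2
  refine h2.congr fun N => ?_
  rw [inv_div]

end LT1

/-- **(T1)** Peierls–Bogoliubov on the torus with decoupled blocks. -/
theorem lt1 {β h : ℝ} (hβ : 0 < β) (hh : 0 ≤ h) {R : ℕ} (hR : 0 < R) {ε : ℝ} (hε : 0 < ε) :
    ∃ n0 : ℕ, ∀ (n : ℕ) [NeZero n], n0 ≤ n → Odd n → ∀ (x : Tor n) (G : Polynomial ℝ),
      gib (edges n) β (fun _ => h) (Polynomial.aeval (CM (cube n x R)) G) ≤
        Real.log (trace (NormedSpace.exp (-((β : ℂ) • B.hT 1 (B.cube R)) +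
          Polynomial.aeval (B.casX 1 (B.cube R)) (G.map (algebraMap ℝ ℂ))))).re
          - (R : ℝ) ^ 3 * B.gRed 1 β h + ε := by
  have h1 := ((LT1.div_tendsto hR).pow 3).mul ((logZ_tendsto hβ h).const_sub (Real.log 2))
  obtain ⟨N0, hN0⟩ := eventually_atTop.1 ((tendsto_order.1 h1).2
    ((R : ℝ) ^ 3 * (Real.log 2 - B.gRed 1 β h) + ε) (by linarith))
  refine ⟨2 * N0 + 3 + R, fun n _ hn hodd x G => ?_⟩
  obtain ⟨N, rfl⟩ := hodd
  have h2 := hN0 N (by omega)
  have hm : R * ((2 * N + 1) / R) ≤ 2 * N + 1 := Nat.mul_div_le _ _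
  have hmpos : 0 < (2 * N + 1) / R := Nat.div_pos (by omega) hR
  have hm' : (0 : ℝ) < (((2 * N + 1) / R : ℕ) : ℝ) := by exact_mod_cast hmpos
  have h3 := LT1.lt1_fin (n := 2 * N + 1) (R := R) (m := (2 * N + 1) / R) (by omega) (by omega) hm
    hβ.le hh x G
  set m : ℝ := (((2 * N + 1) / R : ℕ) : ℝ) with hmdef
  set nn : ℝ := ((2 * N + 1 : ℕ) : ℝ) with hnn
  have hnn0 : 0 < nn := by rw [hnn]; positivity
  have h4 : (nn / m) ^ 3 * (Real.log 2 - logZ (2 * N + 1) β h / nn ^ 3) * m ^ 3 =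
      nn ^ 3 * Real.log 2 - logZ (2 * N + 1) β h := by
    field_simp
  have h5 : nn ^ 3 * Real.log 2 - logZ (2 * N + 1) β h ≤
      ((R : ℝ) ^ 3 * (Real.log 2 - B.gRed 1 β h) + ε) * m ^ 3 := by
    rw [← h4]
    exact mul_le_mul_of_nonneg_right h2.le (by positivity)
  have hm3 : 0 < m ^ 3 := by positivity
  refine le_of_mul_le_mul_left ?_ hm3
  refine h3.trans ?_
  nlinarith [h5]

end

end Vale.Agent.P361.LRO.S3
end

section

/-!
P361, stage 3 (K2), the half `N = ∞`: probability of unequal spins / of an exchange at a bond, in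
the presence of the extra slice `e^{K n_b}`.
-/

namespace Vale.Agent.P361.LRO.Bloch.TX

open Finset Matrix

noncomputable section

theorem trace_diag3 {ι : Type*} [Fintype ι] [DecidableEq ι] (e : ι → ℝ) (A B : Matrix ι ι ℝ) :
    trace (diagonal e * A * B) = ∑ p : ι × ι, (A p.1 p.2 * B p.2 p.1) * e p.1 := by
  have := trace_diag4 e (fun _ => 1) A B
  rw [Matrix.diagonal_one, Matrix.mul_one] at this
  rw [this]
  exact Finset.sum_congr rfl fun p _ => by ring

/-- Jensen. -/
theorem jensen_gen {Ω : Type*} [Fintype Ω] (w N : Ω → ℝ) (hw : ∀ ω, 0 ≤ w ω) {k m : ℝ}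
    (hm : k * (∑ ω, w ω * N ω) ≤ m * ∑ ω, w ω) :
    Real.exp (-m) * (∑ ω, w ω) ≤ ∑ ω, w ω * Real.exp (-(k * N ω)) := by
  have h1 : ∀ ω, w ω * (Real.exp (-m) * (1 + (m - k * N ω))) ≤
      w ω * Real.exp (-(k * N ω)) := by
    intro ω
    refine mul_le_mul_of_nonneg_left ?_ (hw ω)
    have h2 := Real.add_one_le_exp (m - k * N ω)
    have h3 : Real.exp (-(k * N ω)) = Real.exp (-m) * Real.exp (m - k * N ω) := by
      rw [← Real.exp_add]; congr 1; ring
    rw [h3]
    exact mul_le_mul_of_nonneg_left (by linarith) (Real.exp_pos _).le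
  have h4 := Finset.sum_le_sum fun ω (_ : ω ∈ (univ : Finset Ω)) => h1 ω
  have h6 : ∀ ω, w ω * (Real.exp (-m) * (1 + (m - k * N ω))) =
      Real.exp (-m) * (w ω + (m * w ω - k * (w ω * N ω))) := fun ω => by ring
  have h5 : ∑ ω, w ω * (Real.exp (-m) * (1 + (m - k * N ω))) =
      Real.exp (-m) * (∑ ω, w ω + (m * ∑ ω, w ω - k * ∑ ω, w ω * N ω)) := by
    rw [Finset.sum_congr rfl fun ω _ => h6 ω, ← Finset.mul_sum, Finset.sum_add_distrib,
      Finset.sum_sub_distrib, ← Finset.mul_sum, ← Finset.mul_sum]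
  rw [h5] at h4
  refine le_trans ?_ h4
  exact mul_le_mul_of_nonneg_left (by linarith) (Real.exp_pos _).le

/-- Tilt by a diagonal weight `e^{-k N}`, observable `X` entrywise nonnegative. -/
theorem tiltX {ι : Type*} [Fintype ι] [DecidableEq ι] (A B X : Matrix ι ι ℝ)
    (hA : ∀ i j, 0 ≤ A i j) (hB : ∀ i j, 0 ≤ B i j) (hX : ∀ i j, 0 ≤ X i j)
    (N : ι → ℝ) (hN : ∀ i, 0 ≤ N i) {k m c : ℝ} (hk : 0 ≤ k)
    (hm : k * trace (diagonal N * A * B) ≤ m * trace (A * B))
    (hc : trace (A * X * B) ≤ c * trace (A * B)) (hc0 : 0 ≤ c) :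
    trace (diagonal (fun i => Real.exp (-(k * N i))) * A * X * B) ≤
      Real.exp m * c * trace (diagonal (fun i => Real.exp (-(k * N i))) * A * B) := by
  have h2 : trace (A * B) = ∑ p : ι × ι, (A p.1 p.2 * B p.2 p.1) := by
    have := trace_diag3 (fun _ => 1) A B
    rw [Matrix.diagonal_one, Matrix.one_mul] at this
    rw [this]
    exact Finset.sum_congr rfl fun p _ => by ring
  have h3 : trace (A * X * B) = ∑ p : ι × ι, ((A * X) p.1 p.2 * B p.2 p.1) := by
    have := trace_diag3 (fun _ => 1) (A * X) B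
    rw [Matrix.diagonal_one, Matrix.one_mul] at this
    rw [this]
    exact Finset.sum_congr rfl fun p _ => by ring
  have hAX : ∀ i j, 0 ≤ (A * X) i j := by
    intro i j
    rw [Matrix.mul_apply]
    exact Finset.sum_nonneg fun l _ => mul_nonneg (hA _ _) (hX _ _)
  have hJ : Real.exp (-m) * trace (A * B) ≤
      trace (diagonal (fun i => Real.exp (-(k * N i))) * A * B) := by
    rw [trace_diag3, h2]
    refine jensen_gen (fun p : ι × ι => A p.1 p.2 * B p.2 p.1) (fun p => N p.1)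
      (fun p => mul_nonneg (hA _ _) (hB _ _)) ?_
    rw [trace_diag3, h2] at hm
    exact hm
  have hU : trace (diagonal (fun i => Real.exp (-(k * N i))) * A * X * B) ≤
      trace (A * X * B) := by
    rw [Matrix.mul_assoc (diagonal _) A X, trace_diag3, h3]
    refine Finset.sum_le_sum fun p _ => ?_
    have h1 : Real.exp (-(k * N p.1)) ≤ 1 := Real.exp_le_one_iff.2 (by
      have := mul_nonneg hk (hN p.1); linarith)
    have h0 := mul_nonneg (hAX p.1 p.2) (hB p.2 p.1)
    nlinarith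
  calc trace (diagonal (fun i => Real.exp (-(k * N i))) * A * X * B) ≤ c * trace (A * B) :=
        hU.trans hc
    _ = Real.exp m * c * (Real.exp (-m) * trace (A * B)) := by
        rw [Real.exp_neg]; field_simp
    _ ≤ _ := mul_le_mul_of_nonneg_left hJ (mul_nonneg (Real.exp_pos _).le hc0)

variable {V : Type} [Fintype V] [DecidableEq V]

omit [DecidableEq V] in
theorem diag_dn (x : V) : (1 / 2 : ℝ) • (1 - szM x) = diagonal (dn x) := half_eq x

/-- Unequal spins: `≤ n_a + n_c`. -/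
theorem gib_neM (L : List (V × V)) (β : ℝ) (h : V → ℝ) (hβ : 0 ≤ β) (a c : V) :
    gib L β h (neM a c) ≤ rho L β h a + rho L β h c := by
  unfold rho
  rw [← Bs.gib_add, diag_dn, diag_dn, Matrix.diagonal_add]
  unfold gib
  refine div_le_div_of_nonneg_right ?_ (Bs.trace_ham_pos L β h).le
  refine Le.trace ?_
  refine Le.mul_left ?_ fun i j => (exp_ham L h hβ).1 i j
  intro i j
  unfold neM eqM
  by_cases hij : i = j
  · subst hij
    rw [Matrix.sub_apply, Matrix.one_apply_eq, Matrix.diagonal_apply_eq, Matrix.diagonal_apply_eq]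
    unfold dn
    by_cases h1 : i a = i c
    · rw [if_pos h1, sub_self]
      split_ifs <;> norm_num
    · rw [if_neg h1, sub_zero]
      by_cases h2 : i a = 0
      · rw [if_pos h2, if_neg fun h3 => h1 (h2.trans h3.symm), zero_add]
      · rw [if_neg h2]
        split_ifs <;> norm_num
  · rw [Matrix.sub_apply, Matrix.one_apply_ne hij, Matrix.diagonal_apply_ne _ hij,
      Matrix.diagonal_apply_ne _ hij]
    norm_num

/-- Exchanges: `exM ≤ neM` as forms. -/
theorem gib_exM (L : List (V × V)) (β : ℝ) (h : V → ℝ) (hβ : 0 ≤ β) (a c : V) :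
    gib L β h (exM a c) ≤ rho L β h a + rho L β h c := by
  refine le_trans ?_ (gib_neM L β h hβ a c)
  have h1 := Bs.gib_nonneg L β h (Bs.hM_posSemidef a c)
  have h2 : hM a c = (1 / 2 : ℝ) • (neM a c - exM a c) := by
    unfold hM neM exM
    congr 1
    abel
  rw [h2, Bs.gib_smul, Bs.gib_sub] at h1
  linarith

/-- **The bound with the extra slice.** `X = neM a c` or `exM a c`. -/
theorem layT_le (L : List (V × V)) {β K η : ℝ} (h : V → ℝ) (b : Finset V) (hb : b.Nonempty)
    (hK : 0 ≤ K) {s t : ℝ} (hs : 0 ≤ s) (ht : 0 ≤ t) (e : s + t = β)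
    (hr : ∀ x, rho L β h x ≤ η) {X : MM V} (hX : Le 0 X) {c : ℝ} (hc0 : 0 ≤ c)
    (hc : gib L β h X ≤ c) :
    trace (layT (blk K b) * NormedSpace.exp (-s • ham L h) * X * NormedSpace.exp (-t • ham L h)) ≤
      Real.exp (K * η) * c *
        trace (layT (blk K b) * NormedSpace.exp (-s • ham L h) * NormedSpace.exp (-t • ham L h)) := by
  have hb0 : (0 : ℝ) < b.card := by exact_mod_cast hb.card_pos
  set A := NormedSpace.exp (-s • ham L h) with hA
  set B := NormedSpace.exp (-t • ham L h) with hB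
  have hA0 := exp_ham L h hs
  have hB0 := exp_ham L h ht
  rw [← hA] at hA0
  rw [← hB] at hB0
  have hβ : 0 ≤ β := by linarith
  have hAB : A * B = NormedSpace.exp (-β • ham L h) := exp_split L h e
  have hBA : B * A = NormedSpace.exp (-β • ham L h) := exp_split L h (by linarith)
  have hZ := Bs.trace_ham_pos L β h
  set q := (1 + Real.tanh (K / (2 * b.card))) ^ b.card with hq
  have hq0 : 0 < q := pow_pos (by have := Real.neg_one_lt_tanh (K / (2 * b.card)); linarith) _
  set k := K / (b.card : ℝ) with hk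
  have hk0 : 0 ≤ k := div_nonneg hK hb0.le
  have hlay : layT (blk K b) = q • diagonal fun σ : V → Fin 2 => Real.exp (-(k * nb b σ)) :=
    layT_blk K b hb
  have hm : k * trace (diagonal (nb b) * A * B) ≤ K * η * trace (A * B) := by
    have e1 : diagonal (nb b) = ∑ y ∈ b, diagonal (dn y) := by
      ext σ τ
      rw [Matrix.sum_apply]
      by_cases hst : σ = τ
      · subst hst
        simp only [Matrix.diagonal_apply_eq]
        rfl
      · simp only [Matrix.diagonal_apply_ne _ hst, Finset.sum_const_zero]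
    have e2 : trace (diagonal (nb b) * A * B) = ∑ y ∈ b, trace (A * B * diagonal (dn y)) := by
      rw [Matrix.mul_assoc, e1, Finset.sum_mul, Matrix.trace_sum]
      exact Finset.sum_congr rfl fun y _ => Matrix.trace_mul_comm _ _
    have e3 : ∀ y, trace (A * B * diagonal (dn y)) ≤ η * trace (A * B) := by
      intro y
      have := hr y
      rw [LRO.rho_eq, ← hAB, div_le_iff₀ (by rw [hAB]; exact hZ)] at this
      exact this
    rw [e2]
    calc k * ∑ y ∈ b, trace (A * B * diagonal (dn y)) ≤ k * ∑ _y ∈ b, η * trace (A * B) :=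
          mul_le_mul_of_nonneg_left (Finset.sum_le_sum fun y _ => e3 y) hk0
      _ = K * η * trace (A * B) := by
          rw [Finset.sum_const, nsmul_eq_mul, hk]; field_simp
  have hcX : trace (A * X * B) ≤ c * trace (A * B) := by
    have h1 : trace (A * X * B) = trace (NormedSpace.exp (-β • ham L h) * X) := by
      rw [Matrix.trace_mul_comm (A * X) B, ← Matrix.mul_assoc, hBA]
    rw [h1, hAB]
    unfold gib at hc
    rwa [div_le_iff₀ hZ] at hc
  have h2 := tiltX A B X hA0.1 hB0.1 (fun i j => hX i j) (nb b) (nb_nonneg b) hk0 hm hcX hc0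
  rw [hlay]
  simp only [Matrix.smul_mul, Matrix.trace_smul, smul_eq_mul]
  calc q * _ ≤ q * _ := mul_le_mul_of_nonneg_left h2 hq0.le
    _ = _ := by ring

theorem layT_neM (L : List (V × V)) {β K η : ℝ} (h : V → ℝ) (b : Finset V) (hb : b.Nonempty)
    (hK : 0 ≤ K) {s t : ℝ} (hs : 0 ≤ s) (ht : 0 ≤ t) (e : s + t = β)
    (hr : ∀ x, rho L β h x ≤ η) (a c : V) :
    trace (layT (blk K b) * NormedSpace.exp (-s • ham L h) * neM a c *
        NormedSpace.exp (-t • ham L h)) ≤ Real.exp (K * η) * (2 * η) *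
      trace (layT (blk K b) * NormedSpace.exp (-s • ham L h) * NormedSpace.exp (-t • ham L h)) := by
  have hη : 0 ≤ η := (Bs.rho_nonneg L β h a).trans (hr a)
  refine layT_le L h b hb hK hs ht e hr (neM_nonneg a c) (by linarith) ?_
  have h1 := gib_neM L β h (by linarith) a c
  have h2 := hr a
  have h3 := hr c
  linarith

theorem layT_exM (L : List (V × V)) {β K η : ℝ} (h : V → ℝ) (b : Finset V) (hb : b.Nonempty)
    (hK : 0 ≤ K) {s t : ℝ} (hs : 0 ≤ s) (ht : 0 ≤ t) (e : s + t = β)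
    (hr : ∀ x, rho L β h x ≤ η) (a c : V) :
    trace (layT (blk K b) * NormedSpace.exp (-s • ham L h) * exM a c *
        NormedSpace.exp (-t • ham L h)) ≤ Real.exp (K * η) * (2 * η) *
      trace (layT (blk K b) * NormedSpace.exp (-s • ham L h) * NormedSpace.exp (-t • ham L h)) := by
  have hη : 0 ≤ η := (Bs.rho_nonneg L β h a).trans (hr a)
  refine layT_le L h b hb hK hs ht e hr (exM_nonneg a c) (by linarith) ?_
  have h1 := gib_exM L β h (by linarith) a c
  have h2 := hr a
  have h3 := hr c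
  linarith

/-- Positivity, and `≥ 1` for the all-up entry. -/
theorem layT_trace_pos (L : List (V × V)) (K : ℝ) (h : V → ℝ) (b : Finset V) (hb : b.Nonempty)
    {s t : ℝ} (hs : 0 ≤ s) (ht : 0 ≤ t) :
    0 < trace (layT (blk K b) * NormedSpace.exp (-s • ham L h) *
      NormedSpace.exp (-t • ham L h)) := by
  have hA0 := exp_ham L h hs
  have hB0 := exp_ham L h ht
  have hq0 : 0 < (1 + Real.tanh (K / (2 * b.card))) ^ b.card :=
    pow_pos (by have := Real.neg_one_lt_tanh (K / (2 * b.card)); linarith) _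
  rw [layT_blk K b hb]
  simp only [Matrix.smul_mul, Matrix.trace_smul, smul_eq_mul]
  refine mul_pos hq0 ?_
  rw [trace_diag3]
  refine Finset.sum_pos' (fun p _ => ?_) ⟨(fun _ => 0, fun _ => 0), Finset.mem_univ _, ?_⟩
  · exact mul_nonneg (mul_nonneg (hA0.1 _ _) (hB0.1 _ _)) (Real.exp_pos _).le
  · exact mul_pos (mul_pos (hA0.2 _) (hB0.2 _)) (Real.exp_pos _)

end

end Vale.Agent.P361.LRO.Bloch.TX
end

section

/-!
P361, stage 3 (K2), the half `N = ∞`, for the extra slice with the factor at one node removed.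
-/

namespace Vale.Agent.P361.LRO.Bloch.TX

open Finset Matrix

noncomputable section

variable {V : Type} [Fintype V] [DecidableEq V]

/-- Constant slice parameter `tanh (κ / 2)` on `b`. -/
def cst (κ : ℝ) (b : Finset V) : V → ℝ := fun x => if x ∈ b then Real.tanh (κ / 2) else 0

omit [Fintype V] in
theorem blk_eq_cst (K : ℝ) (b : Finset V) : blk K b = cst (K / b.card) b := by
  funext x
  unfold blk cst
  congr 2
  by_cases hb : (b.card : ℝ) = 0
  · rw [hb]; simp
  · field_simp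

omit [Fintype V] in
theorem update_blk (K : ℝ) (b : Finset V) (y : V) :
    Function.update (blk K b) y 0 = cst (K / b.card) (b.erase y) := by
  funext x
  rw [blk_eq_cst]
  unfold cst
  by_cases hx : x = y
  · subst hx
    rw [Function.update_self, if_neg (Finset.notMem_erase x b)]
  · rw [Function.update_of_ne hx]
    simp only [Finset.mem_erase, hx, ne_eq, not_false_eq_true, true_and]

theorem layT_cst (κ : ℝ) (b : Finset V) :
    layT (cst κ b) = (1 + Real.tanh (κ / 2)) ^ b.card •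
      diagonal fun σ => Real.exp (-(κ * nb b σ)) := by
  set θ := Real.tanh (κ / 2) with hθ
  have h1 : 1 - θ = (1 + θ) * Real.exp (-κ) := by
    rw [hθ, one_sub_tanh]
    congr 2
    ring
  unfold layT
  rw [← Matrix.diagonal_smul]
  congr 1
  funext σ
  rw [Pi.smul_apply, smul_eq_mul]
  have h2 : ∀ x, (1 + cst κ b x * (if σ x = 0 then (1 : ℝ) else -1)) =
      if x ∈ b then (1 + θ) * Real.exp (-(κ * if σ x = 0 then 0 else 1)) else 1 := by
    intro x
    unfold cst
    by_cases hx : x ∈ b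
    · rw [if_pos hx, if_pos hx]
      by_cases h3 : σ x = 0
      · rw [if_pos h3, if_pos h3, mul_one, mul_zero, neg_zero, Real.exp_zero, mul_one]
      · rw [if_neg h3, if_neg h3, mul_one, ← h1]; ring
    · rw [if_neg hx, if_neg hx]; ring
  rw [Finset.prod_congr rfl fun x _ => h2 x, Finset.prod_ite_mem, Finset.univ_inter,
    Finset.prod_mul_distrib, Finset.prod_const, ← Real.exp_sum]
  congr 2
  unfold nb
  rw [Finset.mul_sum, ← Finset.sum_neg_distrib]

/-- **The bound with the slice `cst κ b`**, `κ |b| ≤ K`. -/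
theorem cst_le (L : List (V × V)) {β K η κ : ℝ} (h : V → ℝ) (b : Finset V)
    (hκ : 0 ≤ κ) (hK : κ * b.card ≤ K) {s t : ℝ} (hs : 0 ≤ s) (ht : 0 ≤ t) (e : s + t = β)
    (hη : 0 ≤ η) (hr : ∀ x, rho L β h x ≤ η) {X : MM V} (hX : Le 0 X) {c : ℝ} (hc0 : 0 ≤ c)
    (hc : gib L β h X ≤ c) :
    trace (layT (cst κ b) * NormedSpace.exp (-s • ham L h) * X * NormedSpace.exp (-t • ham L h)) ≤
      Real.exp (K * η) * c *
        trace (layT (cst κ b) * NormedSpace.exp (-s • ham L h) * NormedSpace.exp (-t • ham L h)) := by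
  set A := NormedSpace.exp (-s • ham L h) with hA
  set B := NormedSpace.exp (-t • ham L h) with hB
  have hA0 := exp_ham L h hs
  have hB0 := exp_ham L h ht
  rw [← hA] at hA0
  rw [← hB] at hB0
  have hβ : 0 ≤ β := by linarith
  have hAB : A * B = NormedSpace.exp (-β • ham L h) := exp_split L h e
  have hBA : B * A = NormedSpace.exp (-β • ham L h) := exp_split L h (by linarith)
  have hZ := Bs.trace_ham_pos L β h
  set q := (1 + Real.tanh (κ / 2)) ^ b.card with hq
  have hq0 : 0 < q := pow_pos (by have := Real.neg_one_lt_tanh (κ / 2); linarith) _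
  have hm : κ * trace (diagonal (nb b) * A * B) ≤ K * η * trace (A * B) := by
    have e1 : diagonal (nb b) = ∑ y ∈ b, diagonal (dn y) := by
      ext σ τ
      rw [Matrix.sum_apply]
      by_cases hst : σ = τ
      · subst hst
        simp only [Matrix.diagonal_apply_eq]
        rfl
      · simp only [Matrix.diagonal_apply_ne _ hst, Finset.sum_const_zero]
    have e2 : trace (diagonal (nb b) * A * B) = ∑ y ∈ b, trace (A * B * diagonal (dn y)) := by
      rw [Matrix.mul_assoc, e1, Finset.sum_mul, Matrix.trace_sum]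
      exact Finset.sum_congr rfl fun y _ => Matrix.trace_mul_comm _ _
    have e3 : ∀ y, trace (A * B * diagonal (dn y)) ≤ η * trace (A * B) := by
      intro y
      have := hr y
      rw [LRO.rho_eq, ← hAB, div_le_iff₀ (by rw [hAB]; exact hZ)] at this
      exact this
    rw [e2]
    calc κ * ∑ y ∈ b, trace (A * B * diagonal (dn y)) ≤ κ * ∑ _y ∈ b, η * trace (A * B) :=
          mul_le_mul_of_nonneg_left (Finset.sum_le_sum fun y _ => e3 y) hκ
      _ = κ * b.card * (η * trace (A * B)) := by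
          rw [Finset.sum_const, nsmul_eq_mul]; ring
      _ ≤ K * (η * trace (A * B)) := by
          refine mul_le_mul_of_nonneg_right hK (mul_nonneg hη ?_)
          rw [hAB]; exact hZ.le
      _ = K * η * trace (A * B) := by ring
  have hcX : trace (A * X * B) ≤ c * trace (A * B) := by
    have h1 : trace (A * X * B) = trace (NormedSpace.exp (-β • ham L h) * X) := by
      rw [Matrix.trace_mul_comm (A * X) B, ← Matrix.mul_assoc, hBA]
    rw [h1, hAB]
    unfold gib at hc
    rwa [div_le_iff₀ hZ] at hc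
  have h2 := tiltX A B X hA0.1 hB0.1 (fun i j => hX i j) (nb b) (nb_nonneg b) hκ hm hcX hc0
  rw [layT_cst]
  simp only [Matrix.smul_mul, Matrix.trace_smul, smul_eq_mul]
  calc q * _ ≤ q * _ := mul_le_mul_of_nonneg_left h2 hq0.le
    _ = _ := by ring

omit [Fintype V] in
theorem erase_card_le (K : ℝ) (hK : 0 ≤ K) (b : Finset V) (y : V) :
    K / b.card * ((b.erase y).card : ℝ) ≤ K := by
  rcases b.eq_empty_or_nonempty with hb | hb
  · subst hb
    simpa using hK
  · have hb0 : (0 : ℝ) < b.card := by exact_mod_cast hb.card_pos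
    have h1 : ((b.erase y).card : ℝ) ≤ b.card := by exact_mod_cast Finset.card_erase_le
    rw [div_mul_eq_mul_div, div_le_iff₀ hb0]
    exact mul_le_mul_of_nonneg_left h1 hK

theorem updT_neM (L : List (V × V)) {β K η : ℝ} (h : V → ℝ) (b : Finset V) (y : V)
    (hK : 0 ≤ K) {s t : ℝ} (hs : 0 ≤ s) (ht : 0 ≤ t) (e : s + t = β)
    (hr : ∀ x, rho L β h x ≤ η) (a c : V) :
    trace (layT (Function.update (blk K b) y 0) * NormedSpace.exp (-s • ham L h) * neM a c *
        NormedSpace.exp (-t • ham L h)) ≤ Real.exp (K * η) * (2 * η) *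
      trace (layT (Function.update (blk K b) y 0) * NormedSpace.exp (-s • ham L h) *
        NormedSpace.exp (-t • ham L h)) := by
  have hη : 0 ≤ η := (Bs.rho_nonneg L β h a).trans (hr a)
  rw [update_blk]
  refine cst_le L h _ (by positivity) (erase_card_le K hK b y) hs ht e hη hr (neM_nonneg a c)
    (by linarith) ?_
  have h1 := gib_neM L β h (by linarith) a c
  have h2 := hr a
  have h3 := hr c
  linarith

theorem updT_exM (L : List (V × V)) {β K η : ℝ} (h : V → ℝ) (b : Finset V) (y : V)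
    (hK : 0 ≤ K) {s t : ℝ} (hs : 0 ≤ s) (ht : 0 ≤ t) (e : s + t = β)
    (hr : ∀ x, rho L β h x ≤ η) (a c : V) :
    trace (layT (Function.update (blk K b) y 0) * NormedSpace.exp (-s • ham L h) * exM a c *
        NormedSpace.exp (-t • ham L h)) ≤ Real.exp (K * η) * (2 * η) *
      trace (layT (Function.update (blk K b) y 0) * NormedSpace.exp (-s • ham L h) *
        NormedSpace.exp (-t • ham L h)) := by
  have hη : 0 ≤ η := (Bs.rho_nonneg L β h a).trans (hr a)
  rw [update_blk]
  refine cst_le L h _ (by positivity) (erase_card_le K hK b y) hs ht e hη hr (exM_nonneg a c)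
    (by linarith) ?_
  have h1 := gib_exM L β h (by linarith) a c
  have h2 := hr a
  have h3 := hr c
  linarith

/-- Positivity. -/
theorem cst_trace_pos (L : List (V × V)) (κ : ℝ) (h : V → ℝ) (b : Finset V)
    {s t : ℝ} (hs : 0 ≤ s) (ht : 0 ≤ t) :
    0 < trace (layT (cst κ b) * NormedSpace.exp (-s • ham L h) *
      NormedSpace.exp (-t • ham L h)) := by
  have hA0 := exp_ham L h hs
  have hB0 := exp_ham L h ht
  have hq0 : 0 < (1 + Real.tanh (κ / 2)) ^ b.card :=
    pow_pos (by have := Real.neg_one_lt_tanh (κ / 2); linarith) _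
  rw [layT_cst]
  simp only [Matrix.smul_mul, Matrix.trace_smul, smul_eq_mul]
  refine mul_pos hq0 ?_
  rw [trace_diag3]
  refine Finset.sum_pos' (fun p _ => ?_) ⟨(fun _ => 0, fun _ => 0), Finset.mem_univ _, ?_⟩
  · exact mul_nonneg (mul_nonneg (hA0.1 _ _) (hB0.1 _ _)) (Real.exp_pos _).le
  · exact mul_pos (mul_pos (hA0.2 _) (hB0.2 _)) (Real.exp_pos _)

end

end Vale.Agent.P361.LRO.Bloch.TX
end

section

/-!
P361, stage 3, K2: the hypothesis `hX` of `cc_long`, for the physical circuit with the extra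
slice `blk K b`, `N ≥ N0`.
-/

namespace Vale.Agent.P361.LRO.Bloch.Delta

open Finset Matrix NormedSpace Vale.Agent.P361.LRO Vale.Agent.P361.LRO.Bloch
open Vale.Agent.P361.LRO.Dict

attribute [local instance] Matrix.linftyOpNormedRing Matrix.linftyOpNormedAlgebra

noncomputable section

set_option linter.unusedSectionVars false

variable {V : Type} [Fintype V] [DecidableEq V]

/-! ### Words of one layer -/

lemma norm_szM' (x : V) : ‖(szM x : MM V)‖ ≤ 1 :=
  norm_diag_le _ fun σ => by split_ifs <;> simp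

lemma lg_node (z : V) (t : ℝ) : lg (Lt.node z t) = t • szM z := by
  unfold lg
  change ((1 : MM V) + t • szM z) - 1 = _
  rw [add_sub_cancel_left]

lemma lg_gate (a b : V) (p : ℝ) : lg (Lt.gate a b p) = -((2 * p) • hM a b) := by
  unfold lg hM
  show (1 - p) • (1 : MM V) + p • swapM a b - 1 = _
  rw [smul_smul, show 2 * p * (1 / 2) = p by ring, smul_sub, sub_smul, one_smul]
  abel

lemma norm_hM (a b : V) : ‖(hM a b : MM V)‖ ≤ 1 := by
  unfold hM
  rw [norm_smul]
  have h1 := (norm_sub_le (1 : MM V) (swapM a b)).trans (add_le_add one_norm (norm_swapM a b))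
  have h2 : ‖(1 / 2 : ℝ)‖ = 1 / 2 := by rw [Real.norm_eq_abs, abs_of_pos (by norm_num)]
  rw [h2]
  linarith

lemma sz_gl (L : List (V × V)) {p : ℝ} (hp : 0 ≤ p) : sz (gl L p) ≤ 2 * p * L.length := by
  unfold sz gl
  rw [List.map_map, List.map_map]
  have h1 : ∀ l : List (V × V), (l.map ((norm ∘ lg) ∘ fun e : V × V => Lt.gate e.1 e.2 p)).sum ≤
      2 * p * l.length := by
    intro l
    induction l with
    | nil => simp
    | cons e l ih =>
      rw [List.map_cons, List.sum_cons, List.length_cons]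
      have h2 : ((norm ∘ lg) ∘ fun e : V × V => Lt.gate e.1 e.2 p) e ≤ 2 * p := by
        simp only [Function.comp]
        rw [lg_gate, norm_neg, norm_smul, Real.norm_eq_abs, abs_of_nonneg (by positivity)]
        have := mul_le_mul_of_nonneg_left (norm_hM e.1 e.2) (by positivity : 0 ≤ 2 * p)
        linarith
      push_cast
      linarith
  have h2 := h1 L.reverse
  rw [List.length_reverse] at h2
  exact h2

lemma sz_nl {t : V → ℝ} {τ : ℝ} (ht : ∀ x, 0 ≤ t x ∧ t x ≤ τ) :
    sz (nl t) ≤ τ * Fintype.card V := by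
  unfold sz nl
  rw [List.map_map, List.map_map]
  have h1 : ∀ l : List V, (l.map ((norm ∘ lg) ∘ fun z : V => Lt.node z (t z))).sum ≤
      τ * l.length := by
    intro l
    induction l with
    | nil => simp
    | cons e l ih =>
      rw [List.map_cons, List.sum_cons, List.length_cons]
      have h2 : ((norm ∘ lg) ∘ fun z : V => Lt.node z (t z)) e ≤ τ := by
        simp only [Function.comp]
        rw [lg_node, norm_smul, Real.norm_eq_abs, abs_of_nonneg (ht e).1]
        have := mul_le_mul_of_nonneg_left (norm_szM' e) (ht e).1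
        linarith [(ht e).2]
      push_cast
      linarith
  have h2 := h1 (Finset.univ : Finset V).toList
  rw [Finset.length_toList, Finset.card_univ] at h2
  exact h2

lemma sum_lg_gl (L : List (V × V)) (p : ℝ) :
    ((gl L p).map lg).sum = -((2 * p) • (L.map fun e => (hM e.1 e.2 : MM V)).sum) := by
  unfold gl
  rw [List.map_map, List.map_reverse, List.sum_reverse]
  have h1 : ∀ l : List (V × V), (l.map (lg ∘ fun e : V × V => Lt.gate e.1 e.2 p)).sum =
      -((2 * p) • (l.map fun e => (hM e.1 e.2 : MM V)).sum) := by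
    intro l
    induction l with
    | nil => simp
    | cons e l ih =>
      rw [List.map_cons, List.sum_cons, List.map_cons, List.sum_cons, ih, smul_add]
      simp only [Function.comp]
      rw [lg_gate]
      abel
  exact h1 L

lemma sum_lg_nl (t : V → ℝ) : ((nl t).map lg).sum = ∑ z, t z • (szM z : MM V) := by
  unfold nl
  rw [List.map_map]
  have h1 : (lg ∘ fun z : V => Lt.node z (t z)) = fun z => t z • (szM z : MM V) := by
    funext z
    exact lg_node z (t z)
  rw [h1]
  exact Finset.sum_map_toList _ _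

/-- constant -/
def c0 (L : List (V × V)) (β : ℝ) : ℝ := β * (L.length + Fintype.card V)

/-- the physical slices -/
def tt (β : ℝ) (N : ℕ) (h : V → ℝ) : V → ℝ := fun x => β * h x / (2 * N)

/-- one layer -/
def layW (L : List (V × V)) (β : ℝ) (N : ℕ) (h : V → ℝ) : List (Lt V) :=
  nl (tt β N h) ++ gl L (β / (2 * N))

section one

variable (L : List (V × V)) {β : ℝ} (hβ : 0 < β) {N : ℕ} (hN : 1 ≤ N) {h : V → ℝ}
  (hh : ∀ x, 0 ≤ h x ∧ h x ≤ 1)

include hβ in
lemma c0_nonneg : 0 ≤ c0 L β := by unfold c0; positivity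

include hβ hN hh in
lemma tt_bd (x : V) : 0 ≤ tt β N h x ∧ tt β N h x ≤ β / (2 * N) := by
  have hN' : (0 : ℝ) < N := by exact_mod_cast hN
  unfold tt
  refine ⟨div_nonneg (mul_nonneg hβ.le (hh x).1) (by positivity), ?_⟩
  gcongr
  nlinarith [(hh x).2]

include hβ hN in
lemma sz_glN : sz (gl L (β / (2 * N))) ≤ β * L.length / N := by
  have hN' : (0 : ℝ) < N := by exact_mod_cast hN
  refine (sz_gl L (by positivity)).trans (le_of_eq ?_)
  field_simp

include hβ hN in
lemma sz_nlN {t : V → ℝ} (ht : ∀ x, 0 ≤ t x ∧ t x ≤ β / (2 * N)) :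
    sz (nl t) ≤ β * Fintype.card V / N := by
  have hN' : (0 : ℝ) < N := by exact_mod_cast hN
  refine (sz_nl ht).trans ?_
  have h1 : (0 : ℝ) ≤ Fintype.card V := Nat.cast_nonneg _
  have h2 : β / (2 * N) * Fintype.card V = (β * Fintype.card V / N) / 2 := by
    field_simp
  have h3 : 0 ≤ β * Fintype.card V / N := by positivity
  rw [h2]
  linarith

include hβ hN in
/-- Words made of slices and gates of one layer. -/
lemma sz_mix {t : V → ℝ} (ht : ∀ x, 0 ≤ t x ∧ t x ≤ β / (2 * N)) :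
    sz (nl t ++ gl L (β / (2 * N))) ≤ c0 L β / N := by
  rw [sz_append]
  have h1 := sz_glN L hβ hN
  have h2 := sz_nlN hβ hN ht
  have h3 : c0 L β / N = β * L.length / N + β * Fintype.card V / N := by
    unfold c0; ring
  rw [h3]
  linarith

include hβ hN in
lemma sz_gl' : sz (gl L (β / (2 * N))) ≤ c0 L β / N := by
  have h1 := sz_glN L hβ hN
  have h3 : c0 L β / N = β * L.length / N + β * Fintype.card V / N := by
    unfold c0; ring
  have h4 : 0 ≤ β * Fintype.card V / N := by positivity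
  rw [h3]
  linarith

include hβ hN in
lemma sz_nl' {t : V → ℝ} (ht : ∀ x, 0 ≤ t x ∧ t x ≤ β / (2 * N)) :
    sz (nl t) ≤ c0 L β / N := by
  have h1 := sz_nlN hβ hN ht
  have h3 : c0 L β / N = β * L.length / N + β * Fintype.card V / N := by
    unfold c0; ring
  have h4 : 0 ≤ β * (L.length : ℝ) / N := by positivity
  rw [h3]
  linarith

/-- the constant of `gen` -/
def cc1 (L : List (V × V)) (β : ℝ) : ℝ := c0 L β * Real.exp (c0 L β)

include hβ in
lemma c0_le : c0 L β ≤ cc1 L β := by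
  unfold cc1
  have h1 := c0_nonneg L hβ
  have h2 := Real.one_le_exp h1
  nlinarith

include hβ in
lemma cc1_nonneg : 0 ≤ cc1 L β := (c0_nonneg L hβ).trans (c0_le L hβ)

include hβ hN in
lemma wd_sub_one {w : List (Lt V)} (hw : sz w ≤ c0 L β / N) : ‖wd w - 1‖ ≤ cc1 L β / N := by
  have hN' : (1 : ℝ) ≤ N := by exact_mod_cast hN
  have h0 := c0_nonneg L hβ
  have h1 : c0 L β / N ≤ c0 L β := div_le_self h0 hN'
  refine (wd_bounds w).2.trans ((exp_sub_one_le (sz_nonneg w)).trans ?_)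
  calc sz w * Real.exp (sz w) ≤ c0 L β / N * Real.exp (c0 L β) := by
        gcongr
        exact hw.trans h1
    _ = _ := by unfold cc1; ring

include hβ hN hh in
lemma lay_layW : Lay (ham L h) β (cc1 L β) N (layW L β N h) := by
  have hN' : (0 : ℝ) < N := by exact_mod_cast hN
  refine ⟨?_, ?_⟩
  · unfold layW
    rw [List.map_append, List.sum_append, sum_lg_gl, sum_lg_nl]
    unfold ham
    rw [smul_sub, neg_sub, Finset.smul_sum, sub_eq_add_neg]
    congr 1
    · refine Finset.sum_congr rfl fun z _ => ?_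
      rw [smul_smul]
      congr 1
      unfold tt
      field_simp
    · congr 2
      field_simp
  · refine (sz_mix L hβ hN (tt_bd hβ hN hh)).trans ?_
    have := c0_le L hβ
    gcongr

end one

/-! ### The circuit -/

lemma th_pos {β : ℝ} {N : ℕ} (h T : V → ℝ) {j : ℕ} (h1 : 1 ≤ j) (h2 : j ≤ N) (x : V) :
    th β N h T (Fin.ofNat (N + 1) j, x) = tt β N h x := by
  unfold th tt
  rw [if_neg]
  intro h0
  have h3 : Fin.ofNat (N + 1) j = Fin.ofNat (N + 1) 0 := h0
  have := ofNat_inj h2 (Nat.zero_le _) h3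
  omega

lemma th_zero {β : ℝ} {N : ℕ} (h T : V → ℝ) (x : V) :
    th β N h T (Fin.ofNat (N + 1) 0, x) = T x := by
  unfold th
  exact if_pos rfl

lemma FM_pos {β : ℝ} {N : ℕ} (h T : V → ℝ) {j : ℕ} (h1 : 1 ≤ j) (h2 : j ≤ N) :
    FM N (th β N h T) j = layM fun x => dgM (tt β N h x) := by
  unfold FM
  congr 1
  funext x
  rw [th_pos h T h1 h2]

lemma layT_eq (T : V → ℝ) : (layM fun x => dgM (T x) : MM V) = layT T := by
  rw [layM_dgM]
  rfl

lemma FM_zero {β : ℝ} {N : ℕ} (h T : V → ℝ) : FM N (th β N h T) 0 = layT T := by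
  rw [← layT_eq]
  rfl

lemma down_const {M : Type*} [Monoid M] (g : M) (n : ℕ) : down (fun _ => g) n = g ^ n := by
  induction n with
  | zero => rw [pow_zero]; rfl
  | succ n ih => rw [pow_succ', ← ih]; rfl

lemma wd_layW (L : List (V × V)) (β : ℝ) (N : ℕ) (h : V → ℝ) :
    wd (layW L β N h) = (layM fun x => dgM (tt β N h x)) * gatM L (β / (2 * N)) := by
  unfold layW
  rw [wd_append, wd_nl, wd_gl]

lemma preM_eq (L : List (V × V)) (β : ℝ) {N : ℕ} (h T : V → ℝ) {k : ℕ} (hk : k ≤ N) :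
    preM L (β / (2 * N)) N (th β N h T) k = wd (layW L β N h) ^ (N - k) := by
  unfold preM
  rw [← down_const, wd_layW]
  refine down_congr fun j h1 h2 => ?_
  rw [FM_pos h T (by omega) (by omega)]

lemma down_eq (L : List (V × V)) (β : ℝ) {N : ℕ} (h T : V → ℝ) {k : ℕ} (hk : k ≤ N) :
    down (fun j => FM N (th β N h T) j * gatM L (β / (2 * N))) k = wd (layW L β N h) ^ k := by
  rw [← down_const, wd_layW]
  refine down_congr fun j h1 h2 => ?_
  rw [FM_pos h T (by omega) (by omega)]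

lemma mid_eq (L : List (V × V)) (p : ℝ) (t : ℕ → V → ℝ) (u : V → ℝ) (m : ℕ)
    (ht : ∀ j, 1 ≤ j → j ≤ m → t j = u) :
    mid L p t m = gl L p ++ (List.replicate m (nl u ++ gl L p)).flatten := by
  induction m with
  | zero => simp [mid]
  | succ m ih =>
    simp only [mid]
    rw [ih fun j h1 h2 => ht j h1 (by omega), ht (m + 1) (by omega) le_rfl,
      List.replicate_succ, List.flatten_cons]
    simp only [List.append_assoc]

lemma mword_eq (L : List (V × V)) (β : ℝ) {N : ℕ} (h T : V → ℝ) {k m : ℕ} (hk : k + m ≤ N) :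
    mword L β N (th β N h T) k m =
      gl L (β / (2 * N)) ++ (List.replicate m (layW L β N h)).flatten := by
  unfold mword layW
  refine mid_eq L _ _ _ m fun j h1 h2 => ?_
  funext z
  rw [th_pos h T (by omega) (by omega)]

/-- slices with one removed, as a word -/
lemma rmM_eq (t : V → ℝ) (x : V) : rmM t x = wd (nl (Function.update t x 0)) := by
  unfold rmM
  rw [layM_up1, wd_nl]

lemma update_bd {t : V → ℝ} {τ : ℝ} (ht : ∀ x, 0 ≤ t x ∧ t x ≤ τ) (x y : V) :
    0 ≤ Function.update t x 0 y ∧ Function.update t x 0 y ≤ τ := by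
  by_cases hy : y = x
  · subst hy
    rw [Function.update_self]
    exact ⟨le_rfl, (ht y).1.trans (ht y).2⟩
  · rw [Function.update_of_ne hy]
    exact ht y

/-! ### The extra slice -/

lemma layT_wd (T : V → ℝ) : layT T = wd (nl T) := by
  rw [wd_nl, layT_eq]

lemma norm_layT {T : V → ℝ} (hT : ∀ x, 0 ≤ T x ∧ T x ≤ 1) :
    ‖layT T‖ ≤ Real.exp (Fintype.card V) := by
  rw [layT_wd]
  refine (wd_bounds _).1.trans (Real.exp_le_exp.2 ?_)
  have := sz_nl hT
  linarith

lemma layT_nonneg {T : V → ℝ} (hT : ∀ x, 0 ≤ T x ∧ T x ≤ 1) : Le 0 (layT T) := by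
  rw [layT_wd]
  exact wd_nonneg (ok_nl hT)

lemma layT_one {T : V → ℝ} (hT : ∀ x, 0 ≤ T x ∧ T x ≤ 1) : 1 ≤ layT T 0 0 := by
  rw [layT_wd]
  exact wd_zero (ok_nl hT)

lemma blk_bd {K : ℝ} (hK : 0 ≤ K) (b : Finset V) (x : V) : 0 ≤ blk K b x ∧ blk K b x ≤ 1 :=
  LRO.blk_mem hK b x

/-- **The hypothesis `hX` of `cc_long`, one insertion.** `E` = extra nonnegative factor between the
layer `N` and the layer `0`. -/
theorem insert_gen (L : List (V × V)) {β δ CT : ℝ} (hβ : 0 < β) (hδ : 0 < δ) :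
    ∃ N0 : ℕ, 1 ≤ N0 ∧ ∀ N : ℕ, N0 ≤ N → ∀ (E : MM V) (T h : V → ℝ) (y : V) (X : MM V),
      ‖E‖ ≤ CT → Le 0 E → 1 ≤ E 0 0 → (∀ x, 0 ≤ T x ∧ T x ≤ 1) → (∀ x, 0 ≤ h x ∧ h x ≤ 1) →
      ‖X‖ ≤ 2 →
      (∀ s t : ℝ, 0 ≤ s → 0 ≤ t → s + t = β →
        trace (layT T * E * exp (-s • ham L h) * X * exp (-t • ham L h)) ≤
          δ * trace (layT T * E * exp (-s • ham L h) * exp (-t • ham L h))) →
      (∀ s t : ℝ, 0 ≤ s → 0 ≤ t → s + t = β →
        trace (layT (Function.update T y 0) * E * exp (-s • ham L h) * X * exp (-t • ham L h)) ≤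
          δ * trace (layT (Function.update T y 0) * E * exp (-s • ham L h) *
            exp (-t • ham L h))) →
      ∀ k m : ℕ, k + m + 1 ≤ N → ∀ (x : V) (w1 : List (Lt V)) (g : Lt V) (w2 : List (Lt V)),
        mword L β N (th β N h T) k m = w1 ++ g :: w2 →
        trace (E * lctx L β N (th β N h T) (k + m + 1) x * wd w1 * X * wd w2 *
            rctx L β N (th β N h T) k y) ≤
          2 * δ * trace (E * lctx L β N (th β N h T) (k + m + 1) x *
            wd (mword L β N (th β N h T) k m) * rctx L β N (th β N h T) k y) := by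
  obtain ⟨N0, hN0⟩ := gen (V := V) (β := β) (c := cc1 L β)
    (CT := Real.exp (Fintype.card V) * CT) (δ := δ) hβ (cc1_nonneg L hβ) hδ
  obtain ⟨N1, hN1⟩ := exists_nat_gt β
  refine ⟨N0 + N1 + 1, by omega, ?_⟩
  intro N hN E T h y X hE hE0 hE1 hT hh hX hTX hTX' k m hkm x w1 g w2 hw
  have hN1' : 1 ≤ N := by omega
  have hNr : (0 : ℝ) < N := by exact_mod_cast hN1'
  have hβN : β ≤ N := by
    have : (N1 : ℝ) ≤ N := by exact_mod_cast (by omega : N1 ≤ N)
    linarith
  set p : ℝ := β / (2 * N) with hp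
  have hp0 : 0 ≤ p := by positivity
  have hp1 : p ≤ 1 := by
    rw [hp, div_le_one (by positivity)]
    linarith
  have htt : ∀ x, 0 ≤ tt β N h x ∧ tt β N h x ≤ p := tt_bd hβ hN1' hh
  have htt1 : ∀ x, 0 ≤ tt β N h x ∧ tt β N h x ≤ 1 := fun x => ⟨(htt x).1, (htt x).2.trans hp1⟩
  have hok : ∀ l ∈ layW L β N h, Ok l := by
    intro l hl
    unfold layW at hl
    rw [List.mem_append] at hl
    rcases hl with hl | hl
    · exact ok_nl htt1 l hl
    · exact ok_gl L hp0 hp1 l hl
  have hokg : ∀ l ∈ gl L p, Ok l := ok_gl L hp0 hp1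
  have hgt : sz (gl L p) ≤ cc1 L β / N := by
    refine (sz_gl' L hβ hN1').trans ?_
    have := c0_le L hβ
    gcongr
  have hrm : ∀ z, rmM (tt β N h) z = wd (nl (Function.update (tt β N h) z 0)) := rmM_eq _
  have hokr : ∀ z, ∀ l ∈ nl (Function.update (tt β N h) z 0), Ok l :=
    fun z => ok_nl fun v => update_bd htt1 z v
  have hD1 : ‖rmM (tt β N h) x - 1‖ ≤ cc1 L β / N := by
    rw [hrm]
    exact wd_sub_one L hβ hN1' (sz_nl' L hβ hN1' fun v => update_bd htt x v)
  have hD10 : Le 0 (rmM (tt β N h) x) := by rw [hrm]; exact wd_nonneg (hokr x)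
  have hD11 : 1 ≤ rmM (tt β N h) x 0 0 := by rw [hrm]; exact wd_zero (hokr x)
  have hlctx : lctx L β N (th β N h T) (k + m + 1) x =
      wd (layW L β N h) ^ (N - (k + m + 1)) * rmM (tt β N h) x := by
    unfold lctx
    rw [preM_eq L β h T hkm]
    congr 1
    congr 1
    funext z
    rw [th_pos h T (by omega) hkm]
  have hmw := mword_eq L β h T (k := k) (m := m) (N := N) (by omega)
  rw [hmw] at hw ⊢
  rw [hlctx]
  have hlay := lay_layW L hβ hN1' hh
  have hCT : 0 ≤ CT := (norm_nonneg _).trans hE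
  by_cases hk : k = 0
  · subst hk
    have hup : ∀ x, 0 ≤ Function.update T y 0 x ∧ Function.update T y 0 x ≤ 1 :=
      update_bd hT y
    have hr : rctx L β N (th β N h T) 0 y = layT (Function.update T y 0) := by
      unfold rctx restM
      rw [if_pos rfl, mul_one]
      have : (fun z => th β N h T (Fin.ofNat (N + 1) 0, z)) = T := by
        funext z
        rw [th_zero]
      rw [this, rmM_eq, layT_wd]
    rw [hr]
    have hnorm : ‖layT (Function.update T y 0) * E‖ ≤ Real.exp (Fintype.card V) * CT :=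
      (norm_mul_le _ _).trans (mul_le_mul (norm_layT hup) hE (norm_nonneg _) (Real.exp_pos _).le)
    have key := hN0 N (by omega) (ham L h) (layT (Function.update T y 0) * E) X hX hnorm
      ((layT_nonneg hup).zero_mul hE0) (entry_zero_mul (layT_nonneg hup) hE0 (layT_one hup) hE1)
      hTX' (layW L β N h) (gl L p) hlay hgt hok hokg (rmM (tt β N h) x) 1 hD1
      (by rw [sub_self, norm_zero]; exact div_nonneg (cc1_nonneg L hβ) hNr.le) hD10 one_nonneg
      hD11 (by rw [Matrix.one_apply_eq]) (N - (0 + m + 1)) m 0 (by omega) (by omega) w1 g w2 hw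
    have e : ∀ A B : MM V, trace (E * A * B * X * wd w2 * layT (Function.update T y 0)) =
        trace (A * B * X * wd w2 * (1 * wd (layW L β N h) ^ 0 *
          (layT (Function.update T y 0) * E))) := by
      intro A B
      rw [pow_zero, Matrix.one_mul, Matrix.one_mul]
      rw [show E * A * B * X * wd w2 * layT (Function.update T y 0) =
        E * (A * B * X * wd w2 * layT (Function.update T y 0)) by
          simp only [Matrix.mul_assoc], Matrix.trace_mul_comm]
      simp only [Matrix.mul_assoc]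
    have e' : ∀ A B : MM V, trace (E * A * B * layT (Function.update T y 0)) =
        trace (A * B * (1 * wd (layW L β N h) ^ 0 *
          (layT (Function.update T y 0) * E))) := by
      intro A B
      rw [pow_zero, Matrix.one_mul, Matrix.one_mul]
      rw [show E * A * B * layT (Function.update T y 0) =
        E * (A * B * layT (Function.update T y 0)) by
          simp only [Matrix.mul_assoc], Matrix.trace_mul_comm]
      simp only [Matrix.mul_assoc]
    rw [e, e']
    exact key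
  · have hk1 : 1 ≤ k := by omega
    have hr : rctx L β N (th β N h T) k y = (rmM (tt β N h) y * gatM L p) *
        wd (layW L β N h) ^ (k - 1) * layT T := by
      unfold rctx restM
      rw [if_neg hk, down_eq L β h T (by omega), FM_zero]
      have : (fun z => th β N h T (Fin.ofNat (N + 1) k, z)) = tt β N h := by
        funext z
        rw [th_pos h T hk1 (by omega)]
      rw [this]
      simp only [Matrix.mul_assoc]
      rfl
    rw [hr]
    have hD2w : rmM (tt β N h) y * gatM L p =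
        wd (nl (Function.update (tt β N h) y 0) ++ gl L p) := by
      rw [wd_append, hrm, wd_gl]
    have hok2 : ∀ l ∈ nl (Function.update (tt β N h) y 0) ++ gl L p, Ok l := by
      intro l hl
      rw [List.mem_append] at hl
      rcases hl with hl | hl
      · exact hokr y l hl
      · exact hokg l hl
    have hD2 : ‖rmM (tt β N h) y * gatM L p - 1‖ ≤ cc1 L β / N := by
      rw [hD2w]
      exact wd_sub_one L hβ hN1' (sz_mix L hβ hN1' fun v => update_bd htt y v)
    have hD20 : Le 0 (rmM (tt β N h) y * gatM L p) := by rw [hD2w]; exact wd_nonneg hok2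
    have hD21 : 1 ≤ (rmM (tt β N h) y * gatM L p : MM V) 0 0 := by rw [hD2w]; exact wd_zero hok2
    have hnorm : ‖layT T * E‖ ≤ Real.exp (Fintype.card V) * CT :=
      (norm_mul_le _ _).trans (mul_le_mul (norm_layT hT) hE (norm_nonneg _) (Real.exp_pos _).le)
    have key := hN0 N (by omega) (ham L h) (layT T * E) X hX hnorm
      ((layT_nonneg hT).zero_mul hE0) (entry_zero_mul (layT_nonneg hT) hE0 (layT_one hT) hE1)
      hTX (layW L β N h) (gl L p) hlay hgt hok hokg (rmM (tt β N h) x)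
      (rmM (tt β N h) y * gatM L p) hD1 hD2 hD10 hD20
      hD11 hD21 (N - (k + m + 1)) m (k - 1) (by omega) (by omega) w1 g w2 hw
    have e : ∀ A B D : MM V, trace (E * A * B * X * wd w2 * (D * layT T)) =
        trace (A * B * X * wd w2 * (D * (layT T * E))) := by
      intro A B D
      rw [show E * A * B * X * wd w2 * (D * layT T) =
        E * (A * B * X * wd w2 * (D * layT T)) by
          simp only [Matrix.mul_assoc], Matrix.trace_mul_comm]
      simp only [Matrix.mul_assoc]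
    have e' : ∀ A B D : MM V, trace (E * A * B * (D * layT T)) =
        trace (A * B * (D * (layT T * E))) := by
      intro A B D
      rw [show E * A * B * (D * layT T) = E * (A * B * (D * layT T)) by
          simp only [Matrix.mul_assoc], Matrix.trace_mul_comm]
      simp only [Matrix.mul_assoc]
    rw [e, e']
    exact key

/-- **The hypothesis `hX` of `cc_long`** for the physical circuit, `δ = 4 η e^{K η}`. -/
theorem hX (L : List (V × V)) {β K η : ℝ} (hβ : 0 < β) (hK : 0 ≤ K) (hη : 0 < η) :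
    ∃ N0 : ℕ, 1 ≤ N0 ∧ ∀ N : ℕ, N0 ≤ N → ∀ b : Finset V, b.Nonempty → ∀ h : V → ℝ,
      (∀ x, 0 ≤ h x ∧ h x ≤ 1) → (∀ x, rho L β h x ≤ η) →
      ∀ k m : ℕ, k + m + 1 ≤ N → ∀ (x y : V) (w1 w2 : List (Lt V)) (a c : V) (p : ℝ),
        mword L β N (th β N h (blk K b)) k m = w1 ++ Lt.gate a c p :: w2 →
        trace (lctx L β N (th β N h (blk K b)) (k + m + 1) x * wd w1 * exM a c * wd w2 *
            rctx L β N (th β N h (blk K b)) k y) ≤
          4 * η * Real.exp (K * η) * trace (lctx L β N (th β N h (blk K b)) (k + m + 1) x *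
            wd (mword L β N (th β N h (blk K b)) k m) * rctx L β N (th β N h (blk K b)) k y) ∧
        trace (lctx L β N (th β N h (blk K b)) (k + m + 1) x * wd w1 * neM a c * wd w2 *
            rctx L β N (th β N h (blk K b)) k y) ≤
          4 * η * Real.exp (K * η) * trace (lctx L β N (th β N h (blk K b)) (k + m + 1) x *
            wd (mword L β N (th β N h (blk K b)) k m) * rctx L β N (th β N h (blk K b)) k y) := by
  have hδ : 0 < Real.exp (K * η) * (2 * η) := by positivity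
  obtain ⟨N0, hN00, hN0⟩ := insert_gen L (β := β) (δ := Real.exp (K * η) * (2 * η)) (CT := 1)
    hβ hδ
  refine ⟨N0, hN00, ?_⟩
  intro N hN b hb h hh hr k m hkm x y w1 w2 a c p hw
  have hE1 : 1 ≤ (1 : MM V) 0 0 := by rw [Matrix.one_apply_eq]
  have h1 := hN0 N hN 1 (blk K b) h y (exM a c) one_norm one_nonneg hE1 (blk_bd hK b) hh
    (norm_exM a c)
    (fun s t hs ht e => by
      rw [Matrix.mul_one]
      exact TX.layT_exM L h b hb hK hs ht e hr a c)
    (fun s t hs ht e => by
      rw [Matrix.mul_one]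
      exact TX.updT_exM L h b y hK hs ht e hr a c) k m hkm x w1 _ w2 hw
  have h2 := hN0 N hN 1 (blk K b) h y (neM a c) one_norm one_nonneg hE1 (blk_bd hK b) hh
    (norm_neM a c)
    (fun s t hs ht e => by
      rw [Matrix.mul_one]
      exact TX.layT_neM L h b hb hK hs ht e hr a c)
    (fun s t hs ht e => by
      rw [Matrix.mul_one]
      exact TX.updT_neM L h b y hK hs ht e hr a c) k m hkm x w1 _ w2 hw
  rw [Matrix.one_mul] at h1 h2
  have e : 2 * (Real.exp (K * η) * (2 * η)) = 4 * η * Real.exp (K * η) := by ring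
  rw [e] at h1 h2
  exact ⟨h1, h2⟩

/-- **Long windows**, without the hypothesis on the insertions: `δ = 4 η e^{K η}`, `N ≥ N0`. -/
theorem cc_long_phys (L : List (V × V)) {β K η D : ℝ} (hβ : 0 < β) (hK : 0 ≤ K) (hη : 0 < η)
    (hD : ∀ v, (tch L v : ℝ) ≤ D) :
    ∃ N0 : ℕ, 1 ≤ N0 ∧ β ≤ N0 ∧ ∀ N : ℕ, N0 ≤ N → ∀ b : Finset V, b.Nonempty → ∀ h : V → ℝ,
      (∀ x, 0 ≤ h x ∧ h x ≤ 1) → (∀ x, rho L β h x ≤ η) →
      ∀ k m : ℕ, k + m + 1 ≤ N → ∀ (x y : V) (J : ℕ),
        (∑ j ∈ range J, qq (mword L β N (th β N h (blk K b)) k m) (q0 x) y j *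
          (1 - 4 * η * Real.exp (K * η) *
            (β / (2 * N) * D * (m + 1) + (1 + β / (2 * N) * D) * j))) *
          (th β N h (blk K b) (Fin.ofNat (N + 1) (k + m + 1), x) *
            th β N h (blk K b) (Fin.ofNat (N + 1) k, y)) / 4 ≤
        cc (phys L β N) (th β N h (blk K b)) (Fin.ofNat (N + 1) (k + m + 1), x)
          (Fin.ofNat (N + 1) k, y) := by
  obtain ⟨N0, hN00, hN0⟩ := hX L hβ hK hη
  obtain ⟨N1, hN1⟩ := exists_nat_gt β
  refine ⟨N0 + N1, by omega, ?_, ?_⟩
  · push_cast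
    have : (0 : ℝ) ≤ N0 := Nat.cast_nonneg _
    linarith
  intro N hN b hb h hh hr k m hkm x y J
  have hN' : 0 < N := by omega
  have hNr : (0 : ℝ) < N := by exact_mod_cast hN'
  have hβN : β ≤ N := by
    have : (N1 : ℝ) ≤ N := by exact_mod_cast (by omega : N1 ≤ N)
    linarith
  have hθ : ∀ z, 0 ≤ th β N h (blk K b) z ∧ th β N h (blk K b) z ≤ 1 := by
    intro z
    unfold th
    split_ifs with h0
    · exact blk_bd hK b _
    · have h1 := tt_bd hβ (by omega : 1 ≤ N) hh z.2
      unfold tt at h1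
      refine ⟨h1.1, h1.2.trans ?_⟩
      rw [div_le_one (by positivity)]
      linarith
  exact cc_long L hβ.le hβN hN' hθ hD hkm x y J (by positivity)
    fun w1 w2 a c p hw => hN0 N (by omega) b hb h hh hr k m hkm x y w1 w2 a c p hw

end

end Vale.Agent.P361.LRO.Bloch.Delta
end
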