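import Mathlib
import Vale.Agent.P361.Bdl.B1
import Vale.Agent.P361.Bdl.B3

set_option linter.all false

section

/-!
P361, block twist, part 1: product operators on `V → Fin 2`, block sums of one site matrices,
pinching with respect to the number of down spins of a block.
-/

namespace Vale.Agent.P361.LRO.TwJ

set_option linter.all false

open Matrix Finset

variable {V : Type} [Fintype V] [DecidableEq V]

/-- Two by two matrices. -/
abbrev M2 : Type := Matrix (Fin 2) (Fin 2) ℂ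

/-- Operators on `⊗_{x ∈ V} ℂ²`; basis `V → Fin 2`, `0` = up. -/
abbrev Opr (V : Type) : Type := Matrix (V → Fin 2) (V → Fin 2) ℂ

/-- Product operator. -/
def P (B : V → M2) : Opr V := Matrix.of fun σ τ => ∏ y, B y (σ y) (τ y)

theorem P_mul (B C : V → M2) : P B * P C = P (fun y => B y * C y) := by
  ext σ τ
  simp only [P, Matrix.mul_apply, Matrix.of_apply]
  rw [Finset.prod_univ_sum, Fintype.piFinset_univ]
  refine Finset.sum_congr rfl fun ρ _ => ?_
  rw [← Finset.prod_mul_distrib]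

theorem P_one : P (fun _ : V => (1 : M2)) = 1 := by
  ext σ τ
  simp only [P, Matrix.of_apply, Matrix.one_apply]
  by_cases h : σ = τ
  · subst h; simp
  · rw [if_neg h]
    obtain ⟨y, hy⟩ := Function.ne_iff.mp h
    exact Finset.prod_eq_zero (Finset.mem_univ y) (by simp [hy])

theorem P_update (B : V → M2) (x : V) (A : M2) (σ τ : V → Fin 2) :
    P (Function.update B x A) σ τ = A (σ x) (τ x) * ∏ y ∈ univ.erase x, B y (σ y) (τ y) := by
  simp only [P, Matrix.of_apply]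
  rw [← Finset.mul_prod_erase _ _ (Finset.mem_univ x)]
  congr 1
  · simp
  · refine Finset.prod_congr rfl fun y hy => ?_
    rw [Function.update_of_ne (Finset.ne_of_mem_erase hy)]

theorem P_update_add (B : V → M2) (x : V) (A A' : M2) :
    P (Function.update B x (A + A')) = P (Function.update B x A) + P (Function.update B x A') := by
  ext σ τ
  simp only [P_update, Matrix.add_apply, add_mul]

theorem P_update_sub (B : V → M2) (x : V) (A A' : M2) :
    P (Function.update B x (A - A')) = P (Function.update B x A) - P (Function.update B x A') := by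
  ext σ τ
  simp only [P_update, Matrix.sub_apply, sub_mul]

theorem P_update_smul (B : V → M2) (x : V) (c : ℂ) (A : M2) :
    P (Function.update B x (c • A)) = c • P (Function.update B x A) := by
  ext σ τ
  simp only [P_update, Matrix.smul_apply, smul_eq_mul, mul_assoc]

/-- `A` at the site `x`. -/
def st (x : V) (A : M2) : Opr V := P (Function.update (fun _ => 1) x A)

theorem st_mul_P (x : V) (A : M2) (B : V → M2) :
    st x A * P B = P (Function.update B x (A * B x)) := by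
  rw [st, P_mul]
  congr 1
  ext1 y
  by_cases h : y = x
  · subst h; simp
  · simp [Function.update_of_ne h]

theorem P_mul_st (x : V) (A : M2) (B : V → M2) :
    P B * st x A = P (Function.update B x (B x * A)) := by
  rw [st, P_mul]
  congr 1
  ext1 y
  by_cases h : y = x
  · subst h; simp
  · simp [Function.update_of_ne h]

theorem st_add (x : V) (A A' : M2) : st x (A + A') = st x A + st x A' := P_update_add _ _ _ _

theorem st_sub (x : V) (A A' : M2) : st x (A - A') = st x A - st x A' := P_update_sub _ _ _ _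

theorem st_smul (x : V) (c : ℂ) (A : M2) : st x (c • A) = c • st x A := P_update_smul _ _ _ _

theorem st_mul_st (x : V) (A B : M2) : st x A * st x B = st x (A * B) := by
  rw [show st x B = P (Function.update (fun _ => 1) x B) from rfl, st_mul_P]
  simp [st, Function.update_idem]

theorem st_comm {x y : V} (h : x ≠ y) (A B : M2) : st x A * st y B = st y B * st x A := by
  conv_lhs => rw [show st y B = P (Function.update (fun _ => 1) y B) from rfl, st_mul_P]
  conv_rhs => rw [show st y B = P (Function.update (fun _ => 1) y B) from rfl, P_mul_st]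
  simp [Function.update_of_ne h]

/-- Sum over the block of a one site matrix. -/
def Sg (b : Finset V) (A : M2) : Opr V := ∑ x ∈ b, st x A

theorem Sg_add (b : Finset V) (A A' : M2) : Sg b (A + A') = Sg b A + Sg b A' := by
  simp [Sg, st_add, Finset.sum_add_distrib]

theorem Sg_sub (b : Finset V) (A A' : M2) : Sg b (A - A') = Sg b A - Sg b A' := by
  simp [Sg, st_sub, Finset.sum_sub_distrib]

theorem Sg_smul (b : Finset V) (c : ℂ) (A : M2) : Sg b (c • A) = c • Sg b A := by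
  simp [Sg, st_smul, Finset.smul_sum]

theorem Sg_comm (b : Finset V) (A B : M2) :
    Sg b A * Sg b B - Sg b B * Sg b A = Sg b (A * B - B * A) := by
  simp only [Sg, Finset.sum_mul_sum]
  rw [Finset.sum_comm (f := fun i j => st i B * st j A), ← Finset.sum_sub_distrib]
  refine Finset.sum_congr rfl fun x hx => ?_
  rw [← Finset.sum_sub_distrib, Finset.sum_eq_single x]
  · rw [st_mul_st, st_mul_st, st_sub]
  · intro y _ hy
    rw [st_comm (Ne.symm hy), sub_self]
  · intro h; exact absurd hx h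

/-- The matrix `G` at all sites of the block. -/
def blk (b : Finset V) (G : M2) : V → M2 := fun y => if y ∈ b then G else 1

/-- `G` acting at all sites of the block. -/
def pr (b : Finset V) (G : M2) : Opr V := P (blk b G)

theorem pr_mul (b : Finset V) (G H : M2) : pr b G * pr b H = pr b (G * H) := by
  rw [pr, pr, P_mul, pr]
  congr 1
  ext1 y
  simp only [blk]
  split_ifs <;> simp

theorem pr_one (b : Finset V) : pr b (1 : M2) = 1 := by
  rw [pr, ← P_one]
  congr 1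
  ext1 y
  simp [blk]

theorem Sg_mul_pr (b : Finset V) (A G : M2) :
    Sg b A * pr b G = ∑ x ∈ b, P (Function.update (blk b G) x (A * G)) := by
  rw [Sg, Finset.sum_mul]
  refine Finset.sum_congr rfl fun x hx => ?_
  rw [pr, st_mul_P]
  simp [blk, hx]

theorem pr_mul_Sg (b : Finset V) (A G : M2) :
    pr b G * Sg b A = ∑ x ∈ b, P (Function.update (blk b G) x (G * A)) := by
  rw [Sg, Finset.mul_sum]
  refine Finset.sum_congr rfl fun x hx => ?_
  rw [pr, P_mul_st]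
  simp [blk, hx]

/-- Lowering, raising, `S³`. -/
def sm : M2 := !![0, 0; 1, 0]
/-- Raising matrix. -/
def sp : M2 := !![0, 1; 0, 0]
/-- Third component. -/
noncomputable def sz : M2 := !![1 / 2, 0; 0, -(1 / 2)]

theorem comm_sz_sm : sz * sm - sm * sz = -sm := by
  ext i j; fin_cases i <;> fin_cases j <;> simp [sz, sm, Matrix.mul_apply, Fin.sum_univ_two] <;>
    norm_num

theorem comm_sz_sp : sz * sp - sp * sz = sp := by
  ext i j; fin_cases i <;> fin_cases j <;> simp [sz, sp, Matrix.mul_apply, Fin.sum_univ_two] <;>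
    norm_num

theorem comm_sp_sm : sp * sm - sm * sp = (2 : ℂ) • sz := by
  ext i j; fin_cases i <;> fin_cases j <;>
    simp [sz, sp, sm, Matrix.mul_apply, Fin.sum_univ_two]

/-- Number of down spins in the block. -/
def nb (b : Finset V) (σ : V → Fin 2) : ℤ := ∑ y ∈ b, ((σ y : ℕ) : ℤ)

theorem nb_nonneg (b : Finset V) (σ : V → Fin 2) : 0 ≤ nb b σ :=
  Finset.sum_nonneg fun _ _ => by positivity

theorem nb_le (b : Finset V) (σ : V → Fin 2) : nb b σ ≤ b.card := by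
  have : nb b σ ≤ ∑ _y ∈ b, (1 : ℤ) := Finset.sum_le_sum fun y _ => by
    have := (σ y).2; omega
  simpa using this

/-- Pinching. -/
def Pi (b : Finset V) (q : ℤ) (X : Opr V) : Opr V :=
  Matrix.of fun σ τ => if nb b σ - nb b τ = q then X σ τ else 0

theorem Pi_add (b : Finset V) (q : ℤ) (X Y : Opr V) : Pi b q (X + Y) = Pi b q X + Pi b q Y := by
  ext σ τ; simp only [Pi, Matrix.of_apply, Matrix.add_apply]; split_ifs <;> simp

theorem Pi_sub (b : Finset V) (q : ℤ) (X Y : Opr V) : Pi b q (X - Y) = Pi b q X - Pi b q Y := by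
  ext σ τ; simp only [Pi, Matrix.of_apply, Matrix.sub_apply]; split_ifs <;> simp

theorem Pi_smul (b : Finset V) (q : ℤ) (c : ℂ) (X : Opr V) : Pi b q (c • X) = c • Pi b q X := by
  ext σ τ; simp only [Pi, Matrix.of_apply, Matrix.smul_apply]; split_ifs <;> simp

/-- An operator shifting the number of down spins by `r`. -/
def Shift (b : Finset V) (r : ℤ) (Y : Opr V) : Prop := ∀ σ τ, Y σ τ ≠ 0 → nb b σ - nb b τ = r

theorem Shift.mul_Pi {b : Finset V} {r : ℤ} {Y : Opr V} (h : Shift b r Y) (q : ℤ) (X : Opr V) :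
    Y * Pi b q X = Pi b (q + r) (Y * X) := by
  ext σ τ
  simp only [Pi, Matrix.mul_apply, Matrix.of_apply]
  by_cases hq : nb b σ - nb b τ = q + r
  · rw [if_pos hq]
    refine Finset.sum_congr rfl fun ρ _ => ?_
    by_cases hY : Y σ ρ = 0
    · simp [hY]
    · have := h _ _ hY
      rw [if_pos (by omega)]
  · rw [if_neg hq]
    refine Finset.sum_eq_zero fun ρ _ => ?_
    by_cases hY : Y σ ρ = 0
    · simp [hY]
    · have := h _ _ hY
      rw [if_neg (by omega), mul_zero]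

theorem Shift.Pi_mul {b : Finset V} {r : ℤ} {Y : Opr V} (h : Shift b r Y) (q : ℤ) (X : Opr V) :
    Pi b q X * Y = Pi b (q + r) (X * Y) := by
  ext σ τ
  simp only [Pi, Matrix.mul_apply, Matrix.of_apply]
  by_cases hq : nb b σ - nb b τ = q + r
  · rw [if_pos hq]
    refine Finset.sum_congr rfl fun ρ _ => ?_
    by_cases hY : Y ρ τ = 0
    · simp [hY]
    · have := h _ _ hY
      rw [if_pos (by omega)]
  · rw [if_neg hq]
    refine Finset.sum_eq_zero fun ρ _ => ?_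
    by_cases hY : Y ρ τ = 0
    · simp [hY]
    · have := h _ _ hY
      rw [if_neg (by omega), zero_mul]

theorem st_apply (x : V) (A : M2) (σ τ : V → Fin 2) :
    st x A σ τ = A (σ x) (τ x) * if (∀ y, y ≠ x → σ y = τ y) then 1 else 0 := by
  rw [st, P_update]
  congr 1
  split_ifs with h
  · exact Finset.prod_eq_one fun y hy => by
      rw [h y (Finset.ne_of_mem_erase hy), Matrix.one_apply_eq]
  · push Not at h
    obtain ⟨y, hy, hne⟩ := h
    exact Finset.prod_eq_zero (Finset.mem_erase.2 ⟨hy, Finset.mem_univ y⟩)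
      (Matrix.one_apply_ne hne)

theorem nb_of_agree {b : Finset V} {x : V} (hx : x ∈ b) {σ τ : V → Fin 2}
    (h : ∀ y, y ≠ x → σ y = τ y) : nb b σ - nb b τ = ((σ x : ℕ) : ℤ) - ((τ x : ℕ) : ℤ) := by
  rw [nb, nb, ← Finset.sum_sub_distrib, Finset.sum_eq_single x]
  · intro y _ hy; rw [h y hy, sub_self]
  · intro h'; exact absurd hx h'

theorem shift_st {b : Finset V} {x : V} (hx : x ∈ b) (A : M2) (r : ℤ)
    (hA : ∀ i j, A i j ≠ 0 → ((i : ℕ) : ℤ) - ((j : ℕ) : ℤ) = r) : Shift b r (st x A) := by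
  intro σ τ h
  rw [st_apply] at h
  have h1 := left_ne_zero_of_mul h
  have h2 := right_ne_zero_of_mul h
  have h3 : ∀ y, y ≠ x → σ y = τ y := by
    by_contra hc
    exact h2 (if_neg hc)
  rw [nb_of_agree hx h3]
  exact hA _ _ h1

theorem Shift.add {b : Finset V} {r : ℤ} {X Y : Opr V} (hX : Shift b r X) (hY : Shift b r Y) :
    Shift b r (X + Y) := by
  intro σ τ h
  by_cases h1 : X σ τ = 0
  · exact hY σ τ fun h2 => h (by rw [Matrix.add_apply, h1, h2, add_zero])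
  · exact hX σ τ h1

theorem shift_sum {ι : Type} {b : Finset V} {r : ℤ} (s : Finset ι) (X : ι → Opr V)
    (h : ∀ i ∈ s, Shift b r (X i)) : Shift b r (∑ i ∈ s, X i) := by
  intro σ τ hne
  rw [Matrix.sum_apply] at hne
  obtain ⟨i, hi, h'⟩ := Finset.exists_ne_zero_of_sum_ne_zero hne
  exact h i hi _ _ h'

theorem shift_Sm (b : Finset V) : Shift b 1 (Sg b sm) :=
  shift_sum _ _ fun x hx => shift_st hx _ _ fun i j h => by
    fin_cases i <;> fin_cases j <;> simp [sm] at h ⊢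

theorem shift_Sp (b : Finset V) : Shift b (-1) (Sg b sp) :=
  shift_sum _ _ fun x hx => shift_st hx _ _ fun i j h => by
    fin_cases i <;> fin_cases j <;> simp [sp] at h ⊢

theorem Sz_eq (b : Finset V) :
    Sg b sz = Matrix.diagonal fun σ : V → Fin 2 => (b.card : ℂ) / 2 - (nb b σ : ℂ) := by
  ext σ τ
  rw [Sg, Matrix.sum_apply]
  by_cases h : σ = τ
  · subst h
    rw [Matrix.diagonal_apply_eq]
    have : ∀ x ∈ b, st x sz σ σ = 1 / 2 - ((σ x : ℕ) : ℂ) := by
      intro x _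
      rw [st_apply, if_pos (fun _ _ => rfl), mul_one]
      generalize σ x = i
      fin_cases i <;> simp [sz]; norm_num
    rw [Finset.sum_congr rfl this, Finset.sum_sub_distrib, Finset.sum_const, nb]
    push_cast
    rw [nsmul_eq_mul]; ring
  · rw [Matrix.diagonal_apply_ne _ h]
    refine Finset.sum_eq_zero fun x _ => ?_
    rw [st_apply]
    by_cases hx : σ x = τ x
    · rw [if_neg, mul_zero]
      intro hc
      exact h (funext fun y => by
        by_cases hy : y = x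
        · rw [hy, hx]
        · exact hc y hy)
    · have : sz (σ x) (τ x) = 0 := by
        revert hx
        generalize σ x = i
        generalize τ x = j
        intro hx
        fin_cases i <;> fin_cases j <;> simp [sz] at hx ⊢
      rw [this, zero_mul]

theorem comm_Sz_apply (b : Finset V) (X : Opr V) (σ τ : V → Fin 2) :
    (Sg b sz * X - X * Sg b sz) σ τ = -((nb b σ - nb b τ : ℤ) : ℂ) * X σ τ := by
  rw [Sz_eq, Matrix.sub_apply, Matrix.diagonal_mul, Matrix.mul_diagonal]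
  push_cast
  ring

theorem Pi_comm_Sz (b : Finset V) (q : ℤ) (X : Opr V) :
    Pi b q (Sg b sz * X - X * Sg b sz) = (-(q : ℂ)) • Pi b q X := by
  ext σ τ
  simp only [Pi, Matrix.of_apply, Matrix.smul_apply, smul_eq_mul]
  split_ifs with h
  · rw [comm_Sz_apply, h]
  · simp

end Vale.Agent.P361.LRO.TwJ
end

section

/-!
P361, block twist, part 2: the rotated slice `T θ`, its derivative, and the operators
`A = ½ ∫ sin θ E₀`, `B = ½ ∫ sin θ cos θ E₀`, `C = ½ ∫ sin² θ E₁`.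
-/

namespace Vale.Agent.P361.LRO.TwJ

set_option linter.all false

open Matrix Finset MeasureTheory intervalIntegral

variable {V : Type} [Fintype V] [DecidableEq V]

/-- The one site matrix `cosh(k/2) + sinh(k/2) (cos θ σ³ + sin θ σ¹)`. -/
noncomputable def gm (k θ : ℝ) : M2 :=
  !![((Real.cosh (k / 2) + Real.sinh (k / 2) * Real.cos θ : ℝ) : ℂ),
      ((Real.sinh (k / 2) * Real.sin θ : ℝ) : ℂ);
     ((Real.sinh (k / 2) * Real.sin θ : ℝ) : ℂ),
      ((Real.cosh (k / 2) - Real.sinh (k / 2) * Real.cos θ : ℝ) : ℂ)]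

/-- Its derivative. -/
noncomputable def gm' (k θ : ℝ) : M2 :=
  !![((-(Real.sinh (k / 2) * Real.sin θ) : ℝ) : ℂ), ((Real.sinh (k / 2) * Real.cos θ : ℝ) : ℂ);
     ((Real.sinh (k / 2) * Real.cos θ : ℝ) : ℂ), ((Real.sinh (k / 2) * Real.sin θ : ℝ) : ℂ)]

theorem hasDerivAt_gm (k θ : ℝ) (i j : Fin 2) :
    HasDerivAt (fun θ => gm k θ i j) (gm' k θ i j) θ := by
  have hs := (Real.hasDerivAt_sin θ).const_mul (Real.sinh (k / 2))
  have hc := (Real.hasDerivAt_cos θ).const_mul (Real.sinh (k / 2))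
  fin_cases i <;> fin_cases j
  · have := (hc.const_add (Real.cosh (k / 2))).ofReal_comp
    simpa [gm, gm'] using this
  · simpa [gm, gm'] using hs.ofReal_comp
  · simpa [gm, gm'] using hs.ofReal_comp
  · have := (hc.const_sub (Real.cosh (k / 2))).ofReal_comp
    simpa [gm, gm'] using this

/-- Local commutator identity. -/
theorem gm_comm (k θ : ℝ) :
    ((Real.sin θ : ℝ) : ℂ) • (sm * gm k θ - gm k θ * sm) =
      ((Real.sin θ : ℝ) : ℂ) • gm' k θ
        - ((Real.cos θ : ℝ) : ℂ) • (sz * gm k θ - gm k θ * sz) := by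
  ext i j
  fin_cases i <;> fin_cases j <;>
    simp [gm, gm', sm, sz, Matrix.mul_apply, Fin.sum_univ_two] <;> ring

/-- The rotated slice. -/
noncomputable def Tw (b : Finset V) (k θ : ℝ) : Opr V := pr b (gm k θ)

/-- The derivative of the rotated slice. -/
noncomputable def Tw' (b : Finset V) (k θ : ℝ) : Opr V :=
  ∑ x ∈ b, P (Function.update (blk b (gm k θ)) x (gm' k θ))

theorem hasDerivAt_P (B : ℝ → V → M2) (B' : V → M2) (t : ℝ)
    (h : ∀ y i j, HasDerivAt (fun s => B s y i j) (B' y i j) t) (σ τ : V → Fin 2) :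
    HasDerivAt (fun s => P (B s) σ τ)
      (∑ x, P (Function.update (B t) x (B' x)) σ τ) t := by
  have := HasDerivAt.fun_finset_prod (u := (Finset.univ : Finset V))
    (f := fun y s => B s y (σ y) (τ y)) (f' := fun y => B' y (σ y) (τ y)) (x := t)
    (fun y _ => h y _ _)
  have h2 : (fun s => P (B s) σ τ) = fun x => ∏ i, B x i (σ i) (τ i) := rfl
  rw [h2]
  refine this.congr_deriv (Finset.sum_congr rfl fun x _ => ?_)
  rw [P_update, smul_eq_mul, mul_comm]

theorem P_update_zero (B : V → M2) (x : V) : P (Function.update B x (0 : M2)) = 0 := by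
  ext σ τ
  rw [P_update]; simp

theorem hasDerivAt_pr (b : Finset V) (G : ℝ → M2) (G' : M2) (t : ℝ)
    (h : ∀ i j, HasDerivAt (fun s => G s i j) (G' i j) t) (σ τ : V → Fin 2) :
    HasDerivAt (fun s => pr b (G s) σ τ)
      ((∑ x ∈ b, P (Function.update (blk b (G t)) x G')) σ τ) t := by
  have h1 := hasDerivAt_P (fun s => blk b (G s)) (fun y => if y ∈ b then G' else 0) t
    (fun y i j => by
      by_cases hy : y ∈ b
      · simpa [blk, hy] using h i j
      · simp only [blk, hy, if_false]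
        exact hasDerivAt_const _ _) σ τ
  refine HasDerivAt.congr_deriv (f := fun s => pr b (G s) σ τ) h1 ?_
  rw [Matrix.sum_apply, ← Finset.sum_subset (Finset.subset_univ b)]
  · refine Finset.sum_congr rfl fun x hx => ?_
    rw [if_pos hx]
  · intro x _ hx
    rw [if_neg hx, P_update_zero]; rfl

theorem hasDerivAt_Tw (b : Finset V) (k θ : ℝ) (σ τ : V → Fin 2) :
    HasDerivAt (fun θ => Tw b k θ σ τ) (Tw' b k θ σ τ) θ :=
  hasDerivAt_pr b _ _ θ (fun i j => hasDerivAt_gm k θ i j) σ τ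

theorem Tw_comm (b : Finset V) (k θ : ℝ) :
    ((Real.sin θ : ℝ) : ℂ) • (Sg b sm * Tw b k θ - Tw b k θ * Sg b sm) =
      ((Real.sin θ : ℝ) : ℂ) • Tw' b k θ
        - ((Real.cos θ : ℝ) : ℂ) • (Sg b sz * Tw b k θ - Tw b k θ * Sg b sz) := by
  simp only [Tw, Tw', Sg_mul_pr, pr_mul_Sg, ← Finset.sum_sub_distrib, Finset.smul_sum,
    ← P_update_sub, ← P_update_smul]
  exact Finset.sum_congr rfl fun x _ => by rw [gm_comm]

/-- Harmonic components. -/
noncomputable def E (b : Finset V) (k : ℝ) (q : ℤ) (θ : ℝ) : Opr V := Pi b q (Tw b k θ)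

theorem E_comm (b : Finset V) (k : ℝ) (q : ℤ) (θ : ℝ) :
    ((Real.sin θ : ℝ) : ℂ) • (Sg b sm * E b k q θ - E b k q θ * Sg b sm) =
      ((Real.sin θ : ℝ) : ℂ) • Pi b (q + 1) (Tw' b k θ)
        + (((q + 1 : ℤ) : ℂ) * ((Real.cos θ : ℝ) : ℂ)) • E b k (q + 1) θ := by
  rw [E, (shift_Sm b).mul_Pi, (shift_Sm b).Pi_mul, ← Pi_sub, ← Pi_smul, Tw_comm, Pi_sub, Pi_smul,
    Pi_smul, Pi_comm_Sz, E, smul_smul, sub_eq_add_neg, ← neg_smul]
  congr 2
  ring

theorem hasDerivAt_E (b : Finset V) (k : ℝ) (q : ℤ) (θ : ℝ) (σ τ : V → Fin 2) :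
    HasDerivAt (fun θ => E b k q θ σ τ) (Pi b q (Tw' b k θ) σ τ) θ := by
  simp only [E, Pi, Matrix.of_apply]
  split_ifs
  · exact hasDerivAt_Tw b k θ σ τ
  · exact hasDerivAt_const _ _

/-- `d/dθ (sin^{q+1} E_{q+1}) = sin^{q+1} [S⁻, E_q]`. -/
theorem hasDerivAt_sinE (b : Finset V) (k : ℝ) (q : ℕ) (θ : ℝ) (σ τ : V → Fin 2) :
    HasDerivAt (fun θ => ((Real.sin θ ^ (q + 1) : ℝ) : ℂ) * E b k ((q : ℤ) + 1) θ σ τ)
      (((Real.sin θ ^ (q + 1) : ℝ) : ℂ) *
        (Sg b sm * E b k q θ - E b k q θ * Sg b sm) σ τ) θ := by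
  have h1 : HasDerivAt (fun θ => ((Real.sin θ ^ (q + 1) : ℝ) : ℂ))
      ((((q + 1 : ℕ) : ℝ) * Real.sin θ ^ q * Real.cos θ : ℝ) : ℂ) θ := by
    have := ((Real.hasDerivAt_sin θ).pow (q + 1)).ofReal_comp
    simpa using this
  have h2 := h1.mul (hasDerivAt_E b k ((q : ℤ) + 1) θ σ τ)
  refine HasDerivAt.congr_deriv
    (f := fun θ => ((Real.sin θ ^ (q + 1) : ℝ) : ℂ) * E b k ((q : ℤ) + 1) θ σ τ) h2 ?_
  have h3 := congrFun (congrFun (E_comm b k q θ) σ) τ
  simp only [Matrix.smul_apply, Matrix.add_apply, smul_eq_mul] at h3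
  push_cast at h3 ⊢
  linear_combination (-(Complex.sin (θ : ℂ) ^ q)) * h3

theorem continuous_Tw (b : Finset V) (k : ℝ) (σ τ : V → Fin 2) :
    Continuous fun θ => Tw b k θ σ τ :=
  continuous_iff_continuousAt.2 fun θ => (hasDerivAt_Tw b k θ σ τ).continuousAt

theorem continuous_E (b : Finset V) (k : ℝ) (q : ℤ) (σ τ : V → Fin 2) :
    Continuous fun θ => E b k q θ σ τ :=
  continuous_iff_continuousAt.2 fun θ => (hasDerivAt_E b k q θ σ τ).continuousAt

/-- Weighted average of the harmonic component `E_q`. -/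
noncomputable def Av (b : Finset V) (k : ℝ) (q : ℤ) (w : ℝ → ℝ) : Opr V :=
  Matrix.of fun σ τ => ∫ θ in (0 : ℝ)..Real.pi, ((w θ : ℝ) : ℂ) * E b k q θ σ τ

theorem continuous_comm (b : Finset V) (k : ℝ) (q : ℤ) (σ τ : V → Fin 2) (Y : Opr V) :
    Continuous fun θ => (Y * E b k q θ - E b k q θ * Y) σ τ := by
  simp only [Matrix.sub_apply, Matrix.mul_apply]
  refine Continuous.sub (continuous_finset_sum _ fun ρ _ => ?_)
    (continuous_finset_sum _ fun ρ _ => ?_)
  · exact continuous_const.mul (continuous_E b k q ρ τ)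
  · exact (continuous_E b k q σ ρ).mul continuous_const

theorem mul_Av (b : Finset V) (k : ℝ) (q : ℤ) {w : ℝ → ℝ} (hw : Continuous w) (Y : Opr V) :
    Y * Av b k q w = Matrix.of fun σ τ =>
      ∫ θ in (0 : ℝ)..Real.pi, ((w θ : ℝ) : ℂ) * (Y * E b k q θ) σ τ := by
  ext σ τ
  simp only [Av, Matrix.mul_apply, Matrix.of_apply, Finset.mul_sum]
  rw [intervalIntegral.integral_finset_sum]
  · refine Finset.sum_congr rfl fun ρ _ => ?_
    rw [← intervalIntegral.integral_const_mul]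
    congr 1
    ext θ
    ring
  · intro ρ _
    exact (((Complex.continuous_ofReal.comp hw).mul
      (continuous_const.mul (continuous_E b k q ρ τ))).intervalIntegrable _ _)

theorem Av_mul (b : Finset V) (k : ℝ) (q : ℤ) {w : ℝ → ℝ} (hw : Continuous w) (Y : Opr V) :
    Av b k q w * Y = Matrix.of fun σ τ =>
      ∫ θ in (0 : ℝ)..Real.pi, ((w θ : ℝ) : ℂ) * (E b k q θ * Y) σ τ := by
  ext σ τ
  simp only [Av, Matrix.mul_apply, Matrix.of_apply, Finset.mul_sum]
  rw [intervalIntegral.integral_finset_sum]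
  · refine Finset.sum_congr rfl fun ρ _ => ?_
    rw [← intervalIntegral.integral_mul_const]
    congr 1
    ext θ
    ring
  · intro ρ _
    exact (((Complex.continuous_ofReal.comp hw).mul
      ((continuous_E b k q σ ρ).mul continuous_const)).intervalIntegrable _ _)

theorem comm_Av (b : Finset V) (k : ℝ) (q : ℤ) {w : ℝ → ℝ} (hw : Continuous w) (Y : Opr V)
    (σ τ : V → Fin 2) :
    (Y * Av b k q w - Av b k q w * Y) σ τ =
      ∫ θ in (0 : ℝ)..Real.pi, ((w θ : ℝ) : ℂ) * (Y * E b k q θ - E b k q θ * Y) σ τ := by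
  rw [Matrix.sub_apply, mul_Av b k q hw, Av_mul b k q hw, Matrix.of_apply, Matrix.of_apply,
    ← intervalIntegral.integral_sub]
  · congr 1
    ext θ
    rw [Matrix.sub_apply]; ring
  · refine (Continuous.mul (Complex.continuous_ofReal.comp hw) ?_).intervalIntegrable _ _
    simp only [Matrix.mul_apply]
    exact continuous_finset_sum _ fun ρ _ => continuous_const.mul (continuous_E b k q ρ τ)
  · refine (Continuous.mul (Complex.continuous_ofReal.comp hw) ?_).intervalIntegrable _ _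
    simp only [Matrix.mul_apply]
    exact continuous_finset_sum _ fun ρ _ => (continuous_E b k q σ ρ).mul continuous_const

/-- `[S⁻, ∫ f sin^{q+1} E_q] = - ∫ f' sin^{q+1} E_{q+1}`. -/
theorem comm_Sm_Av (b : Finset V) (k : ℝ) (q : ℕ) (f f' : ℝ → ℝ)
    (hf : ∀ θ, HasDerivAt f (f' θ) θ) (hf' : Continuous f') :
    Sg b sm * Av b k q (fun θ => f θ * Real.sin θ ^ (q + 1))
      - Av b k q (fun θ => f θ * Real.sin θ ^ (q + 1)) * Sg b sm =
      -Av b k ((q : ℤ) + 1) (fun θ => f' θ * Real.sin θ ^ (q + 1)) := by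
  have hfc : Continuous f := continuous_iff_continuousAt.2 fun θ => (hf θ).continuousAt
  have hw : Continuous fun θ => f θ * Real.sin θ ^ (q + 1) :=
    hfc.mul (Real.continuous_sin.pow _)
  ext σ τ
  rw [comm_Av b k q hw, Matrix.neg_apply, Av, Matrix.of_apply]
  have h1 : ∀ θ ∈ Set.uIcc (0 : ℝ) Real.pi,
      HasDerivAt (fun θ => ((f θ : ℝ) : ℂ)) ((f' θ : ℝ) : ℂ) θ :=
    fun θ _ => (hf θ).ofReal_comp
  have h2 : ∀ θ ∈ Set.uIcc (0 : ℝ) Real.pi,
      HasDerivAt (fun θ => ((Real.sin θ ^ (q + 1) : ℝ) : ℂ) * E b k ((q : ℤ) + 1) θ σ τ)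
        (((Real.sin θ ^ (q + 1) : ℝ) : ℂ) *
          (Sg b sm * E b k q θ - E b k q θ * Sg b sm) σ τ) θ :=
    fun θ _ => hasDerivAt_sinE b k q θ σ τ
  have h3 := intervalIntegral.integral_mul_deriv_eq_deriv_mul h1 h2
    ((Complex.continuous_ofReal.comp hf').intervalIntegrable _ _)
    ((Continuous.mul (Complex.continuous_ofReal.comp (Real.continuous_sin.pow _))
      (continuous_comm b k q σ τ _)).intervalIntegrable _ _)
  simp only [Real.sin_pi, Real.sin_zero] at h3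
  have h4 : (∫ θ in (0 : ℝ)..Real.pi, (((f θ * Real.sin θ ^ (q + 1) : ℝ)) : ℂ) *
      (Sg b sm * E b k q θ - E b k q θ * Sg b sm) σ τ) =
      ∫ θ in (0 : ℝ)..Real.pi, ((f θ : ℝ) : ℂ) * (((Real.sin θ ^ (q + 1) : ℝ) : ℂ) *
          (Sg b sm * E b k q θ - E b k q θ * Sg b sm) σ τ) := by
    congr 1; ext θ; push_cast; ring
  have h5 : (∫ θ in (0 : ℝ)..Real.pi, (((f' θ * Real.sin θ ^ (q + 1) : ℝ)) : ℂ) *
      E b k ((q : ℤ) + 1) θ σ τ) =
      ∫ θ in (0 : ℝ)..Real.pi, ((f' θ : ℝ) : ℂ) * (((Real.sin θ ^ (q + 1) : ℝ) : ℂ) *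
          E b k ((q : ℤ) + 1) θ σ τ) := by
    congr 1; ext θ; push_cast; ring
  rw [h4, h5, h3]
  simp

/-- `½ ∫ sin θ E₀`. -/
noncomputable def opA (b : Finset V) (k : ℝ) : Opr V :=
  Av b k 0 fun θ => 1 / 2 * Real.sin θ ^ 1
/-- `½ ∫ sin θ cos θ E₀`. -/
noncomputable def opB (b : Finset V) (k : ℝ) : Opr V :=
  Av b k 0 fun θ => 1 / 2 * Real.cos θ * Real.sin θ ^ 1
/-- `½ ∫ sin² θ E₁`. -/
noncomputable def opC (b : Finset V) (k : ℝ) : Opr V :=
  Av b k 1 fun θ => 1 / 2 * Real.sin θ ^ 2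

theorem Av_zero (b : Finset V) (k : ℝ) (q : ℤ) : Av b k q (fun _ => 0) = 0 := by
  ext σ τ; simp [Av]

theorem comm_Sm_A (b : Finset V) (k : ℝ) : Sg b sm * opA b k = opA b k * Sg b sm := by
  have := comm_Sm_Av b k 0 (fun _ => 1 / 2) (fun _ => 0) (fun θ => hasDerivAt_const _ _)
    continuous_const
  simp only [Nat.cast_zero, zero_add, zero_mul, Av_zero, neg_zero] at this
  exact sub_eq_zero.1 this

theorem comm_Sm_B (b : Finset V) (k : ℝ) :
    opB b k * Sg b sm = Sg b sm * opB b k - opC b k := by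
  have := comm_Sm_Av b k 0 (fun θ => 1 / 2 * Real.cos θ) (fun θ => 1 / 2 * -Real.sin θ)
    (fun θ => (Real.hasDerivAt_cos θ).const_mul _) (continuous_const.mul Real.continuous_sin.neg)
  simp only [Nat.cast_zero, zero_add] at this
  have h2 : -Av b k 1 (fun θ => 1 / 2 * -Real.sin θ * Real.sin θ ^ 1) = opC b k := by
    ext σ τ
    simp only [opC, Av, Matrix.neg_apply, Matrix.of_apply, ← intervalIntegral.integral_neg]
    congr 1; ext θ; push_cast; ring
  rw [h2] at this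
  rw [← this, opB]
  abel

theorem comm_Sm_C (b : Finset V) (k : ℝ) : Sg b sm * opC b k = opC b k * Sg b sm := by
  have := comm_Sm_Av b k 1 (fun _ => 1 / 2) (fun _ => 0) (fun θ => hasDerivAt_const _ _)
    continuous_const
  simp only [Nat.cast_one, zero_mul, Av_zero, neg_zero] at this
  exact sub_eq_zero.1 this

end Vale.Agent.P361.LRO.TwJ
end

section

/-!
P361, block twist, part 3: the operators `A`, `B`, `C` on the ladder of a highest weight vector.
-/

namespace Vale.Agent.P361.LRO.TwJ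

set_option linter.all false

open Matrix Finset MeasureTheory intervalIntegral

variable {V : Type} [Fintype V] [DecidableEq V]

/-- Upper unipotent matrix. -/
noncomputable def Um (u : ℝ) : M2 := !![1, (u : ℂ); 0, 1]
/-- Lower unipotent matrix. -/
noncomputable def Lm (u : ℝ) : M2 := !![1, 0; (u : ℂ), 1]
/-- Diagonal matrix. -/
noncomputable def Dm (d : ℝ) : M2 := !![(d : ℂ), 0; 0, (d : ℂ)⁻¹]

theorem hasDerivAt_Um (u : ℝ) (i j : Fin 2) : HasDerivAt (fun u => Um u i j) (sp i j) u := by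
  fin_cases i <;> fin_cases j
  · simpa [Um, sp] using hasDerivAt_const u (1 : ℂ)
  · simpa [Um, sp] using (hasDerivAt_id u).ofReal_comp
  · simpa [Um, sp] using hasDerivAt_const u (0 : ℂ)
  · simpa [Um, sp] using hasDerivAt_const u (1 : ℂ)

theorem hasDerivAt_Lm (u : ℝ) (i j : Fin 2) : HasDerivAt (fun u => Lm u i j) (sm i j) u := by
  fin_cases i <;> fin_cases j
  · simpa [Lm, sm] using hasDerivAt_const u (1 : ℂ)
  · simpa [Lm, sm] using hasDerivAt_const u (0 : ℂ)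
  · simpa [Lm, sm] using (hasDerivAt_id u).ofReal_comp
  · simpa [Lm, sm] using hasDerivAt_const u (1 : ℂ)

theorem Um_mul_sp (u : ℝ) : Um u * sp = sp := by
  ext i j; fin_cases i <;> fin_cases j <;> simp [Um, sp, Matrix.mul_apply, Fin.sum_univ_two]

theorem sm_mul_Lm (u : ℝ) : sm * Lm u = sm := by
  ext i j; fin_cases i <;> fin_cases j <;> simp [Lm, sm, Matrix.mul_apply, Fin.sum_univ_two]

theorem gauss_aux {d β e : ℝ} (hd : d ≠ 0) (he : e * d = β ^ 2 + 1) :
    Lm (β / d) * Dm d * Um (β / d) = !![(d : ℂ), (β : ℂ); (β : ℂ), (e : ℂ)] := by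
  have hd' : (d : ℂ) ≠ 0 := by exact_mod_cast hd
  have he' : (e : ℂ) * d = β ^ 2 + 1 := by exact_mod_cast he
  ext i j
  fin_cases i <;> fin_cases j
  · simp [Lm, Dm, Um, Matrix.mul_apply, Fin.sum_univ_two]
  · simp [Lm, Dm, Um, Matrix.mul_apply, Fin.sum_univ_two]
    field_simp
  · simp [Lm, Dm, Um, Matrix.mul_apply, Fin.sum_univ_two]
    field_simp
  · simp [Lm, Dm, Um, Matrix.mul_apply, Fin.sum_univ_two]
    field_simp
    linear_combination -he'

theorem gauss (k θ : ℝ) (hd : Real.cosh (k / 2) + Real.sinh (k / 2) * Real.cos θ ≠ 0) :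
    Lm (Real.sinh (k / 2) * Real.sin θ / (Real.cosh (k / 2) + Real.sinh (k / 2) * Real.cos θ)) *
      Dm (Real.cosh (k / 2) + Real.sinh (k / 2) * Real.cos θ) *
      Um (Real.sinh (k / 2) * Real.sin θ / (Real.cosh (k / 2) + Real.sinh (k / 2) * Real.cos θ))
      = gm k θ := by
  have h1 := Real.cosh_sq (k / 2)
  have h2 := Real.sin_sq_add_cos_sq θ
  have key : (Real.cosh (k / 2) - Real.sinh (k / 2) * Real.cos θ) *
      (Real.cosh (k / 2) + Real.sinh (k / 2) * Real.cos θ) =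
      (Real.sinh (k / 2) * Real.sin θ) ^ 2 + 1 := by nlinarith
  rw [gauss_aux hd key]
  rfl

/-- `v` is supported on the configurations with `m` down spins in the block. -/
def Supp (b : Finset V) (m : ℤ) (v : (V → Fin 2) → ℂ) : Prop := ∀ σ, v σ ≠ 0 → nb b σ = m

theorem Supp.smul {b : Finset V} {m : ℤ} {v : (V → Fin 2) → ℂ} (h : Supp b m v) (c : ℂ) :
    Supp b m (c • v) := fun σ hσ => h σ fun h0 => hσ (by simp [h0])

theorem Shift.supp {b : Finset V} {r m : ℤ} {X : Opr V} {v : (V → Fin 2) → ℂ} (hX : Shift b r X)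
    (hv : Supp b m v) : Supp b (m + r) (X *ᵥ v) := by
  intro σ hσ
  rw [Matrix.mulVec, dotProduct] at hσ
  obtain ⟨τ, _, hτ⟩ := Finset.exists_ne_zero_of_sum_ne_zero hσ
  have h1 := hX σ τ (left_ne_zero_of_mul hτ)
  have h2 := hv τ (right_ne_zero_of_mul hτ)
  omega

theorem Pi_mulVec {b : Finset V} {m : ℤ} {v : (V → Fin 2) → ℂ} (hv : Supp b m v) (q : ℤ)
    (X : Opr V) (σ : V → Fin 2) :
    (Pi b q X *ᵥ v) σ = if nb b σ = m + q then (X *ᵥ v) σ else 0 := by
  simp only [Matrix.mulVec, dotProduct, Pi, Matrix.of_apply]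
  split_ifs with h
  · refine Finset.sum_congr rfl fun τ _ => ?_
    by_cases h0 : v τ = 0
    · simp [h0]
    · rw [if_pos]
      have := hv τ h0
      omega
  · refine Finset.sum_eq_zero fun τ _ => ?_
    by_cases h0 : v τ = 0
    · simp [h0]
    · rw [if_neg, zero_mul]
      have := hv τ h0
      omega

theorem pr_Um_mulVec (b : Finset V) {v : (V → Fin 2) → ℂ} (h : Sg b sp *ᵥ v = 0) (u : ℝ) :
    pr b (Um u) *ᵥ v = v := by
  have hd : ∀ (σ : V → Fin 2) (u : ℝ), HasDerivAt (fun u => (pr b (Um u) *ᵥ v) σ) 0 u := by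
    intro σ u
    have h1 : HasDerivAt (fun u => ∑ τ, pr b (Um u) σ τ * v τ)
        (∑ τ, (∑ x ∈ b, P (Function.update (blk b (Um u)) x sp)) σ τ * v τ) u :=
      HasDerivAt.fun_sum fun τ _ =>
        (hasDerivAt_pr b Um sp u (fun i j => hasDerivAt_Um u i j) σ τ).mul_const _
    have h2 : (∑ τ, (∑ x ∈ b, P (Function.update (blk b (Um u)) x sp)) σ τ * v τ) = 0 := by
      have h3 : (∑ x ∈ b, P (Function.update (blk b (Um u)) x sp)) = pr b (Um u) * Sg b sp := by
        rw [pr_mul_Sg, Um_mul_sp]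
      rw [h3]
      have h4 : ((pr b (Um u) * Sg b sp) *ᵥ v) σ = 0 := by
        rw [← Matrix.mulVec_mulVec, h, Matrix.mulVec_zero]; rfl
      exact h4
    rw [h2] at h1
    exact h1
  ext σ
  have h5 : (pr b (Um u) *ᵥ v) σ = (pr b (Um 0) *ᵥ v) σ :=
    is_const_of_deriv_eq_zero (f := fun u => (pr b (Um u) *ᵥ v) σ)
      (fun u => (hd σ u).differentiableAt) (fun u => (hd σ u).deriv) u 0
  rw [h5]
  have h6 : Um 0 = 1 := by
    ext i j; fin_cases i <;> fin_cases j <;> simp [Um]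
  rw [h6, pr_one, Matrix.one_mulVec]

theorem Pi_zero_Lm (b : Finset V) (u : ℝ) : Pi b 0 (pr b (Lm u)) = 1 := by
  ext σ τ
  simp only [Pi, Matrix.of_apply]
  by_cases hst : σ = τ
  · subst hst
    rw [sub_self, if_pos rfl, Matrix.one_apply_eq, pr, P, Matrix.of_apply]
    refine Finset.prod_eq_one fun y _ => ?_
    rw [blk]
    split_ifs
    · generalize σ y = i
      fin_cases i <;> simp [Lm]
    · rw [Matrix.one_apply_eq]
  · rw [Matrix.one_apply_ne hst]
    split_ifs with h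
    · rw [pr, P, Matrix.of_apply]
      by_contra hne
      rw [← Ne, Finset.prod_ne_zero_iff] at hne
      have h1 : ∀ y ∈ b, ((τ y : ℕ) : ℤ) ≤ ((σ y : ℕ) : ℤ) := by
        intro y hy
        have := hne y (Finset.mem_univ y)
        rw [blk, if_pos hy] at this
        revert this
        generalize σ y = i
        generalize τ y = j
        intro this
        fin_cases i <;> fin_cases j <;> simp [Lm] at this ⊢
      have h2 : ∀ y ∈ b, ((τ y : ℕ) : ℤ) = ((σ y : ℕ) : ℤ) :=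
        (Finset.sum_eq_sum_iff_of_le h1).1 (by rw [nb, nb] at h; linarith)
      apply hst
      ext1 y
      by_cases hy : y ∈ b
      · have := h2 y hy
        apply Fin.ext
        omega
      · have := hne y (Finset.mem_univ y)
        rw [blk, if_neg hy] at this
        by_contra hc
        exact this (Matrix.one_apply_ne hc)
    · rfl

theorem Pi_one_Lm (b : Finset V) (u : ℝ) : Pi b 1 (pr b (Lm u)) = (u : ℂ) • Sg b sm := by
  have hd : ∀ (σ τ : V → Fin 2) (u : ℝ),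
      HasDerivAt (fun u => Pi b 1 (pr b (Lm u)) σ τ - (u : ℂ) * Sg b sm σ τ) 0 u := by
    intro σ τ u
    have h1 : HasDerivAt (fun u => Pi b 1 (pr b (Lm u)) σ τ)
        (Pi b 1 (∑ x ∈ b, P (Function.update (blk b (Lm u)) x sm)) σ τ) u := by
      simp only [Pi, Matrix.of_apply]
      split_ifs
      · exact hasDerivAt_pr b Lm sm u (fun i j => hasDerivAt_Lm u i j) σ τ
      · exact hasDerivAt_const _ _
    have h3 : (∑ x ∈ b, P (Function.update (blk b (Lm u)) x sm)) = Sg b sm * pr b (Lm u) := by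
      rw [Sg_mul_pr, sm_mul_Lm]
    have h4 : Pi b 1 (Sg b sm * pr b (Lm u)) = Sg b sm := by
      have := (shift_Sm b).mul_Pi 0 (pr b (Lm u))
      rw [zero_add, Pi_zero_Lm, mul_one] at this
      exact this.symm
    rw [h3, h4] at h1
    have h5 : HasDerivAt (fun u : ℝ => (u : ℂ) * Sg b sm σ τ) (Sg b sm σ τ) u := by
      have := ((hasDerivAt_id u).ofReal_comp).mul_const (Sg b sm σ τ)
      simpa using this
    have := h1.sub h5
    rw [sub_self] at this
    exact this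
  ext σ τ
  have h5 := is_const_of_deriv_eq_zero
    (f := fun u : ℝ => Pi b 1 (pr b (Lm u)) σ τ - (u : ℂ) * Sg b sm σ τ)
    (fun u => (hd σ τ u).differentiableAt) (fun u => (hd σ τ u).deriv) u 0
  have h6 : Lm 0 = 1 := by
    ext i j; fin_cases i <;> fin_cases j <;> simp [Lm]
  have h7 : Pi b 1 (1 : Opr V) σ τ = 0 := by
    simp only [Pi, Matrix.of_apply]
    split_ifs with h
    · apply Matrix.one_apply_ne
      intro hc
      rw [hc, sub_self] at h
      exact absurd h (by norm_num)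
    · rfl
  simp only [h6, pr_one, h7, Complex.ofReal_zero, zero_mul, sub_zero] at h5
  rw [Matrix.smul_apply, smul_eq_mul]
  linear_combination h5

theorem pr_Dm_mulVec (b : Finset V) {d : ℝ} (hd : d ≠ 0) {r N : ℕ} (hN : N + 2 * r = b.card)
    {v : (V → Fin 2) → ℂ} (hv : Supp b r v) : pr b (Dm d) *ᵥ v = ((d ^ N : ℝ) : ℂ) • v := by
  have hd' : (d : ℂ) ≠ 0 := by exact_mod_cast hd
  ext σ
  rw [Matrix.mulVec, dotProduct, Finset.sum_eq_single σ]
  · rw [Pi.smul_apply, smul_eq_mul]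
    by_cases h0 : v σ = 0
    · rw [h0]; simp
    congr 1
    have h1 := hv σ h0
    have h2 : pr b (Dm d) σ σ = ∏ y ∈ b, ((d : ℂ) * ((d : ℂ)⁻¹ ^ 2) ^ ((σ y : ℕ))) := by
      rw [pr, P, Matrix.of_apply, ← Finset.prod_subset (Finset.subset_univ b)]
      · refine Finset.prod_congr rfl fun y hy => ?_
        rw [blk, if_pos hy]
        generalize σ y = i
        fin_cases i
        · simp [Dm]
        · simp [Dm]; field_simp
      · intro y _ hy
        rw [blk, if_neg hy, Matrix.one_apply_eq]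
    have h3 : ∑ y ∈ b, (σ y : ℕ) = r := by
      have : ((∑ y ∈ b, (σ y : ℕ) : ℕ) : ℤ) = r := by rw [← h1, nb]; push_cast; rfl
      exact_mod_cast this
    rw [h2, Finset.prod_mul_distrib, Finset.prod_const, Finset.prod_pow_eq_pow_sum, h3, ← hN]
    push_cast
    rw [pow_add, pow_mul (d : ℂ) 2 r, mul_assoc, ← mul_pow]
    have : (d : ℂ) ^ 2 * (d : ℂ)⁻¹ ^ 2 = 1 := by field_simp
    rw [this, one_pow, mul_one]
  · intro τ _ hτ
    have : pr b (Dm d) σ τ = 0 := by
      rw [pr, P, Matrix.of_apply]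
      obtain ⟨y, hy⟩ := Function.ne_iff.mp hτ
      refine Finset.prod_eq_zero (Finset.mem_univ y) ?_
      rw [blk]
      split_ifs
      · revert hy
        generalize σ y = i
        generalize τ y = j
        intro hy
        fin_cases i <;> fin_cases j <;> simp [Dm] at hy ⊢
      · exact Matrix.one_apply_ne (Ne.symm hy)
    rw [this, zero_mul]
  · intro h; exact absurd (Finset.mem_univ _) h

/-- `d(θ) = cosh(k/2) + sinh(k/2) cos θ`. -/
noncomputable def dd (k θ : ℝ) : ℝ := Real.cosh (k / 2) + Real.sinh (k / 2) * Real.cos θ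

theorem dd_pos {k : ℝ} (hk : 0 ≤ k) (θ : ℝ) : 0 < dd k θ := by
  have h1 : 0 ≤ Real.sinh (k / 2) := Real.sinh_nonneg_iff.2 (by linarith)
  have h2 : 0 < Real.cosh (k / 2) - Real.sinh (k / 2) := by
    rw [Real.cosh_sub_sinh]; exact Real.exp_pos _
  have h3 := Real.neg_one_le_cos θ
  rw [dd]
  nlinarith

theorem continuous_dd (k : ℝ) : Continuous (dd k) := by
  unfold dd; fun_prop

theorem E_mulVec {b : Finset V} {k : ℝ} (hk : 0 ≤ k) {r N : ℕ} (hN : N + 2 * r = b.card)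
    {v : (V → Fin 2) → ℂ} (hv : Supp b r v) (h : Sg b sp *ᵥ v = 0) (q : ℤ) (θ : ℝ) :
    E b k q θ *ᵥ v = ((dd k θ ^ N : ℝ) : ℂ) •
      (Pi b q (pr b (Lm (Real.sinh (k / 2) * Real.sin θ / dd k θ))) *ᵥ v) := by
  have hd := (dd_pos hk θ).ne'
  have h1 : Tw b k θ *ᵥ v = ((dd k θ ^ N : ℝ) : ℂ) •
      (pr b (Lm (Real.sinh (k / 2) * Real.sin θ / dd k θ)) *ᵥ v) := by
    rw [Tw, ← gauss k θ hd, ← pr_mul, ← pr_mul, ← Matrix.mulVec_mulVec, pr_Um_mulVec b h,
      ← Matrix.mulVec_mulVec]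
    change _ *ᵥ (pr b (Dm (dd k θ)) *ᵥ v) = _
    rw [pr_Dm_mulVec b hd hN hv, Matrix.mulVec_smul]
    rfl
  ext σ
  rw [E, Pi_mulVec hv, Pi.smul_apply, Pi_mulVec hv, h1, Pi.smul_apply]
  split_ifs <;> simp

theorem E_zero_mulVec {b : Finset V} {k : ℝ} (hk : 0 ≤ k) {r N : ℕ} (hN : N + 2 * r = b.card)
    {v : (V → Fin 2) → ℂ} (hv : Supp b r v) (h : Sg b sp *ᵥ v = 0) (θ : ℝ) :
    E b k 0 θ *ᵥ v = ((dd k θ ^ N : ℝ) : ℂ) • v := by
  rw [E_mulVec hk hN hv h, Pi_zero_Lm, Matrix.one_mulVec]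

theorem E_one_mulVec {b : Finset V} {k : ℝ} (hk : 0 ≤ k) {r N : ℕ} (hN : N + 2 * r = b.card)
    {v : (V → Fin 2) → ℂ} (hv : Supp b r v) (h : Sg b sp *ᵥ v = 0) (θ : ℝ) :
    E b k 1 θ *ᵥ v =
      ((dd k θ ^ N * (Real.sinh (k / 2) * Real.sin θ / dd k θ) : ℝ) : ℂ) • (Sg b sm *ᵥ v) := by
  rw [E_mulVec hk hN hv h, Pi_one_Lm, Matrix.smul_mulVec, smul_smul]
  push_cast
  rfl

theorem Av_mulVec (b : Finset V) (k : ℝ) (q : ℤ) {w : ℝ → ℝ} (hw : Continuous w)
    (v : (V → Fin 2) → ℂ) (σ : V → Fin 2) :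
    (Av b k q w *ᵥ v) σ = ∫ θ in (0 : ℝ)..Real.pi, ((w θ : ℝ) : ℂ) * (E b k q θ *ᵥ v) σ := by
  simp only [Av, Matrix.mulVec, dotProduct, Matrix.of_apply, Finset.mul_sum]
  rw [intervalIntegral.integral_finset_sum]
  · refine Finset.sum_congr rfl fun τ _ => ?_
    rw [← intervalIntegral.integral_mul_const]
    congr 1
    ext θ
    ring
  · intro τ _
    exact (((Complex.continuous_ofReal.comp hw).mul
      ((continuous_E b k q σ τ).mul continuous_const)).intervalIntegrable _ _)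

theorem Av_mulVec_of {b : Finset V} {k : ℝ} {q : ℤ} {w : ℝ → ℝ} (hw : Continuous w)
    {v u : (V → Fin 2) → ℂ} {f : ℝ → ℝ} (h : ∀ θ, E b k q θ *ᵥ v = ((f θ : ℝ) : ℂ) • u) :
    Av b k q w *ᵥ v = ((∫ θ in (0 : ℝ)..Real.pi, w θ * f θ : ℝ) : ℂ) • u := by
  ext σ
  rw [Av_mulVec b k q hw, Pi.smul_apply, smul_eq_mul, ← intervalIntegral.integral_ofReal,
    ← intervalIntegral.integral_mul_const]
  congr 1
  ext θ
  rw [h, Pi.smul_apply, smul_eq_mul]
  push_cast
  ring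

/-- `a(N) = ½ ∫ sin θ d^N`. -/
noncomputable def aN (k : ℝ) (N : ℕ) : ℝ :=
  ∫ θ in (0 : ℝ)..Real.pi, 1 / 2 * Real.sin θ ^ 1 * dd k θ ^ N
/-- `b₀(N) = ½ ∫ sin θ cos θ d^N`. -/
noncomputable def b0N (k : ℝ) (N : ℕ) : ℝ :=
  ∫ θ in (0 : ℝ)..Real.pi, 1 / 2 * Real.cos θ * Real.sin θ ^ 1 * dd k θ ^ N
/-- `b₁(N) = ½ ∫ sin³ θ sinh(k/2) d^{N-1}`. -/
noncomputable def b1N (k : ℝ) (N : ℕ) : ℝ :=
  ∫ θ in (0 : ℝ)..Real.pi, 1 / 2 * Real.sin θ ^ 2 *
    (dd k θ ^ N * (Real.sinh (k / 2) * Real.sin θ / dd k θ))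

section HW

variable {b : Finset V} {k : ℝ} {r N : ℕ} {v : (V → Fin 2) → ℂ}

theorem opA_hw (hk : 0 ≤ k) (hN : N + 2 * r = b.card) (hv : Supp b r v)
    (h : Sg b sp *ᵥ v = 0) : opA b k *ᵥ v = ((aN k N : ℝ) : ℂ) • v :=
  Av_mulVec_of (by fun_prop) (E_zero_mulVec hk hN hv h)

theorem opB_hw (hk : 0 ≤ k) (hN : N + 2 * r = b.card) (hv : Supp b r v)
    (h : Sg b sp *ᵥ v = 0) : opB b k *ᵥ v = ((b0N k N : ℝ) : ℂ) • v :=
  Av_mulVec_of (by fun_prop) (E_zero_mulVec hk hN hv h)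

theorem opC_hw (hk : 0 ≤ k) (hN : N + 2 * r = b.card) (hv : Supp b r v)
    (h : Sg b sp *ᵥ v = 0) : opC b k *ᵥ v = ((b1N k N : ℝ) : ℂ) • (Sg b sm *ᵥ v) :=
  Av_mulVec_of (by fun_prop) (E_one_mulVec hk hN hv h)

theorem opA_ladder (hk : 0 ≤ k) (hN : N + 2 * r = b.card) (hv : Supp b r v)
    (h : Sg b sp *ᵥ v = 0) (p : ℕ) :
    opA b k *ᵥ (Sg b sm ^ p *ᵥ v) = ((aN k N : ℝ) : ℂ) • (Sg b sm ^ p *ᵥ v) := by
  induction p with
  | zero => simpa using opA_hw hk hN hv h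
  | succ p ih =>
    rw [pow_succ', ← Matrix.mulVec_mulVec, Matrix.mulVec_mulVec _ (opA b k), ← comm_Sm_A,
      ← Matrix.mulVec_mulVec, ih, Matrix.mulVec_smul]

theorem opC_ladder (hk : 0 ≤ k) (hN : N + 2 * r = b.card) (hv : Supp b r v)
    (h : Sg b sp *ᵥ v = 0) (p : ℕ) :
    opC b k *ᵥ (Sg b sm ^ p *ᵥ v) = ((b1N k N : ℝ) : ℂ) • (Sg b sm ^ (p + 1) *ᵥ v) := by
  induction p with
  | zero => simpa using opC_hw hk hN hv h
  | succ p ih =>
    rw [pow_succ', ← Matrix.mulVec_mulVec, Matrix.mulVec_mulVec _ (opC b k), ← comm_Sm_C,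
      ← Matrix.mulVec_mulVec, ih, Matrix.mulVec_smul, pow_succ' _ (p + 1),
      ← Matrix.mulVec_mulVec]

theorem opB_ladder (hk : 0 ≤ k) (hN : N + 2 * r = b.card) (hv : Supp b r v)
    (h : Sg b sp *ᵥ v = 0) (p : ℕ) :
    opB b k *ᵥ (Sg b sm ^ p *ᵥ v) =
      ((b0N k N - p * b1N k N : ℝ) : ℂ) • (Sg b sm ^ p *ᵥ v) := by
  induction p with
  | zero => simpa using opB_hw hk hN hv h
  | succ p ih =>
    have h1 : opB b k *ᵥ (Sg b sm *ᵥ (Sg b sm ^ p *ᵥ v)) =
        Sg b sm *ᵥ (opB b k *ᵥ (Sg b sm ^ p *ᵥ v)) - opC b k *ᵥ (Sg b sm ^ p *ᵥ v) := by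
      rw [Matrix.mulVec_mulVec _ (opB b k), comm_Sm_B, Matrix.sub_mulVec, ← Matrix.mulVec_mulVec]
    have h2 : Sg b sm ^ (p + 1) *ᵥ v = Sg b sm *ᵥ (Sg b sm ^ p *ᵥ v) := by
      rw [pow_succ', Matrix.mulVec_mulVec]
    rw [h2, h1, ih, opC_ladder hk hN hv h, h2, Matrix.mulVec_smul, ← sub_smul]
    congr 1
    push_cast
    ring

end HW

end Vale.Agent.P361.LRO.TwJ
end

section

/-!
P361, block twist, part 4: joint eigenvectors of the Casimir operator and `S³` of a block.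
-/

namespace Vale.Agent.P361.LRO.TwJ

set_option linter.all false

open Matrix Finset
open scoped ComplexOrder

variable {V : Type} [Fintype V] [DecidableEq V]

theorem st_conj (x : V) (A : M2) : (st x A)ᴴ = st x Aᴴ := by
  ext σ τ
  rw [Matrix.conjTranspose_apply, st_apply, st_apply, Matrix.conjTranspose_apply, star_mul']
  congr 1
  have : (∀ y, y ≠ x → τ y = σ y) ↔ (∀ y, y ≠ x → σ y = τ y) :=
    ⟨fun h y hy => (h y hy).symm, fun h y hy => (h y hy).symm⟩
  simp only [this]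
  split_ifs <;> simp

theorem Sg_conj (b : Finset V) (A : M2) : (Sg b A)ᴴ = Sg b Aᴴ := by
  simp only [Sg, Matrix.conjTranspose_sum, st_conj]

theorem sm_conj : smᴴ = sp := by
  ext i j; fin_cases i <;> fin_cases j <;> simp [sm, sp]

theorem sp_conj : spᴴ = sm := by
  ext i j; fin_cases i <;> fin_cases j <;> simp [sm, sp]

theorem sz_conj : szᴴ = sz := by
  ext i j; fin_cases i <;> fin_cases j <;> simp [sz]

/-- The Casimir operator `S_b²`. -/
noncomputable def Cas (b : Finset V) : Opr V :=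
  Sg b sm * Sg b sp + Sg b sz * Sg b sz + Sg b sz

theorem Cas_herm (b : Finset V) : (Cas b).IsHermitian := by
  rw [Matrix.IsHermitian, Cas]
  simp only [Matrix.conjTranspose_add, Matrix.conjTranspose_mul, Sg_conj, sm_conj, sp_conj,
    sz_conj]

theorem Sz_herm (b : Finset V) : (Sg b sz).IsHermitian := by
  rw [Matrix.IsHermitian, Sg_conj, sz_conj]

theorem Sz_Sm (b : Finset V) : Sg b sz * Sg b sm = Sg b sm * Sg b sz - Sg b sm := by
  have := Sg_comm b sz sm
  rw [comm_sz_sm] at this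
  have h2 : Sg b (-sm) = -Sg b sm := by
    have := Sg_smul b (-1) sm
    simpa using this
  rw [h2, sub_eq_iff_eq_add] at this
  rw [this]
  abel

theorem Sz_Sp (b : Finset V) : Sg b sz * Sg b sp = Sg b sp * Sg b sz + Sg b sp := by
  have := Sg_comm b sz sp
  rw [comm_sz_sp] at this
  rw [← sub_eq_iff_eq_add'.1 this]

theorem Sp_Sm (b : Finset V) :
    Sg b sp * Sg b sm = Sg b sm * Sg b sp + (2 : ℂ) • Sg b sz := by
  have := Sg_comm b sp sm
  rw [comm_sp_sm, Sg_smul] at this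
  rw [← sub_eq_iff_eq_add'.1 this]

theorem Cas_Sz (b : Finset V) : Cas b * Sg b sz = Sg b sz * Cas b := by
  have h1 := Sz_Sm b
  have h2 := Sz_Sp b
  set Z := Sg b sz
  set M := Sg b sm
  set Q := Sg b sp
  have h3 : Z * (M * Q) = M * Q * Z := by
    rw [← mul_assoc, h1, sub_mul, mul_assoc, h2]
    noncomm_ring
  rw [Cas]
  change (M * Q + Z * Z + Z) * Z = Z * (M * Q + Z * Z + Z)
  rw [mul_add, mul_add, h3]
  noncomm_ring

theorem Cas_Sp (b : Finset V) : Cas b * Sg b sp = Sg b sp * Cas b := by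
  have h1 := Sp_Sm b
  have h2 := Sz_Sp b
  set Z := Sg b sz
  set M := Sg b sm
  set Q := Sg b sp
  have h2' : Q * Z = Z * Q - Q := by rw [h2]; abel
  have h3 : Q * (M * Q) = M * Q * Q + (2 : ℂ) • (Z * Q) := by
    rw [← mul_assoc, h1, add_mul, Matrix.smul_mul]
  have h4 : Q * (Z * Z) = Z * Z * Q - (2 : ℂ) • (Z * Q) + Q := by
    rw [← mul_assoc, h2', sub_mul, mul_assoc, h2', mul_sub, two_smul]
    noncomm_ring
  rw [Cas]
  change (M * Q + Z * Z + Z) * Q = Q * (M * Q + Z * Z + Z)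
  rw [mul_add, mul_add, h3, h4, h2']
  noncomm_ring

/-- Squared norm. -/
theorem re_star_dot_nonneg (v : (V → Fin 2) → ℂ) : 0 ≤ (star v ⬝ᵥ v).re :=
  (Complex.le_def.1 (dotProduct_star_self_nonneg v)).1

theorem re_star_dot_pos {v : (V → Fin 2) → ℂ} (hv : v ≠ 0) : 0 < (star v ⬝ᵥ v).re := by
  refine lt_of_le_of_ne (re_star_dot_nonneg v) fun h => hv ?_
  have h1 := Complex.le_def.1 (dotProduct_star_self_nonneg v)
  apply dotProduct_star_self_eq_zero.1
  apply Complex.ext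
  · rw [← h]; rfl
  · rw [← h1.2]

theorem form_conj (X : Opr V) (v w : (V → Fin 2) → ℂ) :
    star v ⬝ᵥ (Xᴴ *ᵥ w) = star (X *ᵥ v) ⬝ᵥ w := by
  rw [Matrix.star_mulVec, Matrix.dotProduct_mulVec]

theorem form_sp (b : Finset V) (v w : (V → Fin 2) → ℂ) :
    star v ⬝ᵥ (Sg b sp *ᵥ w) = star (Sg b sm *ᵥ v) ⬝ᵥ w := by
  rw [← form_conj, Sg_conj, sm_conj]

theorem form_sm (b : Finset V) (v w : (V → Fin 2) → ℂ) :
    star v ⬝ᵥ (Sg b sm *ᵥ w) = star (Sg b sp *ᵥ v) ⬝ᵥ w := by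
  rw [← form_conj, Sg_conj, sp_conj]

/-- A joint eigenvector of the Casimir operator and `S³` lies on the ladder of a highest weight
vector. -/
theorem joint {b : Finset V} {k : ℝ} (hk : 0 ≤ k) {w : (V → Fin 2) → ℂ} (hw : w ≠ 0) {lam mu : ℂ}
    (h1 : Cas b *ᵥ w = lam • w) (h2 : Sg b sz *ᵥ w = mu • w) :
    ∃ N r p : ℕ, N + 2 * r = b.card ∧ p ≤ N ∧
      Cas b *ᵥ w = (((N : ℝ) / 2 * ((N : ℝ) / 2 + 1) : ℝ) : ℂ) • w ∧
      Sg b sz *ᵥ w = (((N : ℝ) / 2 - p : ℝ) : ℂ) • w ∧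
      opA b k *ᵥ w = ((aN k N : ℝ) : ℂ) • w ∧
      opB b k *ᵥ w = ((b0N k N - p * b1N k N : ℝ) : ℂ) • w := by
  classical
  -- the weight
  obtain ⟨σ0, hσ0⟩ := Function.ne_iff.1 hw
  have hmu : ∀ σ, w σ ≠ 0 → (b.card : ℂ) / 2 - (nb b σ : ℂ) = mu := by
    intro σ hσ
    have := congrFun h2 σ
    rw [Sz_eq, Matrix.mulVec_diagonal, Pi.smul_apply, smul_eq_mul] at this
    exact mul_right_cancel₀ hσ this
  set m := nb b σ0 with hm
  have hwm : Supp b m w := by
    intro σ hσ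
    have h3 := hmu σ hσ
    have h4 := hmu σ0 hσ0
    have h5 : ((nb b σ : ℤ) : ℂ) = ((m : ℤ) : ℂ) := by
      rw [hm]; linear_combination h4 - h3
    exact_mod_cast h5
  have hmu' : mu = (b.card : ℂ) / 2 - (m : ℂ) := (hmu σ0 hσ0).symm
  -- raising
  have hsupp : ∀ j : ℕ, Supp b (m - j) (Sg b sp ^ j *ᵥ w) := by
    intro j
    induction j with
    | zero => simpa using hwm
    | succ j ih =>
      rw [pow_succ', ← Matrix.mulVec_mulVec]
      have := (shift_Sp b).supp ih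
      convert this using 1
      push_cast; ring
  have hex : ∃ j : ℕ, Sg b sp ^ (j + 1) *ᵥ w = 0 := by
    refine ⟨m.toNat, ?_⟩
    by_contra hne
    obtain ⟨σ, hσ⟩ := Function.ne_iff.1 hne
    have h3 := hsupp (m.toNat + 1) σ hσ
    have h4 := nb_nonneg b σ
    have h5 := nb_nonneg b σ0
    have h6 := Int.toNat_of_nonneg h5
    push_cast at h3
    omega
  set p := Nat.find hex with hp
  have hp0 : Sg b sp ^ (p + 1) *ᵥ w = 0 := Nat.find_spec hex
  have hpj : ∀ j, j ≤ p → Sg b sp ^ j *ᵥ w ≠ 0 := by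
    intro j hj
    cases j with
    | zero => simpa using hw
    | succ j => exact Nat.find_min hex (by omega)
  set v := Sg b sp ^ p *ᵥ w with hv
  have hv0 : v ≠ 0 := hpj p le_rfl
  have hspv : Sg b sp *ᵥ v = 0 := by
    rw [hv, Matrix.mulVec_mulVec, ← pow_succ']
    exact hp0
  have hvs : Supp b (m - p) v := hsupp p
  obtain ⟨σ1, hσ1⟩ := Function.ne_iff.1 hv0
  have hr1 := hvs σ1 hσ1
  have hr0 := nb_nonneg b σ1
  set r := (m - p).toNat with hr
  have hr2 : (r : ℤ) = m - p := Int.toNat_of_nonneg (by omega)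
  rw [← hr2] at hvs
  have hSzv : Sg b sz *ᵥ v = (((b.card : ℂ) / 2 - r)) • v := by
    ext σ
    rw [Sz_eq, Matrix.mulVec_diagonal, Pi.smul_apply, smul_eq_mul]
    by_cases h0 : v σ = 0
    · rw [h0]; simp
    · rw [hvs σ h0]; push_cast; ring
  -- `n - 2 r ≥ 0`
  have hN0 : 2 * r ≤ b.card := by
    have h3 : star v ⬝ᵥ ((Sg b sp * Sg b sm) *ᵥ v) =
        ((b.card : ℂ) - 2 * r) * (star v ⬝ᵥ v) := by
      rw [Sp_Sm, Matrix.add_mulVec, ← Matrix.mulVec_mulVec, hspv, Matrix.mulVec_zero, zero_add,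
        Matrix.smul_mulVec, hSzv, smul_smul, dotProduct_smul, smul_eq_mul]
      ring
    have h4 : star v ⬝ᵥ ((Sg b sp * Sg b sm) *ᵥ v) = star (Sg b sm *ᵥ v) ⬝ᵥ (Sg b sm *ᵥ v) := by
      rw [← Matrix.mulVec_mulVec, form_sp]
    have h5 := re_star_dot_nonneg (Sg b sm *ᵥ v)
    rw [← h4, h3] at h5
    have h6 := re_star_dot_pos hv0
    have h7 : (((b.card : ℂ) - 2 * r) * (star v ⬝ᵥ v)).re =
        ((b.card : ℝ) - 2 * r) * (star v ⬝ᵥ v).re := by
      rw [Complex.mul_re]; simp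
    rw [h7] at h5
    have h8 : 0 ≤ (b.card : ℝ) - 2 * r := by
      by_contra hc
      push Not at hc
      nlinarith
    have : (2 * r : ℝ) ≤ b.card := by linarith
    exact_mod_cast this
  set N := b.card - 2 * r with hNdef
  have hN : N + 2 * r = b.card := by omega
  have hNr : (N : ℝ) = (b.card : ℝ) - 2 * r := by
    rw [← hN]; push_cast; ring
  have hNc : (b.card : ℂ) = (N : ℂ) + 2 * r := by rw [← hN]; push_cast; ring
  -- the Casimir eigenvalue
  have hCj : ∀ j : ℕ, Cas b *ᵥ (Sg b sp ^ j *ᵥ w) = lam • (Sg b sp ^ j *ᵥ w) := by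
    intro j
    induction j with
    | zero => simpa using h1
    | succ j ih =>
      rw [pow_succ', ← Matrix.mulVec_mulVec, Matrix.mulVec_mulVec _ (Cas b), Cas_Sp,
        ← Matrix.mulVec_mulVec, ih, Matrix.mulVec_smul]
  have hlam : lam = (N : ℂ) / 2 * ((N : ℂ) / 2 + 1) := by
    have h3 := hCj p
    rw [← hv, Cas, Matrix.add_mulVec, Matrix.add_mulVec, ← Matrix.mulVec_mulVec, hspv,
      Matrix.mulVec_zero, zero_add, ← Matrix.mulVec_mulVec, hSzv, Matrix.mulVec_smul, hSzv,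
      smul_smul, ← add_smul] at h3
    have h4 := congrFun h3 σ1
    rw [Pi.smul_apply, Pi.smul_apply, smul_eq_mul, smul_eq_mul] at h4
    have h5 := mul_right_cancel₀ hσ1 h4
    rw [← h5, hNc]; ring
  have hmuN : mu = (N : ℂ) / 2 - p := by
    rw [hmu', hNc]
    have : ((m : ℤ) : ℂ) = (r : ℂ) + p := by
      have : (m : ℤ) = r + p := by omega
      rw [this]; push_cast; ring
    rw [this]; ring
  have hSzj : ∀ j : ℕ, Sg b sz *ᵥ (Sg b sp ^ j *ᵥ w) = (mu + j) • (Sg b sp ^ j *ᵥ w) := by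
    intro j
    ext σ
    rw [Sz_eq, Matrix.mulVec_diagonal, Pi.smul_apply, smul_eq_mul]
    by_cases h0 : (Sg b sp ^ j *ᵥ w) σ = 0
    · rw [h0]; simp
    · rw [hsupp j σ h0, hmu']; push_cast; ring
  have hSmSp : ∀ j : ℕ, (Sg b sm * Sg b sp) *ᵥ (Sg b sp ^ j *ᵥ w) =
      (lam - (mu + j) * (mu + j) - (mu + j)) • (Sg b sp ^ j *ᵥ w) := by
    intro j
    have h3 : Sg b sm * Sg b sp = Cas b - Sg b sz * Sg b sz - Sg b sz := by
      rw [Cas]; abel
    rw [h3, Matrix.sub_mulVec, Matrix.sub_mulVec, hCj, ← Matrix.mulVec_mulVec, hSzj,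
      Matrix.mulVec_smul, hSzj, smul_smul, sub_smul, sub_smul]
  -- descending back to `w`
  have hkap : ∀ j : ℕ, j ≤ p → ∃ c : ℂ, c ≠ 0 ∧ Sg b sm ^ j *ᵥ (Sg b sp ^ j *ᵥ w) = c • w := by
    intro j
    induction j with
    | zero => intro _; exact ⟨1, one_ne_zero, by simp⟩
    | succ j ih =>
      intro hj
      obtain ⟨c, hc, hcw⟩ := ih (by omega)
      refine ⟨(lam - (mu + j) * (mu + j) - (mu + j)) * c, mul_ne_zero ?_ hc, ?_⟩
      · intro h0
        have h3 := hSmSp j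
        rw [h0, zero_smul] at h3
        have h4 : star (Sg b sp ^ j *ᵥ w) ⬝ᵥ ((Sg b sm * Sg b sp) *ᵥ (Sg b sp ^ j *ᵥ w)) =
            star (Sg b sp *ᵥ (Sg b sp ^ j *ᵥ w)) ⬝ᵥ (Sg b sp *ᵥ (Sg b sp ^ j *ᵥ w)) := by
          rw [← Matrix.mulVec_mulVec, form_sm]
        rw [h3, dotProduct_zero] at h4
        have h5 := dotProduct_star_self_eq_zero.1 h4.symm
        apply hpj (j + 1) hj
        rw [pow_succ', ← Matrix.mulVec_mulVec]
        exact h5
      · have h3 : Sg b sm ^ (j + 1) *ᵥ (Sg b sp ^ (j + 1) *ᵥ w) =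
            Sg b sm ^ j *ᵥ ((Sg b sm * Sg b sp) *ᵥ (Sg b sp ^ j *ᵥ w)) := by
          rw [Matrix.mulVec_mulVec, Matrix.mulVec_mulVec, Matrix.mulVec_mulVec, pow_succ,
            pow_succ']
          simp only [mul_assoc]
        rw [h3, hSmSp, Matrix.mulVec_smul, hcw, smul_smul]
  obtain ⟨c, hc, hcw⟩ := hkap p le_rfl
  rw [← hv] at hcw
  have hwv : w = c⁻¹ • (Sg b sm ^ p *ᵥ v) := by
    rw [hcw, smul_smul, inv_mul_cancel₀ hc, one_smul]
  refine ⟨N, r, p, hN, ?_, ?_, ?_, ?_, ?_⟩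
  · -- `p ≤ N`
    have h3 : star w ⬝ᵥ ((Sg b sp * Sg b sm) *ᵥ w) =
        (lam - mu * mu + mu) * (star w ⬝ᵥ w) := by
      have h4 := hSmSp 0
      simp only [pow_zero, Matrix.one_mulVec, Nat.cast_zero, add_zero] at h4
      rw [Sp_Sm, Matrix.add_mulVec, h4, Matrix.smul_mulVec, h2, smul_smul, ← add_smul,
        dotProduct_smul, smul_eq_mul]
      ring
    have h4 : star w ⬝ᵥ ((Sg b sp * Sg b sm) *ᵥ w) = star (Sg b sm *ᵥ w) ⬝ᵥ (Sg b sm *ᵥ w) := by
      rw [← Matrix.mulVec_mulVec, form_sp]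
    have h5 := re_star_dot_nonneg (Sg b sm *ᵥ w)
    rw [← h4, h3] at h5
    have h6 := re_star_dot_pos hw
    have h7 : lam - mu * mu + mu = ((((N : ℝ) - p) * (p + 1) : ℝ) : ℂ) := by
      rw [hlam, hmuN]; push_cast; ring
    rw [h7, Complex.re_ofReal_mul] at h5
    by_contra hc
    push Not at hc
    have h8 : (N : ℝ) < p := by exact_mod_cast hc
    have h9 : (((N : ℝ) - p) * (p + 1)) < 0 :=
      mul_neg_of_neg_of_pos (by linarith) (by positivity)
    nlinarith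
  · rw [h1, hlam]; push_cast; rfl
  · rw [h2, hmuN]; push_cast; rfl
  · conv_lhs => rw [hwv]
    rw [Matrix.mulVec_smul, opA_ladder hk hN hvs hspv, smul_comm, ← hwv]
  · conv_lhs => rw [hwv]
    rw [Matrix.mulVec_smul, opB_ladder hk hN hvs hspv, smul_comm, ← hwv]

end Vale.Agent.P361.LRO.TwJ
end

section

/-!
Elementary toolbox for Part A of `Defs.lean` (charge networks).
-/

namespace Vale.Agent.P361.LRO

open Finset Matrix

set_option linter.unusedSectionVars false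

section BaseA

variable {X : Type} [Fintype X] [DecidableEq X]

/-! ### The law of the permutation -/

theorem IsLaw.sum_eq {μ : Equiv.Perm X → ℝ} (h : IsLaw μ) : ∑ π, μ π = 1 := by
  obtain ⟨l, σ, hl, rfl⟩ := h
  exact law_sum l σ

/-! ### Weights and charges -/

theorem fin2_cast (a : Fin 2) : ((a : ℕ) : ℝ) = 0 ∨ ((a : ℕ) : ℝ) = 1 := by
  fin_cases a <;> simp

theorem fin2_cast_inj {a b : Fin 2} : ((a : ℕ) : ℝ) = ((b : ℕ) : ℝ) ↔ a = b := by
  constructor
  · intro h; exact Fin.ext (by exact_mod_cast h)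
  · rintro rfl; rfl

theorem jj_eq_zero_iff (π : Equiv.Perm X) (s : X → Fin 2) (x : X) :
    jj π s x = 0 ↔ s x = s (π x) := by
  unfold jj
  rw [sub_eq_zero, fin2_cast_inj]

theorem abs_jj_le (π : Equiv.Perm X) (s : X → Fin 2) (x : X) : |jj π s x| ≤ 1 := by
  unfold jj
  rcases fin2_cast (s x) with h2 | h2 <;> rcases fin2_cast (s (π x)) with h3 | h3 <;>
    rw [h2, h3] <;> norm_num

theorem ZZ_ge_two {μ : Equiv.Perm X → ℝ} (hμ : ∀ π, 0 ≤ μ π) (hs : ∑ π, μ π = 1) {θ : X → ℝ}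
    (hθ : ∀ x, 0 ≤ θ x) : 1 ≤ ZZ μ θ := by
  unfold ZZ
  rw [← hs]
  apply Finset.sum_le_sum
  intro π _
  rw [← Finset.mul_sum]
  have h : (1 : ℝ) ≤ ∑ s, wt θ π s := by
    calc (1 : ℝ) = wt θ π (fun _ => 0) := (wt_const θ π 0).symm
      _ ≤ ∑ s, wt θ π s := Finset.single_le_sum (f := fun s => wt θ π s)
          (fun s _ => wt_nonneg hθ π s) (Finset.mem_univ _)
  nlinarith [hμ π]

/-! ### Linearity of the expectation -/

theorem EE_congr {μ : Equiv.Perm X → ℝ} {θ : X → ℝ} {f g : Equiv.Perm X → (X → Fin 2) → ℝ}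
    (h : ∀ π s, f π s = g π s) : EE μ θ f = EE μ θ g := by
  have : f = g := funext fun π => funext fun s => h π s
  rw [this]

theorem EE_add (μ : Equiv.Perm X → ℝ) (θ : X → ℝ) (f g : Equiv.Perm X → (X → Fin 2) → ℝ) :
    EE μ θ (fun π s => f π s + g π s) = EE μ θ f + EE μ θ g := by
  unfold EE
  rw [← add_div, ← Finset.sum_add_distrib]
  congr 1
  refine Finset.sum_congr rfl fun π _ => ?_
  rw [← Finset.sum_add_distrib]
  exact Finset.sum_congr rfl fun s _ => by ring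

theorem EE_mul_left (μ : Equiv.Perm X → ℝ) (θ : X → ℝ) (c : ℝ)
    (f : Equiv.Perm X → (X → Fin 2) → ℝ) :
    EE μ θ (fun π s => c * f π s) = c * EE μ θ f := by
  unfold EE
  rw [← mul_div_assoc, Finset.mul_sum]
  congr 1
  refine Finset.sum_congr rfl fun π _ => ?_
  rw [Finset.mul_sum]
  exact Finset.sum_congr rfl fun s _ => by ring

theorem EE_neg (μ : Equiv.Perm X → ℝ) (θ : X → ℝ) (f : Equiv.Perm X → (X → Fin 2) → ℝ) :
    EE μ θ (fun π s => - f π s) = - EE μ θ f := by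
  have h := EE_mul_left μ θ (-1) f
  simpa using h

theorem EE_sub (μ : Equiv.Perm X → ℝ) (θ : X → ℝ) (f g : Equiv.Perm X → (X → Fin 2) → ℝ) :
    EE μ θ (fun π s => f π s - g π s) = EE μ θ f - EE μ θ g := by
  have h := EE_add μ θ f (fun π s => - g π s)
  rw [EE_neg] at h
  simpa [sub_eq_add_neg] using h

theorem EE_sum {ι : Type*} (μ : Equiv.Perm X → ℝ) (θ : X → ℝ) (S : Finset ι)
    (f : ι → Equiv.Perm X → (X → Fin 2) → ℝ) :
    EE μ θ (fun π s => ∑ i ∈ S, f i π s) = ∑ i ∈ S, EE μ θ (f i) := by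
  classical
  induction S using Finset.induction_on with
  | empty => simp [EE]
  | insert i S hi ih =>
    rw [Finset.sum_insert hi, ← ih, ← EE_add]
    exact EE_congr fun π s => by rw [Finset.sum_insert hi]

theorem EE_nonneg {μ : Equiv.Perm X → ℝ} (hμ : ∀ π, 0 ≤ μ π) {θ : X → ℝ} (hθ : ∀ x, 0 ≤ θ x)
    {f : Equiv.Perm X → (X → Fin 2) → ℝ} (hf : ∀ π s, 0 ≤ f π s) : 0 ≤ EE μ θ f := by
  unfold EE ZZ
  apply div_nonneg
  · exact Finset.sum_nonneg fun π _ => Finset.sum_nonneg fun s _ =>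
      mul_nonneg (mul_nonneg (hμ π) (wt_nonneg hθ π s)) (hf π s)
  · exact Finset.sum_nonneg fun π _ => Finset.sum_nonneg fun s _ =>
      mul_nonneg (hμ π) (wt_nonneg hθ π s)

theorem EE_mono {μ : Equiv.Perm X → ℝ} (hμ : ∀ π, 0 ≤ μ π) {θ : X → ℝ} (hθ : ∀ x, 0 ≤ θ x)
    {f g : Equiv.Perm X → (X → Fin 2) → ℝ} (hfg : ∀ π s, f π s ≤ g π s) :
    EE μ θ f ≤ EE μ θ g := by
  have h := EE_nonneg (f := fun π s => g π s - f π s) hμ hθ (fun π s => sub_nonneg.2 (hfg π s))
  rw [EE_sub] at h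
  linarith

theorem EE_const {μ : Equiv.Perm X → ℝ} {θ : X → ℝ} (hZ : ZZ μ θ ≠ 0) (c : ℝ) :
    EE μ θ (fun _ _ => c) = c := by
  unfold EE
  rw [div_eq_iff hZ]
  unfold ZZ
  rw [Finset.mul_sum]
  refine Finset.sum_congr rfl fun π _ => ?_
  rw [Finset.mul_sum]
  exact Finset.sum_congr rfl fun s _ => by ring

/-! ### Flip symmetry -/

/-- The global flip of the configuration. -/
def flipC : (X → Fin 2) ≃ (X → Fin 2) := Equiv.piCongrRight fun _ => Equiv.subLeft (1 : Fin 2)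

theorem flipC_apply (s : X → Fin 2) (x : X) : flipC s x = 1 - s x := rfl

theorem fin2_one_sub (a : Fin 2) : (((1 - a : Fin 2) : ℕ) : ℝ) = 1 - ((a : ℕ) : ℝ) := by
  fin_cases a <;> simp

theorem jj_flip (π : Equiv.Perm X) (s : X → Fin 2) (x : X) :
    jj π (flipC s) x = - jj π s x := by
  unfold jj
  rw [flipC_apply, flipC_apply, fin2_one_sub, fin2_one_sub]
  ring

theorem wt_flip (θ : X → ℝ) (π : Equiv.Perm X) (s : X → Fin 2) :
    wt θ π (flipC s) = wt θ π s := by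
  unfold wt
  refine Finset.prod_congr rfl fun x _ => ?_
  have : (flipC s x = flipC s (π x)) ↔ (s x = s (π x)) := by
    rw [flipC_apply, flipC_apply]; exact sub_right_inj
  simp only [this]

theorem EE_flip (μ : Equiv.Perm X → ℝ) (θ : X → ℝ) (f : Equiv.Perm X → (X → Fin 2) → ℝ) :
    EE μ θ (fun π s => f π (flipC s)) = EE μ θ f := by
  unfold EE
  congr 1
  refine Finset.sum_congr rfl fun π _ => ?_
  refine Fintype.sum_equiv flipC _ _ fun s => ?_
  rw [wt_flip]

theorem EE_odd {μ : Equiv.Perm X → ℝ} {θ : X → ℝ} {f : Equiv.Perm X → (X → Fin 2) → ℝ}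
    (h : ∀ π s, f π (flipC s) = - f π s) : EE μ θ f = 0 := by
  have h1 := EE_flip μ θ f
  rw [EE_congr h, EE_neg] at h1
  linarith

theorem EE_jj (μ : Equiv.Perm X → ℝ) (θ : X → ℝ) (x : X) :
    EE μ θ (fun π s => jj π s x) = 0 :=
  EE_odd fun π s => jj_flip π s x

theorem EE_lin (μ : Equiv.Perm X → ℝ) (θ : X → ℝ) (a : X → ℝ) :
    EE μ θ (fun π s => ∑ x, a x * jj π s x) = 0 :=
  EE_odd fun π s => by
    rw [← Finset.sum_neg_distrib]
    exact Finset.sum_congr rfl fun x _ => by rw [jj_flip]; ring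

/-! ### The quadratic form `KK` -/

theorem KK_expand (μ : Equiv.Perm X → ℝ) (θ : X → ℝ) (a : X → ℝ) :
    KK μ θ a = ∑ u, ∑ v, a u * a v * EE μ θ (fun π s => jj π s u * jj π s v) := by
  unfold KK
  rw [EE_congr (g := fun π s => ∑ u, ∑ v, (a u * a v) * (jj π s u * jj π s v))
    (fun π s => by
      rw [sq, Finset.sum_mul_sum]
      exact Finset.sum_congr rfl fun u _ => Finset.sum_congr rfl fun v _ => by ring)]
  rw [EE_sum]
  refine Finset.sum_congr rfl fun u _ => ?_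
  rw [EE_sum]
  exact Finset.sum_congr rfl fun v _ => EE_mul_left _ _ _ _

theorem KK_add_const (μ : Equiv.Perm X → ℝ) (θ : X → ℝ) (a : X → ℝ) (c : ℝ) :
    KK μ θ (fun x => a x + c) = KK μ θ a := by
  unfold KK
  refine EE_congr fun π s => ?_
  congr 1
  have : ∑ x, (a x + c) * jj π s x = ∑ x, a x * jj π s x + c * ∑ x, jj π s x := by
    rw [Finset.mul_sum, ← Finset.sum_add_distrib]
    exact Finset.sum_congr rfl fun x _ => by ring
  rw [this, sum_jj]; ring

theorem KK_smul (μ : Equiv.Perm X → ℝ) (θ : X → ℝ) (c : ℝ) (a : X → ℝ) :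
    KK μ θ (fun x => c * a x) = c ^ 2 * KK μ θ a := by
  unfold KK
  rw [← EE_mul_left]
  refine EE_congr fun π s => ?_
  have : ∑ x, c * a x * jj π s x = c * ∑ x, a x * jj π s x := by
    rw [Finset.mul_sum]; exact Finset.sum_congr rfl fun x _ => by ring
  rw [this]; ring

theorem cc_comm (μ : Equiv.Perm X → ℝ) (θ : X → ℝ) (u v : X) : cc μ θ u v = cc μ θ v u := by
  unfold cc
  rw [EE_congr (fun π s => mul_comm (jj π s u) (jj π s v))]

theorem sum_cc_right (μ : Equiv.Perm X → ℝ) (θ : X → ℝ) (u : X) : ∑ v, cc μ θ u v = 0 := by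
  unfold cc
  rw [Finset.sum_neg_distrib, ← EE_sum, neg_eq_zero]
  rw [EE_congr (g := fun _ _ => 0 * (0 : ℝ)) (fun π s => by
    rw [← Finset.mul_sum, sum_jj]; ring)]
  rw [EE_mul_left]; ring

/-- `K(a) = (1/2) ∑_{u,v} c_uv (a_u - a_v)²`. -/
theorem KK_eq (μ : Equiv.Perm X → ℝ) (θ : X → ℝ) (a : X → ℝ) :
    KK μ θ a = (1 / 2) * ∑ u, ∑ v, cc μ θ u v * (a u - a v) ^ 2 := by
  have h1 : ∑ u, ∑ v, cc μ θ u v * a u ^ 2 = 0 := by
    refine Finset.sum_eq_zero fun u _ => ?_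
    rw [← Finset.sum_mul, sum_cc_right, zero_mul]
  have h2 : ∑ u, ∑ v, cc μ θ u v * a v ^ 2 = 0 := by
    rw [Finset.sum_comm]
    refine Finset.sum_eq_zero fun v _ => ?_
    rw [← Finset.sum_mul, Finset.sum_congr rfl fun u _ => cc_comm μ θ u v, sum_cc_right, zero_mul]
  have h3 : ∑ u, ∑ v, cc μ θ u v * (a u - a v) ^ 2
      = ∑ u, ∑ v, cc μ θ u v * a u ^ 2 + ∑ u, ∑ v, cc μ θ u v * a v ^ 2
        + 2 * ∑ u, ∑ v, a u * a v * EE μ θ (fun π s => jj π s u * jj π s v) := by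
    rw [Finset.mul_sum, ← Finset.sum_add_distrib, ← Finset.sum_add_distrib]
    refine Finset.sum_congr rfl fun u _ => ?_
    rw [Finset.mul_sum, ← Finset.sum_add_distrib, ← Finset.sum_add_distrib]
    refine Finset.sum_congr rfl fun v _ => ?_
    unfold cc
    ring
  rw [KK_expand, h3, h1, h2]
  ring

end BaseA

end Vale.Agent.P361.LRO
end

section

/-!
# P361 LRO, block (6): definitions

Everything in block (6) is about an abstract family of symmetric conductances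
`c : (Tor n → ℝ) → Nd n N → Nd n N → ℝ` (field profile ↦ network on the space-time nodes).
Time: `N = m * W`, `m` windows of `W` slices, physical layers `1, …, N`,
layer `1 + w W + j` is the `j`-th slice of the window `w`.
-/

namespace Vale.Agent.P361.LRO.Ind

open Finset Vale.Agent.P361.LRO _root_.P361.LRO

noncomputable section

/-- Space-time nodes. -/
abbrev Nd (n N : ℕ) : Type := Fin (N + 1) × Tor n

/-- The site `o + (x, y, z)`. -/
def pt (n : ℕ) (o : Tor n) (x y z : ℕ) : Tor n :=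
  o + ![(x : ZMod n), (y : ZMod n), (z : ZMod n)]

/-- Lower bound for the effective conductance. -/
def LBn {X : Type} [Fintype X] (c : X → X → ℝ) (E G : Finset X) (A : ℝ) : Prop :=
  ∀ a : X → ℝ, (∀ x ∈ E, a x = 1) → (∀ x ∈ G, a x = 0) → A ≤ netK c a

/-- Upper bound for the resistance between `E` and the charge distribution `q`. -/
def RBn {X : Type} [Fintype X] (c : X → X → ℝ) (E : Finset X) (q : X → ℝ) (R : ℝ) : Prop :=
  ∀ a : X → ℝ, (∀ x ∈ E, a x = 1) → (1 - ∑ x, q x * a x) ^ 2 ≤ R * netK c a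

/-- Local information on the network `c` in the field `h` (output of block (4)). -/
structure Local (n N W : ℕ) [NeZero n] (β K c1 : ℝ) (b : Finset (Tor n)) (h : Tor n → ℝ)
    (c : Nd n N → Nd n N → ℝ) : Prop where
  symm : ∀ u v, c u v = c v u
  nonneg : ∀ u v, 0 ≤ c u v
  tot : ∀ (k : Fin (N + 1)) (x : Tor n), k ≠ 0 → ∑ v, c (k, x) v ≤ β * h x / (2 * N)
  same : ∀ (k l : Fin (N + 1)) (x : Tor n), k ≠ 0 → k < l → (l : ℕ) ≤ k + 3 * W → h x = 1 →
    c1 * (β / N) ^ 2 ≤ c (k, x) (l, x)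
  nbr : ∀ (k l : Fin (N + 1)) (x : Tor n) (i : Fin 3), k ≠ 0 → l ≠ 0 →
    ((k : ℕ) + W ≤ l ∨ (l : ℕ) + W ≤ k) → (l : ℕ) ≤ k + 3 * W → (k : ℕ) ≤ l + 3 * W →
    h x = 1 → h (x + Pi.single i 1) = 1 →
    c1 * (β / N) ^ 2 ≤ c (k, x) (l, x + Pi.single i 1)
  contact : ∀ (k : Fin (N + 1)) (x : Tor n), k ≠ 0 → (k : ℕ) ≤ W → x ∈ b → h x = 1 →
    c1 * (K / b.card) * (β / N) ≤ c (0, x) (k, x)

/-- Lowering the field (output of block (3)). -/
structure Low (n N : ℕ) [NeZero n] (β h0 lam ε : ℝ)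
    (c : (Tor n → ℝ) → Nd n N → Nd n N → ℝ) : Prop where
  prim : ∀ h h' : Tor n → ℝ, Fam n h0 lam h → Fam n h0 lam h' → (∀ x, h' x ≤ h x) →
    ∀ E G : Finset (Nd n N), Disjoint E G →
    (∀ z ∈ E ∪ G, z.1 ≠ 0 → h' z.2 = h z.2) →
    ∀ S : ℝ, 1 ≤ β * S → ∑ x, (if h' x = h x then 0 else h x) ≤ S →
    ∀ A : ℝ, 0 ≤ A → LBn (c h) E G A →
      LBn (c h') E G ((β * S) ^ (-(4 * ε)) * A - 2 * ε)
  dual : 0 < h0 → h0 ≤ 1 → ∀ h' : Tor n → ℝ, Fam n h0 lam h' →
    ∀ (E : Finset (Nd n N)) (q : Nd n N → ℝ),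
    (∀ z ∈ E, z.1 ≠ 0 → h' z.2 = 1) → (∀ z ∈ E, q z = 0) → (∀ x, q (0, x) = 0) →
    (∀ z, 0 ≤ q z) → ∑ z, q z = 1 →
    ∀ R : ℝ, 0 ≤ R → RBn (c fun _ => 1) E q R →
      RBn (c h') E q (h0 ^ (-(4 * ε)) * (R + 8 * N / (β * h0) * ∑ z, (q z) ^ 2))

/-- Window parameters: `m` windows of length `β / m`. -/
structure Win (β : ℝ) (m : ℕ) : Prop where
  pos : 0 < m
  lo : 1 / 4 ≤ β / m
  hi : β / m ≤ 1 / 3

/-! ### Geometry -/

/-- Distance of `t` to `{0, …, r - 1}` in `ZMod n`. -/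
def d1 (n r : ℕ) (t : ZMod n) : ℕ := if t.val < r then 0 else min (t.val + 1 - r) (n - t.val)

/-- Distance of `x` to the cube of side `r` at the corner `o`. -/
def dist (n : ℕ) (o : Tor n) (r : ℕ) (x : Tor n) : ℕ := ∑ i, d1 n r (x i - o i)

/-- The bump `exp (- lam * dist)`. -/
def bump (n : ℕ) (lam : ℝ) (o : Tor n) (r : ℕ) (x : Tor n) : ℝ :=
  Real.exp (-(lam * dist n o r x))

/-- `H = max (h, bump)`. -/
def HH (n : ℕ) (lam : ℝ) (o : Tor n) (r : ℕ) (h : Tor n → ℝ) (x : Tor n) : ℝ :=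
  max (h x) (bump n lam o r x)

/-- Electrode: the nodes of the extra slice on `b` and all physical nodes over the cube of side
`r` at the corner `o`. -/
def EE6 (n N : ℕ) [NeZero n] (o : Tor n) (b : Finset (Tor n)) (r : ℕ) : Finset (Nd n N) :=
  hatb N b ∪ ((univ.filter fun k => k ≠ 0) ×ˢ cube n o r)

/-- Ground: all physical nodes over the cube of side `s` at the corner `o + (4 s, 0, 0)`. -/
def GG6 (n N : ℕ) [NeZero n] (o : Tor n) (s : ℕ) : Finset (Nd n N) :=
  (univ.filter fun k => k ≠ 0) ×ˢ cube n (pt n o (4 * s) 0 0) s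

/-! ### Window averages and energies -/

/-- Layer of the `j`-th slice of the window `w` (junk value `0` if out of range). -/
def lay (N W w j : ℕ) : Fin (N + 1) :=
  if h : 1 + w * W + j < N + 1 then ⟨1 + w * W + j, h⟩ else 0

/-- Average of `a` over the window `w` at the site `o + (x, y, z)`. -/
def UU (n N W : ℕ) (o : Tor n) (a : Nd n N → ℝ) (x y z w : ℕ) : ℝ :=
  (1 / W : ℝ) * ∑ j ∈ range W, a (lay N W w j, pt n o x y z)

/-- Energy of the space edges on `[0, S)³ × [0, T)`. -/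
def Esp (S T : ℕ) (U : ℕ → ℕ → ℕ → ℕ → ℝ) : ℝ :=
  (∑ x ∈ range (S - 1), ∑ y ∈ range S, ∑ z ∈ range S, ∑ w ∈ range T,
      (U (x + 1) y z w - U x y z w) ^ 2) +
  (∑ x ∈ range S, ∑ y ∈ range (S - 1), ∑ z ∈ range S, ∑ w ∈ range T,
      (U x (y + 1) z w - U x y z w) ^ 2) +
  (∑ x ∈ range S, ∑ y ∈ range S, ∑ z ∈ range (S - 1), ∑ w ∈ range T,
      (U x y (z + 1) w - U x y z w) ^ 2)

/-- Energy of the time edges on `[0, S)³ × [0, T)`. -/
def Eti (S T : ℕ) (U : ℕ → ℕ → ℕ → ℕ → ℝ) : ℝ :=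
  ∑ x ∈ range S, ∑ y ∈ range S, ∑ z ∈ range S, ∑ w ∈ range (T - 1),
      (U x y z (w + 1) - U x y z w) ^ 2

/-- Nearest neighbour energy on `[0, S)³ × [0, T)`. -/
def E4 (S T : ℕ) (U : ℕ → ℕ → ℕ → ℕ → ℝ) : ℝ := Esp S T U + Eti S T U

/-- Number of points of `[0, S)³ × [0, T)` where `U < t`. -/
def cnt (S T : ℕ) (t : ℝ) (U : ℕ → ℕ → ℕ → ℕ → ℝ) : ℝ :=
  ∑ x ∈ range S, ∑ y ∈ range S, ∑ z ∈ range S, ∑ w ∈ range T, if U x y z w < t then 1 else 0

end

end Vale.Agent.P361.LRO.Ind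
end

section

/-!
# P361 LRO, stage 3 (Bloch's law), network chapter on cells (helper118, helper938)

Scaled fields: the physical field is `h / β` with `h ∈ Fam n h0 lam` (so `h ≤ 1`), hence the slice
parameters are `β (h/β) / (2N) = h / (2N)`.  Cells: cubes of side `3 ^ e ∼ √β`, so `27 ^ e ∼ β^{3/2}`.
Time: whole circle, `N = 4 W` (four quarters of `W` slices).
-/

namespace Vale.Agent.P361.LRO.Ind3

open Finset Vale.Agent.P361.LRO _root_.P361.LRO Vale.Agent.P361.LRO.Ind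

noncomputable section

/-- Local information on the network `c` in the scaled field `h` (long-window LOC). -/
structure Local3 (n N W : ℕ) [NeZero n] (e : ℕ) (K c1 : ℝ) (b : Finset (Tor n)) (h : Tor n → ℝ)
    (c : Nd n N → Nd n N → ℝ) : Prop where
  symm : ∀ u v, c u v = c v u
  nonneg : ∀ u v, 0 ≤ c u v
  tot : ∀ (k : Fin (N + 1)) (x : Tor n), k ≠ 0 → ∑ v, c (k, x) v ≤ h x / (2 * N)
  long : ∀ (k l : Fin (N + 1)) (p x y : Tor n), k ≠ 0 → (k : ℕ) + W ≤ l →
    x ∈ cube n p (2 * 3 ^ e) → y ∈ cube n p (2 * 3 ^ e) → h x = 1 → h y = 1 →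
    c1 / ((N : ℝ) ^ 2 * 27 ^ e) ≤ c (k, x) (l, y)
  contact : ∀ (k : Fin (N + 1)) (p x y : Tor n), W ≤ (k : ℕ) →
    x ∈ b → x ∈ cube n p (2 * 3 ^ e) → y ∈ cube n p (2 * 3 ^ e) → h y = 1 →
    c1 * (K / b.card) / ((N : ℝ) * 27 ^ e) ≤ c (0, x) (k, y)

/-- Average of `a` over the cell `(x, y, z)` (corner `o + 3^e (x,y,z)`, side `3 ^ e`) and all
layers `1, …, N`. -/
def UC (n N e : ℕ) (o : Tor n) (a : Nd n N → ℝ) (x y z : ℕ) : ℝ :=
  (1 / ((N : ℝ) * 27 ^ e)) * ∑ i ∈ range (3 ^ e), ∑ j ∈ range (3 ^ e), ∑ k ∈ range (3 ^ e),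
    ∑ t ∈ range N, a (lay N N 0 t, pt n o (3 ^ e * x + i) (3 ^ e * y + j) (3 ^ e * z + k))

/-- `UC` as a function of four variables (one time window), for `E4 S 1`, `cnt S 1`, `chain3`,
`start3`, `lines` of stage 1 with `T = 1`. -/
def UT (n N e : ℕ) (o : Tor n) (a : Nd n N → ℝ) (x y z _w : ℕ) : ℝ := UC n N e o a x y z

/-- Sum of the squared deviations from the cell averages over `[0, S)³` cells. -/
def DevC (n N e : ℕ) (o : Tor n) (a : Nd n N → ℝ) (S : ℕ) : ℝ :=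
  ∑ x ∈ range S, ∑ y ∈ range S, ∑ z ∈ range S,
    ∑ i ∈ range (3 ^ e), ∑ j ∈ range (3 ^ e), ∑ k ∈ range (3 ^ e), ∑ t ∈ range N,
      (a (lay N N 0 t, pt n o (3 ^ e * x + i) (3 ^ e * y + j) (3 ^ e * z + k)) -
        UC n N e o a x y z) ^ 2

end

end Vale.Agent.P361.LRO.Ind3
end

section

/-!
# P361 LRO, block (6), package GEOA: points and cubes of the torus (helper515)
-/

namespace Vale.Agent.P361.LRO.Ind

open Finset Vale.Agent.P361.LRO _root_.P361.LRO

/-- the three offsets as natural numbers -/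
private theorem gA_eq {n : ℕ} (o : Tor n) (r : ℕ) (y : Fin 3 → Fin r) :
    (o + fun i => ((y i : ℕ) : ZMod n)) = pt n o (y 0) (y 1) (y 2) := by
  unfold pt
  congr 1
  funext i
  fin_cases i <;> simp

theorem mem_cube_iff {n : ℕ} [NeZero n] (o x : Tor n) (r : ℕ) :
    x ∈ cube n o r ↔ ∃ a < r, ∃ b < r, ∃ c < r, x = pt n o a b c := by
  unfold cube
  constructor
  · intro h
    rw [Finset.mem_image] at h
    obtain ⟨y, -, rfl⟩ := h
    exact ⟨y 0, (y 0).isLt, y 1, (y 1).isLt, y 2, (y 2).isLt, gA_eq o r y⟩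
  · rintro ⟨a, ha, b, hb, c, hc, rfl⟩
    rw [Finset.mem_image]
    refine ⟨![⟨a, ha⟩, ⟨b, hb⟩, ⟨c, hc⟩], Finset.mem_univ _, ?_⟩
    rw [gA_eq]
    simp

theorem pt_inj {n : ℕ} [NeZero n] (o : Tor n) {a b c a' b' c' : ℕ} (ha : a < n) (hb : b < n)
    (hc : c < n) (ha' : a' < n) (hb' : b' < n) (hc' : c' < n)
    (h : pt n o a b c = pt n o a' b' c') : a = a' ∧ b = b' ∧ c = c' := by
  unfold pt at h
  have h' := add_left_cancel h
  have key : ∀ {u v : ℕ}, u < n → v < n → ((u : ZMod n) = (v : ZMod n)) → u = v := by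
    intro u v hu hv e
    have := congrArg ZMod.val e
    rwa [ZMod.val_natCast_of_lt hu, ZMod.val_natCast_of_lt hv] at this
  refine ⟨key ha ha' ?_, key hb hb' ?_, key hc hc' ?_⟩
  · have := congrFun h' 0
    simpa using this
  · have := congrFun h' 1
    simpa using this
  · have := congrFun h' 2
    simpa using this

/-- the parametrization of a cube is injective -/
theorem gA_cube_eq {n : ℕ} [NeZero n] (o : Tor n) (r : ℕ) :
    cube n o r = (range r ×ˢ range r ×ˢ range r).image fun t => pt n o t.1 t.2.1 t.2.2 := by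
  ext x
  rw [mem_cube_iff, Finset.mem_image]
  constructor
  · rintro ⟨a, ha, b, hb, c, hc, rfl⟩
    exact ⟨(a, b, c), by simp [ha, hb, hc], rfl⟩
  · rintro ⟨⟨a, b, c⟩, ht, rfl⟩
    simp only [Finset.mem_product, Finset.mem_range] at ht
    exact ⟨a, ht.1, b, ht.2.1, c, ht.2.2, rfl⟩

theorem gA_injOn {n : ℕ} [NeZero n] (o : Tor n) (r : ℕ) (hr : r ≤ n) :
    Set.InjOn (fun t : ℕ × ℕ × ℕ => pt n o t.1 t.2.1 t.2.2)
      ((range r ×ˢ range r ×ˢ range r : Finset (ℕ × ℕ × ℕ)) : Set (ℕ × ℕ × ℕ)) := by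
  rintro ⟨a, b, c⟩ ht ⟨a', b', c'⟩ ht' h
  simp only [Finset.coe_product, Finset.coe_range, Set.mem_prod, Set.mem_Iio] at ht ht'
  obtain ⟨h1, h2, h3⟩ := pt_inj o (lt_of_lt_of_le ht.1 hr) (lt_of_lt_of_le ht.2.1 hr)
    (lt_of_lt_of_le ht.2.2 hr) (lt_of_lt_of_le ht'.1 hr) (lt_of_lt_of_le ht'.2.1 hr)
    (lt_of_lt_of_le ht'.2.2 hr) h
  rw [h1, h2, h3]

theorem sum_cube {n : ℕ} [NeZero n] (o : Tor n) (r : ℕ) (hr : r ≤ n) (f : Tor n → ℝ) :
    ∑ x ∈ cube n o r, f x = ∑ a ∈ range r, ∑ b ∈ range r, ∑ c ∈ range r, f (pt n o a b c) := by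
  rw [gA_cube_eq, Finset.sum_image (gA_injOn o r hr), Finset.sum_product]
  refine Finset.sum_congr rfl fun a _ => ?_
  rw [Finset.sum_product]

theorem card_cube {n : ℕ} [NeZero n] (o : Tor n) (r : ℕ) (hr : r ≤ n) :
    (cube n o r).card = r ^ 3 := by
  rw [gA_cube_eq, Finset.card_image_of_injOn (gA_injOn o r hr), Finset.card_product,
    Finset.card_product, Finset.card_range]
  ring

theorem pt_succ {n : ℕ} (o : Tor n) (a b c : ℕ) :
    pt n o (a + 1) b c = pt n o a b c + Pi.single 0 1 ∧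
    pt n o a (b + 1) c = pt n o a b c + Pi.single 1 1 ∧
    pt n o a b (c + 1) = pt n o a b c + Pi.single 2 1 := by
  unfold pt
  refine ⟨?_, ?_, ?_⟩ <;>
  · rw [add_assoc]
    congr 1
    funext i
    fin_cases i <;> simp

theorem pt_pt {n : ℕ} (o : Tor n) (a b c a' b' c' : ℕ) :
    pt n (pt n o a b c) a' b' c' = pt n o (a + a') (b + b') (c + c') := by
  unfold pt
  rw [add_assoc]
  congr 1
  funext i
  fin_cases i <;> simp

/-- the coordinates of a point -/
theorem gA_sub {n : ℕ} (o : Tor n) (a b c : ℕ) :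
    (pt n o a b c) 0 - o 0 = a ∧ (pt n o a b c) 1 - o 1 = b ∧ (pt n o a b c) 2 - o 2 = c := by
  unfold pt
  simp

end Vale.Agent.P361.LRO.Ind
end

section

/-!
# P361 LRO, block (6), package C1: straight lines
-/

namespace Vale.Agent.P361.LRO.Ind

open Finset

namespace Lines

theorem sum4 (s T : ℕ) (g : ℕ → ℕ → ℕ → ℕ → ℝ) :
    ∑ x ∈ range s, ∑ y ∈ range s, ∑ z ∈ range s, ∑ w ∈ range T, g x y z w =
      ∑ p ∈ range s ×ˢ range s ×ˢ range s ×ˢ range T, g p.1 p.2.1 p.2.2.1 p.2.2.2 := by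
  rw [sum_product]
  refine sum_congr rfl fun x _ => ?_
  rw [sum_product]
  refine sum_congr rfl fun y _ => ?_
  rw [sum_product]

theorem line_le (s : ℕ) (f : ℕ → ℝ) {x : ℕ} (hx : x < s) :
    (f x - f (x + 4 * s)) ^ 2 ≤ 4 * s * ∑ i ∈ range (5 * s - 1), (f (i + 1) - f i) ^ 2 := by
  have h1 : ∑ i ∈ range (4 * s), (f (x + (i + 1)) - f (x + i)) = f (x + 4 * s) - f x :=
    sum_range_sub (fun i => f (x + i)) (4 * s)
  have h2 := sq_sum_le_card_mul_sum_sq (s := range (4 * s))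
    (f := fun i => f (x + (i + 1)) - f (x + i))
  rw [h1, card_range] at h2
  have h3 : ∑ i ∈ range (4 * s), (f (x + (i + 1)) - f (x + i)) ^ 2 =
      ∑ i ∈ Ico x (x + 4 * s), (f (i + 1) - f i) ^ 2 := by
    rw [sum_Ico_eq_sum_range, Nat.add_sub_cancel_left]
    refine sum_congr rfl fun i _ => ?_
    rw [add_assoc]
  have h4 : ∑ i ∈ Ico x (x + 4 * s), (f (i + 1) - f i) ^ 2 ≤
      ∑ i ∈ range (5 * s - 1), (f (i + 1) - f i) ^ 2 := by
    refine sum_le_sum_of_subset_of_nonneg (fun i hi => ?_) fun i _ _ => sq_nonneg _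
    rw [mem_Ico] at hi
    rw [mem_range]
    omega
  have h5 : (f x - f (x + 4 * s)) ^ 2 = (f (x + 4 * s) - f x) ^ 2 := by ring
  rw [h5]
  refine h2.trans ?_
  rw [h3]
  push_cast
  exact mul_le_mul_of_nonneg_left h4 (by positivity)

theorem esp_ge (s T : ℕ) (U : ℕ → ℕ → ℕ → ℕ → ℝ) :
    ∑ y ∈ range s, ∑ z ∈ range s, ∑ w ∈ range T,
      ∑ x ∈ range (5 * s - 1), (U (x + 1) y z w - U x y z w) ^ 2 ≤ E4 (5 * s) T U := by
  have hss : range s ⊆ range (5 * s) := range_subset_range.2 (by omega)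
  have h0 : ∑ y ∈ range s, ∑ z ∈ range s, ∑ w ∈ range T,
      ∑ x ∈ range (5 * s - 1), (U (x + 1) y z w - U x y z w) ^ 2 =
      ∑ x ∈ range (5 * s - 1), ∑ y ∈ range s, ∑ z ∈ range s, ∑ w ∈ range T,
        (U (x + 1) y z w - U x y z w) ^ 2 :=
    ((sum_congr rfl fun y _ => sum_congr rfl fun z _ => sum_comm).trans
      (sum_congr rfl fun y _ => sum_comm)).trans sum_comm
  have h1 : ∑ x ∈ range (5 * s - 1), ∑ y ∈ range s, ∑ z ∈ range s, ∑ w ∈ range T,
        (U (x + 1) y z w - U x y z w) ^ 2 ≤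
      ∑ x ∈ range (5 * s - 1), ∑ y ∈ range (5 * s), ∑ z ∈ range (5 * s), ∑ w ∈ range T,
        (U (x + 1) y z w - U x y z w) ^ 2 := by
    refine sum_le_sum fun x _ => ?_
    refine (sum_le_sum fun y _ => sum_le_sum_of_subset_of_nonneg hss fun z _ _ =>
      sum_nonneg fun w _ => sq_nonneg _).trans ?_
    exact sum_le_sum_of_subset_of_nonneg hss fun y _ _ =>
      sum_nonneg fun z _ => sum_nonneg fun w _ => sq_nonneg _
  rw [h0]
  refine h1.trans ?_
  unfold E4 Esp Eti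
  have h2 : 0 ≤ ∑ x ∈ range (5 * s), ∑ y ∈ range (5 * s - 1), ∑ z ∈ range (5 * s),
      ∑ w ∈ range T, (U x (y + 1) z w - U x y z w) ^ 2 :=
    sum_nonneg fun x _ => sum_nonneg fun y _ => sum_nonneg fun z _ => sum_nonneg fun w _ =>
      sq_nonneg _
  have h3 : 0 ≤ ∑ x ∈ range (5 * s), ∑ y ∈ range (5 * s), ∑ z ∈ range (5 * s - 1),
      ∑ w ∈ range T, (U x y (z + 1) w - U x y z w) ^ 2 :=
    sum_nonneg fun x _ => sum_nonneg fun y _ => sum_nonneg fun z _ => sum_nonneg fun w _ =>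
      sq_nonneg _
  have h4 : 0 ≤ ∑ x ∈ range (5 * s), ∑ y ∈ range (5 * s), ∑ z ∈ range (5 * s),
      ∑ w ∈ range (T - 1), (U x y z (w + 1) - U x y z w) ^ 2 :=
    sum_nonneg fun x _ => sum_nonneg fun y _ => sum_nonneg fun z _ => sum_nonneg fun w _ =>
      sq_nonneg _
  linarith

end Lines

/-- straight lines. -/
theorem lines (s T : ℕ) (hs : 0 < s) (hT : 0 < T) (U : ℕ → ℕ → ℕ → ℕ → ℝ)
    (hU : ∀ x < s, ∀ y < s, ∀ z < s, ∀ w < T, U x y z w = 1) :
    (1 - (1 / ((s : ℝ) ^ 3 * T)) * ∑ x ∈ range s, ∑ y ∈ range s, ∑ z ∈ range s, ∑ w ∈ range T,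
      U (x + 4 * s) y z w) ^ 2 ≤ 4 / (s * T) * E4 (5 * s) T U := by
  have hs' : (0 : ℝ) < s := by exact_mod_cast hs
  have hT' : (0 : ℝ) < T := by exact_mod_cast hT
  have hc : (0 : ℝ) < (s : ℝ) ^ 3 * T := by positivity
  -- the quadruple sum of the differences
  have h1 : (s : ℝ) ^ 3 * T - ∑ x ∈ range s, ∑ y ∈ range s, ∑ z ∈ range s, ∑ w ∈ range T,
      U (x + 4 * s) y z w = ∑ x ∈ range s, ∑ y ∈ range s, ∑ z ∈ range s, ∑ w ∈ range T,
      (U x y z w - U (x + 4 * s) y z w) := by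
    simp only [sum_sub_distrib]
    have : ∑ x ∈ range s, ∑ y ∈ range s, ∑ z ∈ range s, ∑ w ∈ range T, U x y z w =
        (s : ℝ) ^ 3 * T := by
      have e : ∑ x ∈ range s, ∑ y ∈ range s, ∑ z ∈ range s, ∑ w ∈ range T, U x y z w =
          ∑ x ∈ range s, ∑ y ∈ range s, ∑ z ∈ range s, ∑ w ∈ range T, (1 : ℝ) :=
        sum_congr rfl fun x hx => sum_congr rfl fun y hy => sum_congr rfl fun z hz =>
          sum_congr rfl fun w hw => hU x (mem_range.1 hx) y (mem_range.1 hy) z (mem_range.1 hz) w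
            (mem_range.1 hw)
      rw [e]
      simp only [sum_const, card_range, nsmul_eq_mul]
      ring
    rw [this]
  -- Cauchy-Schwarz
  have h2 : (∑ x ∈ range s, ∑ y ∈ range s, ∑ z ∈ range s, ∑ w ∈ range T,
      (U x y z w - U (x + 4 * s) y z w)) ^ 2 ≤ (s : ℝ) ^ 3 * T *
      ∑ x ∈ range s, ∑ y ∈ range s, ∑ z ∈ range s, ∑ w ∈ range T,
        (U x y z w - U (x + 4 * s) y z w) ^ 2 := by
    rw [Lines.sum4, Lines.sum4]
    have := sq_sum_le_card_mul_sum_sq (s := range s ×ˢ range s ×ˢ range s ×ˢ range T)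
      (f := fun p : ℕ × ℕ × ℕ × ℕ => U p.1 p.2.1 p.2.2.1 p.2.2.2 -
        U (p.1 + 4 * s) p.2.1 p.2.2.1 p.2.2.2)
    refine this.trans (le_of_eq ?_)
    congr 1
    simp only [card_product, card_range]
    push_cast
    ring
  -- the lines
  have h3 : ∑ x ∈ range s, ∑ y ∈ range s, ∑ z ∈ range s, ∑ w ∈ range T,
      (U x y z w - U (x + 4 * s) y z w) ^ 2 ≤ 4 * (s : ℝ) ^ 2 * E4 (5 * s) T U := by
    have e1 : ∑ x ∈ range s, ∑ y ∈ range s, ∑ z ∈ range s, ∑ w ∈ range T,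
        (U x y z w - U (x + 4 * s) y z w) ^ 2 ≤
        ∑ x ∈ range s, 4 * (s : ℝ) * ∑ y ∈ range s, ∑ z ∈ range s, ∑ w ∈ range T,
          ∑ i ∈ range (5 * s - 1), (U (i + 1) y z w - U i y z w) ^ 2 := by
      refine sum_le_sum fun x hx => ?_
      rw [mul_sum]
      refine sum_le_sum fun y _ => ?_
      rw [mul_sum]
      refine sum_le_sum fun z _ => ?_
      rw [mul_sum]
      refine sum_le_sum fun w _ => ?_
      exact Lines.line_le s (fun i => U i y z w) (mem_range.1 hx)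
    rw [sum_const, card_range, nsmul_eq_mul] at e1
    have e2 := mul_le_mul_of_nonneg_left (Lines.esp_ge s T U)
      (by positivity : (0 : ℝ) ≤ 4 * (s : ℝ) ^ 2)
    refine e1.trans (le_trans (le_of_eq ?_) e2)
    ring
  have h4 : 1 - (1 / ((s : ℝ) ^ 3 * T)) * ∑ x ∈ range s, ∑ y ∈ range s, ∑ z ∈ range s,
      ∑ w ∈ range T, U (x + 4 * s) y z w =
      (∑ x ∈ range s, ∑ y ∈ range s, ∑ z ∈ range s, ∑ w ∈ range T,
        (U x y z w - U (x + 4 * s) y z w)) / ((s : ℝ) ^ 3 * T) := by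
    rw [← h1, sub_div, div_self hc.ne']
    ring
  rw [h4, div_pow, div_le_iff₀ (by positivity)]
  refine h2.trans ((mul_le_mul_of_nonneg_left h3 hc.le).trans (le_of_eq ?_))
  field_simp

end Vale.Agent.P361.LRO.Ind
end

section

/-!
# P361 LRO, block (6), package E1: energies of the window averages
-/

namespace Vale.Agent.P361.LRO.Ind

open Finset Vale.Agent.P361.LRO _root_.P361.LRO

/-- Sum over an injective family. -/
private theorem enA_inj {ι X : Type} [Fintype X] (s : Finset ι) (g : ι → X)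
    (hg : Set.InjOn g s) (F : X → ℝ) (hF : ∀ x, 0 ≤ F x) : ∑ i ∈ s, F (g i) ≤ ∑ x, F x := by
  classical
  rw [← Finset.sum_image (f := F) hg]
  exact Finset.sum_le_univ_sum_of_nonneg hF

private theorem enA_pt {n : ℕ} [NeZero n] (o : Tor n) {a b c a' b' c' : ℕ} (ha : a < n)
    (hb : b < n) (hc : c < n) (ha' : a' < n) (hb' : b' < n) (hc' : c' < n)
    (h : pt n o a b c = pt n o a' b' c') : a = a' ∧ b = b' ∧ c = c' := by
  have h1 : (![(a : ZMod n), (b : ZMod n), (c : ZMod n)] : Fin 3 → ZMod n) =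
      ![(a' : ZMod n), (b' : ZMod n), (c' : ZMod n)] := by
    unfold pt at h
    exact add_left_cancel h
  have key : ∀ {u v : ℕ}, u < n → v < n → (u : ZMod n) = v → u = v := by
    intro u v hu hv h
    have := congrArg ZMod.val h
    rwa [ZMod.val_natCast_of_lt hu, ZMod.val_natCast_of_lt hv] at this
  exact ⟨key ha ha' (congrFun h1 0), key hb hb' (congrFun h1 1), key hc hc' (congrFun h1 2)⟩

private theorem enA_site {n : ℕ} [NeZero n] (o : Tor n) {A B C : ℕ} (hA : A ≤ n) (hB : B ≤ n)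
    (hC : C ≤ n) (H : Tor n → ℝ) (hH : ∀ p, 0 ≤ H p) :
    ∑ x ∈ range A, ∑ y ∈ range B, ∑ z ∈ range C, H (pt n o x y z) ≤ ∑ p, H p := by
  have h1 : ∑ x ∈ range A, ∑ y ∈ range B, ∑ z ∈ range C, H (pt n o x y z) =
      ∑ q ∈ range A ×ˢ (range B ×ˢ range C), H (pt n o q.1 q.2.1 q.2.2) := by
    rw [Finset.sum_product]
    refine Finset.sum_congr rfl fun x _ => ?_
    rw [Finset.sum_product]
  rw [h1]
  refine enA_inj (X := Tor n) _ (fun q : ℕ × ℕ × ℕ => pt n o q.1 q.2.1 q.2.2) ?_ H hH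
  rintro ⟨x, y, z⟩ hq ⟨x', y', z'⟩ hq' h
  simp only [Finset.coe_product, Set.mem_prod, Finset.mem_coe, Finset.mem_range] at hq hq'
  replace h : pt n o x y z = pt n o x' y' z' := h
  obtain ⟨h1, h2, h3⟩ := enA_pt o (by omega) (by omega) (by omega) (by omega) (by omega)
    (by omega) h
  subst h1 h2 h3
  rfl

private theorem enA_lay {N W m w j : ℕ} (hN : N = m * W) (hw : w < m) (hj : j < W) :
    ((lay N W w j : Fin (N + 1)) : ℕ) = 1 + w * W + j := by
  have h : 1 + w * W + j < N + 1 := by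
    have : (w + 1) * W ≤ m * W := Nat.mul_le_mul_right _ hw
    rw [hN]
    nlinarith
  unfold lay
  rw [dif_pos h]

private theorem enA_lay_inj {W w j w' j' : ℕ} (hj : j < W) (hj' : j' < W)
    (h : 1 + w * W + j = 1 + w' * W + j') : w = w' ∧ j = j' := by
  have h1 : w * W + j = w' * W + j' := by omega
  have hW : 0 < W := by omega
  have h2 : (w * W + j) / W = w := by
    rw [mul_comm, Nat.mul_add_div hW, Nat.div_eq_of_lt hj, add_zero]
  have h3 : (w' * W + j') / W = w' := by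
    rw [mul_comm, Nat.mul_add_div hW, Nat.div_eq_of_lt hj', add_zero]
  have h4 : w = w' := by rw [← h2, ← h3, h1]
  subst h4
  exact ⟨rfl, by omega⟩

private theorem enA_layer {N W m : ℕ} (hN : N = m * W) (T : ℕ) (hT : T ≤ m) (f : ℕ → ℕ)
    (hf : ∀ w < T, f w < m) (G : Fin (N + 1) → Fin (N + 1) → ℝ) (hG : ∀ k l, 0 ≤ G k l) :
    ∑ w ∈ range T, ∑ j ∈ range W, ∑ i ∈ range W, G (lay N W (f w) j) (lay N W w i) ≤
      ∑ k, ∑ l, G k l := by
  have h1 : ∑ w ∈ range T, ∑ j ∈ range W, ∑ i ∈ range W, G (lay N W (f w) j) (lay N W w i) =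
      ∑ q ∈ range T ×ˢ (range W ×ˢ range W),
        G (lay N W (f q.1) q.2.1) (lay N W q.1 q.2.2) := by
    rw [Finset.sum_product]
    refine Finset.sum_congr rfl fun x _ => ?_
    rw [Finset.sum_product]
  have h2 : ∑ k, ∑ l, G k l = ∑ q : Fin (N + 1) × Fin (N + 1), G q.1 q.2 := by
    rw [Fintype.sum_prod_type]
  rw [h1, h2]
  refine enA_inj (X := Fin (N + 1) × Fin (N + 1)) _
    (fun q : ℕ × ℕ × ℕ => (lay N W (f q.1) q.2.1, lay N W q.1 q.2.2)) ?_ (fun q => G q.1 q.2)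
    (fun q => hG _ _)
  rintro ⟨w, j, i⟩ hq ⟨w', j', i'⟩ hq' h
  simp only [Finset.coe_product, Set.mem_prod, Finset.mem_coe, Finset.mem_range] at hq hq'
  obtain ⟨hw, hj, hi⟩ := hq
  obtain ⟨hw', hj', hi'⟩ := hq'
  simp only [Prod.mk.injEq] at h
  obtain ⟨ha, hb⟩ := h
  have hb' := congrArg Fin.val hb
  rw [enA_lay hN (lt_of_lt_of_le hw hT) hi, enA_lay hN (lt_of_lt_of_le hw' hT) hi'] at hb'
  obtain ⟨e1, e2⟩ := enA_lay_inj hi hi' hb'
  subst e1 e2
  have ha' := congrArg Fin.val ha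
  rw [enA_lay hN (hf w hw) hj, enA_lay hN (hf w hw) hj'] at ha'
  obtain ⟨-, e3⟩ := enA_lay_inj hj hj' ha'
  subst e3
  rfl

private theorem enA_jensen (W : ℕ) (hW : 0 < W) (A B : ℕ → ℝ) :
    (∑ j ∈ range W, A j - ∑ i ∈ range W, B i) ^ 2 ≤
      ∑ j ∈ range W, ∑ i ∈ range W, (A j - B i) ^ 2 := by
  have hW' : (0 : ℝ) < W := by exact_mod_cast hW
  have h1 : ∑ q ∈ range W ×ˢ range W, (A q.1 - B q.2) =
      W * (∑ j ∈ range W, A j - ∑ i ∈ range W, B i) := by
    rw [Finset.sum_product]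
    simp only [Finset.sum_sub_distrib, Finset.sum_const, Finset.card_range, nsmul_eq_mul]
    rw [← Finset.mul_sum]
    ring
  have h2 := sq_sum_le_card_mul_sum_sq (s := range W ×ˢ range W)
    (f := fun q : ℕ × ℕ => A q.1 - B q.2)
  rw [h1, Finset.card_product, Finset.card_range] at h2
  have h3 : ∑ q ∈ range W ×ˢ range W, (A q.1 - B q.2) ^ 2 =
      ∑ j ∈ range W, ∑ i ∈ range W, (A j - B i) ^ 2 := by
    rw [Finset.sum_product]
  rw [h3] at h2
  push_cast at h2
  have h4 : ((W : ℝ) * W) * (∑ j ∈ range W, A j - ∑ i ∈ range W, B i) ^ 2 ≤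
      (W * W) * ∑ j ∈ range W, ∑ i ∈ range W, (A j - B i) ^ 2 := by
    calc ((W : ℝ) * W) * (∑ j ∈ range W, A j - ∑ i ∈ range W, B i) ^ 2
        = (W * (∑ j ∈ range W, A j - ∑ i ∈ range W, B i)) ^ 2 := by ring
      _ ≤ _ := h2
  exact le_of_mul_le_mul_left h4 (by positivity)

/-- One pair of windows. -/
private theorem enA_win {n N W m : ℕ} [NeZero n] {β c1 : ℝ} {c : Nd n N → Nd n N → ℝ}
    (hW : 0 < W) (hm : 0 < m) (hN : N = m * W) (hc1 : 0 < c1) (o : Tor n) (a : Nd n N → ℝ)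
    (x y z w x' y' z' w' : ℕ)
    (h : ∀ j < W, ∀ i < W, c1 * (β / N) ^ 2 ≤
      c (lay N W w j, pt n o x y z) (lay N W w' i, pt n o x' y' z')) :
    c1 * (β / m) ^ 2 * (UU n N W o a x y z w - UU n N W o a x' y' z' w') ^ 2 ≤
      ∑ j ∈ range W, ∑ i ∈ range W,
        c (lay N W w j, pt n o x y z) (lay N W w' i, pt n o x' y' z') *
          (a (lay N W w j, pt n o x y z) - a (lay N W w' i, pt n o x' y' z')) ^ 2 := by
  have hW' : (0 : ℝ) < W := by exact_mod_cast hW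
  have hm' : (0 : ℝ) < m := by exact_mod_cast hm
  have hN' : (N : ℝ) = m * W := by rw [hN]; push_cast; ring
  have hJ := enA_jensen W hW (fun j => a (lay N W w j, pt n o x y z))
    (fun i => a (lay N W w' i, pt n o x' y' z'))
  have e1 : c1 * (β / m) ^ 2 * (UU n N W o a x y z w - UU n N W o a x' y' z' w') ^ 2 =
      c1 * (β / N) ^ 2 * (∑ j ∈ range W, a (lay N W w j, pt n o x y z) -
        ∑ i ∈ range W, a (lay N W w' i, pt n o x' y' z')) ^ 2 := by
    unfold UU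
    rw [hN']
    field_simp
  rw [e1]
  calc c1 * (β / N) ^ 2 * (∑ j ∈ range W, a (lay N W w j, pt n o x y z) -
        ∑ i ∈ range W, a (lay N W w' i, pt n o x' y' z')) ^ 2
      ≤ c1 * (β / N) ^ 2 * ∑ j ∈ range W, ∑ i ∈ range W,
          (a (lay N W w j, pt n o x y z) - a (lay N W w' i, pt n o x' y' z')) ^ 2 :=
        mul_le_mul_of_nonneg_left hJ (by positivity)
    _ = ∑ j ∈ range W, ∑ i ∈ range W, c1 * (β / N) ^ 2 *
          (a (lay N W w j, pt n o x y z) - a (lay N W w' i, pt n o x' y' z')) ^ 2 := by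
        rw [Finset.mul_sum]
        refine Finset.sum_congr rfl fun j _ => ?_
        rw [Finset.mul_sum]
    _ ≤ _ := by
        refine Finset.sum_le_sum fun j hj => Finset.sum_le_sum fun i hi => ?_
        exact mul_le_mul_of_nonneg_right (h j (Finset.mem_range.1 hj) i (Finset.mem_range.1 hi))
          (sq_nonneg _)

/-- The energy between two sites. -/
private noncomputable def enA_Q {n N : ℕ} (c : Nd n N → Nd n N → ℝ) (a : Nd n N → ℝ)
    (p q : Tor n) : ℝ :=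
  ∑ k, ∑ l, c (k, p) (l, q) * (a (k, p) - a (l, q)) ^ 2

private theorem enA_Q_nonneg {n N : ℕ} {c : Nd n N → Nd n N → ℝ} (hc : ∀ u v, 0 ≤ c u v)
    (a : Nd n N → ℝ) (p q : Tor n) : 0 ≤ enA_Q c a p q :=
  Finset.sum_nonneg fun _ _ => Finset.sum_nonneg fun _ _ => mul_nonneg (hc _ _) (sq_nonneg _)

private theorem enA_total {n N : ℕ} [NeZero n] (c : Nd n N → Nd n N → ℝ) (a : Nd n N → ℝ) :
    ∑ p, ∑ q, enA_Q c a p q = 2 * netK c a := by
  have h : 2 * netK c a = ∑ u : Nd n N, ∑ v : Nd n N, c u v * (a u - a v) ^ 2 := by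
    unfold netK
    ring
  rw [h, Fintype.sum_prod_type_right]
  refine Finset.sum_congr rfl fun p _ => ?_
  have h2 : ∀ k : Fin (N + 1), ∑ v : Nd n N, c (k, p) v * (a (k, p) - a v) ^ 2 =
      ∑ q, ∑ l, c (k, p) (l, q) * (a (k, p) - a (l, q)) ^ 2 := by
    intro k
    rw [Fintype.sum_prod_type_right]
  simp only [h2]
  rw [Finset.sum_comm]
  rfl

private theorem enA_mem {n : ℕ} [NeZero n] (o : Tor n) {S x y z : ℕ} (hx : x < S) (hy : y < S)
    (hz : z < S) : pt n o x y z ∈ cube n o S := by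
  unfold cube pt
  refine Finset.mem_image.2 ⟨![⟨x, hx⟩, ⟨y, hy⟩, ⟨z, hz⟩], Finset.mem_univ _, ?_⟩
  congr 1
  funext i
  fin_cases i <;> rfl

private theorem enA_pt_succ {n : ℕ} (o : Tor n) (a b c : ℕ) :
    pt n o (a + 1) b c = pt n o a b c + Pi.single 0 1 ∧
    pt n o a (b + 1) c = pt n o a b c + Pi.single 1 1 ∧
    pt n o a b (c + 1) = pt n o a b c + Pi.single 2 1 := by
  unfold pt
  refine ⟨?_, ?_, ?_⟩ <;>
  · rw [add_assoc]
    congr 1
    funext i
    fin_cases i <;> simp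

/-- Sum over sites of the energy of a site with a shifted copy. -/
private theorem enA_sum_shift {n N : ℕ} [NeZero n] {c : Nd n N → Nd n N → ℝ}
    (hc : ∀ u v, 0 ≤ c u v) (a : Nd n N → ℝ) (o : Tor n) {A B C : ℕ} (hA : A ≤ n) (hB : B ≤ n)
    (hC : C ≤ n) (e : Tor n) :
    ∑ x ∈ range A, ∑ y ∈ range B, ∑ z ∈ range C,
      enA_Q c a (pt n o x y z) (pt n o x y z + e) ≤ 2 * netK c a := by
  rw [← enA_total]
  refine (enA_site o hA hB hC (fun p => enA_Q c a p (p + e))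
    (fun p => enA_Q_nonneg hc a _ _)).trans ?_
  refine Finset.sum_le_sum fun p _ => ?_
  exact Finset.single_le_sum (f := fun q => enA_Q c a p q)
    (fun q _ => enA_Q_nonneg hc a p q) (Finset.mem_univ (p + e))

/-- Sum over the windows for a pair of sites. -/
private theorem enA_windows {n N W m : ℕ} [NeZero n] {β c1 : ℝ} {c : Nd n N → Nd n N → ℝ}
    (hnn : ∀ u v, 0 ≤ c u v)
    (hW : 0 < W) (hm : 0 < m) (hN : N = m * W) (hc1 : 0 < c1) (o : Tor n) (a : Nd n N → ℝ)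
    (T : ℕ) (hT : T ≤ m) (f : ℕ → ℕ) (hf : ∀ w < T, f w < m) (x y z x' y' z' : ℕ)
    (h : ∀ w < T, ∀ j < W, ∀ i < W, c1 * (β / N) ^ 2 ≤
      c (lay N W (f w) j, pt n o x y z) (lay N W w i, pt n o x' y' z')) :
    c1 * (β / m) ^ 2 * ∑ w ∈ range T,
        (UU n N W o a x y z (f w) - UU n N W o a x' y' z' w) ^ 2 ≤
      enA_Q c a (pt n o x y z) (pt n o x' y' z') := by
  rw [Finset.mul_sum]
  refine (Finset.sum_le_sum fun w hw =>
    enA_win hW hm hN hc1 o a x y z (f w) x' y' z' w (h w (Finset.mem_range.1 hw))).trans ?_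
  exact enA_layer hN T hT f hf
    (fun k l => c (k, pt n o x y z) (l, pt n o x' y' z') *
      (a (k, pt n o x y z) - a (l, pt n o x' y' z')) ^ 2)
    (fun k l => mul_nonneg (hnn _ _) (sq_nonneg _))

/-- The partner window. -/
private def enA_f (m w : ℕ) : ℕ := if w + 2 < m then w + 2 else w - 2

private theorem enA_f_lt {m w : ℕ} (hw : w < m) : enA_f m w < m := by
  unfold enA_f
  split_ifs <;> omega

private theorem enA_f_cases {m w : ℕ} (hm : 4 ≤ m) (hw : w < m) :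
    enA_f m w = w + 2 ∨ w = enA_f m w + 2 := by
  unfold enA_f
  split_ifs <;> omega

section main

variable {n N W m : ℕ} [NeZero n] {β K c1 : ℝ} {b : Finset (Tor n)} {h : Tor n → ℝ}
    {c : Nd n N → Nd n N → ℝ}

private theorem enA_same_le (hm : 4 ≤ m) (hN : N = m * W)
    (hc : Local n N W β K c1 b h c) {w w' j i : ℕ} (hw : w < m) (hw' : w' < m) (hj : j < W)
    (hi : i < W) (hd : w < w' ∧ w' ≤ w + 2) (x : Tor n) (hx : h x = 1) :
    c1 * (β / N) ^ 2 ≤ c (lay N W w j, x) (lay N W w' i, x) := by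
  have e1 := enA_lay hN hw hj
  have e2 := enA_lay hN hw' hi
  have h3 : (w + 1) * W ≤ w' * W := Nat.mul_le_mul_right _ hd.1
  have h4 : w' * W ≤ (w + 2) * W := Nat.mul_le_mul_right _ hd.2
  refine hc.same _ _ x ?_ ?_ ?_ hx
  · intro h0
    rw [h0] at e1
    simp at e1
    omega
  · rw [Fin.lt_def, e1, e2]
    nlinarith
  · rw [e1, e2]
    nlinarith

private theorem enA_same_f (hm : 4 ≤ m) (hN : N = m * W)
    (hc : Local n N W β K c1 b h c) {w j i : ℕ} (hw : w < m) (hj : j < W)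
    (hi : i < W) (x : Tor n) (hx : h x = 1) :
    c1 * (β / N) ^ 2 ≤ c (lay N W (enA_f m w) j, x) (lay N W w i, x) := by
  rcases enA_f_cases hm hw with h1 | h1
  · rw [hc.symm]
    exact enA_same_le hm hN hc hw (enA_f_lt hw) hi hj ⟨by omega, by omega⟩ x hx
  · exact enA_same_le hm hN hc (enA_f_lt hw) hw hj hi ⟨by omega, by omega⟩ x hx

private theorem enA_nbr_f (hm : 4 ≤ m) (hN : N = m * W)
    (hc : Local n N W β K c1 b h c) {w j i : ℕ} (hw : w < m) (hj : j < W)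
    (hi : i < W) (x : Tor n) (e : Fin 3) (hx : h x = 1) (hx' : h (x + Pi.single e 1) = 1) :
    c1 * (β / N) ^ 2 ≤
      c (lay N W (enA_f m w) j, x) (lay N W w i, x + Pi.single e 1) := by
  have e1 := enA_lay hN (enA_f_lt hw) hj
  have e2 := enA_lay hN hw hi
  refine hc.nbr _ _ x e ?_ ?_ ?_ ?_ ?_ hx hx'
  · intro h0
    rw [h0] at e1
    simp at e1
    omega
  · intro h0
    rw [h0] at e2
    simp at e2
    omega
  · rw [e1, e2]
    rcases enA_f_cases hm hw with h1 | h1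
    · right
      rw [h1]
      nlinarith
    · left
      have : w * W = (enA_f m w + 2) * W := by rw [← h1]
      rw [this]
      nlinarith
  · rw [e1, e2]
    rcases enA_f_cases hm hw with h1 | h1
    · rw [h1]
      nlinarith
    · have : w * W = (enA_f m w + 2) * W := by rw [← h1]
      rw [this]
      nlinarith
  · rw [e1, e2]
    rcases enA_f_cases hm hw with h1 | h1
    · rw [h1]
      nlinarith
    · have : w * W = (enA_f m w + 2) * W := by rw [← h1]
      rw [this]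
      nlinarith

/-- One space edge, all windows. -/
private theorem enA_edge (hW : 0 < W) (hm : 4 ≤ m) (hN : N = m * W)
    (hc1 : 0 < c1) (hc : Local n N W β K c1 b h c) (o : Tor n) (a : Nd n N → ℝ)
    (x y z x' y' z' : ℕ) (e : Fin 3) (hp : pt n o x' y' z' = pt n o x y z + Pi.single e 1)
    (hx : h (pt n o x y z) = 1) (hx' : h (pt n o x' y' z') = 1) :
    c1 * (β / m) ^ 2 * ∑ w ∈ range m,
        (UU n N W o a x' y' z' w - UU n N W o a x y z w) ^ 2 ≤
      2 * enA_Q c a (pt n o x y z) (pt n o x y z + Pi.single e 1) +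
      2 * enA_Q c a (pt n o x y z) (pt n o x y z + 0) := by
  have hm0 : 0 < m := by omega
  have A1 := enA_windows (β := β) (c1 := c1) hc.nonneg hW hm0 hN hc1 o a m le_rfl (enA_f m)
    (fun w hw => enA_f_lt hw) x y z x' y' z' (by
      intro w hw j hj i hi
      rw [hp]
      exact enA_nbr_f hm hN hc hw hj hi _ e hx (by rw [← hp]; exact hx'))
  have A2 := enA_windows (β := β) (c1 := c1) hc.nonneg hW hm0 hN hc1 o a m le_rfl (enA_f m)
    (fun w hw => enA_f_lt hw) x y z x y z (by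
      intro w hw j hj i hi
      exact enA_same_f hm hN hc hw hj hi _ hx)
  rw [add_zero, ← hp]
  have hpos : 0 ≤ c1 * (β / m) ^ 2 := by positivity
  have key : ∑ w ∈ range m, (UU n N W o a x' y' z' w - UU n N W o a x y z w) ^ 2 ≤
      2 * ∑ w ∈ range m, (UU n N W o a x y z (enA_f m w) - UU n N W o a x' y' z' w) ^ 2 +
      2 * ∑ w ∈ range m, (UU n N W o a x y z (enA_f m w) - UU n N W o a x y z w) ^ 2 := by
    rw [Finset.mul_sum, Finset.mul_sum, ← Finset.sum_add_distrib]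
    refine Finset.sum_le_sum fun w _ => ?_
    nlinarith [sq_nonneg ((UU n N W o a x y z (enA_f m w) - UU n N W o a x' y' z' w) +
      (UU n N W o a x y z (enA_f m w) - UU n N W o a x y z w))]
  have := mul_le_mul_of_nonneg_left key hpos
  linarith

end main

/-- time and space edges of the window averages (`τ = β / m = β W / N`): same site pairs in the
windows `w, w + 1`; neighbour pairs in the windows `w, w + 2` (or `w, w - 2` at the end). -/
theorem E4_le {n N W m : ℕ} [NeZero n] {β K c1 : ℝ} {b : Finset (Tor n)} {h : Tor n → ℝ}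
    {c : Nd n N → Nd n N → ℝ} (hW : 0 < W) (hm : 4 ≤ m) (hN : N = m * W) (hβ : 0 < β)
    (hc1 : 0 < c1) (hc : Local n N W β K c1 b h c) (o : Tor n) (S : ℕ) (hS : S < n)
    (h1 : ∀ x ∈ cube n o S, h x = 1) (a : Nd n N → ℝ) :
    c1 * (β / m) ^ 2 * E4 S m (UU n N W o a) ≤ 100 * netK c a := by
  have hm0 : 0 < m := by omega
  have hnn : 0 ≤ netK c a := netK_nonneg hc.nonneg a
  have hone : ∀ x y z : ℕ, x < S → y < S → z < S → h (pt n o x y z) = 1 :=
    fun x y z hx hy hz => h1 _ (enA_mem o hx hy hz)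
  -- time
  have Ht : c1 * (β / m) ^ 2 * Eti S m (UU n N W o a) ≤ 2 * netK c a := by
    refine le_trans ?_ (enA_sum_shift hc.nonneg a o hS.le hS.le hS.le 0)
    unfold Eti
    simp only [Finset.mul_sum (s := range S)]
    refine Finset.sum_le_sum fun x hx => Finset.sum_le_sum fun y hy =>
      Finset.sum_le_sum fun z hz => ?_
    rw [Finset.mem_range] at hx hy hz
    rw [add_zero]
    refine enA_windows hc.nonneg hW hm0 hN hc1 o a (m - 1) (by omega) (fun w => w + 1)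
      (fun w hw => by omega) x y z x y z ?_
    intro w hw j hj i hi
    rw [hc.symm]
    exact enA_same_le hm hN hc (by omega) (by omega) hi hj ⟨by omega, by omega⟩ _
      (hone x y z hx hy hz)
  -- space
  have hS1 : S - 1 ≤ n := by omega
  have Hs1 : c1 * (β / m) ^ 2 * (∑ x ∈ range (S - 1), ∑ y ∈ range S, ∑ z ∈ range S,
      ∑ w ∈ range m, (UU n N W o a (x + 1) y z w - UU n N W o a x y z w) ^ 2) ≤
      8 * netK c a := by
    have B1 := enA_sum_shift hc.nonneg a o hS1 hS.le hS.le (Pi.single 0 1)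
    have B2 := enA_sum_shift hc.nonneg a o hS1 hS.le hS.le 0
    have B3 : c1 * (β / m) ^ 2 * (∑ x ∈ range (S - 1), ∑ y ∈ range S, ∑ z ∈ range S,
        ∑ w ∈ range m, (UU n N W o a (x + 1) y z w - UU n N W o a x y z w) ^ 2) ≤
        ∑ x ∈ range (S - 1), ∑ y ∈ range S, ∑ z ∈ range S,
          (2 * enA_Q c a (pt n o x y z) (pt n o x y z + Pi.single 0 1) +
            2 * enA_Q c a (pt n o x y z) (pt n o x y z + 0)) := by
      simp only [Finset.mul_sum (s := range S), Finset.mul_sum (s := range (S - 1))]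
      refine Finset.sum_le_sum fun x hx => Finset.sum_le_sum fun y hy =>
        Finset.sum_le_sum fun z hz => ?_
      rw [Finset.mem_range] at hx hy hz
      exact enA_edge hW hm hN hc1 hc o a x y z (x + 1) y z 0 (enA_pt_succ o x y z).1
        (hone _ _ _ (by omega) hy hz) (hone _ _ _ (by omega) hy hz)
    simp only [Finset.sum_add_distrib, ← Finset.mul_sum] at B3
    linarith
  have Hs2 : c1 * (β / m) ^ 2 * (∑ x ∈ range S, ∑ y ∈ range (S - 1), ∑ z ∈ range S,
      ∑ w ∈ range m, (UU n N W o a x (y + 1) z w - UU n N W o a x y z w) ^ 2) ≤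
      8 * netK c a := by
    have B1 := enA_sum_shift hc.nonneg a o hS.le hS1 hS.le (Pi.single 1 1)
    have B2 := enA_sum_shift hc.nonneg a o hS.le hS1 hS.le 0
    have B3 : c1 * (β / m) ^ 2 * (∑ x ∈ range S, ∑ y ∈ range (S - 1), ∑ z ∈ range S,
        ∑ w ∈ range m, (UU n N W o a x (y + 1) z w - UU n N W o a x y z w) ^ 2) ≤
        ∑ x ∈ range S, ∑ y ∈ range (S - 1), ∑ z ∈ range S,
          (2 * enA_Q c a (pt n o x y z) (pt n o x y z + Pi.single 1 1) +
            2 * enA_Q c a (pt n o x y z) (pt n o x y z + 0)) := by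
      simp only [Finset.mul_sum (s := range S), Finset.mul_sum (s := range (S - 1))]
      refine Finset.sum_le_sum fun x hx => Finset.sum_le_sum fun y hy =>
        Finset.sum_le_sum fun z hz => ?_
      rw [Finset.mem_range] at hx hy hz
      exact enA_edge hW hm hN hc1 hc o a x y z x (y + 1) z 1 (enA_pt_succ o x y z).2.1
        (hone _ _ _ hx (by omega) hz) (hone _ _ _ hx (by omega) hz)
    simp only [Finset.sum_add_distrib, ← Finset.mul_sum] at B3
    linarith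
  have Hs3 : c1 * (β / m) ^ 2 * (∑ x ∈ range S, ∑ y ∈ range S, ∑ z ∈ range (S - 1),
      ∑ w ∈ range m, (UU n N W o a x y (z + 1) w - UU n N W o a x y z w) ^ 2) ≤
      8 * netK c a := by
    have B1 := enA_sum_shift hc.nonneg a o hS.le hS.le hS1 (Pi.single 2 1)
    have B2 := enA_sum_shift hc.nonneg a o hS.le hS.le hS1 0
    have B3 : c1 * (β / m) ^ 2 * (∑ x ∈ range S, ∑ y ∈ range S, ∑ z ∈ range (S - 1),
        ∑ w ∈ range m, (UU n N W o a x y (z + 1) w - UU n N W o a x y z w) ^ 2) ≤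
        ∑ x ∈ range S, ∑ y ∈ range S, ∑ z ∈ range (S - 1),
          (2 * enA_Q c a (pt n o x y z) (pt n o x y z + Pi.single 2 1) +
            2 * enA_Q c a (pt n o x y z) (pt n o x y z + 0)) := by
      simp only [Finset.mul_sum (s := range S), Finset.mul_sum (s := range (S - 1))]
      refine Finset.sum_le_sum fun x hx => Finset.sum_le_sum fun y hy =>
        Finset.sum_le_sum fun z hz => ?_
      rw [Finset.mem_range] at hx hy hz
      exact enA_edge hW hm hN hc1 hc o a x y z x y (z + 1) 2 (enA_pt_succ o x y z).2.2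
        (hone _ _ _ hx hy (by omega)) (hone _ _ _ hx hy (by omega))
    simp only [Finset.sum_add_distrib, ← Finset.mul_sum] at B3
    linarith
  unfold E4 Esp
  rw [mul_add, mul_add, mul_add]
  linarith

end Vale.Agent.P361.LRO.Ind
end

section

/-!
# P361 LRO, block (6), S1: the top step (6a) (helper531)
-/

namespace Vale.Agent.P361.LRO.Ind

open Finset Vale.Agent.P361.LRO _root_.P361.LRO

/-- a sum over `range (m * W)`, block by block -/
theorem st_blocks (m W : ℕ) (g : ℕ → ℝ) :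
    ∑ i ∈ range (m * W), g i = ∑ w ∈ range m, ∑ j ∈ range W, g (w * W + j) := by
  induction m with
  | zero => simp
  | succ m ih => rw [Nat.succ_mul, Finset.sum_range_add, ih, Finset.sum_range_succ]

/-- sum over the physical layers, window by window -/
theorem st_layers {N W m : ℕ} (hN : N = m * W) (f : Fin (N + 1) → ℝ) :
    ∑ k ∈ univ.filter (fun k => k ≠ 0), f k = ∑ w ∈ range m, ∑ j ∈ range W, f (lay N W w j) := by
  have h1 : ∑ k ∈ univ.filter (fun k => k ≠ 0), f k = ∑ i : Fin N, f i.succ := by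
    rw [Finset.sum_filter, Fin.sum_univ_succ]
    simp [Fin.succ_ne_zero]
  have h2 : ∑ i : Fin N, f i.succ =
      ∑ i ∈ range N, f (if h : 1 + i < N + 1 then ⟨1 + i, h⟩ else 0) := by
    rw [← Fin.sum_univ_eq_sum_range
      (fun i => f (if h : 1 + i < N + 1 then ⟨1 + i, h⟩ else 0)) N]
    refine Finset.sum_congr rfl fun i _ => ?_
    have hi : 1 + (i : ℕ) < N + 1 := by have := i.isLt; omega
    rw [dif_pos hi]
    congr 1
    refine Fin.ext ?_
    simp [Fin.val_succ, add_comm]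
  rw [h1, h2]
  have h3 := st_blocks m W (fun i => f (if h : 1 + i < N + 1 then ⟨1 + i, h⟩ else 0))
  rw [← hN] at h3
  rw [h3]
  refine Finset.sum_congr rfl fun w _ => Finset.sum_congr rfl fun j _ => ?_
  unfold lay
  simp only [add_assoc]

/-- layers of windows are physical -/
theorem st_lay_ne {N W m : ℕ} (hN : N = m * W) {w j : ℕ} (hw : w < m) (hj : j < W) :
    (lay N W w j : Fin (N + 1)) ≠ 0 := by
  have h1 : (w + 1) * W ≤ m * W := Nat.mul_le_mul_right W hw
  rw [Nat.succ_mul] at h1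
  have h2 : 1 + w * W + j < N + 1 := by omega
  unfold lay
  rw [dif_pos h2]
  intro h
  have := congrArg Fin.val h
  simp at this

/-- (6a) top: resistance to the uniform charge on the ground cube in the field `1`. -/
theorem step_top (c1 : ℝ) (hc1 : 0 < c1) : ∃ C : ℝ, 0 < C ∧ ∀ (n N W m : ℕ) [NeZero n]
    (β K : ℝ) (o : Tor n) (b : Finset (Tor n)) (c : Nd n N → Nd n N → ℝ) (s : ℕ),
    10 ≤ β → 0 < W → N = m * W → Win β m → 0 < s → 8 * s < n →
    Local n N W β K c1 b (fun _ => 1) c →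
    RBn c (EE6 n N o b s) (fun z => if z ∈ GG6 n N o s then 1 / ((N : ℝ) * s ^ 3) else 0)
      (C / (β * s)) := by
  refine ⟨3200 / c1, by positivity, ?_⟩
  intro n N W m _ β K o b c s hβ hW hN hwin hs hn hc a ha
  have hm0 : 0 < m := hwin.pos
  have hmR : (0 : ℝ) < m := by exact_mod_cast hm0
  have hWR : (0 : ℝ) < W := by exact_mod_cast hW
  have hsR : (0 : ℝ) < s := by exact_mod_cast hs
  have hm3 : 3 * β ≤ m := by
    have := hwin.hi
    rw [div_le_iff₀ hmR] at this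
    linarith
  have hm4 : 4 ≤ m := by
    have : (4 : ℝ) ≤ m := by linarith
    exact_mod_cast this
  have hNR : (N : ℝ) = m * W := by rw [hN]; push_cast; ring
  have hE := E4_le (h := fun _ => (1 : ℝ)) hW hm4 hN (by linarith) hc1 hc o (5 * s) (by omega)
    (fun _ _ => rfl) a
  have hL := lines s m hs hm0 (UU n N W o a) ?_
  · have hq : ∑ z, (if z ∈ GG6 n N o s then 1 / ((N : ℝ) * s ^ 3) else 0) * a z =
        (1 / ((s : ℝ) ^ 3 * m)) * ∑ x ∈ range s, ∑ y ∈ range s, ∑ z ∈ range s, ∑ w ∈ range m,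
          UU n N W o a (x + 4 * s) y z w := by
      have e1 : ∑ z, (if z ∈ GG6 n N o s then 1 / ((N : ℝ) * s ^ 3) else 0) * a z =
          1 / ((N : ℝ) * s ^ 3) * ∑ z ∈ GG6 n N o s, a z := by
        rw [Finset.mul_sum, ← Finset.sum_filter_add_sum_filter_not univ (fun z => z ∈ GG6 n N o s)]
        rw [Finset.sum_eq_zero (s := univ.filter fun z => ¬ z ∈ GG6 n N o s), add_zero]
        · rw [Finset.filter_mem_eq_inter, Finset.univ_inter]
          exact Finset.sum_congr rfl fun z hz => by rw [if_pos hz]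
        · intro z hz
          rw [if_neg (Finset.mem_filter.1 hz).2, zero_mul]
      have e2 : ∑ z ∈ GG6 n N o s, a z = ∑ x ∈ range s, ∑ y ∈ range s, ∑ z ∈ range s,
          ∑ w ∈ range m, ∑ j ∈ range W, a (lay N W w j, pt n o (x + 4 * s) y z) := by
        unfold GG6
        rw [Finset.sum_product_right, sum_cube _ s (by omega)]
        refine Finset.sum_congr rfl fun x _ => Finset.sum_congr rfl fun y _ =>
          Finset.sum_congr rfl fun z _ => ?_
        rw [st_layers hN (fun k => a (k, pt n (pt n o (4 * s) 0 0) x y z)), pt_pt]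
        simp only [zero_add, add_comm (4 * s) x]
      rw [e1, e2, hNR]
      unfold UU
      simp only [← Finset.mul_sum]
      field_simp
    rw [hq]
    refine hL.trans ?_
    have hK0 : 0 ≤ netK c a := by
      unfold netK
      refine mul_nonneg (by norm_num) (Finset.sum_nonneg fun u _ => Finset.sum_nonneg fun v _ =>
        mul_nonneg (hc.nonneg u v) (sq_nonneg _))
    have hlo := hwin.lo
    have hE0 : 0 ≤ E4 (5 * s) m (UU n N W o a) := by
      unfold E4 Esp Eti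
      refine add_nonneg (add_nonneg (add_nonneg ?_ ?_) ?_) ?_ <;>
      · refine Finset.sum_nonneg fun _ _ => Finset.sum_nonneg fun _ _ => Finset.sum_nonneg fun _ _ =>
          Finset.sum_nonneg fun _ _ => sq_nonneg _
    have hsq : (1 / 16 : ℝ) ≤ (β / m) ^ 2 := by nlinarith
    have hE' : E4 (5 * s) m (UU n N W o a) ≤ 1600 / c1 * netK c a := by
      have h1 : c1 * (1 / 16) * E4 (5 * s) m (UU n N W o a) ≤ 100 * netK c a := by
        refine le_trans ?_ hE
        exact mul_le_mul_of_nonneg_right (mul_le_mul_of_nonneg_left hsq hc1.le) hE0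
      rw [div_mul_eq_mul_div, le_div_iff₀ hc1]
      linarith
    have h4 : 4 / ((s : ℝ) * m) ≤ 2 / (β * s) := by
      have hβ0 : 0 < β := by linarith
      rw [div_le_div_iff₀ (by positivity) (by positivity)]
      nlinarith
    have hβ0 : 0 < β := by linarith
    calc 4 / ((s : ℝ) * m) * E4 (5 * s) m (UU n N W o a)
        ≤ 2 / (β * s) * (1600 / c1 * netK c a) :=
          mul_le_mul h4 hE' hE0 (by positivity)
      _ = 3200 / c1 / (β * s) * netK c a := by
          field_simp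
          ring
  · intro x hx y hy z hz w hw
    unfold UU
    rw [Finset.sum_congr rfl (g := fun _ => (1 : ℝ))]
    · rw [Finset.sum_const, Finset.card_range, nsmul_eq_mul, mul_one]
      field_simp
    · intro j hj
      refine ha _ ?_
      unfold EE6
      rw [Finset.mem_union]
      right
      rw [Finset.mem_product]
      refine ⟨?_, ?_⟩
      · rw [Finset.mem_filter]
        exact ⟨Finset.mem_univ _, st_lay_ne hN hw (Finset.mem_range.1 hj)⟩
      · exact (mem_cube_iff o _ s).2 ⟨x, hx, y, hy, z, hz, rfl⟩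

end Vale.Agent.P361.LRO.Ind
end

section

/-!
# P361 LRO, stage 3: sums over cells (helper232)

Nodes of the cell `P = (x, y, z, w)` are `nod P q`, `q ∈ JJ`.
-/

namespace Vale.Agent.P361.LRO.Ind3

open Finset Vale.Agent.P361.LRO _root_.P361.LRO Vale.Agent.P361.LRO.Ind

namespace Cl

/-- block indices and indices inside a block -/
abbrev Ix : Type := ℕ × ℕ × ℕ × ℕ

/-- The node `q = (i, j, k, t)` of the block `P = (x, y, z, w)`. -/
def nod (n N W e : ℕ) (o : Tor n) (P q : Ix) : Nd n N :=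
  (lay N W P.2.2.2 q.2.2.2,
    pt n o (3 ^ e * P.1 + q.1) (3 ^ e * P.2.1 + q.2.1) (3 ^ e * P.2.2.1 + q.2.2.1))

/-- indices inside a block -/
def JJ (W e : ℕ) : Finset Ix :=
  range (3 ^ e) ×ˢ (range (3 ^ e) ×ˢ (range (3 ^ e) ×ˢ range W))

theorem mem_JJ {W e : ℕ} {q : Ix} : q ∈ JJ W e ↔
    q.1 < 3 ^ e ∧ q.2.1 < 3 ^ e ∧ q.2.2.1 < 3 ^ e ∧ q.2.2.2 < W := by
  simp [JJ]

theorem card_JJ (W e : ℕ) : ((JJ W e).card : ℝ) = 27 ^ e * W := by
  simp only [JJ, card_product, card_range]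
  push_cast
  have : (27 : ℝ) = 3 * 3 * 3 := by norm_num
  rw [this, mul_pow, mul_pow]
  ring

theorem sum4 (A B C D : ℕ) (f : ℕ → ℕ → ℕ → ℕ → ℝ) :
    ∑ x ∈ range A, ∑ y ∈ range B, ∑ z ∈ range C, ∑ w ∈ range D, f x y z w =
      ∑ P ∈ range A ×ˢ (range B ×ˢ (range C ×ˢ range D)), f P.1 P.2.1 P.2.2.1 P.2.2.2 := by
  rw [sum_product]
  refine sum_congr rfl fun x _ => ?_
  rw [sum_product]
  refine sum_congr rfl fun y _ => ?_
  rw [sum_product]

/-- Average of `a` over the block `P`. -/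
noncomputable def av (n N W e : ℕ) (o : Tor n) (a : Nd n N → ℝ) (P : Ix) : ℝ :=
  (1 / ((W : ℝ) * 27 ^ e)) * ∑ q ∈ JJ W e, a (nod n N W e o P q)

theorem lay_val {N W m w j : ℕ} (hN : N = m * W) (hw : w < m) (hj : j < W) :
    ((lay N W w j : Fin (N + 1)) : ℕ) = 1 + w * W + j := by
  have h : 1 + w * W + j < N + 1 := by
    have : (w + 1) * W ≤ m * W := Nat.mul_le_mul_right _ hw
    rw [hN]
    nlinarith
  unfold lay
  rw [dif_pos h]

theorem div_unique {W w j w' j' : ℕ} (hj : j < W) (hj' : j' < W)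
    (h : w * W + j = w' * W + j') : w = w' ∧ j = j' := by
  have hW : 0 < W := by omega
  have h2 : (w * W + j) / W = w := by
    rw [mul_comm, Nat.mul_add_div hW, Nat.div_eq_of_lt hj, add_zero]
  have h3 : (w' * W + j') / W = w' := by
    rw [mul_comm, Nat.mul_add_div hW, Nat.div_eq_of_lt hj', add_zero]
  have h4 : w = w' := by rw [← h2, ← h3, h]
  subst h4
  exact ⟨rfl, by omega⟩

theorem pt_inj' {n : ℕ} [NeZero n] (o : Tor n) {a b c a' b' c' : ℕ} (ha : a < n)
    (hb : b < n) (hc : c < n) (ha' : a' < n) (hb' : b' < n) (hc' : c' < n)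
    (h : pt n o a b c = pt n o a' b' c') : a = a' ∧ b = b' ∧ c = c' := by
  have h1 : (![(a : ZMod n), (b : ZMod n), (c : ZMod n)] : Fin 3 → ZMod n) =
      ![(a' : ZMod n), (b' : ZMod n), (c' : ZMod n)] := by
    unfold pt at h
    exact add_left_cancel h
  have key : ∀ {u v : ℕ}, u < n → v < n → (u : ZMod n) = v → u = v := by
    intro u v hu hv h
    have := congrArg ZMod.val h
    rwa [ZMod.val_natCast_of_lt hu, ZMod.val_natCast_of_lt hv] at this
  exact ⟨key ha ha' (congrFun h1 0), key hb hb' (congrFun h1 1), key hc hc' (congrFun h1 2)⟩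

/-- block indices in range -/
def Ok (S : ℕ) (P : Ix) : Prop := P.1 < S ∧ P.2.1 < S ∧ P.2.2.1 < S ∧ P.2.2.2 < 4

theorem cell_lt {e S x i : ℕ} (hx : x < S) (hi : i < 3 ^ e) : 3 ^ e * x + i < 3 ^ e * S := by
  have : 3 ^ e * (x + 1) ≤ 3 ^ e * S := Nat.mul_le_mul_left _ hx
  nlinarith

theorem nod_inj {n N W e : ℕ} [NeZero n] (hN : N = 4 * W) (o : Tor n) {S : ℕ}
    (hS : 3 ^ e * S ≤ n) {P Q q r : Ix} (hP : Ok S P) (hQ : Ok S Q) (hq : q ∈ JJ W e)
    (hr : r ∈ JJ W e) (h : nod n N W e o P q = nod n N W e o Q r) : P = Q ∧ q = r := by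
  rw [mem_JJ] at hq hr
  obtain ⟨p1, p2, p3, p4⟩ := P
  obtain ⟨q1, q2, q3, q4⟩ := Q
  obtain ⟨i, j, k, t⟩ := q
  obtain ⟨i', j', k', t'⟩ := r
  obtain ⟨hp1, hp2, hp3, hp4⟩ := hP
  obtain ⟨hq1, hq2, hq3, hq4⟩ := hQ
  obtain ⟨hi, hj, hk, ht⟩ := hq
  obtain ⟨hi', hj', hk', ht'⟩ := hr
  simp only [nod, Prod.mk.injEq] at h hp1 hp2 hp3 hp4 hq1 hq2 hq3 hq4 hi hj hk ht hi' hj' hk' ht'
  obtain ⟨h1, h2⟩ := h
  have h3 := congrArg Fin.val h1
  rw [lay_val hN hp4 ht, lay_val hN hq4 ht'] at h3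
  obtain ⟨e1, e2⟩ := div_unique ht ht' (by omega : p4 * W + t = q4 * W + t')
  obtain ⟨a1, a2, a3⟩ := pt_inj' o ((cell_lt hp1 hi).trans_le hS) ((cell_lt hp2 hj).trans_le hS)
    ((cell_lt hp3 hk).trans_le hS) ((cell_lt hq1 hi').trans_le hS) ((cell_lt hq2 hj').trans_le hS)
    ((cell_lt hq3 hk').trans_le hS) h2
  obtain ⟨b1, b2⟩ := div_unique (w := p1) (w' := q1) hi hi'
    (by rw [mul_comm p1, mul_comm q1]; exact a1)
  obtain ⟨c1, c2⟩ := div_unique (w := p2) (w' := q2) hj hj'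
    (by rw [mul_comm p2, mul_comm q2]; exact a2)
  obtain ⟨d1, d2⟩ := div_unique (w := p3) (w' := q3) hk hk'
    (by rw [mul_comm p3, mul_comm q3]; exact a3)
  rw [e1, e2, b1, b2, c1, c2, d1, d2]
  exact ⟨rfl, rfl⟩

theorem mem_cube_pt {n : ℕ} [NeZero n] (o : Tor n) {S x y z : ℕ} (hx : x < S) (hy : y < S)
    (hz : z < S) : pt n o x y z ∈ cube n o S := by
  unfold cube pt
  refine Finset.mem_image.2 ⟨![⟨x, hx⟩, ⟨y, hy⟩, ⟨z, hz⟩], Finset.mem_univ _, ?_⟩
  congr 1
  funext i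
  fin_cases i <;> rfl

theorem pt_add {n : ℕ} (o : Tor n) (a b c i j k : ℕ) :
    pt n o (a + i) (b + j) (c + k) = pt n (pt n o a b c) i j k := by
  unfold pt
  rw [add_assoc]
  congr 1
  funext t
  fin_cases t <;> simp

/-- the nodes of a cell and its upper neighbours are in the double cube -/
theorem mem_dbl {n : ℕ} [NeZero n] (o : Tor n) {e X Y Z x y z i j k : ℕ} (hx : X ≤ x)
    (hx' : x ≤ X + 1) (hy : Y ≤ y) (hy' : y ≤ Y + 1) (hz : Z ≤ z) (hz' : z ≤ Z + 1)
    (hi : i < 3 ^ e) (hj : j < 3 ^ e) (hk : k < 3 ^ e) :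
    pt n o (3 ^ e * x + i) (3 ^ e * y + j) (3 ^ e * z + k) ∈
      cube n (pt n o (3 ^ e * X) (3 ^ e * Y) (3 ^ e * Z)) (2 * 3 ^ e) := by
  have key : ∀ {X x i : ℕ}, X ≤ x → x ≤ X + 1 → i < 3 ^ e →
      ∃ u, u < 2 * 3 ^ e ∧ 3 ^ e * x + i = 3 ^ e * X + u := by
    intro X x i h1 h2 h3
    rcases (by omega : x = X ∨ x = X + 1) with h | h
    · exact ⟨i, by omega, by rw [h]⟩
    · exact ⟨3 ^ e + i, by omega, by rw [h]; ring⟩
  obtain ⟨u, hu, hu'⟩ := key hx hx' hi
  obtain ⟨v, hv, hv'⟩ := key hy hy' hj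
  obtain ⟨w, hw, hw'⟩ := key hz hz' hk
  rw [hu', hv', hw', pt_add]
  exact mem_cube_pt _ hu hv hw

/-- Jensen for two block sums -/
theorem jensen2 {ι : Type} (J : Finset ι) (f g : ι → ℝ) :
    (∑ q ∈ J, f q - ∑ r ∈ J, g r) ^ 2 ≤ ∑ q ∈ J, ∑ r ∈ J, (f q - g r) ^ 2 := by
  rcases J.eq_empty_or_nonempty with h | h
  · subst h; simp
  have hJ : (0 : ℝ) < J.card := by exact_mod_cast h.card_pos
  have h1 : ∑ x ∈ J ×ˢ J, (f x.1 - g x.2) =
      J.card * (∑ q ∈ J, f q - ∑ r ∈ J, g r) := by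
    rw [sum_product]
    simp only [sum_sub_distrib, sum_const, nsmul_eq_mul]
    rw [← mul_sum]
    ring
  have h2 := sq_sum_le_card_mul_sum_sq (s := J ×ˢ J) (f := fun x : ι × ι => f x.1 - g x.2)
  rw [h1, card_product] at h2
  have h3 : ∑ x ∈ J ×ˢ J, (f x.1 - g x.2) ^ 2 = ∑ q ∈ J, ∑ r ∈ J, (f q - g r) ^ 2 := by
    rw [sum_product]
  rw [h3] at h2
  push_cast at h2
  have h4 : ((J.card : ℝ) * J.card) * (∑ q ∈ J, f q - ∑ r ∈ J, g r) ^ 2 ≤
      (J.card * J.card) * ∑ q ∈ J, ∑ r ∈ J, (f q - g r) ^ 2 := by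
    calc ((J.card : ℝ) * J.card) * (∑ q ∈ J, f q - ∑ r ∈ J, g r) ^ 2
        = (J.card * (∑ q ∈ J, f q - ∑ r ∈ J, g r)) ^ 2 := by ring
      _ ≤ _ := h2
  exact le_of_mul_le_mul_left h4 (by positivity)

/-- Sum over an injective family. -/
theorem sum_inj_le {ι X : Type} [Fintype X] (s : Finset ι) (g : ι → X)
    (hg : Set.InjOn g s) (F : X → ℝ) (hF : ∀ x, 0 ≤ F x) : ∑ i ∈ s, F (g i) ≤ ∑ x, F x := by
  classical
  rw [← Finset.sum_image (f := F) hg]
  exact Finset.sum_le_univ_sum_of_nonneg hF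

section main

variable {n N W e : ℕ} [NeZero n] {K c1 : ℝ} {b : Finset (Tor n)} {h : Tor n → ℝ}
    {c : Nd n N → Nd n N → ℝ}

/-- equal or adjacent cells, quarters at distance at least 2 -/
def Adj (P Q : Ix) : Prop :=
  (∃ X Y Z, X ≤ P.1 ∧ P.1 ≤ X + 1 ∧ X ≤ Q.1 ∧ Q.1 ≤ X + 1 ∧
    Y ≤ P.2.1 ∧ P.2.1 ≤ Y + 1 ∧ Y ≤ Q.2.1 ∧ Q.2.1 ≤ Y + 1 ∧
    Z ≤ P.2.2.1 ∧ P.2.2.1 ≤ Z + 1 ∧ Z ≤ Q.2.2.1 ∧ Q.2.2.1 ≤ Z + 1) ∧
  (P.2.2.2 + 2 ≤ Q.2.2.2 ∨ Q.2.2.2 + 2 ≤ P.2.2.2)

theorem lay_ne {w t : ℕ} (hN : N = 4 * W) (hw : w < 4) (ht : t < W) :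
    (lay N W w t : Fin (N + 1)) ≠ 0 := by
  intro h0
  have h1 := lay_val hN hw ht
  rw [h0] at h1
  simp at h1
  omega

theorem cond_aux (hN : N = 4 * W) (hc : Local3 n N W e K c1 b h c) (o : Tor n) {S : ℕ}
    (h1 : ∀ x ∈ cube n o (3 ^ e * S), h x = 1) {P Q q r : Ix} (hP : Ok S P) (hQ : Ok S Q)
    (hq : q ∈ JJ W e) (hr : r ∈ JJ W e) (X Y Z : ℕ)
    (hcell : X ≤ P.1 ∧ P.1 ≤ X + 1 ∧ X ≤ Q.1 ∧ Q.1 ≤ X + 1 ∧
      Y ≤ P.2.1 ∧ P.2.1 ≤ Y + 1 ∧ Y ≤ Q.2.1 ∧ Q.2.1 ≤ Y + 1 ∧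
      Z ≤ P.2.2.1 ∧ P.2.2.1 ≤ Z + 1 ∧ Z ≤ Q.2.2.1 ∧ Q.2.2.1 ≤ Z + 1)
    (hw : P.2.2.2 + 2 ≤ Q.2.2.2) :
    c1 / ((N : ℝ) ^ 2 * 27 ^ e) ≤ c (nod n N W e o P q) (nod n N W e o Q r) := by
  rw [mem_JJ] at hq hr
  obtain ⟨hp1, hp2, hp3, hp4⟩ := hP
  obtain ⟨hq1, hq2, hq3, hq4⟩ := hQ
  obtain ⟨a1, a2, a3, a4, a5, a6, a7, a8, a9, a10, a11, a12⟩ := hcell
  have e1 := lay_val hN hp4 hq.2.2.2
  have e2 := lay_val hN hq4 hr.2.2.2
  have m1 : (P.2.2.2 + 2) * W ≤ Q.2.2.2 * W := Nat.mul_le_mul_right _ hw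
  rw [add_mul] at m1
  have t1 := hq.2.2.2
  have t2 := hr.2.2.2
  refine hc.long _ _ (pt n o (3 ^ e * X) (3 ^ e * Y) (3 ^ e * Z)) _ _ (lay_ne hN hp4 hq.2.2.2)
    ?_ (mem_dbl o a1 a2 a5 a6 a9 a10 hq.1 hq.2.1 hq.2.2.1)
    (mem_dbl o a3 a4 a7 a8 a11 a12 hr.1 hr.2.1 hr.2.2.1) ?_ ?_
  · rw [e1, e2]; omega
  · exact h1 _ (mem_cube_pt o (cell_lt hp1 hq.1) (cell_lt hp2 hq.2.1) (cell_lt hp3 hq.2.2.1))
  · exact h1 _ (mem_cube_pt o (cell_lt hq1 hr.1) (cell_lt hq2 hr.2.1) (cell_lt hq3 hr.2.2.1))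

theorem cond (hN : N = 4 * W) (hc : Local3 n N W e K c1 b h c) (o : Tor n) {S : ℕ}
    (h1 : ∀ x ∈ cube n o (3 ^ e * S), h x = 1) {P Q q r : Ix} (hP : Ok S P) (hQ : Ok S Q)
    (hq : q ∈ JJ W e) (hr : r ∈ JJ W e) (ha : Adj P Q) :
    c1 / ((N : ℝ) ^ 2 * 27 ^ e) ≤ c (nod n N W e o P q) (nod n N W e o Q r) := by
  obtain ⟨⟨X, Y, Z, hcell⟩, hw | hw⟩ := ha
  · exact cond_aux hN hc o h1 hP hQ hq hr X Y Z hcell hw
  · rw [hc.symm]
    obtain ⟨a1, a2, a3, a4, a5, a6, a7, a8, a9, a10, a11, a12⟩ := hcell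
    exact cond_aux hN hc o h1 hQ hP hr hq X Y Z
      ⟨a3, a4, a1, a2, a7, a8, a5, a6, a11, a12, a9, a10⟩ hw

/-- One pair of blocks. -/
theorem pair_le (hW : 0 < W) (hN : N = 4 * W) (hc1 : 0 < c1) (hc : Local3 n N W e K c1 b h c)
    (o : Tor n) {S : ℕ} (h1 : ∀ x ∈ cube n o (3 ^ e * S), h x = 1) (a : Nd n N → ℝ) {P Q : Ix}
    (hP : Ok S P) (hQ : Ok S Q) (ha : Adj P Q) :
    c1 * 27 ^ e / 16 * (av n N W e o a P - av n N W e o a Q) ^ 2 ≤
      ∑ q ∈ JJ W e, ∑ r ∈ JJ W e, c (nod n N W e o P q) (nod n N W e o Q r) *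
        (a (nod n N W e o P q) - a (nod n N W e o Q r)) ^ 2 := by
  have hW' : (0 : ℝ) < W := by exact_mod_cast hW
  have hN' : (N : ℝ) = 4 * W := by rw [hN]; push_cast; ring
  have h27 : (0 : ℝ) < 27 ^ e := by positivity
  have hJ := jensen2 (JJ W e) (fun q => a (nod n N W e o P q)) (fun q => a (nod n N W e o Q q))
  have e1 : c1 * 27 ^ e / 16 * (av n N W e o a P - av n N W e o a Q) ^ 2 =
      c1 / ((N : ℝ) ^ 2 * 27 ^ e) * (∑ q ∈ JJ W e, a (nod n N W e o P q) -
        ∑ q ∈ JJ W e, a (nod n N W e o Q q)) ^ 2 := by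
    unfold av
    rw [hN']
    field_simp
    ring
  rw [e1]
  have hg : 0 ≤ c1 / ((N : ℝ) ^ 2 * 27 ^ e) := by positivity
  refine (mul_le_mul_of_nonneg_left hJ hg).trans ?_
  rw [mul_sum]
  refine sum_le_sum fun q hq => ?_
  rw [mul_sum]
  refine sum_le_sum fun r hr => ?_
  exact mul_le_mul_of_nonneg_right (cond hN hc o h1 hP hQ hq hr ha) (sq_nonneg _)

/-- A family of pairs of blocks. -/
theorem fam_le (hW : 0 < W) (hN : N = 4 * W) (hc1 : 0 < c1) (hc : Local3 n N W e K c1 b h c)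
    (o : Tor n) {S : ℕ} (hS : 3 ^ e * S ≤ n) (h1 : ∀ x ∈ cube n o (3 ^ e * S), h x = 1)
    (a : Nd n N → ℝ) {ι : Type} (I : Finset ι) (P Q : ι → Ix) (hP : ∀ i ∈ I, Ok S (P i))
    (hQ : ∀ i ∈ I, Ok S (Q i)) (ha : ∀ i ∈ I, Adj (P i) (Q i))
    (hinj : ∀ i ∈ I, ∀ j ∈ I, P i = P j → Q i = Q j → i = j) :
    c1 * 27 ^ e / 16 * ∑ i ∈ I, (av n N W e o a (P i) - av n N W e o a (Q i)) ^ 2 ≤
      2 * netK c a := by
  have htot : 2 * netK c a = ∑ x : Nd n N × Nd n N, c x.1 x.2 * (a x.1 - a x.2) ^ 2 := by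
    unfold netK
    rw [Fintype.sum_prod_type (fun x : Nd n N × Nd n N => c x.1 x.2 * (a x.1 - a x.2) ^ 2)]
    ring
  rw [htot, mul_sum]
  refine (sum_le_sum fun i hi =>
    pair_le hW hN hc1 hc o h1 a (hP i hi) (hQ i hi) (ha i hi)).trans ?_
  have h2 : ∑ i ∈ I, ∑ q ∈ JJ W e, ∑ r ∈ JJ W e, c (nod n N W e o (P i) q) (nod n N W e o (Q i) r) *
        (a (nod n N W e o (P i) q) - a (nod n N W e o (Q i) r)) ^ 2 =
      ∑ t ∈ I ×ˢ (JJ W e ×ˢ JJ W e),
        c (nod n N W e o (P t.1) t.2.1) (nod n N W e o (Q t.1) t.2.2) *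
        (a (nod n N W e o (P t.1) t.2.1) - a (nod n N W e o (Q t.1) t.2.2)) ^ 2 := by
    rw [sum_product]
    refine sum_congr rfl fun i _ => ?_
    rw [sum_product]
  rw [h2]
  refine sum_inj_le (X := Nd n N × Nd n N) _
    (fun t : ι × Ix × Ix => (nod n N W e o (P t.1) t.2.1, nod n N W e o (Q t.1) t.2.2)) ?_
    (fun x => c x.1 x.2 * (a x.1 - a x.2) ^ 2)
    (fun x => mul_nonneg (hc.nonneg _ _) (sq_nonneg _))
  rintro ⟨i, q, r⟩ ht ⟨i', q', r'⟩ ht' heq
  simp only [coe_product, Set.mem_prod, mem_coe] at ht ht'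
  obtain ⟨hi, hq, hr⟩ := ht
  obtain ⟨hi', hq', hr'⟩ := ht'
  simp only [Prod.mk.injEq] at heq
  obtain ⟨e1, e2⟩ := heq
  obtain ⟨f1, f2⟩ := nod_inj hN o hS (hP i hi) (hP i' hi') hq hq' e1
  obtain ⟨g1, g2⟩ := nod_inj hN o hS (hQ i hi) (hQ i' hi') hr hr' e2
  have := hinj i hi i' hi' f1 g1
  rw [this, f2, g2]

end main

end Cl

end Vale.Agent.P361.LRO.Ind3
end

section

/-!
# P361 LRO, stage 3, package E1: energy of the cell averages (helper232)
-/

namespace Vale.Agent.P361.LRO.Ind3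

open Finset Vale.Agent.P361.LRO _root_.P361.LRO Vale.Agent.P361.LRO.Ind

namespace Cl

theorem lay_eq (N W w s : ℕ) : lay N W w s = lay N N 0 (w * W + s) := by
  unfold lay
  by_cases h : 1 + w * W + s < N + 1
  · have h' : 1 + 0 * N + (w * W + s) < N + 1 := by
      rw [Nat.zero_mul]; omega
    rw [dif_pos h, dif_pos h']
    apply Fin.ext
    show 1 + w * W + s = 1 + 0 * N + (w * W + s)
    rw [Nat.zero_mul]
    omega
  · have h' : ¬ (1 + 0 * N + (w * W + s) < N + 1) := by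
      rw [Nat.zero_mul]; omega
    rw [dif_neg h, dif_neg h']

theorem sum_four {N W : ℕ} (hN : N = 4 * W) (f : ℕ → ℝ) :
    ∑ t ∈ range N, f t = ∑ w ∈ range 4, ∑ s ∈ range W, f (w * W + s) := by
  have hN' : N = W + W + W + W := by omega
  rw [hN', sum_range_add, sum_range_add, sum_range_add]
  simp only [sum_range_succ, sum_range_zero, Nat.zero_mul, Nat.one_mul, zero_add]
  have h2 : 2 * W = W + W := by ring
  have h3 : 3 * W = W + W + W := by ring
  rw [h2, h3]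

theorem UC_av {n N W e : ℕ} (hW : 0 < W) (hN : N = 4 * W) (o : Tor n) (a : Nd n N → ℝ)
    (x y z : ℕ) : UC n N e o a x y z =
      (1 / 4) * ∑ w ∈ range 4, av n N W e o a (x, y, z, w) := by
  have hW' : (0 : ℝ) < W := by exact_mod_cast hW
  have hN' : (N : ℝ) = 4 * W := by rw [hN]; push_cast; ring
  have h1 : ∀ w, av n N W e o a (x, y, z, w) = (1 / ((W : ℝ) * 27 ^ e)) *
      ∑ i ∈ range (3 ^ e), ∑ j ∈ range (3 ^ e), ∑ k ∈ range (3 ^ e), ∑ s ∈ range W,
        a (lay N N 0 (w * W + s), pt n o (3 ^ e * x + i) (3 ^ e * y + j) (3 ^ e * z + k)) := by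
    intro w
    unfold av JJ
    rw [sum4 (3 ^ e) (3 ^ e) (3 ^ e) W (fun i j k s =>
      a (lay N N 0 (w * W + s), pt n o (3 ^ e * x + i) (3 ^ e * y + j) (3 ^ e * z + k)))]
    congr 1
    refine sum_congr rfl fun q _ => ?_
    unfold nod
    rw [lay_eq]
  have h2 : ∑ w ∈ range 4, av n N W e o a (x, y, z, w) = (1 / ((W : ℝ) * 27 ^ e)) *
      ∑ i ∈ range (3 ^ e), ∑ j ∈ range (3 ^ e), ∑ k ∈ range (3 ^ e), ∑ t ∈ range N,
        a (lay N N 0 t, pt n o (3 ^ e * x + i) (3 ^ e * y + j) (3 ^ e * z + k)) := by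
    rw [sum_congr rfl (fun w _ => h1 w), ← mul_sum]
    congr 1
    rw [sum_comm]
    refine sum_congr rfl fun i _ => ?_
    rw [sum_comm]
    refine sum_congr rfl fun j _ => ?_
    rw [sum_comm]
    refine sum_congr rfl fun k _ => ?_
    rw [sum_four hN]
  rw [h2]
  unfold UC
  rw [hN', ← mul_assoc]
  congr 1
  field_simp

/-- the opposite quarter -/
def fl (w : ℕ) : ℕ := (w + 2) % 4

theorem fl_lt (w : ℕ) : fl w < 4 := Nat.mod_lt _ (by norm_num)

theorem fl_dist {w : ℕ} (hw : w < 4) : w + 2 ≤ fl w ∨ fl w + 2 ≤ w := by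
  unfold fl
  omega

theorem sum_fl (g : ℕ → ℝ) : ∑ w ∈ range 4, g (fl w) = ∑ w ∈ range 4, g w := by
  simp only [sum_range_succ, sum_range_zero, fl]
  norm_num
  ring

theorem sq4 (a b c d : ℝ) : (1 / 4 * (a + b + c + d)) ^ 2 ≤
    1 / 4 * (a ^ 2 + b ^ 2 + c ^ 2 + d ^ 2) := by
  nlinarith [sq_nonneg (a - b), sq_nonneg (a - c), sq_nonneg (a - d), sq_nonneg (b - c),
    sq_nonneg (b - d), sq_nonneg (c - d)]

theorem diff_le {n N W e : ℕ} (hW : 0 < W) (hN : N = 4 * W) (o : Tor n) (a : Nd n N → ℝ)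
    (x y z x' y' z' : ℕ) :
    (UC n N e o a x' y' z' - UC n N e o a x y z) ^ 2 ≤
      1 / 4 * ∑ w ∈ range 4,
        (av n N W e o a (x, y, z, w) - av n N W e o a (x', y', z', fl w)) ^ 2 := by
  rw [UC_av hW hN, UC_av hW hN, ← sum_fl (fun w => av n N W e o a (x', y', z', w))]
  simp only [sum_range_succ, sum_range_zero, zero_add]
  have h := sq4 (av n N W e o a (x, y, z, 0) - av n N W e o a (x', y', z', fl 0))
    (av n N W e o a (x, y, z, 1) - av n N W e o a (x', y', z', fl 1))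
    (av n N W e o a (x, y, z, 2) - av n N W e o a (x', y', z', fl 2))
    (av n N W e o a (x, y, z, 3) - av n N W e o a (x', y', z', fl 3))
  refine le_trans (le_of_eq ?_) h
  ring

/-- one direction -/
theorem dir_le {n N W e : ℕ} (hW : 0 < W) (hN : N = 4 * W) (o : Tor n) (a : Nd n N → ℝ)
    (A B C i j k : ℕ) :
    ∑ x ∈ range A, ∑ y ∈ range B, ∑ z ∈ range C,
      (UC n N e o a (x + i) (y + j) (z + k) - UC n N e o a x y z) ^ 2 ≤
      1 / 4 * ∑ P ∈ range A ×ˢ (range B ×ˢ (range C ×ˢ range 4)),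
        (av n N W e o a P -
          av n N W e o a (P.1 + i, P.2.1 + j, P.2.2.1 + k, fl P.2.2.2)) ^ 2 := by
  have h := sum4 A B C 4 (fun x y z w => (av n N W e o a (x, y, z, w) -
    av n N W e o a (x + i, y + j, z + k, fl w)) ^ 2)
  have h' : ∑ P ∈ range A ×ˢ (range B ×ˢ (range C ×ˢ range 4)),
        (av n N W e o a P -
          av n N W e o a (P.1 + i, P.2.1 + j, P.2.2.1 + k, fl P.2.2.2)) ^ 2 =
      ∑ x ∈ range A, ∑ y ∈ range B, ∑ z ∈ range C, ∑ w ∈ range 4,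
        (av n N W e o a (x, y, z, w) - av n N W e o a (x + i, y + j, z + k, fl w)) ^ 2 :=
    h.symm
  rw [h']
  simp only [mul_sum (s := range A), mul_sum (s := range B), mul_sum (s := range C)]
  exact sum_le_sum fun x _ => sum_le_sum fun y _ => sum_le_sum fun z _ =>
    diff_le hW hN o a x y z _ _ _

end Cl

open Cl in
/-- Energy of the cell averages (whole circle). -/
theorem E4_le3 {n N W e : ℕ} [NeZero n] {K c1 : ℝ} {b : Finset (Tor n)} {h : Tor n → ℝ}
    {c : Nd n N → Nd n N → ℝ} (hW : 0 < W) (hN : N = 4 * W) (hc1 : 0 < c1)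
    (hc : Local3 n N W e K c1 b h c) (o : Tor n) (S : ℕ) (hS : 3 ^ e * S < n)
    (h1 : ∀ x ∈ cube n o (3 ^ e * S), h x = 1) (a : Nd n N → ℝ) :
    c1 * 27 ^ e * E4 S 1 (UT n N e o a) ≤ 16 * netK c a := by
  have hK0 : 0 ≤ netK c a := netK_nonneg hc.nonneg a
  set R0 : Finset Ix := range (S - 1) ×ˢ (range S ×ˢ (range S ×ˢ range 4)) with hR0
  set R1 : Finset Ix := range S ×ˢ (range (S - 1) ×ˢ (range S ×ˢ range 4)) with hR1
  set R2 : Finset Ix := range S ×ˢ (range S ×ˢ (range (S - 1) ×ˢ range 4)) with hR2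
  set sh : ℕ → ℕ → ℕ → Ix → Ix := fun i j k P =>
    (P.1 + i, P.2.1 + j, P.2.2.1 + k, fl P.2.2.2) with hsh
  have m0 : ∀ {P : Ix}, P ∈ R0 ↔ P.1 < S - 1 ∧ P.2.1 < S ∧ P.2.2.1 < S ∧ P.2.2.2 < 4 := by
    intro P; simp [hR0]
  have m1 : ∀ {P : Ix}, P ∈ R1 ↔ P.1 < S ∧ P.2.1 < S - 1 ∧ P.2.2.1 < S ∧ P.2.2.2 < 4 := by
    intro P; simp [hR1]
  have m2 : ∀ {P : Ix}, P ∈ R2 ↔ P.1 < S ∧ P.2.1 < S ∧ P.2.2.1 < S - 1 ∧ P.2.2.2 < 4 := by
    intro P; simp [hR2]
  have hfam := fam_le hW hN hc1 hc o hS.le h1 a (ι := Ix ⊕ (Ix ⊕ Ix))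
    (R0.disjSum (R1.disjSum R2)) (Sum.elim id (Sum.elim id id))
    (Sum.elim (sh 1 0 0) (Sum.elim (sh 0 1 0) (sh 0 0 1)))
    (by
      rintro (P | P | P) hP
      · rw [inl_mem_disjSum, m0] at hP
        exact ⟨by show P.1 < S; omega, hP.2⟩
      · rw [inr_mem_disjSum, inl_mem_disjSum, m1] at hP
        exact ⟨hP.1, by show P.2.1 < S; omega, hP.2.2⟩
      · rw [inr_mem_disjSum, inr_mem_disjSum, m2] at hP
        exact ⟨hP.1, hP.2.1, by show P.2.2.1 < S; omega, hP.2.2.2⟩)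
    (by
      rintro (P | P | P) hP
      · rw [inl_mem_disjSum, m0] at hP
        exact ⟨by show P.1 + 1 < S; omega, by show P.2.1 + 0 < S; omega,
          by show P.2.2.1 + 0 < S; omega, fl_lt _⟩
      · rw [inr_mem_disjSum, inl_mem_disjSum, m1] at hP
        exact ⟨by show P.1 + 0 < S; omega, by show P.2.1 + 1 < S; omega,
          by show P.2.2.1 + 0 < S; omega, fl_lt _⟩
      · rw [inr_mem_disjSum, inr_mem_disjSum, m2] at hP
        exact ⟨by show P.1 + 0 < S; omega, by show P.2.1 + 0 < S; omega,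
          by show P.2.2.1 + 1 < S; omega, fl_lt _⟩)
    (by
      have key : ∀ (P : Ix) (i j k : ℕ), i ≤ 1 → j ≤ 1 → k ≤ 1 → P.2.2.2 < 4 →
          Adj P (sh i j k P) := by
        intro P i j k hi hj hk hw
        refine ⟨⟨P.1, P.2.1, P.2.2.1, ?_⟩, fl_dist hw⟩
        simp only [hsh]
        omega
      rintro (P | P | P) hP
      · rw [inl_mem_disjSum, m0] at hP
        exact key P 1 0 0 le_rfl (by omega) (by omega) hP.2.2.2
      · rw [inr_mem_disjSum, inl_mem_disjSum, m1] at hP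
        exact key P 0 1 0 (by omega) le_rfl (by omega) hP.2.2.2
      · rw [inr_mem_disjSum, inr_mem_disjSum, m2] at hP
        exact key P 0 0 1 (by omega) (by omega) le_rfl hP.2.2.2)
    (by
      rintro (P | P | P) _ (P' | P' | P') _ e1 e2
      all_goals
        simp only [Sum.elim_inl, Sum.elim_inr, id_eq] at e1 e2
        subst e1
        first
        | rfl
        | (exfalso
           have g1 := congrArg (fun R : Ix => R.1) e2
           have g2 := congrArg (fun R : Ix => R.2.1) e2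
           have g3 := congrArg (fun R : Ix => R.2.2.1) e2
           simp only [hsh] at g1 g2 g3
           omega))
  rw [sum_disjSum, sum_disjSum] at hfam
  simp only [Sum.elim_inl, Sum.elim_inr, id_eq] at hfam
  have d0 := dir_le (e := e) hW hN o a (S - 1) S S 1 0 0
  have d1 := dir_le (e := e) hW hN o a S (S - 1) S 0 1 0
  have d2 := dir_le (e := e) hW hN o a S S (S - 1) 0 0 1
  have hE : E4 S 1 (UT n N e o a) =
      (∑ x ∈ range (S - 1), ∑ y ∈ range S, ∑ z ∈ range S,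
        (UC n N e o a (x + 1) (y + 0) (z + 0) - UC n N e o a x y z) ^ 2) +
      (∑ x ∈ range S, ∑ y ∈ range (S - 1), ∑ z ∈ range S,
        (UC n N e o a (x + 0) (y + 1) (z + 0) - UC n N e o a x y z) ^ 2) +
      (∑ x ∈ range S, ∑ y ∈ range S, ∑ z ∈ range (S - 1),
        (UC n N e o a (x + 0) (y + 0) (z + 1) - UC n N e o a x y z) ^ 2) := by
    unfold E4 Esp Eti UT
    simp
  rw [hE]
  have h27 : 0 < c1 * 27 ^ e := by positivity
  have hsum := add_le_add (add_le_add d0 d1) d2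
  have hm := mul_le_mul_of_nonneg_left hsum h27.le
  refine hm.trans ?_
  have hfam2 := hfam
  simp only [hsh] at hfam2
  nlinarith [hfam2]

end Vale.Agent.P361.LRO.Ind3
end

section

/-!
# P361 LRO, block (6), package GEOB: the distance to a cube of the torus
-/

set_option linter.all false

namespace Vale.Agent.P361.LRO.Ind

open Finset Vale.Agent.P361.LRO _root_.P361.LRO

theorem geoB_val_succ {n : ℕ} [NeZero n] (t : ZMod n) :
    (t + 1).val = if t.val + 1 < n then t.val + 1 else 0 := by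
  have ht : t.val < n := ZMod.val_lt t
  have h : (t + 1).val = (t.val + 1) % n := by
    rw [ZMod.val_add, ZMod.val_one_eq_one_mod, Nat.add_mod_mod]
  rw [h]
  split_ifs with h1
  · exact Nat.mod_eq_of_lt h1
  · have h2 : t.val + 1 = n := by omega
    rw [h2, Nat.mod_self]

theorem geoB_d1_eq_zero {n : ℕ} [NeZero n] (r : ℕ) (t : ZMod n) :
    d1 n r t = 0 ↔ t.val < r := by
  have ht : t.val < n := ZMod.val_lt t
  unfold d1
  split_ifs with h
  · simp [h]
  · omega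

theorem geoB_d1_succ {n : ℕ} [NeZero n] {r : ℕ} (hr : 0 < r) (t : ZMod n) :
    d1 n r (t + 1) ≤ d1 n r t + 1 ∧ d1 n r t ≤ d1 n r (t + 1) + 1 := by
  have ht : t.val < n := ZMod.val_lt t
  unfold d1
  rw [geoB_val_succ]
  split_ifs <;> omega

theorem geoB_d1_mono {n : ℕ} (t : ZMod n) {r s : ℕ} (h : r ≤ s) : d1 n s t ≤ d1 n r t := by
  unfold d1
  split_ifs <;> omega

theorem geoB_mem_cube {n : ℕ} [NeZero n] (o x : Tor n) (r : ℕ) (hr : r ≤ n) :
    x ∈ cube n o r ↔ ∀ i, (x i - o i).val < r := by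
  unfold cube
  rw [Finset.mem_image]
  constructor
  · rintro ⟨y, -, rfl⟩ i
    have h1 : ((o + fun i => ((y i : ℕ) : ZMod n)) i - o i) = ((y i : ℕ) : ZMod n) := by
      simp
    rw [h1, ZMod.val_natCast]
    exact lt_of_le_of_lt (Nat.mod_le _ _) (y i).2
  · intro h
    refine ⟨fun i => ⟨(x i - o i).val, h i⟩, Finset.mem_univ _, ?_⟩
    funext i
    simp

theorem mem_cube_iff_dist {n : ℕ} [NeZero n] (o x : Tor n) (r : ℕ) (hr : r ≤ n) (h0 : 0 < r) :
    x ∈ cube n o r ↔ dist n o r x = 0 := by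
  rw [geoB_mem_cube o x r hr]
  unfold dist
  rw [Finset.sum_eq_zero_iff]
  constructor
  · intro h i _
    exact (geoB_d1_eq_zero r _).2 (h i)
  · intro h i
    exact (geoB_d1_eq_zero r _).1 (h i (Finset.mem_univ i))

theorem dist_lip {n : ℕ} [NeZero n] (o x : Tor n) (r : ℕ) (hr : 0 < r) (i : Fin 3) :
    dist n o r (x + Pi.single i 1) ≤ dist n o r x + 1 ∧
    dist n o r x ≤ dist n o r (x + Pi.single i 1) + 1 := by
  have key : ∀ j : Fin 3,
      d1 n r ((x + Pi.single i 1 : Fin 3 → ZMod n) j - o j) ≤ d1 n r (x j - o j) + (if j = i then 1 else 0) ∧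
      d1 n r (x j - o j) ≤ d1 n r ((x + Pi.single i 1 : Fin 3 → ZMod n) j - o j) + (if j = i then 1 else 0) := by
    intro j
    by_cases hj : j = i
    · subst hj
      have h1 : (x + Pi.single j 1 : Fin 3 → ZMod n) j - o j = (x j - o j) + 1 := by
        simp only [Pi.add_apply, Pi.single_eq_same]
        ring
      rw [h1, if_pos rfl]
      exact geoB_d1_succ hr _
    · have h1 : (x + Pi.single i 1 : Fin 3 → ZMod n) j - o j = x j - o j := by
        simp only [Pi.add_apply, Pi.single_eq_of_ne hj, add_zero]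
      rw [h1, if_neg hj]
      exact ⟨le_rfl, le_rfl⟩
  have hs : ∑ j : Fin 3, (if j = i then 1 else 0) = 1 := by simp
  unfold dist
  constructor
  · calc ∑ j, d1 n r ((x + Pi.single i 1 : Fin 3 → ZMod n) j - o j)
        ≤ ∑ j, (d1 n r (x j - o j) + (if j = i then 1 else 0)) :=
          Finset.sum_le_sum fun j _ => (key j).1
      _ = ∑ j, d1 n r (x j - o j) + 1 := by rw [Finset.sum_add_distrib, hs]
  · calc ∑ j, d1 n r (x j - o j)
        ≤ ∑ j, (d1 n r ((x + Pi.single i 1 : Fin 3 → ZMod n) j - o j) + (if j = i then 1 else 0)) :=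
          Finset.sum_le_sum fun j _ => (key j).2
      _ = ∑ j, d1 n r ((x + Pi.single i 1 : Fin 3 → ZMod n) j - o j) + 1 := by rw [Finset.sum_add_distrib, hs]

theorem dist_mono {n : ℕ} [NeZero n] (o x : Tor n) {r s : ℕ} (h : r ≤ s) :
    dist n o s x ≤ dist n o r x := by
  unfold dist
  exact Finset.sum_le_sum fun i _ => geoB_d1_mono _ h

theorem dist_ground {n : ℕ} [NeZero n] (o x : Tor n) {r s : ℕ} (hrs : r ≤ s) (hs : 8 * s ≤ n)
    (hx : x ∈ cube n (pt n o (4 * s) 0 0) s) : 3 * s ≤ dist n o r x := by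
  rw [geoB_mem_cube _ _ _ (by omega)] at hx
  have h0 := hx 0
  have hn : 0 < n := Nat.pos_of_ne_zero (NeZero.ne n)
  have h1 : x 0 - pt n o (4 * s) 0 0 0 = x 0 - o 0 - ((4 * s : ℕ) : ZMod n) := by
    simp only [pt, Pi.add_apply, Matrix.cons_val_zero]
    ring
  rw [h1] at h0
  set u : ZMod n := x 0 - o 0 - ((4 * s : ℕ) : ZMod n) with hu
  have h2 : x 0 - o 0 = u + ((4 * s : ℕ) : ZMod n) := by rw [hu]; ring
  have h3 : (x 0 - o 0).val = u.val + 4 * s := by
    rw [h2, ZMod.val_add, ZMod.val_natCast, Nat.add_mod_mod]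
    exact Nat.mod_eq_of_lt (by omega)
  have h4 : 3 * s ≤ d1 n r (x 0 - o 0) := by
    unfold d1
    rw [h3]
    split_ifs <;> omega
  refine h4.trans ?_
  unfold dist
  exact Finset.single_le_sum (f := fun i => d1 n r (x i - o i)) (fun i _ => Nat.zero_le _)
    (Finset.mem_univ 0)

end Vale.Agent.P361.LRO.Ind
end

section

/-!
P361 LRO, block (6): total weight of a bump (helper660).
-/

namespace Vale.Agent.P361.LRO.Ind

open Finset Vale.Agent.P361.LRO

noncomputable section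

variable {n : ℕ} [NeZero n]

theorem gm_val_succ (t : ZMod n) :
    (t + 1).val = if t.val + 1 < n then t.val + 1 else 0 := by
  have hn : 0 < n := Nat.pos_of_ne_zero (NeZero.ne n)
  rw [ZMod.val_add, ZMod.val_one_eq_one_mod, Nat.add_mod_mod]
  have ht := ZMod.val_lt t
  by_cases h : t.val + 1 < n
  · rw [if_pos h, Nat.mod_eq_of_lt h]
  · rw [if_neg h]
    have : t.val + 1 = n := by omega
    rw [this, Nat.mod_self]

theorem gm_d1_succ {r : ℕ} (hr : 1 ≤ r) (t : ZMod n) :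
    d1 n r (t + 1) ≤ d1 n r t + 1 ∧ d1 n r t ≤ d1 n r (t + 1) + 1 := by
  have ht := ZMod.val_lt t
  have h := gm_val_succ t
  unfold d1
  rw [h]
  by_cases h1 : t.val + 1 < n
  · rw [if_pos h1]
    split_ifs <;> omega
  · rw [if_neg h1]
    split_ifs <;> omega

theorem gm_d1_anti {r r' : ℕ} (h : r ≤ r') (t : ZMod n) : d1 n r' t ≤ d1 n r t := by
  unfold d1
  split_ifs <;> omega

theorem gm_dist_anti {r r' : ℕ} (h : r ≤ r') (o x : Tor n) : dist n o r' x ≤ dist n o r x :=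
  Finset.sum_le_sum fun i _ => gm_d1_anti h _

theorem gm_dist_step {r : ℕ} (hr : 1 ≤ r) (o x : Tor n) (i : Fin 3) :
    dist n o r (x + Pi.single i 1) ≤ dist n o r x + 1 ∧
      dist n o r x ≤ dist n o r (x + Pi.single i 1) + 1 := by
  have e1 : ∀ j, j ≠ i → (x + Pi.single i 1 : Tor n) j - o j = x j - o j := by
    intro j hj
    simp [hj]
  have e2 : (x + Pi.single i 1 : Tor n) i - o i = (x i - o i) + 1 := by
    simp only [Pi.add_apply, Pi.single_eq_same]
    ring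
  have h := gm_d1_succ hr (x i - o i)
  unfold dist
  rw [← Finset.add_sum_erase _ _ (Finset.mem_univ i), ← Finset.add_sum_erase _
    (fun j => d1 n r (x j - o j)) (Finset.mem_univ i), e2]
  have e3 : ∑ j ∈ univ.erase i, d1 n r ((x + Pi.single i 1 : Tor n) j - o j) =
      ∑ j ∈ univ.erase i, d1 n r (x j - o j) :=
    Finset.sum_congr rfl fun j hj => by rw [e1 j (Finset.ne_of_mem_erase hj)]
  rw [e3]
  omega

theorem gm_mem_cube {x0 x : Tor n} {w : ℕ} (hw : w ≤ n) :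
    x ∈ cube n x0 w ↔ ∀ i, (x i - x0 i).val < w := by
  unfold cube
  rw [mem_image]
  constructor
  · rintro ⟨y, -, rfl⟩ i
    simp only [Pi.add_apply, add_sub_cancel_left]
    rw [ZMod.val_natCast_of_lt ((y i).2.trans_le hw)]
    exact (y i).2
  · intro h
    refine ⟨fun i => ⟨(x i - x0 i).val, h i⟩, mem_univ _, ?_⟩
    funext i
    simp

theorem gm_cube_mono (x0 : Tor n) {w w' : ℕ} (h : w ≤ w') (hw : w' ≤ n) :
    cube n x0 w ⊆ cube n x0 w' := by
  intro x hx
  rw [gm_mem_cube (h.trans hw)] at hx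
  rw [gm_mem_cube hw]
  exact fun i => (hx i).trans_le h

theorem gm_dist_cube {o x : Tor n} {r : ℕ} (hr : r ≤ n) (hx : x ∈ cube n o r) :
    dist n o r x = 0 := by
  rw [gm_mem_cube hr] at hx
  unfold dist
  apply Finset.sum_eq_zero
  intro i _
  unfold d1
  rw [if_pos (hx i)]

theorem gm_dist_ground {o x : Tor n} {r s : ℕ} (hrs : r ≤ s) (hs : 8 * s ≤ n)
    (hx : x ∈ cube n (pt n o (4 * s) 0 0) s) : 3 * s ≤ dist n o r x := by
  rw [gm_mem_cube (by omega)] at hx
  have h0 := hx 0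
  have hn : 0 < n := Nat.pos_of_ne_zero (NeZero.ne n)
  have e : x 0 - o 0 = (x 0 - pt n o (4 * s) 0 0 0) + ((4 * s : ℕ) : ZMod n) := by
    simp [pt]
    ring
  have h1 : (x 0 - o 0).val = (x 0 - pt n o (4 * s) 0 0 0).val + 4 * s := by
    have h5 : ((4 * s : ℕ) : ZMod n).val = 4 * s := by
      rcases Nat.eq_zero_or_pos s with h | h
      · subst h
        simp
      · exact ZMod.val_natCast_of_lt (by omega)
    rw [e, ZMod.val_add, h5]
    rcases Nat.eq_zero_or_pos s with h | h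
    · subst h
      omega
    · exact Nat.mod_eq_of_lt (by omega)
  have h2 : 3 * s ≤ d1 n r (x 0 - o 0) := by
    unfold d1
    rw [h1]
    split_ifs <;> omega
  exact h2.trans (Finset.single_le_sum (f := fun i => d1 n r (x i - o i))
    (fun _ _ => Nat.zero_le _) (mem_univ 0))

theorem gm_geom {lam : ℝ} (hl : 0 < lam) (m : ℕ) :
    ∑ j ∈ range m, Real.exp (-(lam * (j + 1 : ℕ))) ≤ 1 / lam := by
  have key : lam * ∑ j ∈ range m, Real.exp (-(lam * (j + 1 : ℕ))) ≤
      1 - Real.exp (-(lam * (m : ℕ))) := by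
    induction m with
    | zero => simp
    | succ m ih =>
      rw [Finset.sum_range_succ, mul_add]
      have h1 : lam + 1 ≤ Real.exp lam := Real.add_one_le_exp lam
      have h2 : Real.exp (-(lam * (m : ℕ))) = Real.exp lam * Real.exp (-(lam * (m + 1 : ℕ))) := by
        rw [← Real.exp_add]
        congr 1
        push_cast
        ring
      have h3 := Real.exp_pos (-(lam * (m + 1 : ℕ)))
      nlinarith
  rw [le_div_iff₀ hl, mul_comm]
  have := Real.exp_pos (-(lam * (m : ℕ)))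
  linarith

theorem gm_sum_val (F : ℕ → ℝ) : ∑ t : ZMod n, F t.val = ∑ v ∈ range n, F v := by
  refine Finset.sum_bij' (fun t _ => t.val) (fun v _ => (v : ZMod n)) ?_ ?_ ?_ ?_ ?_
  · intro t _
    exact mem_range.2 (ZMod.val_lt t)
  · intro v _
    exact mem_univ _
  · intro t _
    simp
  · intro v hv
    exact ZMod.val_natCast_of_lt (mem_range.1 hv)
  · intro t _
    rfl

/-- majorant of one factor of the bump -/
def gmF (n r : ℕ) (lam : ℝ) (v : ℕ) : ℝ :=
  (if v < r then (1 : ℝ) else 0) + (if v < r then 0 else Real.exp (-(lam * ((v - r) + 1 : ℕ)))) +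
    Real.exp (-(lam * ((n - 1 - v) + 1 : ℕ)))

theorem gm_line {lam : ℝ} (hl : 0 < lam) (r : ℕ) :
    ∑ t : ZMod n, Real.exp (-(lam * d1 n r t)) ≤ r + 2 / lam := by
  have h1 : ∀ t : ZMod n, Real.exp (-(lam * d1 n r t)) ≤ gmF n r lam t.val := by
    intro t
    have ht := ZMod.val_lt t
    unfold d1 gmF
    by_cases h : t.val < r
    · rw [if_pos h, if_pos h, if_pos h]
      simp only [Nat.cast_zero, mul_zero, neg_zero, Real.exp_zero, add_zero]
      have := Real.exp_pos (-(lam * ((n - 1 - t.val) + 1 : ℕ)))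
      linarith
    · rw [if_neg h, if_neg h, if_neg h, zero_add]
      rcases le_total (t.val + 1 - r) (n - t.val) with h2 | h2
      · rw [min_eq_left h2]
        have e : t.val + 1 - r = t.val - r + 1 := by omega
        rw [e]
        have := Real.exp_pos (-(lam * ((n - 1 - t.val) + 1 : ℕ)))
        linarith
      · rw [min_eq_right h2]
        have e : n - t.val = n - 1 - t.val + 1 := by omega
        rw [e]
        have := Real.exp_pos (-(lam * ((t.val - r) + 1 : ℕ)))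
        linarith
  refine (Finset.sum_le_sum fun t _ => h1 t).trans ?_
  rw [gm_sum_val (gmF n r lam)]
  unfold gmF
  rw [Finset.sum_add_distrib, Finset.sum_add_distrib]
  have k1 : ∑ v ∈ range n, (if v < r then (1 : ℝ) else 0) ≤ r := by
    rw [Finset.sum_boole]
    have : ((range n).filter fun v => v < r).card ≤ r := by
      calc ((range n).filter fun v => v < r).card ≤ (range r).card :=
            card_le_card fun v hv => mem_range.2 (mem_filter.1 hv).2
        _ = r := card_range r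
    exact_mod_cast this
  have k2 : ∑ v ∈ range n, (if v < r then (0 : ℝ) else Real.exp (-(lam * ((v - r) + 1 : ℕ)))) ≤
      1 / lam := by
    rw [← Finset.sum_filter_add_sum_filter_not (range n) (fun v => v < r)]
    rw [Finset.sum_eq_zero (s := (range n).filter fun v => v < r)
      (fun v hv => if_pos (mem_filter.1 hv).2), zero_add]
    rw [Finset.sum_congr rfl (fun v hv => if_neg (mem_filter.1 hv).2)]
    refine le_trans ?_ (gm_geom hl n)
    have hinj : Set.InjOn (fun v => v - r) ((range n).filter fun v => ¬ v < r : Finset ℕ) := by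
      intro v hv w hw hvw
      have h2 := (mem_filter.1 (Finset.mem_coe.1 hv)).2
      have h3 := (mem_filter.1 (Finset.mem_coe.1 hw)).2
      simp only at hvw
      omega
    rw [← Finset.sum_image (f := fun j : ℕ => Real.exp (-(lam * (j + 1 : ℕ)))) hinj]
    refine Finset.sum_le_sum_of_subset_of_nonneg ?_ fun _ _ _ => (Real.exp_pos _).le
    intro j hj
    obtain ⟨v, hv, rfl⟩ := mem_image.1 hj
    have := mem_range.1 (mem_filter.1 hv).1
    exact mem_range.2 (by omega)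
  have k3 : ∑ v ∈ range n, Real.exp (-(lam * ((n - 1 - v) + 1 : ℕ))) ≤ 1 / lam := by
    rw [Finset.sum_range_reflect (fun j => Real.exp (-(lam * (j + 1 : ℕ)))) n]
    exact gm_geom hl n
  have e : (2 : ℝ) / lam = 1 / lam + 1 / lam := by ring
  rw [e]
  linarith

/-- total weight of a bump -/
theorem sum_bump {lam : ℝ} (hl : 0 < lam) (o : Tor n) (r : ℕ) :
    ∑ x, bump n lam o r x ≤ (r + 2 / lam) ^ 3 := by
  have h1 : ∀ x : Tor n, bump n lam o r x = ∏ i : Fin 3, Real.exp (-(lam * d1 n r ((x - o) i))) := by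
    intro x
    rw [← Real.exp_sum]
    unfold bump dist
    congr 1
    rw [Finset.sum_neg_distrib, ← Finset.mul_sum]
    push_cast
    rfl
  rw [Finset.sum_congr rfl fun x _ => h1 x]
  have h2 : ∑ x : Tor n, ∏ i : Fin 3, Real.exp (-(lam * d1 n r ((x - o) i))) =
      ∑ x : Tor n, ∏ i : Fin 3, Real.exp (-(lam * d1 n r (x i))) :=
    Equiv.sum_comp (Equiv.subRight o) (fun x : Tor n => ∏ i : Fin 3, Real.exp (-(lam * d1 n r (x i))))
  rw [h2, ← Fintype.sum_pow (fun t : ZMod n => Real.exp (-(lam * d1 n r t))) 3]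
  exact pow_le_pow_left₀ (Finset.sum_nonneg fun _ _ => (Real.exp_pos _).le) (gm_line hl r) 3

end

end Vale.Agent.P361.LRO.Ind
end

section

/-!
P361 LRO, block (6): the bumped profiles (helper660).
-/

namespace Vale.Agent.P361.LRO.Ind

open Finset Vale.Agent.P361.LRO

noncomputable section

section gm

variable {n : ℕ} [NeZero n]

theorem gm_bump_pos (lam : ℝ) (o : Tor n) (r : ℕ) (x : Tor n) : 0 < bump n lam o r x := Real.exp_pos _

theorem gm_bump_le {lam : ℝ} (hl : 0 ≤ lam) (o : Tor n) (r : ℕ) (x : Tor n) :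
    bump n lam o r x ≤ 1 := by
  unfold bump
  rw [Real.exp_le_one_iff]
  have : 0 ≤ lam * dist n o r x := mul_nonneg hl (Nat.cast_nonneg _)
  linarith

theorem gm_bump_mono {lam : ℝ} (hl : 0 ≤ lam) {r r' : ℕ} (h : r ≤ r') (o x : Tor n) :
    bump n lam o r x ≤ bump n lam o r' x := by
  unfold bump
  apply Real.exp_le_exp.2
  have h1 : (dist n o r' x : ℝ) ≤ dist n o r x := by exact_mod_cast gm_dist_anti h o x
  have := mul_le_mul_of_nonneg_left h1 hl
  linarith

theorem gm_lipN {lam : ℝ} (hl : 0 ≤ lam) {r : ℕ} (hr : 1 ≤ r) (o : Tor n) :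
    LipN n lam (bump n lam o r) := by
  intro x i
  obtain ⟨h1, h2⟩ := gm_dist_step hr o x i
  have h1' : (dist n o r (x + Pi.single i 1) : ℝ) ≤ dist n o r x + 1 := by exact_mod_cast h1
  have h2' : (dist n o r x : ℝ) ≤ dist n o r (x + Pi.single i 1) + 1 := by exact_mod_cast h2
  have k1 := mul_le_mul_of_nonneg_left h1' hl
  have k2 := mul_le_mul_of_nonneg_left h2' hl
  unfold bump
  rw [← Real.exp_add, ← Real.exp_add]
  exact ⟨Real.exp_le_exp.2 (by linarith), Real.exp_le_exp.2 (by linarith)⟩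

theorem gm_bump_cube {lam : ℝ} {o x : Tor n} {r : ℕ} (hr : r ≤ n) (hx : x ∈ cube n o r) :
    bump n lam o r x = 1 := by
  unfold bump
  rw [gm_dist_cube hr hx]
  simp

theorem gm_bump_ground {lam : ℝ} (hl : 0 ≤ lam) {o x : Tor n} {r s : ℕ} (hrs : r ≤ s)
    (hs : 8 * s ≤ n) (hx : x ∈ cube n (pt n o (4 * s) 0 0) s) :
    bump n lam o r x ≤ Real.exp (-(3 * lam * s)) := by
  unfold bump
  apply Real.exp_le_exp.2
  have h1 : ((3 * s : ℕ) : ℝ) ≤ dist n o r x := by exact_mod_cast gm_dist_ground hrs hs hx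
  have := mul_le_mul_of_nonneg_left h1 hl
  push_cast at this
  linarith

/-- the weight of the sites lowered in `HH r' → HH r` -/
theorem gm_lowered {lam : ℝ} (hl : 0 < lam) (o : Tor n) (h : Tor n → ℝ) {r r' : ℕ} (hr : r ≤ r') :
    ∑ x, (if HH n lam o r h x = HH n lam o r' h x then 0 else HH n lam o r' h x) ≤
      (r' + 2 / lam) ^ 3 := by
  refine le_trans (Finset.sum_le_sum fun x _ => ?_) (sum_bump hl o r')
  split_ifs with hx
  · exact (gm_bump_pos lam o r' x).le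
  · unfold HH at hx ⊢
    rcases le_total (h x) (bump n lam o r' x) with h2 | h2
    · rw [max_eq_right h2]
    · exact absurd (by
        rw [max_eq_left h2, max_eq_left ((gm_bump_mono hl.le hr o x).trans h2)]) hx

/-- the weight of the sites lowered in `HH r' → h` -/
theorem gm_lowered' {lam : ℝ} (hl : 0 < lam) (o : Tor n) (h : Tor n → ℝ) (r' : ℕ) :
    ∑ x, (if h x = HH n lam o r' h x then 0 else HH n lam o r' h x) ≤
      (r' + 2 / lam) ^ 3 := by
  refine le_trans (Finset.sum_le_sum fun x _ => ?_) (sum_bump hl o r')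
  split_ifs with hx
  · exact (gm_bump_pos lam o r' x).le
  · unfold HH at hx ⊢
    rcases le_total (h x) (bump n lam o r' x) with h2 | h2
    · rw [max_eq_right h2]
    · exact absurd (max_eq_left h2).symm hx

end gm

/-! ### The statements of PLAN.txt -/

theorem Fam_HH {n : ℕ} [NeZero n] {h0 lam : ℝ} (hlam : 0 ≤ lam) (o : Tor n)
    {r : ℕ} (hr : 0 < r) {h : Tor n → ℝ} (hh : Fam n h0 lam h) :
    Fam n h0 lam (HH n lam o r h) :=
  hh.sup' (gm_lipN hlam hr o) (gm_bump_le hlam o r)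

theorem Fam_one {n : ℕ} [NeZero n] {h0 lam : ℝ} (h1 : h0 ≤ 1) (hlam : 0 ≤ lam) :
    Fam n h0 lam (fun _ => 1) :=
  fam_const h1 le_rfl zero_le_one hlam

theorem HH_one {n : ℕ} [NeZero n] {h0 lam : ℝ} (hlam : 0 ≤ lam) (o : Tor n)
    {r : ℕ} (hr : r ≤ n) {h : Tor n → ℝ} (hh : Fam n h0 lam h) {x : Tor n} (hx : x ∈ cube n o r) :
    HH n lam o r h x = 1 := by
  unfold HH
  rw [gm_bump_cube hr hx]
  exact max_eq_right (hh.le_one x)

theorem HH_mono {n : ℕ} [NeZero n] {lam : ℝ} (hlam : 0 ≤ lam) (o : Tor n)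
    {r s : ℕ} (hr : r ≤ s) (h : Tor n → ℝ) (x : Tor n) :
    HH n lam o r h x ≤ HH n lam o s h x :=
  max_le_max le_rfl (gm_bump_mono hlam hr o x)

/-- total field of the lowered sites, from radius `s` to radius `r`. -/
theorem sum_lowered {n : ℕ} [NeZero n] {lam : ℝ} (hlam : 0 < lam) (o : Tor n)
    {r s : ℕ} (hr : r ≤ s) (h : Tor n → ℝ) :
    ∑ x, (if HH n lam o r h x = HH n lam o s h x then 0 else HH n lam o s h x)
      ≤ (s + 2 / lam) ^ 3 := gm_lowered hlam o h hr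

/-- total field of the lowered sites, from radius `s` to `h`. -/
theorem sum_lowered' {n : ℕ} [NeZero n] {lam : ℝ} (hlam : 0 < lam) (o : Tor n)
    (s : ℕ) (h : Tor n → ℝ) :
    ∑ x, (if h x = HH n lam o s h x then 0 else HH n lam o s h x)
      ≤ (s + 2 / lam) ^ 3 := gm_lowered' hlam o h s

/-- nothing is changed on the ground cube. -/
theorem HH_ground {n : ℕ} [NeZero n] {h0 lam : ℝ} (hlam : 0 ≤ lam) (o : Tor n)
    {r s : ℕ} (hrs : r ≤ s) (hs : 8 * s ≤ n) {h : Tor n → ℝ} (hh : Fam n h0 lam h)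
    (hsm : Real.exp (-(lam * (3 * s))) ≤ h0)
    {x : Tor n} (hx : x ∈ cube n (pt n o (4 * s) 0 0) s) : HH n lam o r h x = h x := by
  refine max_eq_left (((gm_bump_ground hlam hrs hs hx).trans ?_).trans (hh.ge x))
  have e : 3 * lam * (s : ℝ) = lam * (3 * s) := by ring
  rw [e]
  exact hsm

theorem disj_EG {n N : ℕ} [NeZero n] (o : Tor n) (b : Finset (Tor n)) {r s : ℕ} (hrs : r ≤ s)
    (hs : 8 * s ≤ n) : Disjoint (EE6 n N o b r) (GG6 n N o s) := by
  rw [Finset.disjoint_left]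
  rintro ⟨k, x⟩ h1 h2
  unfold GG6 at h2
  rw [mem_product, mem_filter] at h2
  obtain ⟨⟨-, hk⟩, hx⟩ := h2
  unfold EE6 at h1
  rw [mem_union, mem_product, mem_filter] at h1
  rcases h1 with h1 | ⟨-, h1⟩
  · unfold hatb at h1
    rw [mem_product, mem_singleton] at h1
    exact hk h1.1
  · have h3 := gm_dist_ground hrs hs hx
    rw [gm_dist_cube (by omega) h1] at h3
    have hs0 : s = 0 := by omega
    subst hs0
    rw [gm_mem_cube (by omega)] at hx
    exact absurd (hx 0) (by omega)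

theorem disj_hat {n N : ℕ} [NeZero n] (o : Tor n) (b : Finset (Tor n)) (s : ℕ) :
    Disjoint (hatb N b) (GG6 n N o s) := by
  rw [Finset.disjoint_left]
  rintro ⟨k, x⟩ h1 h2
  unfold GG6 at h2
  rw [mem_product, mem_filter] at h2
  unfold hatb at h1
  rw [mem_product, mem_singleton] at h1
  exact h2.1.2 h1.1

end

end Vale.Agent.P361.LRO.Ind
end

section

/-!
# P361 LRO, block (6): test functions

`test_le` uses the test function `1` on `E'` and `min (2 a, 1)` elsewhere; `LBn_of_trunc` clips a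
potential to `[0, 1]`; `LBn_of_RBn` passes from resistance to conductance.
-/

namespace Vale.Agent.P361.LRO.Ind

open Finset Vale.Agent.P361.LRO _root_.P361.LRO

noncomputable section

theorem test_minsq (s t : ℝ) : (min (2 * s) 1 - min (2 * t) 1) ^ 2 ≤ 4 * (s - t) ^ 2 := by
  rw [show 4 * (s - t) ^ 2 = (2 * s - 2 * t) ^ 2 by ring, sq_le_sq]
  exact (abs_min_sub_min_le_max (2 * s) 1 (2 * t) 1).trans (by simp)

theorem test_clipsq (s t : ℝ) :
    (max 0 (min s 1) - max 0 (min t 1)) ^ 2 ≤ (s - t) ^ 2 := by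
  rw [sq_le_sq]
  refine (abs_max_sub_max_le_max 0 (min s 1) 0 (min t 1)).trans ?_
  simp only [sub_self, abs_zero]
  refine max_le (abs_nonneg _) ?_
  exact (abs_min_sub_min_le_max s 1 t 1).trans (by simp)

/-- Test function `1` on `E'`, `min (2 a, 1)` elsewhere. -/
theorem test_le {X : Type} [Fintype X] [DecidableEq X] {c : X → X → ℝ} (hs : ∀ u v, c u v = c v u)
    (hc : ∀ u v, 0 ≤ c u v) {E E' G : Finset X} {A : ℝ} (hA : LBn c E' G A)
    (hd : Disjoint E' G) {a : X → ℝ} (h0 : ∀ x, 0 ≤ a x)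
    (hE : ∀ x ∈ E, a x = 1) (hG : ∀ x ∈ G, a x = 0) :
    A ≤ 4 * netK c a + ∑ z ∈ (E' \ E).filter (fun z => a z < 1 / 2), ∑ v, c z v := by
  set B : Finset X := (E' \ E).filter (fun z => a z < 1 / 2) with hB
  set b : X → ℝ := fun x => if x ∈ E' then 1 else min (2 * a x) 1 with hb
  have h1 : A ≤ netK c b := by
    refine hA b (fun x hx => by simp [hb, hx]) (fun x hx => ?_)
    have hx' : x ∉ E' := fun h => (Finset.disjoint_left.mp hd) h hx
    simp [hb, hx', hG x hx]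
  have hb01 : ∀ x, 0 ≤ b x ∧ b x ≤ 1 := by
    intro x
    by_cases hx : x ∈ E'
    · simp [hb, hx]
    · simp only [hb, hx, if_false]
      exact ⟨le_min (by linarith [h0 x]) zero_le_one, min_le_right _ _⟩
  have hbm : ∀ x, x ∉ B → b x = min (2 * a x) 1 := by
    intro x hx
    by_cases hx' : x ∈ E'
    · by_cases hxE : x ∈ E
      · simp only [hb, hx', if_true, hE x hxE]
        norm_num
      · have : ¬ a x < 1 / 2 := fun h => hx (by simp [hB, hx', hxE] ; linarith)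
        simp only [hb, hx', if_true]
        rw [min_eq_right]
        push Not at this
        linarith
    · simp [hb, hx']
  have hpt : ∀ x y, (b x - b y) ^ 2 ≤ 4 * (a x - a y) ^ 2 + (if x ∈ B then 1 else 0)
      + (if y ∈ B then 1 else 0) := by
    intro x y
    have hle1 : (b x - b y) ^ 2 ≤ 1 := by
      have hx := hb01 x
      have hy := hb01 y
      nlinarith [hx.1, hx.2, hy.1, hy.2]
    have hsq : 0 ≤ 4 * (a x - a y) ^ 2 := by positivity
    by_cases hx : x ∈ B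
    · rw [if_pos hx]
      have : (0 : ℝ) ≤ if y ∈ B then 1 else 0 := by split_ifs <;> norm_num
      linarith
    · by_cases hy : y ∈ B
      · rw [if_neg hx, if_pos hy]
        linarith
      · rw [if_neg hx, if_neg hy, hbm x hx, hbm y hy]
        linarith [test_minsq (a x) (a y)]
  have hfirst : ∑ x, ∑ y, c x y * (if x ∈ B then (1 : ℝ) else 0) = ∑ z ∈ B, ∑ v, c z v := by
    rw [← Finset.sum_filter_add_sum_filter_not univ (fun x => x ∈ B)]
    have h2 : ∑ x ∈ univ.filter (fun x => x ∉ B), ∑ y, c x y * (if x ∈ B then (1 : ℝ) else 0) = 0 := by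
      refine Finset.sum_eq_zero fun x hx => Finset.sum_eq_zero fun y _ => ?_
      rw [if_neg (Finset.mem_filter.mp hx).2, mul_zero]
    rw [h2, add_zero]
    have h3 : univ.filter (fun x => x ∈ B) = B := by ext x; simp
    rw [h3]
    refine Finset.sum_congr rfl fun x hx => Finset.sum_congr rfl fun y _ => ?_
    rw [if_pos hx, mul_one]
  have hsecond : ∑ x, ∑ y, c x y * (if y ∈ B then (1 : ℝ) else 0) = ∑ z ∈ B, ∑ v, c z v := by
    rw [Finset.sum_comm, ← hfirst]
    exact Finset.sum_congr rfl fun y _ => Finset.sum_congr rfl fun x _ => by rw [hs x y]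
  have hsum : ∑ x, ∑ y, c x y * (b x - b y) ^ 2 ≤
      4 * ∑ x, ∑ y, c x y * (a x - a y) ^ 2 + ∑ x, ∑ y, c x y * (if x ∈ B then (1 : ℝ) else 0)
        + ∑ x, ∑ y, c x y * (if y ∈ B then (1 : ℝ) else 0) := by
    rw [Finset.mul_sum, ← Finset.sum_add_distrib, ← Finset.sum_add_distrib]
    refine Finset.sum_le_sum fun x _ => ?_
    rw [Finset.mul_sum, ← Finset.sum_add_distrib, ← Finset.sum_add_distrib]
    refine Finset.sum_le_sum fun y _ => ?_
    calc c x y * (b x - b y) ^ 2 ≤ c x y * (4 * (a x - a y) ^ 2 + (if x ∈ B then 1 else 0)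
      + (if y ∈ B then 1 else 0)) := mul_le_mul_of_nonneg_left (hpt x y) (hc x y)
      _ = _ := by ring
  rw [hfirst, hsecond] at hsum
  unfold netK at h1 ⊢
  linarith

/-- Reduction to `0 ≤ a ≤ 1`. -/
theorem LBn_of_trunc {X : Type} [Fintype X] [DecidableEq X] {c : X → X → ℝ}
    (hc : ∀ u v, 0 ≤ c u v) {E G : Finset X} {A : ℝ}
    (h : ∀ a : X → ℝ, (∀ x, 0 ≤ a x ∧ a x ≤ 1) → (∀ x ∈ E, a x = 1) → (∀ x ∈ G, a x = 0) →
      A ≤ netK c a) : LBn c E G A := by
  intro a hE hG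
  have h1 : A ≤ netK c (fun x => max 0 (min (a x) 1)) := by
    refine h _ (fun x => ⟨le_max_left _ _, max_le zero_le_one (min_le_right _ _)⟩)
      (fun x hx => ?_) (fun x hx => ?_)
    · simp [hE x hx]
    · simp [hG x hx]
  refine h1.trans ?_
  unfold netK
  refine mul_le_mul_of_nonneg_left ?_ (by norm_num)
  refine Finset.sum_le_sum fun x _ => Finset.sum_le_sum fun y _ => ?_
  exact mul_le_mul_of_nonneg_left (test_clipsq _ _) (hc x y)

/-- From resistance to conductance. -/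
theorem LBn_of_RBn {X : Type} [Fintype X] [DecidableEq X] {c : X → X → ℝ} {E G : Finset X}
    {q : X → ℝ} {R : ℝ} (hR : 0 < R) (hq : ∀ x, x ∉ G → q x = 0) (h : RBn c E q R) :
    LBn c E G (1 / R) := by
  intro a hE hG
  have h1 := h a hE
  have h2 : ∑ x, q x * a x = 0 := by
    refine Finset.sum_eq_zero fun x _ => ?_
    by_cases hx : x ∈ G
    · rw [hG x hx, mul_zero]
    · rw [hq x hx, zero_mul]
  rw [h2] at h1
  rw [div_le_iff₀ hR]
  linarith

end

end Vale.Agent.P361.LRO.Ind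
end

section

/-!
# P361 LRO, block (6), E2: deviation from the window averages (helper155)
-/

namespace Vale.Agent.P361.LRO.Ind

open Finset Vale.Agent.P361.LRO _root_.P361.LRO

namespace E155

lemma pt_injE {n : ℕ} [NeZero n] (o : Tor n) {a b c a' b' c' : ℕ} (ha : a < n) (hb : b < n)
    (hc : c < n) (ha' : a' < n) (hb' : b' < n) (hc' : c' < n)
    (h : pt n o a b c = pt n o a' b' c') : a = a' ∧ b = b' ∧ c = c' := by
  have h1 := add_left_cancel h
  have key : ∀ {p q : ℕ}, p < n → q < n → ((p : ZMod n) = (q : ZMod n)) → p = q := by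
    intro p q hp hq hpq
    have h2 := (ZMod.natCast_eq_natCast_iff' p q n).1 hpq
    rwa [Nat.mod_eq_of_lt hp, Nat.mod_eq_of_lt hq] at h2
  refine ⟨key ha ha' ?_, key hb hb' ?_, key hc hc' ?_⟩
  · have := congrFun h1 0
    simpa using this
  · have := congrFun h1 1
    simpa using this
  · have := congrFun h1 2
    simpa using this

lemma lay_val {N W m w j : ℕ} (hN : N = m * W) (hw : w < m) (hj : j < W) :
    ((lay N W w j : Fin (N + 1)) : ℕ) = 1 + w * W + j := by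
  have h : w * W + j < N := by
    rw [hN]
    calc w * W + j < w * W + W := by omega
      _ = (w + 1) * W := by ring
      _ ≤ m * W := Nat.mul_le_mul_right W (by omega)
  unfold lay
  rw [dif_pos (by omega)]

lemma lay_inj {N W m w j w' j' : ℕ} (hN : N = m * W) (hw : w < m) (hj : j < W) (hw' : w' < m) (hj' : j' < W)
    (h : lay N W w j = lay N W w' j') : w = w' ∧ j = j' := by
  have h1 := congrArg (fun k : Fin (N + 1) => (k : ℕ)) h
  simp only [lay_val hN hw hj, lay_val hN hw' hj'] at h1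
  have hW : 0 < W := by omega
  have h2 : w * W + j = w' * W + j' := by omega
  have h3 : w = w' := by
    have e1 : (w * W + j) / W = w := by
      rw [Nat.mul_comm, Nat.mul_add_div hW, Nat.div_eq_of_lt hj, add_zero]
    have e2 : (w' * W + j') / W = w' := by
      rw [Nat.mul_comm, Nat.mul_add_div hW, Nat.div_eq_of_lt hj', add_zero]
    rw [← e1, ← e2, h2]
  refine ⟨h3, ?_⟩
  subst h3
  omega

/-- variance identity -/
lemma var_eq (W : ℕ) (hW : 0 < W) (g : ℕ → ℝ) :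
    (1 / 2 : ℝ) * ∑ j ∈ range W, ∑ l ∈ range W, (g j - g l) ^ 2 =
      W * ∑ j ∈ range W, (g j - (1 / W : ℝ) * ∑ l ∈ range W, g l) ^ 2 := by
  have hW' : (W : ℝ) ≠ 0 := Nat.cast_ne_zero.2 hW.ne'
  set s := ∑ l ∈ range W, g l with hs
  set q := ∑ l ∈ range W, g l ^ 2 with hq
  have e1 : ∑ j ∈ range W, ∑ l ∈ range W, (g j - g l) ^ 2 = 2 * W * q - 2 * s ^ 2 := by
    have : ∀ j ∈ range W, ∑ l ∈ range W, (g j - g l) ^ 2 = W * g j ^ 2 - 2 * g j * s + q := by
      intro j _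
      have h1 : ∀ l ∈ range W, (g j - g l) ^ 2 = g j ^ 2 - 2 * g j * g l + g l ^ 2 := fun l _ => by ring
      rw [Finset.sum_congr rfl h1, Finset.sum_add_distrib, Finset.sum_sub_distrib, Finset.sum_const, card_range,
        nsmul_eq_mul, ← Finset.mul_sum]
    rw [Finset.sum_congr rfl this, Finset.sum_add_distrib, Finset.sum_sub_distrib, ← Finset.mul_sum, Finset.sum_const,
      card_range, nsmul_eq_mul, ← Finset.sum_mul, ← Finset.mul_sum, ← hs, ← hq]
    ring
  have e2 : ∑ j ∈ range W, (g j - (1 / W : ℝ) * s) ^ 2 = q - (1 / W) * s ^ 2 := by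
    have : ∀ j ∈ range W, (g j - (1 / W : ℝ) * s) ^ 2 = g j ^ 2 - 2 * ((1 / W) * s) * g j + ((1 / W) * s) ^ 2 :=
      fun j _ => by ring
    rw [Finset.sum_congr rfl this, Finset.sum_add_distrib, Finset.sum_sub_distrib, ← Finset.mul_sum, Finset.sum_const,
      card_range, nsmul_eq_mul, ← hs, ← hq]
    field_simp
    ring
  rw [e1, e2]
  field_simp

/-- restriction to an injective family of nodes -/
lemma sum_inj_le {ι X : Type} [Fintype X] [DecidableEq X] (s : Finset ι) (f : ι → X)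
    (hf : ∀ i ∈ s, ∀ j ∈ s, f i = f j → i = j) (g : X → ℝ) (hg : ∀ x, 0 ≤ g x) :
    ∑ i ∈ s, g (f i) ≤ ∑ x, g x := by
  classical
  rw [← Finset.sum_image (g := f) hf]
  exact Finset.sum_le_sum_of_subset_of_nonneg (Finset.subset_univ _) fun x _ _ => hg x

end E155

open E155

/-- deviation from the window averages. -/
theorem dev_le {n N W m : ℕ} [NeZero n] {β K c1 : ℝ} {b : Finset (Tor n)} {h : Tor n → ℝ}
    {c : Nd n N → Nd n N → ℝ} (hW : 0 < W) (_hm : 4 ≤ m) (hN : N = m * W) (hβ : 0 < β)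
    (hc1 : 0 < c1) (hc : Local n N W β K c1 b h c) (o : Tor n) (S : ℕ) (hS : S < n)
    (h1 : ∀ x ∈ cube n o S, h x = 1) (a : Nd n N → ℝ) :
    c1 * (β / m) * (β / N) * (∑ x ∈ range S, ∑ y ∈ range S, ∑ z ∈ range S, ∑ w ∈ range m,
      ∑ j ∈ range W, (a (lay N W w j, pt n o x y z) - UU n N W o a x y z w) ^ 2) ≤ netK c a := by
  classical
  have hm0 : 0 < m := by omega
  have hWr : (0 : ℝ) < W := Nat.cast_pos.2 hW
  have hmr : (0 : ℝ) < m := Nat.cast_pos.2 hm0
  have hNr : (N : ℝ) = m * W := by rw [hN]; push_cast; ring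
  -- the nodes
  let nd : ℕ × ℕ × ℕ × ℕ → ℕ → Nd n N := fun p j => (lay N W p.2.2.2 j, pt n o p.1 p.2.1 p.2.2.1)
  let P : Finset (ℕ × ℕ × ℕ × ℕ) := range S ×ˢ range S ×ˢ range S ×ˢ range m
  have hmem : ∀ p ∈ P, p.1 < S ∧ p.2.1 < S ∧ p.2.2.1 < S ∧ p.2.2.2 < m := by
    intro p hp
    simpa [P, Finset.mem_product] using hp
  have hndinj : ∀ q ∈ P ×ˢ range W, ∀ q' ∈ P ×ˢ range W, nd q.1 q.2 = nd q'.1 q'.2 → q = q' := by
    rintro ⟨⟨x, y, z, w⟩, j⟩ hq ⟨⟨x', y', z', w'⟩, j'⟩ hq' he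
    obtain ⟨hp, hj⟩ := Finset.mem_product.1 hq
    obtain ⟨hp', hj'⟩ := Finset.mem_product.1 hq'
    obtain ⟨h1, h2, h3, h4⟩ := hmem _ hp
    obtain ⟨h1', h2', h3', h4'⟩ := hmem _ hp'
    simp only [Finset.mem_range] at hj hj'
    obtain ⟨e1, e2⟩ := Prod.ext_iff.1 he
    obtain ⟨f1, f2, f3⟩ := pt_injE o (lt_trans h1 hS) (lt_trans h2 hS) (lt_trans h3 hS) (lt_trans h1' hS)
      (lt_trans h2' hS) (lt_trans h3' hS) e2
    obtain ⟨g1, g2⟩ := lay_inj hN h4 hj h4' hj' e1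
    simp only at f1 f2 f3 g1 g2
    rw [f1, f2, f3, g1, g2]
  -- lower bound by pairs in the same window
  have hcube : ∀ p ∈ P, h (pt n o p.1 p.2.1 p.2.2.1) = 1 := by
    intro p hp
    obtain ⟨h1', h2, h3, -⟩ := hmem p hp
    refine h1 _ ?_
    unfold cube pt
    refine Finset.mem_image.2 ⟨![⟨p.1, h1'⟩, ⟨p.2.1, h2⟩, ⟨p.2.2.1, h3⟩], Finset.mem_univ _, ?_⟩
    congr 1
    funext i
    fin_cases i <;> simp
  have hF : ∀ u v, 0 ≤ c u v * (a u - a v) ^ 2 := fun u v => mul_nonneg (hc.nonneg u v) (sq_nonneg _)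
  have hin : ∀ p ∈ P, ∀ j ∈ range W, ∀ l ∈ range W,
      c1 * (β / N) ^ 2 * (a (nd p j) - a (nd p l)) ^ 2 ≤ c (nd p j) (nd p l) * (a (nd p j) - a (nd p l)) ^ 2 := by
    intro p hp j hj l hl
    obtain ⟨-, -, -, hw⟩ := hmem p hp
    rw [Finset.mem_range] at hj hl
    have vj := lay_val hN hw hj
    have vl := lay_val hN hw hl
    rcases lt_trichotomy j l with hjl | hjl | hjl
    · refine mul_le_mul_of_nonneg_right ?_ (sq_nonneg _)
      refine hc.same _ _ _ ?_ ?_ ?_ (hcube p hp)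
      · intro h0
        rw [h0] at vj
        simp only [Fin.val_zero] at vj
        omega
      · rw [Fin.lt_def, vj, vl]
        omega
      · rw [vj, vl]
        omega
    · rw [hjl]
      simp
    · rw [hc.symm (nd p j) (nd p l)]
      refine mul_le_mul_of_nonneg_right ?_ (sq_nonneg _)
      refine hc.same _ _ _ ?_ ?_ ?_ (hcube p hp)
      · intro h0
        rw [h0] at vl
        simp only [Fin.val_zero] at vl
        omega
      · rw [Fin.lt_def, vj, vl]
        omega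
      · rw [vj, vl]
        omega
  have step1 : ∑ p ∈ P, ∑ j ∈ range W, ∑ l ∈ range W, c1 * (β / N) ^ 2 * (a (nd p j) - a (nd p l)) ^ 2 ≤
      ∑ u, ∑ v, c u v * (a u - a v) ^ 2 := by
    have s1 : ∑ p ∈ P, ∑ j ∈ range W, ∑ l ∈ range W, c1 * (β / N) ^ 2 * (a (nd p j) - a (nd p l)) ^ 2 ≤
        ∑ p ∈ P, ∑ j ∈ range W, ∑ v, c (nd p j) v * (a (nd p j) - a v) ^ 2 := by
      refine Finset.sum_le_sum fun p hp => Finset.sum_le_sum fun j hj => ?_
      refine (Finset.sum_le_sum fun l hl => hin p hp j hj l hl).trans ?_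
      refine sum_inj_le (range W) (fun l => nd p l) ?_ (fun v => c (nd p j) v * (a (nd p j) - a v) ^ 2)
        (fun v => hF _ v)
      intro l hl l' hl' he
      have := hndinj (p, l) (Finset.mem_product.2 ⟨hp, hl⟩) (p, l') (Finset.mem_product.2 ⟨hp, hl'⟩) he
      exact (Prod.ext_iff.1 this).2
    refine s1.trans ?_
    rw [← Finset.sum_product (f := fun q : (ℕ × ℕ × ℕ × ℕ) × ℕ =>
      ∑ v, c (nd q.1 q.2) v * (a (nd q.1 q.2) - a v) ^ 2)]
    exact sum_inj_le (P ×ˢ range W) (fun q => nd q.1 q.2) hndinj (fun u => ∑ v, c u v * (a u - a v) ^ 2)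
      (fun u => Finset.sum_nonneg fun v _ => hF u v)
  have step2 : ∀ p ∈ P, (1 / 2 : ℝ) * ∑ j ∈ range W, ∑ l ∈ range W, c1 * (β / N) ^ 2 * (a (nd p j) - a (nd p l)) ^ 2 =
      c1 * (β / m) * (β / N) * ∑ j ∈ range W, (a (lay N W p.2.2.2 j, pt n o p.1 p.2.1 p.2.2.1) -
        UU n N W o a p.1 p.2.1 p.2.2.1 p.2.2.2) ^ 2 := by
    intro p _
    have h2 := var_eq W hW fun j => a (nd p j)
    have h3 : (1 / 2 : ℝ) * ∑ j ∈ range W, ∑ l ∈ range W, c1 * (β / N) ^ 2 * (a (nd p j) - a (nd p l)) ^ 2 =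
        c1 * (β / N) ^ 2 * ((1 / 2 : ℝ) * ∑ j ∈ range W, ∑ l ∈ range W, (a (nd p j) - a (nd p l)) ^ 2) := by
      simp only [← Finset.mul_sum]
      ring
    rw [h3, h2]
    have h4 : c1 * (β / N) ^ 2 * (W * ∑ j ∈ range W, (a (nd p j) - (1 / W : ℝ) * ∑ l ∈ range W, a (nd p l)) ^ 2) =
        (c1 * (β / N) ^ 2 * W) * ∑ j ∈ range W, (a (nd p j) - (1 / W : ℝ) * ∑ l ∈ range W, a (nd p l)) ^ 2 := by ring
    rw [h4]
    congr 1
    rw [hNr]
    field_simp
  have step3 : c1 * (β / m) * (β / N) * (∑ x ∈ range S, ∑ y ∈ range S, ∑ z ∈ range S, ∑ w ∈ range m,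
      ∑ j ∈ range W, (a (lay N W w j, pt n o x y z) - UU n N W o a x y z w) ^ 2) =
      (1 / 2) * ∑ p ∈ P, ∑ j ∈ range W, ∑ l ∈ range W, c1 * (β / N) ^ 2 * (a (nd p j) - a (nd p l)) ^ 2 := by
    have s3 : (1 / 2 : ℝ) * ∑ p ∈ P, ∑ j ∈ range W, ∑ l ∈ range W, c1 * (β / N) ^ 2 * (a (nd p j) - a (nd p l)) ^ 2 =
        ∑ p ∈ P, (1 / 2 : ℝ) * ∑ j ∈ range W, ∑ l ∈ range W, c1 * (β / N) ^ 2 * (a (nd p j) - a (nd p l)) ^ 2 :=
      Finset.mul_sum _ _ _
    rw [s3, Finset.sum_congr rfl step2, ← Finset.mul_sum]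
    congr 1
    simp only [P, Finset.sum_product]
  rw [step3]
  unfold netK
  linarith [step1]

end Vale.Agent.P361.LRO.Ind
end

section

/-!
# P361 LRO stage 3, E2: deviation from the cell averages (whole circle)
-/

namespace Vale.Agent.P361.LRO.Ind3

open Finset Vale.Agent.P361.LRO _root_.P361.LRO Vale.Agent.P361.LRO.Ind

namespace E760

/-- Poincaré inequality for four groups on the path `2 - 0 - 3 - 1`. -/
theorem group_var {ι : Type} (P : Finset ι) (hP : 0 < P.card) (g : ℕ → ι → ℝ) :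
    ∑ i ∈ range 4, ∑ u ∈ P, (g i u - (1 / (4 * (P.card : ℝ))) * ∑ j ∈ range 4, ∑ v ∈ P, g j v) ^ 2
      ≤ (8 / (P.card : ℝ)) * ((∑ u ∈ P, ∑ v ∈ P, (g 0 u - g 2 v) ^ 2)
        + (∑ u ∈ P, ∑ v ∈ P, (g 0 u - g 3 v) ^ 2) + ∑ u ∈ P, ∑ v ∈ P, (g 1 u - g 3 v) ^ 2) := by
  set Q : ℝ := (P.card : ℝ) with hQ
  have hQ0 : 0 < Q := by rw [hQ]; exact_mod_cast hP
  set s : ℕ → ℝ := fun i => ∑ u ∈ P, g i u with hs
  set q : ℕ → ℝ := fun i => ∑ u ∈ P, g i u ^ 2 with hq
  have hE : ∀ i j, ∑ u ∈ P, ∑ v ∈ P, (g i u - g j v) ^ 2 = Q * q i + Q * q j - 2 * (s i * s j) := by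
    intro i j
    have h1 : ∀ u ∈ P, ∑ v ∈ P, (g i u - g j v) ^ 2 = Q * g i u ^ 2 - 2 * g i u * s j + q j := by
      intro u _
      have h2 : ∀ v ∈ P, (g i u - g j v) ^ 2 = g i u ^ 2 - 2 * g i u * g j v + g j v ^ 2 :=
        fun v _ => by ring
      rw [sum_congr rfl h2, sum_add_distrib, sum_sub_distrib, sum_const, nsmul_eq_mul, ← mul_sum]
    rw [sum_congr rfl h1, sum_add_distrib, sum_sub_distrib, ← mul_sum, sum_const, nsmul_eq_mul]
    have h3 : ∑ u ∈ P, 2 * g i u * s j = 2 * (s i * s j) := by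
      rw [← sum_mul, ← mul_sum]; ring
    rw [h3]
    ring
  have hcs : ∀ i, s i ^ 2 ≤ Q * q i := by
    intro i
    have := sq_sum_le_card_mul_sum_sq (s := P) (f := g i)
    simpa [hs, hq, hQ] using this
  set U : ℝ := (1 / (4 * Q)) * ∑ j ∈ range 4, s j with hU
  have hL : ∀ i, ∑ u ∈ P, (g i u - U) ^ 2 = q i - 2 * U * s i + Q * U ^ 2 := by
    intro i
    have h2 : ∀ u ∈ P, (g i u - U) ^ 2 = g i u ^ 2 - 2 * U * g i u + U ^ 2 := fun u _ => by ring
    rw [sum_congr rfl h2, sum_add_distrib, sum_sub_distrib, sum_const, nsmul_eq_mul, ← mul_sum]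
  rw [sum_congr rfl fun i _ => hL i, hE, hE, hE]
  have hUs : 4 * Q * U = s 0 + s 1 + s 2 + s 3 := by
    rw [hU]
    simp only [sum_range_succ, sum_range_zero, zero_add]
    field_simp
  simp only [sum_range_succ, sum_range_zero, zero_add]
  rw [div_mul_eq_mul_div, le_div_iff₀ hQ0]
  have c0 := hcs 0
  have c1 := hcs 1
  have c2 := hcs 2
  have c3 := hcs 3
  have e1 : (q 0 - 2 * U * s 0 + Q * U ^ 2 + (q 1 - 2 * U * s 1 + Q * U ^ 2)
      + (q 2 - 2 * U * s 2 + Q * U ^ 2) + (q 3 - 2 * U * s 3 + Q * U ^ 2)) * Q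
      = Q * q 0 + Q * q 1 + Q * q 2 + Q * q 3 - (s 0 + s 1 + s 2 + s 3) ^ 2 / 4 := by
    rw [← hUs]; 
    have : (4 * Q * U) ^ 2 / 4 = 2 * Q * U * (4 * Q * U) - 4 * Q ^ 2 * U ^ 2 := by ring
    rw [this, hUs]
    ring
  rw [e1]
  nlinarith [sq_nonneg (s 0 - s 2), sq_nonneg (s 0 - s 3), sq_nonneg (s 1 - s 3),
    sq_nonneg (s 0 - s 1), sq_nonneg (s 2 - s 3), sq_nonneg (s 1 - s 2),
    sq_nonneg (s 0 - s 2 + (s 0 - s 3)), sq_nonneg (s 0 - s 3 + (s 1 - s 3)),
    sq_nonneg (s 0 + s 1 - s 2 - s 3), sq_nonneg (s 2 + s 1 - 2 * s 3), sq_nonneg (s 2 + s 1 - 2 * s 0),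
    sq_nonneg (s 2 + s 3 - 2 * s 0), sq_nonneg (s 0 + s 1 - 2 * s 3)]

theorem quarter (W m : ℕ) (F : ℕ → ℝ) :
    ∑ t ∈ range (m * W), F t = ∑ i ∈ range m, ∑ t ∈ range W, F (i * W + t) := by
  induction m with
  | zero => simp
  | succ m ih => rw [add_mul, one_mul, sum_range_add, ih, sum_range_succ]

theorem pt_mem {n : ℕ} [NeZero n] (o : Tor n) {w x y z : ℕ} (hx : x < w) (hy : y < w) (hz : z < w) :
    pt n o x y z ∈ cube n o w := by
  unfold cube pt
  refine Finset.mem_image.2 ⟨![⟨x, hx⟩, ⟨y, hy⟩, ⟨z, hz⟩], Finset.mem_univ _, ?_⟩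
  congr 1
  funext i
  fin_cases i <;> simp

theorem pt_ptE {n : ℕ} (o : Tor n) (x y z x' y' z' : ℕ) :
    pt n o (x + x') (y + y') (z + z') = pt n (pt n o x y z) x' y' z' := by
  unfold pt
  funext i
  fin_cases i <;> simp [add_assoc] <;> rfl

theorem sum3 (A : ℕ) (f : ℕ × ℕ × ℕ → ℝ) : ∑ q ∈ range A ×ˢ range A ×ˢ range A, f q
    = ∑ x ∈ range A, ∑ y ∈ range A, ∑ z ∈ range A, f (x, y, z) := by
  rw [Finset.sum_product]
  refine sum_congr rfl fun x _ => ?_
  rw [Finset.sum_product]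

end E760

open E760 E155

/-- deviation from the cell averages. -/
theorem dev_le3 {n N W e : ℕ} [NeZero n] {K c1 : ℝ} {b : Finset (Tor n)} {h : Tor n → ℝ}
    {c : Nd n N → Nd n N → ℝ} (hW : 0 < W) (hN : N = 4 * W) (hc1 : 0 < c1)
    (hc : Local3 n N W e K c1 b h c) (o : Tor n) (S : ℕ) (hS : 3 ^ e * S < n)
    (h1 : ∀ x ∈ cube n o (3 ^ e * S), h x = 1) (a : Nd n N → ℝ) :
    c1 / N * DevC n N e o a S ≤ 1000 * netK c a := by
  classical
  obtain ⟨M, hM⟩ : ∃ M : ℕ, M = 3 ^ e := ⟨_, rfl⟩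
  have hM0 : 0 < M := by rw [hM]; positivity
  have h27 : ((M : ℝ) * (M : ℝ) * (M : ℝ)) = 27 ^ e := by
    rw [hM]
    push_cast
    rw [← mul_pow, ← mul_pow]
    norm_num
  have hWr : (0 : ℝ) < W := by exact_mod_cast hW
  have hNr : (N : ℝ) = 4 * W := by rw [hN]; push_cast; ring
  have hNpos : (0 : ℝ) < N := by rw [hNr]; positivity
  have hp27 : (0 : ℝ) < 27 ^ e := by positivity
  -- index sets
  obtain ⟨CS, hCS⟩ : ∃ CS : Finset (ℕ × ℕ × ℕ), CS = range S ×ˢ range S ×ˢ range S := ⟨_, rfl⟩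
  obtain ⟨P3, hP3⟩ : ∃ P3 : Finset (ℕ × ℕ × ℕ), P3 = range M ×ˢ range M ×ˢ range M := ⟨_, rfl⟩
  obtain ⟨P, hP⟩ : ∃ P : Finset ((ℕ × ℕ × ℕ) × ℕ), P = P3 ×ˢ range W := ⟨_, rfl⟩
  have hPcard : (P.card : ℝ) = 27 ^ e * W := by
    rw [hP, hP3]
    simp only [card_product, card_range]
    push_cast
    rw [← h27]
    ring
  have hPpos : 0 < P.card := by
    have : (0 : ℝ) < P.card := by rw [hPcard]; positivity
    exact_mod_cast this
  -- sites and nodes
  obtain ⟨site, hsite⟩ : ∃ site : (ℕ × ℕ × ℕ) → (ℕ × ℕ × ℕ) → Tor n, site = fun q p =>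
    pt n o (M * q.1 + p.1) (M * q.2.1 + p.2.1) (M * q.2.2 + p.2.2) := ⟨_, rfl⟩
  obtain ⟨nd, hnd⟩ : ∃ nd : (ℕ × ℕ × ℕ) → ℕ → ((ℕ × ℕ × ℕ) × ℕ) → Nd n N, nd = fun q i u =>
    (lay N N 0 (i * W + u.2), site q u.1) := ⟨_, rfl⟩
  have hCSmem : ∀ q ∈ CS, q.1 < S ∧ q.2.1 < S ∧ q.2.2 < S := by
    intro q hq
    rw [hCS] at hq
    simpa [Finset.mem_product] using hq
  have hP3mem : ∀ p ∈ P3, p.1 < M ∧ p.2.1 < M ∧ p.2.2 < M := by
    intro p hp
    rw [hP3] at hp
    simpa [Finset.mem_product] using hp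
  have hPmem : ∀ u ∈ P, u.1 ∈ P3 ∧ u.2 < W := by
    intro u hu
    rw [hP] at hu
    obtain ⟨h2, h3⟩ := Finset.mem_product.1 hu
    exact ⟨h2, Finset.mem_range.1 h3⟩
  have hlt : ∀ {x p : ℕ}, x < S → p < M → M * x + p < M * S := by
    intro x p hx hp
    calc M * x + p < M * x + M := by omega
      _ = M * (x + 1) := by ring
      _ ≤ M * S := Nat.mul_le_mul_left M (by omega)
  have hMS : M * S < n := by rw [hM]; exact hS
  have hhsite : ∀ q ∈ CS, ∀ p ∈ P3, h (site q p) = 1 := by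
    intro q hq p hp
    obtain ⟨q1, q2, q3⟩ := hCSmem q hq
    obtain ⟨p1, p2, p3⟩ := hP3mem p hp
    refine h1 _ ?_
    rw [hsite, ← hM]
    exact pt_mem o (hlt q1 p1) (hlt q2 p2) (hlt q3 p3)
  have hsite2 : ∀ q ∈ CS, ∀ p ∈ P3,
      site q p ∈ cube n (pt n o (M * q.1) (M * q.2.1) (M * q.2.2)) (2 * 3 ^ e) := by
    intro q hq p hp
    obtain ⟨p1, p2, p3⟩ := hP3mem p hp
    rw [hsite, ← hM]
    simp only
    rw [pt_ptE]
    exact pt_mem _ (by omega) (by omega) (by omega)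
  have hlay : ∀ {i t : ℕ}, i < 4 → t < W → ((lay N N 0 (i * W + t) : Fin (N + 1)) : ℕ) = 1 + (i * W + t) := by
    intro i t hi ht
    have h2 : i * W + t < N := by
      rw [hN]
      calc i * W + t < i * W + W := by omega
        _ = (i + 1) * W := by ring
        _ ≤ 4 * W := Nat.mul_le_mul_right W (by omega)
    have := lay_val (N := N) (W := N) (m := 1) (w := 0) (j := i * W + t) (by omega) (by omega) h2
    rw [this]; ring
  have hndinj : ∀ i < 4, ∀ x ∈ CS ×ˢ P, ∀ y ∈ CS ×ˢ P, nd x.1 i x.2 = nd y.1 i y.2 → x = y := by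
    rintro i hi ⟨q, u⟩ hx ⟨q', u'⟩ hy he
    obtain ⟨hq, hu⟩ := Finset.mem_product.1 hx
    obtain ⟨hq', hu'⟩ := Finset.mem_product.1 hy
    simp only at hq hu hq' hu' he
    obtain ⟨q1, q2, q3⟩ := hCSmem q hq
    obtain ⟨q1', q2', q3'⟩ := hCSmem q' hq'
    obtain ⟨hup, hut⟩ := hPmem u hu
    obtain ⟨hup', hut'⟩ := hPmem u' hu'
    obtain ⟨p1, p2, p3⟩ := hP3mem u.1 hup
    obtain ⟨p1', p2', p3'⟩ := hP3mem u'.1 hup'
    rw [hnd, hsite] at he
    simp only at he
    obtain ⟨e1, e2⟩ := Prod.ext_iff.1 he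
    simp only at e1 e2
    obtain ⟨f1, f2, f3⟩ := pt_injE o (lt_trans (hlt q1 p1) hMS) (lt_trans (hlt q2 p2) hMS)
      (lt_trans (hlt q3 p3) hMS) (lt_trans (hlt q1' p1') hMS) (lt_trans (hlt q2' p2') hMS)
      (lt_trans (hlt q3' p3') hMS) e2
    have e3 := congrArg (fun k : Fin (N + 1) => (k : ℕ)) e1
    simp only [hlay hi hut, hlay hi hut'] at e3
    have hdm : ∀ {x p x' p' : ℕ}, p < M → p' < M → M * x + p = M * x' + p' → x = x' ∧ p = p' := by
      intro x p x' p' hp hp' hh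
      have e4 : (M * x + p) / M = x := by rw [Nat.mul_add_div hM0, Nat.div_eq_of_lt hp, add_zero]
      have e5 : (M * x' + p') / M = x' := by rw [Nat.mul_add_div hM0, Nat.div_eq_of_lt hp', add_zero]
      have e6 : x = x' := by rw [← e4, ← e5, hh]
      refine ⟨e6, ?_⟩
      subst e6
      omega
    obtain ⟨g1, g1'⟩ := hdm p1 p1' f1
    obtain ⟨g2, g2'⟩ := hdm p2 p2' f2
    obtain ⟨g3, g3'⟩ := hdm p3 p3' f3
    have g4 : u.2 = u'.2 := by omega
    obtain ⟨x, y, z⟩ := q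
    obtain ⟨x', y', z'⟩ := q'
    obtain ⟨⟨i1, i2, i3⟩, t⟩ := u
    obtain ⟨⟨i1', i2', i3'⟩, t'⟩ := u'
    simp only at g1 g1' g2 g2' g3 g3' g4
    subst g1 g1' g2 g2' g3 g3' g4
    rfl
  obtain ⟨F, hFdef⟩ : ∃ F : Nd n N → Nd n N → ℝ, F = fun x y => c x y * (a x - a y) ^ 2 := ⟨_, rfl⟩
  have hF0 : ∀ x y, 0 ≤ F x y := by
    intro x y; rw [hFdef]; exact mul_nonneg (hc.nonneg x y) (sq_nonneg _)
  have htot : ∀ i < 4, ∀ j < 4, ∑ q ∈ CS, ∑ u ∈ P, ∑ v ∈ P, F (nd q i u) (nd q j v)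
      ≤ 2 * netK c a := by
    intro i hi j hj
    have s1 : ∑ q ∈ CS, ∑ u ∈ P, ∑ v ∈ P, F (nd q i u) (nd q j v)
        ≤ ∑ q ∈ CS, ∑ u ∈ P, ∑ y, F (nd q i u) y := by
      refine sum_le_sum fun q hq => sum_le_sum fun u _ => ?_
      refine sum_inj_le P (fun v => nd q j v) ?_ (fun y => F (nd q i u) y) (fun y => hF0 _ y)
      intro v hv v' hv' he
      have := hndinj j hj (q, v) (Finset.mem_product.2 ⟨hq, hv⟩) (q, v')
        (Finset.mem_product.2 ⟨hq, hv'⟩) he
      exact (Prod.ext_iff.1 this).2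
    refine s1.trans ?_
    rw [← Finset.sum_product (f := fun x : (ℕ × ℕ × ℕ) × ((ℕ × ℕ × ℕ) × ℕ) =>
      ∑ y, F (nd x.1 i x.2) y)]
    refine (sum_inj_le (CS ×ˢ P) (fun x => nd x.1 i x.2) (hndinj i hi) (fun x => ∑ y, F x y)
      (fun x => sum_nonneg fun y _ => hF0 x y)).trans (le_of_eq ?_)
    unfold netK
    rw [hFdef]
    ring
  -- lower bound of the conductances
  have hlow : ∀ q ∈ CS, ∀ i j, i + 2 ≤ j → j < 4 →
      ∑ u ∈ P, ∑ v ∈ P, (a (nd q i u) - a (nd q j v)) ^ 2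
      ≤ ((N : ℝ) ^ 2 * 27 ^ e / c1) * ∑ u ∈ P, ∑ v ∈ P, F (nd q i u) (nd q j v) := by
    intro q hq i j hij hj
    rw [mul_sum]
    refine sum_le_sum fun u hu => ?_
    rw [mul_sum]
    refine sum_le_sum fun v hv => ?_
    obtain ⟨hup, hut⟩ := hPmem u hu
    obtain ⟨hvp, hvt⟩ := hPmem v hv
    have hl1 := hlay (i := i) (t := u.2) (by omega) hut
    have hl2 := hlay (i := j) (t := v.2) hj hvt
    have hcc := hc.long (lay N N 0 (i * W + u.2)) (lay N N 0 (j * W + v.2))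
      (pt n o (M * q.1) (M * q.2.1) (M * q.2.2)) (site q u.1) (site q v.1)
      (by
        intro h0
        rw [h0] at hl1
        simp only [Fin.val_zero] at hl1
        omega)
      (by
        rw [hl1, hl2]
        have : (i + 2) * W ≤ j * W := Nat.mul_le_mul_right W hij
        have e2 : (i + 2) * W = i * W + 2 * W := by ring
        omega)
      (hsite2 q hq u.1 hup) (hsite2 q hq v.1 hvp) (hhsite q hq u.1 hup) (hhsite q hq v.1 hvp)
    have hFe : F (nd q i u) (nd q j v)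
        = c (lay N N 0 (i * W + u.2), site q u.1) (lay N N 0 (j * W + v.2), site q v.1)
          * (a (nd q i u) - a (nd q j v)) ^ 2 := by
      rw [hFdef, hnd]
    rw [hFe]
    have hpos : (0 : ℝ) < (N : ℝ) ^ 2 * 27 ^ e := by positivity
    have h5 : 1 ≤ ((N : ℝ) ^ 2 * 27 ^ e / c1) *
        c (lay N N 0 (i * W + u.2), site q u.1) (lay N N 0 (j * W + v.2), site q v.1) := by
      have h6 := mul_le_mul_of_nonneg_left hcc (by positivity : 0 ≤ (N : ℝ) ^ 2 * 27 ^ e / c1)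
      have h7 : (N : ℝ) ^ 2 * 27 ^ e / c1 * (c1 / ((N : ℝ) ^ 2 * 27 ^ e)) = 1 := by
        field_simp
      linarith
    have h8 := mul_le_mul_of_nonneg_right h5 (sq_nonneg (a (nd q i u) - a (nd q j v)))
    rw [one_mul] at h8
    linarith
  -- one cell
  have hcell : ∀ q ∈ CS, ∑ p ∈ P3, ∑ t ∈ range N,
      (a (lay N N 0 t, site q p) - (1 / ((N : ℝ) * 27 ^ e)) * ∑ p ∈ P3, ∑ t ∈ range N,
        a (lay N N 0 t, site q p)) ^ 2 ≤
      (8 / (P.card : ℝ)) * ((N : ℝ) ^ 2 * 27 ^ e / c1) *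
        ((∑ u ∈ P, ∑ v ∈ P, F (nd q 0 u) (nd q 2 v))
        + (∑ u ∈ P, ∑ v ∈ P, F (nd q 0 u) (nd q 3 v))
        + ∑ u ∈ P, ∑ v ∈ P, F (nd q 1 u) (nd q 3 v)) := by
    intro q hq
    have hre : ∀ G : ℝ → ℝ, ∑ p ∈ P3, ∑ t ∈ range N, G (a (lay N N 0 t, site q p))
        = ∑ i ∈ range 4, ∑ u ∈ P, G (a (nd q i u)) := by
      intro G
      have r1 : ∀ i ∈ range 4, ∑ u ∈ P, G (a (nd q i u))
          = ∑ p ∈ P3, ∑ t ∈ range W, G (a (lay N N 0 (i * W + t), site q p)) := by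
        intro i _
        rw [hP, hnd, Finset.sum_product]
      refine Eq.trans ?_ (sum_congr rfl r1).symm
      refine Eq.trans ?_ Finset.sum_comm
      refine sum_congr rfl fun p _ => ?_
      have r2 := quarter W 4 (fun t => G (a (lay N N 0 t, site q p)))
      rw [← hN] at r2
      exact r2
    have hU : (1 / ((N : ℝ) * 27 ^ e)) * ∑ p ∈ P3, ∑ t ∈ range N, a (lay N N 0 t, site q p)
        = (1 / (4 * (P.card : ℝ))) * ∑ j ∈ range 4, ∑ v ∈ P, a (nd q j v) := by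
      rw [hre (fun x => x), hPcard, hNr]
      congr 1
      congr 1
      ring
    rw [hU, hre (fun x => (x - (1 / (4 * (P.card : ℝ))) * ∑ j ∈ range 4, ∑ v ∈ P, a (nd q j v)) ^ 2)]
    refine (group_var P hPpos (fun i u => a (nd q i u))).trans ?_
    rw [mul_assoc]
    refine mul_le_mul_of_nonneg_left ?_ (div_nonneg (by norm_num) (Nat.cast_nonneg _))
    have l1 := hlow q hq 0 2 (by omega) (by omega)
    have l2 := hlow q hq 0 3 (by omega) (by omega)
    have l3 := hlow q hq 1 3 (by omega) (by omega)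
    rw [mul_add, mul_add]
    linarith
  -- sum over the cells
  have hDev : DevC n N e o a S = ∑ q ∈ CS, ∑ p ∈ P3, ∑ t ∈ range N,
      (a (lay N N 0 t, site q p) - (1 / ((N : ℝ) * 27 ^ e)) * ∑ p ∈ P3, ∑ t ∈ range N,
        a (lay N N 0 t, site q p)) ^ 2 := by
    rw [hCS, hP3, sum3]
    unfold DevC UC
    refine sum_congr rfl fun x _ => sum_congr rfl fun y _ => sum_congr rfl fun z _ => ?_
    rw [sum3, sum3, hsite, hM]
  have hsum : DevC n N e o a S ≤ (8 / (P.card : ℝ)) * ((N : ℝ) ^ 2 * 27 ^ e / c1) *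
      (2 * netK c a + 2 * netK c a + 2 * netK c a) := by
    rw [hDev]
    refine (sum_le_sum hcell).trans ?_
    rw [← mul_sum, sum_add_distrib, sum_add_distrib]
    refine mul_le_mul_of_nonneg_left ?_ (mul_nonneg (div_nonneg (by norm_num)
      (Nat.cast_nonneg _)) (div_nonneg (mul_nonneg (sq_nonneg _) hp27.le) hc1.le))
    have t1 := htot 0 (by omega) 2 (by omega)
    have t2 := htot 0 (by omega) 3 (by omega)
    have t3 := htot 1 (by omega) 3 (by omega)
    linarith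
  have hK0 : 0 ≤ netK c a := by
    have := htot 0 (by omega) 2 (by omega)
    have h9 : 0 ≤ ∑ q ∈ CS, ∑ u ∈ P, ∑ v ∈ P, F (nd q 0 u) (nd q 2 v) :=
      sum_nonneg fun _ _ => sum_nonneg fun _ _ => sum_nonneg fun _ _ => hF0 _ _
    linarith
  have hfin : c1 / N * DevC n N e o a S ≤ c1 / N * ((8 / (P.card : ℝ)) * ((N : ℝ) ^ 2 * 27 ^ e / c1) *
      (2 * netK c a + 2 * netK c a + 2 * netK c a)) :=
    mul_le_mul_of_nonneg_left hsum (by positivity)
  refine hfin.trans ?_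
  have e9 : c1 / N * ((8 / (P.card : ℝ)) * ((N : ℝ) ^ 2 * 27 ^ e / c1) *
      (2 * netK c a + 2 * netK c a + 2 * netK c a)) = 192 * netK c a := by
    rw [hPcard, hNr]
    field_simp
    ring
  rw [e9]
  linarith

end Vale.Agent.P361.LRO.Ind3
end

section

/-!
# P361 LRO, stage 3, network chapter, package L3: the last rung of the ladder, from `step_last3`
-/

namespace Vale.Agent.P361.LRO.Ind3

open Finset Vale.Agent.P361.LRO _root_.P361.LRO Vale.Agent.P361.LRO.Ind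

/-- `3 ^ (33 e) ≤ (3 ^ (100 e)) ^ (1/3)`. -/
theorem ladlast3_A (e : ℕ) : (3 : ℝ) ^ (33 * e) ≤ ((3 : ℝ) ^ (100 * e)) ^ (1 / 3 : ℝ) := by
  have h1 : (3 : ℝ) ^ (33 * e) = ((3 : ℝ) ^ (99 * e)) ^ (1 / 3 : ℝ) := by
    rw [← Real.rpow_natCast, ← Real.rpow_natCast, ← Real.rpow_mul (by norm_num)]
    congr 1
    push_cast
    ring
  rw [h1]
  exact Real.rpow_le_rpow (by positivity) (pow_le_pow_right₀ (by norm_num) (by omega))
    (by norm_num)

theorem ladlast3_num_a {C K : ℝ} {e : ℕ} (hC : 0 < C) (hCe : C ≤ 3 ^ e)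
    (hK : 0 ≤ K) (hKe : K ≤ 27 ^ (2 * e)) :
    C * K ≤ ((3 : ℝ) ^ (100 * e)) ^ (1 / 3 : ℝ) ∧
    C * K ^ 3 ≤ ((3 : ℝ) ^ (100 * e)) ^ (1 / 3 : ℝ) * (27 ^ e) ^ 2 := by
  have hK' : K ≤ 3 ^ (6 * e) := by
    refine hKe.trans_eq ?_
    rw [show (27 : ℝ) = 3 ^ 3 by norm_num, ← pow_mul]
    congr 1
    ring
  have hA := ladlast3_A e
  have h27 : (27 : ℝ) ^ e = 3 ^ (3 * e) := by
    rw [show (27 : ℝ) = 3 ^ 3 by norm_num, ← pow_mul]
  constructor
  · calc C * K ≤ 3 ^ e * 3 ^ (6 * e) := mul_le_mul hCe hK' hK (by positivity)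
      _ = 3 ^ (7 * e) := by rw [← pow_add]; congr 1; ring
      _ ≤ 3 ^ (33 * e) := pow_le_pow_right₀ (by norm_num) (by omega)
      _ ≤ _ := hA
  · calc C * K ^ 3 ≤ 3 ^ e * (3 ^ (6 * e)) ^ 3 :=
          mul_le_mul hCe (pow_le_pow_left₀ hK hK' 3) (by positivity) (by positivity)
      _ = 3 ^ (19 * e) := by rw [← pow_mul, ← pow_add]; congr 1; ring
      _ ≤ 3 ^ (39 * e) := pow_le_pow_right₀ (by norm_num) (by omega)
      _ = 3 ^ (33 * e) * (27 ^ e) ^ 2 := by rw [h27, ← pow_mul, ← pow_add]; congr 1; ring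
      _ ≤ _ := mul_le_mul_of_nonneg_right hA (by positivity)

theorem ladlast3_num_b {lam ε : ℝ} {e : ℕ} (he : 1 ≤ e) (hlam : 1 / 3 ^ (10 * e) ≤ lam)
    (hε : 0 ≤ ε) (hεe : ε * e ≤ 1 / 5000) :
    1 / 2 ≤ (1 * ((3 : ℝ) ^ (100 * e) + 2 / lam) ^ 3) ^ (-(4 * ε)) := by
  have hlam0 : 0 < lam := lt_of_lt_of_le (by positivity) hlam
  have h2 : 2 / lam ≤ 2 * 3 ^ (10 * e) := by
    rw [div_le_iff₀ hlam0]
    have := mul_le_mul_of_nonneg_left hlam (show (0 : ℝ) ≤ 2 * 3 ^ (10 * e) by positivity)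
    refine le_trans ?_ this
    rw [mul_one_div, mul_div_assoc, div_self (by positivity), mul_one]
  have h3 : (3 : ℝ) ^ (10 * e) ≤ 3 ^ (100 * e) := pow_le_pow_right₀ (by norm_num) (by omega)
  have h4 : (3 : ℝ) ^ (100 * e) + 2 / lam ≤ 3 ^ (101 * e) := by
    calc (3 : ℝ) ^ (100 * e) + 2 / lam ≤ 3 * 3 ^ (100 * e) := by linarith
      _ = 3 ^ (100 * e + 1) := by rw [pow_succ]; ring
      _ ≤ 3 ^ (101 * e) := pow_le_pow_right₀ (by norm_num) (by omega)
  have hpos : 0 < (3 : ℝ) ^ (100 * e) + 2 / lam := by positivity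
  have h6 : 1 * ((3 : ℝ) ^ (100 * e) + 2 / lam) ^ 3 ≤ 3 ^ (303 * e) := by
    calc 1 * ((3 : ℝ) ^ (100 * e) + 2 / lam) ^ 3 ≤ (3 ^ (101 * e)) ^ 3 := by
          rw [one_mul]; exact pow_le_pow_left₀ hpos.le h4 3
      _ = _ := by rw [← pow_mul]; congr 1; ring
  have hpos2 : 0 < 1 * ((3 : ℝ) ^ (100 * e) + 2 / lam) ^ 3 := by positivity
  have h7 : Real.log (1 * ((3 : ℝ) ^ (100 * e) + 2 / lam) ^ 3) ≤ 606 * e := by
    have h71 := Real.log_le_log hpos2 h6
    rw [Real.log_pow] at h71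
    push_cast at h71
    have h72 : Real.log 3 ≤ 2 := by
      have := Real.log_le_sub_one_of_pos (show (0 : ℝ) < 3 by norm_num)
      linarith
    have h73 : 303 * (e : ℝ) * Real.log 3 ≤ 303 * e * 2 :=
      mul_le_mul_of_nonneg_left h72 (by positivity)
    linarith
  rw [Real.rpow_def_of_pos hpos2]
  have h8 : -(1 / 2 : ℝ) ≤
      Real.log (1 * ((3 : ℝ) ^ (100 * e) + 2 / lam) ^ 3) * -(4 * ε) := by
    have h9 := mul_le_mul_of_nonneg_right h7 hε
    nlinarith
  have h10 := Real.add_one_le_exp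
    (Real.log (1 * ((3 : ℝ) ^ (100 * e) + 2 / lam) ^ 3) * -(4 * ε))
  linarith

/-- The last rung, from `step_last3`. -/
theorem lad_last3_of (c1 : ℝ) (hstep3 : ∃ C : ℝ, 0 < C ∧ ∀ (n N W e : ℕ) [NeZero n]
    (K : ℝ) (o : Tor n) (a : ℕ) (h : Tor n → ℝ) (c : Nd n N → Nd n N → ℝ)
    (s : ℕ) (G : Finset (Nd n N)) (A : ℝ),
    0 < W → N = 4 * W → e ≤ a → a ≤ s → 3 ^ s < n →
    0 < K → C * K ≤ 27 ^ a → C * K ≤ 9 ^ e * 3 ^ a →
    (∀ x, h x ≤ 1) → (∀ x ∈ cube n o (3 ^ s), h x = 1) →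
    Local3 n N W e K c1 (cube n o (3 ^ a)) h c →
    Disjoint (EE6 n N o (cube n o (3 ^ a)) (3 ^ s)) G →
    LBn c (EE6 n N o (cube n o (3 ^ a)) (3 ^ s)) G A →
    C * K ≤ A → C * K ^ 3 ≤ A * (27 ^ e) ^ 2 →
    LBn c (hatb N (cube n o (3 ^ a))) G (K / C)) :
    ∃ (e0 : ℕ) (C5 c3 c4 : ℝ), 1 ≤ e0 ∧ 0 < C5 ∧
    0 < c3 ∧ 0 < c4 ∧ ∀ (n N W e : ℕ) [NeZero n]
    (K h0 lam ε : ℝ) (o : Tor n) (a : ℕ) (h : Tor n → ℝ)
    (c : (Tor n → ℝ) → Nd n N → Nd n N → ℝ) (S : ℕ),
    e0 ≤ e → 0 < W → N = 4 * W → 100 * e ≤ S → 8 * 3 ^ S < n →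
    e ≤ a → a ≤ 2 * e → 1 ≤ K → K ≤ 27 ^ (2 * e) → C5 * K ≤ 27 ^ a → C5 * K ≤ 9 ^ e * 3 ^ a →
    0 < h0 → h0 ≤ 1 → 1 / 3 ^ (10 * e) ≤ lam → 0 ≤ ε → ε * e ≤ c4 →
    h0⁻¹ ≤ ((3 : ℝ) ^ S) ^ (5 / 2 : ℝ) →
    (∀ g, Fam n h0 lam g → Local3 n N W e K c1 (cube n o (3 ^ a)) g (c g)) →
    Low n N 1 h0 lam ε c →
    Fam n h0 lam h →
    LBn (c (HH n lam o (3 ^ (100 * e)) h)) (EE6 n N o (cube n o (3 ^ a)) (3 ^ (100 * e)))
      (GG6 n N o (3 ^ S)) (((3 : ℝ) ^ (100 * e)) ^ (1 / 3 : ℝ)) →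
    LBn (c h) (hatb N (cube n o (3 ^ a))) (GG6 n N o (3 ^ S)) (c3 * K) := by
  obtain ⟨C, hC, hstep⟩ := hstep3
  obtain ⟨e1, he1, hground⟩ := num_ground3
  obtain ⟨e2, he2⟩ := pow_unbounded_of_one_lt C (show (1 : ℝ) < 3 by norm_num)
  refine ⟨max e1 e2, C, 1 / (4 * C), min (1 / 5000) (1 / (8 * C)), he1.trans (le_max_left _ _),
    hC, by positivity, by positivity, ?_⟩
  intro n N W e _ K h0 lam ε o a h c S he hW hN hrS hSn hea ha2 hK hKe hCK hCK2 hh0 hh01 hlam hε
    hεe hS hloc hlow hfam hLB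
  have he1' : e1 ≤ e := (le_max_left _ _).trans he
  have he2' : e2 ≤ e := (le_max_right _ _).trans he
  have he0 : 1 ≤ e := he1.trans he1'
  have hCe : C ≤ 3 ^ e := he2.le.trans (pow_le_pow_right₀ (by norm_num) he2')
  have hlam0 : 0 < lam := lt_of_lt_of_le (by positivity) hlam
  have hK0 : 0 < K := by linarith
  have h3rS : (3 : ℕ) ^ (100 * e) ≤ 3 ^ S := Nat.pow_le_pow_right (by norm_num) hrS
  have h3rn : (3 : ℕ) ^ (100 * e) < n := by
    have : (3 : ℕ) ^ S ≤ 8 * 3 ^ S := by omega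
    omega
  have hfamH : Fam n h0 lam (HH n lam o (3 ^ (100 * e)) h) :=
    Fam_HH hlam0.le o (by positivity) hfam
  obtain ⟨hA1, hA2⟩ := ladlast3_num_a hC hCe hK0.le hKe
  have hstep1 := hstep n N W e K o a (HH n lam o (3 ^ (100 * e)) h)
    (c (HH n lam o (3 ^ (100 * e)) h)) (100 * e)
    (GG6 n N o (3 ^ S)) (((3 : ℝ) ^ (100 * e)) ^ (1 / 3 : ℝ)) hW hN hea (by omega) h3rn hK0
    hCK hCK2
    (fun x => (hfamH.1 x).2) (fun x hx => HH_one hlam0.le o h3rn.le hfam hx) (hloc _ hfamH)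
    (disj_EG o _ h3rS hSn.le) hLB hA1 hA2
  have hsm := hground h0 lam e S he1' hh0 hlam hrS hS
  have hlow1 := hlow.prim (HH n lam o (3 ^ (100 * e)) h) h hfamH hfam (fun x => le_max_left _ _)
    (hatb N (cube n o (3 ^ a))) (GG6 n N o (3 ^ S)) (disj_hat o _ _) (by
      intro z hz hz0
      rcases mem_union.1 hz with hz | hz
      · exfalso
        apply hz0
        unfold hatb at hz
        exact mem_singleton.1 (mem_product.1 hz).1
      · unfold GG6 at hz
        symm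
        exact HH_ground hlam0.le o h3rS hSn.le hfam (by push_cast; exact hsm)
          (mem_product.1 hz).2)
    (((3 ^ (100 * e) : ℕ) + 2 / lam) ^ 3) (by
      have h1r : (1 : ℝ) ≤ ((3 ^ (100 * e) : ℕ) : ℝ) := by
        push_cast; exact one_le_pow₀ (by norm_num)
      have h2 : (1 : ℝ) ≤ ((3 ^ (100 * e) : ℕ) : ℝ) + 2 / lam := by
        have : 0 ≤ 2 / lam := by positivity
        linarith
      have h3 : (1 : ℝ) ≤ (((3 ^ (100 * e) : ℕ) : ℝ) + 2 / lam) ^ 3 := one_le_pow₀ h2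
      linarith)
    (sum_lowered' hlam0 o (3 ^ (100 * e)) h) (K / C) (by positivity) hstep1
  have hhalf := ladlast3_num_b he0 hlam hε (hεe.trans (min_le_left _ _))
  intro f hf hg
  refine le_trans ?_ (hlow1 f hf hg)
  push_cast
  have hε1 : ε ≤ 1 / (8 * C) := by
    have h0 : (1 : ℝ) ≤ e := by exact_mod_cast he0
    have h1 : ε * 1 ≤ ε * e := mul_le_mul_of_nonneg_left h0 hε
    have h2 := hεe.trans (min_le_right _ _)
    linarith
  have h1 : 1 / 2 * (K / C) ≤
      (1 * ((3 : ℝ) ^ (100 * e) + 2 / lam) ^ 3) ^ (-(4 * ε)) * (K / C) :=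
    mul_le_mul_of_nonneg_right hhalf (by positivity)
  have h2 : 2 * ε ≤ K / (4 * C) := by
    calc 2 * ε ≤ 2 * (1 / (8 * C)) := by linarith
      _ = 1 / (4 * C) := by field_simp; norm_num
      _ ≤ K / (4 * C) := by gcongr
  have h3 : 1 / (4 * C) * K = 1 / 2 * (K / C) - K / (4 * C) := by field_simp; norm_num
  linarith

end Vale.Agent.P361.LRO.Ind3
end

section

/-!
# P361 LRO, block (6), E3: contact energy
-/

namespace Vale.Agent.P361.LRO.Ind

open Finset Vale.Agent.P361.LRO _root_.P361.LRO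

theorem contact_lay {N W m : ℕ} (hm : 4 ≤ m) (hN : N = m * W) {j : ℕ} (hj : j < W) :
    ((lay N W 0 j : Fin (N + 1)) : ℕ) = 1 + j := by
  have h1 : W ≤ N := by
    rw [hN]
    exact Nat.le_mul_of_pos_left W (by omega)
  have h2 : 1 + 0 * W + j < N + 1 := by omega
  unfold lay
  rw [dif_pos h2]
  show 1 + 0 * W + j = 1 + j
  omega

/-- a sum over ordered pairs and their swaps is at most twice the Dirichlet form -/
theorem contact_pairs {X ι : Type} [Fintype X] [DecidableEq X] {c : X → X → ℝ}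
    (hs : ∀ u v, c u v = c v u) (hc : ∀ u v, 0 ≤ c u v) (a : X → ℝ) (s : Finset ι)
    (f g : ι → X) (hinj : ∀ i ∈ s, ∀ i' ∈ s, f i = f i' → g i = g i' → i = i')
    (hdis : ∀ i ∈ s, ∀ i' ∈ s, f i ≠ g i') :
    ∑ i ∈ s, c (f i) (g i) * (a (f i) - a (g i)) ^ 2 ≤ netK c a := by
  classical
  have h1 : ∑ i ∈ s, c (f i) (g i) * (a (f i) - a (g i)) ^ 2 =
      ∑ z ∈ s.image fun i => (f i, g i), c z.1 z.2 * (a z.1 - a z.2) ^ 2 := by
    rw [Finset.sum_image]
    intro i hi i' hi' h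
    exact hinj i hi i' hi' (congrArg Prod.fst h) (congrArg Prod.snd h)
  have h2 : ∑ i ∈ s, c (f i) (g i) * (a (f i) - a (g i)) ^ 2 =
      ∑ z ∈ s.image fun i => (g i, f i), c z.1 z.2 * (a z.1 - a z.2) ^ 2 := by
    rw [Finset.sum_image]
    · refine Finset.sum_congr rfl fun i _ => ?_
      rw [hs (g i) (f i)]
      ring
    · intro i hi i' hi' h
      exact hinj i hi i' hi' (congrArg Prod.snd h) (congrArg Prod.fst h)
  have h3 : Disjoint (s.image fun i => (f i, g i)) (s.image fun i => (g i, f i)) := by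
    rw [Finset.disjoint_left]
    intro z hz hz'
    obtain ⟨i, hi, rfl⟩ := Finset.mem_image.1 hz
    obtain ⟨i', hi', h⟩ := Finset.mem_image.1 hz'
    exact hdis i hi i' hi' (congrArg Prod.fst h).symm
  have h4 : ∑ z ∈ (s.image fun i => (f i, g i)) ∪ (s.image fun i => (g i, f i)),
      c z.1 z.2 * (a z.1 - a z.2) ^ 2 ≤ ∑ z : X × X, c z.1 z.2 * (a z.1 - a z.2) ^ 2 :=
    Finset.sum_le_sum_of_subset_of_nonneg (Finset.subset_univ _)
      fun z _ _ => mul_nonneg (hc _ _) (sq_nonneg _)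
  rw [Finset.sum_union h3, ← h1, ← h2, Fintype.sum_prod_type] at h4
  unfold netK
  linarith

/-- contact energy. -/
theorem contact_le {n N W m : ℕ} [NeZero n] {β K c1 : ℝ} {b : Finset (Tor n)} {h : Tor n → ℝ}
    {c : Nd n N → Nd n N → ℝ} (hW : 0 < W) (hm : 4 ≤ m) (hN : N = m * W) (hβ : 0 < β)
    (hK : 0 < K) (hc1 : 0 < c1) (hc : Local n N W β K c1 b h c) (hb : b.Nonempty)
    (h1 : ∀ x ∈ b, h x = 1) (a : Nd n N → ℝ) (ha : ∀ x ∈ b, a (0, x) = 1) :
    c1 * K * (β / N) * (1 / b.card) * (∑ x ∈ b, ∑ j ∈ range W, (1 - a (lay N W 0 j, x)) ^ 2)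
      ≤ netK c a := by
  classical
  have hk0 : ∀ j ∈ range W, (lay N W 0 j : Fin (N + 1)) ≠ 0 := by
    intro j hj h
    have h2 := contact_lay hm hN (Finset.mem_range.1 hj)
    rw [h, Fin.val_zero] at h2
    omega
  have h2 := contact_pairs hc.symm hc.nonneg a (b ×ˢ range W)
    (fun z => ((0 : Fin (N + 1)), z.1)) (fun z => (lay N W 0 z.2, z.1))
    (fun z hz z' hz' e1 e2 => by
      have hx : z.1 = z'.1 := congrArg Prod.snd e1
      have hj : lay N W 0 z.2 = lay N W 0 z'.2 := congrArg Prod.fst e2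
      have h3 := contact_lay hm hN (Finset.mem_range.1 (Finset.mem_product.1 hz).2)
      have h4 := contact_lay hm hN (Finset.mem_range.1 (Finset.mem_product.1 hz').2)
      rw [hj, h4] at h3
      exact Prod.ext hx (by omega))
    (fun z _ z' hz' e => hk0 z'.2 (Finset.mem_product.1 hz').2 (congrArg Prod.fst e).symm)
  refine le_trans ?_ h2
  rw [Finset.sum_product, Finset.mul_sum]
  refine Finset.sum_le_sum fun x hx => ?_
  rw [Finset.mul_sum]
  refine Finset.sum_le_sum fun j hj => ?_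
  have h3 := contact_lay hm hN (Finset.mem_range.1 hj)
  have h4 := hc.contact (lay N W 0 j) x (hk0 j hj) (by rw [h3]; have := Finset.mem_range.1 hj; omega)
    hx (h1 x hx)
  show _ ≤ c (0, x) (lay N W 0 j, x) * (a (0, x) - a (lay N W 0 j, x)) ^ 2
  rw [ha x hx]
  have h5 : c1 * K * (β / N) * (1 / b.card) = c1 * (K / b.card) * (β / N) := by ring
  rw [h5]
  exact mul_le_mul_of_nonneg_right h4 (sq_nonneg _)

end Vale.Agent.P361.LRO.Ind
end

section

/-!
# P361 LRO stage 3, E3: contact energy on cells (helper683)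
-/

namespace Vale.Agent.P361.LRO.Ind3

open Finset Vale.Agent.P361.LRO _root_.P361.LRO Vale.Agent.P361.LRO.Ind

namespace EC

/-- index box -/
def box3 (S : ℕ) : Finset (ℕ × ℕ × ℕ) := range S ×ˢ (range S ×ˢ range S)

lemma mem_box3 {S : ℕ} {q : ℕ × ℕ × ℕ} : q ∈ box3 S ↔ q.1 < S ∧ q.2.1 < S ∧ q.2.2 < S := by
  simp [box3]

lemma card_box3 (S : ℕ) : (box3 S).card = S ^ 3 := by
  simp [box3]; ring

lemma sum_box3 (S : ℕ) (f : ℕ → ℕ → ℕ → ℝ) :
    ∑ x ∈ range S, ∑ y ∈ range S, ∑ z ∈ range S, f x y z =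
      ∑ q ∈ box3 S, f q.1 q.2.1 q.2.2 := by
  unfold box3
  rw [Finset.sum_product]
  refine Finset.sum_congr rfl fun x _ => ?_
  rw [Finset.sum_product]

/-- the site `m` of the cell `q` -/
def site (n e : ℕ) (o : Tor n) (q m : ℕ × ℕ × ℕ) : Tor n :=
  pt n o (3 ^ e * q.1 + m.1) (3 ^ e * q.2.1 + m.2.1) (3 ^ e * q.2.2 + m.2.2)

private lemma div_inj {M q q' m m' : ℕ} (hm : m < M) (hm' : m' < M)
    (h : M * q + m = M * q' + m') : q = q' ∧ m = m' := by
  have hM : 0 < M := by omega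
  have h1 : (M * q + m) / M = q := by
    rw [Nat.mul_add_div hM, Nat.div_eq_of_lt hm, add_zero]
  have h2 : (M * q' + m') / M = q' := by
    rw [Nat.mul_add_div hM, Nat.div_eq_of_lt hm', add_zero]
  have h3 : q = q' := by rw [← h1, ← h2, h]
  subst h3
  exact ⟨rfl, by omega⟩

private lemma idx_lt {M S q m n : ℕ} (hq : q < S) (hm : m < M) (h : M * S ≤ n) :
    M * q + m < n := by
  have : M * (q + 1) ≤ M * S := Nat.mul_le_mul_left _ hq
  have h2 : M * (q + 1) = M * q + M := by ring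
  omega

lemma site_inj {n e : ℕ} [NeZero n] (o : Tor n) {S : ℕ} (hS : 3 ^ e * S ≤ n)
    {q q' m m' : ℕ × ℕ × ℕ} (hq : q ∈ box3 S) (hq' : q' ∈ box3 S)
    (hm : m ∈ box3 (3 ^ e)) (hm' : m' ∈ box3 (3 ^ e))
    (h : site n e o q m = site n e o q' m') : q = q' ∧ m = m' := by
  rw [mem_box3] at hq hq' hm hm'
  obtain ⟨h1, h2, h3⟩ := pt_inj o (idx_lt hq.1 hm.1 hS) (idx_lt hq.2.1 hm.2.1 hS)
    (idx_lt hq.2.2 hm.2.2 hS) (idx_lt hq'.1 hm'.1 hS) (idx_lt hq'.2.1 hm'.2.1 hS)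
    (idx_lt hq'.2.2 hm'.2.2 hS) h
  obtain ⟨a1, b1⟩ := div_inj hm.1 hm'.1 h1
  obtain ⟨a2, b2⟩ := div_inj hm.2.1 hm'.2.1 h2
  obtain ⟨a3, b3⟩ := div_inj hm.2.2 hm'.2.2 h3
  exact ⟨Prod.ext a1 (Prod.ext a2 a3), Prod.ext b1 (Prod.ext b2 b3)⟩

lemma site_mem_big {n e : ℕ} [NeZero n] (o : Tor n) {S : ℕ} {q m : ℕ × ℕ × ℕ} (hq : q ∈ box3 S)
    (hm : m ∈ box3 (3 ^ e)) : site n e o q m ∈ cube n o (3 ^ e * S) := by
  rw [mem_box3] at hq hm
  rw [mem_cube_iff]
  exact ⟨_, idx_lt hq.1 hm.1 le_rfl, _, idx_lt hq.2.1 hm.2.1 le_rfl, _,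
    idx_lt hq.2.2 hm.2.2 le_rfl, rfl⟩

lemma site_mem_cell {n e : ℕ} [NeZero n] (o : Tor n) {q m : ℕ × ℕ × ℕ}
    (hm : m ∈ box3 (3 ^ e)) :
    site n e o q m ∈ cube n (pt n o (3 ^ e * q.1) (3 ^ e * q.2.1) (3 ^ e * q.2.2))
      (2 * 3 ^ e) := by
  rw [mem_box3] at hm
  rw [mem_cube_iff]
  refine ⟨m.1, by omega, m.2.1, by omega, m.2.2, by omega, ?_⟩
  rw [pt_pt]
  rfl

lemma lay_val {N t : ℕ} (ht : t < N) : ((lay N N 0 t : Fin (N + 1)) : ℕ) = 1 + t := by
  have h2 : 1 + 0 * N + t < N + 1 := by omega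
  unfold lay
  rw [dif_pos h2]
  show 1 + 0 * N + t = 1 + t
  omega

/-- the node `(m, t)` of the cell `q` in the quarter `i` -/
def nd (n N W e : ℕ) (o : Tor n) (q : ℕ × ℕ × ℕ) (i : ℕ) (m : (ℕ × ℕ × ℕ) × ℕ) : Nd n N :=
  (lay N N 0 (i * W + m.2), site n e o q m.1)

/-- indices of the nodes of a cell in one quarter -/
def cb (W e : ℕ) : Finset ((ℕ × ℕ × ℕ) × ℕ) := box3 (3 ^ e) ×ˢ range W

lemma card_cb (W e : ℕ) : (cb W e).card = 27 ^ e * W := by
  unfold cb
  rw [Finset.card_product, card_box3, Finset.card_range]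
  congr 1
  rw [← pow_mul, mul_comm, pow_mul]
  norm_num

/-- average of `a` over the cell `q` and the quarter `i` -/
noncomputable def qa (n N W e : ℕ) (o : Tor n) (a : Nd n N → ℝ) (q : ℕ × ℕ × ℕ) (i : ℕ) : ℝ :=
  (1 / ((27 : ℝ) ^ e * W)) * ∑ m ∈ cb W e, a (nd n N W e o q i m)

lemma nd_val {n N W e : ℕ} (hN : N = 4 * W) (o : Tor n) (q : ℕ × ℕ × ℕ) {i : ℕ} (hi : i < 4)
    {m : (ℕ × ℕ × ℕ) × ℕ} (hm : m ∈ cb W e) :
    (((nd n N W e o q i m).1 : Fin (N + 1)) : ℕ) = 1 + (i * W + m.2) := by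
  have h1 : m.2 < W := by
    unfold cb at hm
    exact Finset.mem_range.1 (Finset.mem_product.1 hm).2
  have h2 : i * W + m.2 < N := by
    have : (i + 1) * W ≤ 4 * W := Nat.mul_le_mul_right _ hi
    have h3 : (i + 1) * W = i * W + W := by ring
    omega
  exact lay_val h2

lemma nd_inj {n N W e : ℕ} [NeZero n] (hN : N = 4 * W) (o : Tor n) {S : ℕ} (hS : 3 ^ e * S ≤ n)
    {q q' : ℕ × ℕ × ℕ} (hq : q ∈ box3 S) (hq' : q' ∈ box3 S) {i : ℕ} (hi : i < 4)
    {m m' : (ℕ × ℕ × ℕ) × ℕ} (hm : m ∈ cb W e) (hm' : m' ∈ cb W e)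
    (h : nd n N W e o q i m = nd n N W e o q' i m') : q = q' ∧ m = m' := by
  have h1 := nd_val (n := n) hN o q hi hm
  have h2 := nd_val (n := n) hN o q' hi hm'
  rw [h, h2] at h1
  unfold cb at hm hm'
  obtain ⟨e1, e2⟩ := site_inj o hS hq hq' (Finset.mem_product.1 hm).1
    (Finset.mem_product.1 hm').1 (congrArg Prod.snd h)
  exact ⟨e1, Prod.ext e2 (by omega)⟩

/-- `U` is the mean of the four quarter averages. -/
lemma UC_eq {n N W e : ℕ} (hW : 0 < W) (hN : N = 4 * W) (o : Tor n) (a : Nd n N → ℝ)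
    (q : ℕ × ℕ × ℕ) :
    UC n N e o a q.1 q.2.1 q.2.2 = (1 / 4) * (qa n N W e o a q 0 + qa n N W e o a q 1 +
      qa n N W e o a q 2 + qa n N W e o a q 3) := by
  have hWR : (0 : ℝ) < W := by exact_mod_cast hW
  have h1 : ∀ m : ℕ × ℕ × ℕ, ∑ t ∈ range N, a (lay N N 0 t, site n e o q m) =
      ∑ t ∈ range W, a (lay N N 0 (0 * W + t), site n e o q m) +
      ∑ t ∈ range W, a (lay N N 0 (1 * W + t), site n e o q m) +
      ∑ t ∈ range W, a (lay N N 0 (2 * W + t), site n e o q m) +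
      ∑ t ∈ range W, a (lay N N 0 (3 * W + t), site n e o q m) := by
    intro m
    have h2 : range N = range (W + W + W + W) := by congr 1; omega
    rw [h2, Finset.sum_range_add, Finset.sum_range_add, Finset.sum_range_add]
    have e0 : ∀ t, 0 * W + t = t := by intro t; omega
    have e1 : ∀ t, 1 * W + t = W + t := by intro t; omega
    have e2 : ∀ t, 2 * W + t = W + W + t := by intro t; omega
    have e3 : ∀ t, 3 * W + t = W + W + W + t := by intro t; omega
    simp only [e0, e1, e2, e3]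
  unfold UC
  rw [sum_box3 (3 ^ e) (fun i j k => ∑ t ∈ range N, a (lay N N 0 t,
    pt n o (3 ^ e * q.1 + i) (3 ^ e * q.2.1 + j) (3 ^ e * q.2.2 + k)))]
  have h3 : ∑ m ∈ box3 (3 ^ e), ∑ t ∈ range N, a (lay N N 0 t,
      pt n o (3 ^ e * q.1 + m.1) (3 ^ e * q.2.1 + m.2.1) (3 ^ e * q.2.2 + m.2.2)) =
      ∑ m ∈ cb W e, a (nd n N W e o q 0 m) + ∑ m ∈ cb W e, a (nd n N W e o q 1 m) +
      ∑ m ∈ cb W e, a (nd n N W e o q 2 m) + ∑ m ∈ cb W e, a (nd n N W e o q 3 m) := by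
    unfold cb nd
    rw [Finset.sum_product, Finset.sum_product, Finset.sum_product, Finset.sum_product,
      ← Finset.sum_add_distrib, ← Finset.sum_add_distrib, ← Finset.sum_add_distrib]
    exact Finset.sum_congr rfl fun m _ => h1 m
  rw [h3]
  unfold qa
  have hN' : (N : ℝ) = 4 * W := by rw [hN]; push_cast; ring
  rw [hN']
  field_simp

/-- Jensen for pairs. -/
lemma jensen_pairs {ι : Type} (s : Finset ι) (A B : ι → ℝ) :
    (∑ i ∈ s, A i - ∑ j ∈ s, B j) ^ 2 ≤ ∑ i ∈ s, ∑ j ∈ s, (A i - B j) ^ 2 := by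
  rcases s.eq_empty_or_nonempty with rfl | hs
  · simp
  have hc : (0 : ℝ) < s.card := by exact_mod_cast hs.card_pos
  have h1 : ∑ q ∈ s ×ˢ s, (A q.1 - B q.2) = s.card * (∑ j ∈ s, A j - ∑ i ∈ s, B i) := by
    rw [Finset.sum_product]
    simp only [Finset.sum_sub_distrib, Finset.sum_const, nsmul_eq_mul]
    rw [← Finset.mul_sum]
    ring
  have h2 := sq_sum_le_card_mul_sum_sq (s := s ×ˢ s) (f := fun q : ι × ι => A q.1 - B q.2)
  rw [h1, Finset.card_product, Finset.sum_product] at h2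
  push_cast at h2
  have h4 : ((s.card : ℝ) * s.card) * (∑ j ∈ s, A j - ∑ i ∈ s, B i) ^ 2 ≤
      (s.card * s.card) * ∑ j ∈ s, ∑ i ∈ s, (A j - B i) ^ 2 := by
    calc ((s.card : ℝ) * s.card) * (∑ j ∈ s, A j - ∑ i ∈ s, B i) ^ 2
        = (s.card * (∑ j ∈ s, A j - ∑ i ∈ s, B i)) ^ 2 := by ring
      _ ≤ _ := h2
  exact le_of_mul_le_mul_left h4 (by positivity)

/-- two quarters of the same cell. -/
theorem quarter_le {n N W e : ℕ} [NeZero n] {K c1 : ℝ} {b : Finset (Tor n)} {h : Tor n → ℝ}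
    {c : Nd n N → Nd n N → ℝ} (hW : 0 < W) (hN : N = 4 * W) (hc1 : 0 < c1)
    (hc : Local3 n N W e K c1 b h c) (o : Tor n) {S : ℕ} (hS : 3 ^ e * S ≤ n)
    (h1 : ∀ x ∈ cube n o (3 ^ e * S), h x = 1) (a : Nd n N → ℝ) {i j : ℕ} (hij : i + 2 ≤ j)
    (hj : j < 4) :
    c1 * 27 ^ e / 16 * ∑ q ∈ box3 S, (qa n N W e o a q i - qa n N W e o a q j) ^ 2 ≤
      netK c a := by
  classical
  have hWR : (0 : ℝ) < W := by exact_mod_cast hW
  have hi : i < 4 := by omega
  have key := contact_pairs hc.symm hc.nonneg a (box3 S ×ˢ (cb W e ×ˢ cb W e))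
    (fun z => nd n N W e o z.1 i z.2.1) (fun z => nd n N W e o z.1 j z.2.2)
    (fun z hz z' hz' e1 e2 => by
      obtain ⟨hq, hm⟩ := Finset.mem_product.1 hz
      obtain ⟨hq', hm'⟩ := Finset.mem_product.1 hz'
      obtain ⟨hm1, hm2⟩ := Finset.mem_product.1 hm
      obtain ⟨hm1', hm2'⟩ := Finset.mem_product.1 hm'
      obtain ⟨a1, a2⟩ := nd_inj hN o hS hq hq' hi hm1 hm1' e1
      obtain ⟨-, a3⟩ := nd_inj hN o hS hq hq' hj hm2 hm2' e2
      exact Prod.ext a1 (Prod.ext a2 a3))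
    (fun z hz z' hz' e1 => by
      obtain ⟨hq, hm⟩ := Finset.mem_product.1 hz
      obtain ⟨hq', hm'⟩ := Finset.mem_product.1 hz'
      have h2 := nd_val (n := n) hN o z.1 hi (Finset.mem_product.1 hm).1
      have h3 := nd_val (n := n) hN o z'.1 hj (Finset.mem_product.1 hm').2
      have e1' : nd n N W e o z.1 i z.2.1 = nd n N W e o z'.1 j z'.2.2 := e1
      have h4 : (((nd n N W e o z.1 i z.2.1).1 : Fin (N + 1)) : ℕ) =
        (((nd n N W e o z'.1 j z'.2.2).1 : Fin (N + 1)) : ℕ) := by rw [e1']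
      rw [h2, h3] at h4
      have h5 : z.2.1.2 < W := Finset.mem_range.1
        (Finset.mem_product.1 (Finset.mem_product.1 hm).1).2
      have h6 : (i + 2) * W ≤ j * W := Nat.mul_le_mul_right _ hij
      have h7 : (i + 2) * W = i * W + W + W := by ring
      omega)
  refine le_trans ?_ key
  rw [Finset.sum_product, Finset.mul_sum]
  refine Finset.sum_le_sum fun q hq => ?_
  rw [Finset.sum_product]
  have h2 : c1 / ((N : ℝ) ^ 2 * 27 ^ e) * ∑ m ∈ cb W e, ∑ m' ∈ cb W e,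
      (a (nd n N W e o q i m) - a (nd n N W e o q j m')) ^ 2 ≤
      ∑ m ∈ cb W e, ∑ m' ∈ cb W e, c (nd n N W e o q i m) (nd n N W e o q j m') *
        (a (nd n N W e o q i m) - a (nd n N W e o q j m')) ^ 2 := by
    rw [Finset.mul_sum]
    refine Finset.sum_le_sum fun m hm => ?_
    rw [Finset.mul_sum]
    refine Finset.sum_le_sum fun m' hm' => ?_
    refine mul_le_mul_of_nonneg_right ?_ (sq_nonneg _)
    have hm1 := (Finset.mem_product.1 hm).1
    have hm1' := (Finset.mem_product.1 hm').1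
    have v1 := nd_val (n := n) hN o q hi hm
    have v2 := nd_val (n := n) hN o q hj hm'
    refine hc.long _ _ (pt n o (3 ^ e * q.1) (3 ^ e * q.2.1) (3 ^ e * q.2.2)) _ _ ?_ ?_
      (site_mem_cell o hm1) (site_mem_cell o hm1') (h1 _ (site_mem_big o hq hm1))
      (h1 _ (site_mem_big o hq hm1'))
    · intro h0
      have : (((nd n N W e o q i m).1 : Fin (N + 1)) : ℕ) = 0 := by
        show ((lay N N 0 (i * W + m.2) : Fin (N + 1)) : ℕ) = 0
        rw [h0]; rfl
      omega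
    · show (((nd n N W e o q i m).1 : Fin (N + 1)) : ℕ) + W ≤
        (((nd n N W e o q j m').1 : Fin (N + 1)) : ℕ)
      rw [v1, v2]
      have h5 : m.2 < W := Finset.mem_range.1 (Finset.mem_product.1 hm).2
      have h6 : (i + 2) * W ≤ j * W := Nat.mul_le_mul_right _ hij
      have h7 : (i + 2) * W = i * W + W + W := by ring
      omega
  refine le_trans ?_ h2
  have h3 := jensen_pairs (cb W e) (fun m => a (nd n N W e o q i m))
    (fun m => a (nd n N W e o q j m))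
  have h4 : c1 * 27 ^ e / 16 * (qa n N W e o a q i - qa n N W e o a q j) ^ 2 =
      c1 / ((N : ℝ) ^ 2 * 27 ^ e) * (∑ m ∈ cb W e, a (nd n N W e o q i m) -
        ∑ m ∈ cb W e, a (nd n N W e o q j m)) ^ 2 := by
    unfold qa
    have hN' : (N : ℝ) = 4 * W := by rw [hN]; push_cast; ring
    rw [hN']
    field_simp
    ring
  rw [h4]
  exact mul_le_mul_of_nonneg_left h3 (by rw [hN]; positivity)

end EC

open EC in
/-- contact energy: `b` = cube of `3 ^ r` cells per side. -/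
theorem contact_le3 {n N W e r : ℕ} [NeZero n] {K c1 : ℝ} {o : Tor n} {h : Tor n → ℝ}
    {c : Nd n N → Nd n N → ℝ} (hW : 0 < W) (hN : N = 4 * W) (hK : 0 < K) (hc1 : 0 < c1)
    (hc : Local3 n N W e K c1 (cube n o (3 ^ (e + r))) h c) (hn : 3 ^ (e + r) < n)
    (h1 : ∀ x ∈ cube n o (3 ^ (e + r)), h x = 1) (a : Nd n N → ℝ)
    (ha : ∀ x ∈ cube n o (3 ^ (e + r)), a (0, x) = 1) :
    c1 * K * (1 / 27 ^ r) * (∑ x ∈ range (3 ^ r), ∑ y ∈ range (3 ^ r), ∑ z ∈ range (3 ^ r),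
      (1 - UC n N e o a x y z) ^ 2) ≤ 1000 * (1 + K / 27 ^ (e + r)) * netK c a := by
  classical
  have hWR : (0 : ℝ) < W := by exact_mod_cast hW
  have hpow : 3 ^ (e + r) = 3 ^ e * 3 ^ r := pow_add 3 e r
  have hS : 3 ^ e * 3 ^ r ≤ n := by rw [← hpow]; exact hn.le
  have hb1 : ∀ x ∈ cube n o (3 ^ e * 3 ^ r), h x = 1 := by rw [← hpow]; exact h1
  have q13 := quarter_le hW hN hc1 hc o hS hb1 a (i := 1) (j := 3) (by norm_num) (by norm_num)
  have q03 := quarter_le hW hN hc1 hc o hS hb1 a (i := 0) (j := 3) (by norm_num) (by norm_num)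
  have q02 := quarter_le hW hN hc1 hc o hS hb1 a (i := 0) (j := 2) (by norm_num) (by norm_num)
  -- contact
  have hcard : ((cube n o (3 ^ (e + r))).card : ℝ) = 27 ^ (e + r) := by
    rw [Vale.Agent.P361.LRO.Ind.card_cube o _ hn.le]
    push_cast
    rw [← pow_mul, mul_comm, pow_mul]
    norm_num
  have hcon : c1 * K / (4 * 27 ^ r) * ∑ q ∈ box3 (3 ^ r), (1 - qa n N W e o a q 1) ^ 2 ≤
      netK c a := by
    have key := contact_pairs hc.symm hc.nonneg a (box3 (3 ^ r) ×ˢ (box3 (3 ^ e) ×ˢ cb W e))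
      (fun z => ((0 : Fin (N + 1)), site n e o z.1 z.2.1)) (fun z => nd n N W e o z.1 1 z.2.2)
      (fun z hz z' hz' e1 e2 => by
        obtain ⟨hq, hm⟩ := Finset.mem_product.1 hz
        obtain ⟨hq', hm'⟩ := Finset.mem_product.1 hz'
        obtain ⟨hm1, hm2⟩ := Finset.mem_product.1 hm
        obtain ⟨hm1', hm2'⟩ := Finset.mem_product.1 hm'
        obtain ⟨a1, a2⟩ := site_inj o hS hq hq' hm1 hm1' (congrArg Prod.snd e1)
        obtain ⟨-, a3⟩ := nd_inj hN o hS hq hq' (by norm_num) hm2 hm2' e2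
        exact Prod.ext a1 (Prod.ext a2 a3))
      (fun z hz z' hz' e1 => by
        obtain ⟨hq', hm'⟩ := Finset.mem_product.1 hz'
        have h3 := nd_val (n := n) hN o z'.1 (i := 1) (by norm_num) (Finset.mem_product.1 hm').2
        have e1' : ((0 : Fin (N + 1)), site n e o z.1 z.2.1) = nd n N W e o z'.1 1 z'.2.2 := e1
        rw [← e1'] at h3
        have h4 : (((0 : Fin (N + 1))) : ℕ) = 1 + (1 * W + z'.2.2.2) := h3
        rw [Fin.val_zero] at h4
        omega)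
    refine le_trans ?_ key
    rw [Finset.sum_product, Finset.mul_sum]
    refine Finset.sum_le_sum fun q hq => ?_
    rw [Finset.sum_product]
    have h2 : ∑ m ∈ box3 (3 ^ e), ∑ m' ∈ cb W e, c1 * (K / 27 ^ (e + r)) / ((N : ℝ) * 27 ^ e) *
        (1 - a (nd n N W e o q 1 m')) ^ 2 ≤
        ∑ m ∈ box3 (3 ^ e), ∑ m' ∈ cb W e,
          c ((0 : Fin (N + 1)), site n e o q m) (nd n N W e o q 1 m') *
          (a ((0 : Fin (N + 1)), site n e o q m) - a (nd n N W e o q 1 m')) ^ 2 := by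
      refine Finset.sum_le_sum fun m hm => Finset.sum_le_sum fun m' hm' => ?_
      have hb := site_mem_big o hq hm
      have hm1' := (Finset.mem_product.1 hm').1
      rw [ha _ (by rw [hpow]; exact hb)]
      refine mul_le_mul_of_nonneg_right ?_ (sq_nonneg _)
      have v2 := nd_val (n := n) hN o q (i := 1) (by norm_num) hm'
      have := hc.contact (nd n N W e o q 1 m').1
        (pt n o (3 ^ e * q.1) (3 ^ e * q.2.1) (3 ^ e * q.2.2)) (site n e o q m)
        (site n e o q m'.1) (by omega) (by rw [hpow]; exact hb) (site_mem_cell o hm)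
        (site_mem_cell o hm1') (hb1 _ (site_mem_big o hq hm1'))
      rw [hcard] at this
      exact this
    refine le_trans ?_ h2
    rw [Finset.sum_const, card_box3, nsmul_eq_mul, ← Finset.mul_sum]
    have h3 := sq_sum_le_card_mul_sum_sq (s := cb W e)
      (f := fun m => 1 - a (nd n N W e o q 1 m))
    rw [card_cb] at h3
    have h4 : ∑ m ∈ cb W e, (1 - a (nd n N W e o q 1 m)) =
        (27 ^ e * W) * (1 - qa n N W e o a q 1) := by
      rw [Finset.sum_sub_distrib, Finset.sum_const, card_cb, nsmul_eq_mul, qa]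
      push_cast
      field_simp
    rw [h4] at h3
    push_cast at h3
    have h5 : ((27 : ℝ) ^ e * W) * (1 - qa n N W e o a q 1) ^ 2 ≤
        ∑ m ∈ cb W e, (1 - a (nd n N W e o q 1 m)) ^ 2 := by
      have h6 : (0 : ℝ) < 27 ^ e * W := by positivity
      have h7 : ((27 : ℝ) ^ e * W) * (((27 : ℝ) ^ e * W) * (1 - qa n N W e o a q 1) ^ 2) ≤
          ((27 : ℝ) ^ e * W) * ∑ m ∈ cb W e, (1 - a (nd n N W e o q 1 m)) ^ 2 := by
        calc _ = ((27 : ℝ) ^ e * W * (1 - qa n N W e o a q 1)) ^ 2 := by ring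
          _ ≤ _ := h3
      exact le_of_mul_le_mul_left h7 h6
    have h8 : (((3 ^ e) ^ 3 : ℕ) : ℝ) = 27 ^ e := by
      push_cast
      rw [← pow_mul, mul_comm, pow_mul]
      norm_num
    rw [h8]
    have hN' : (N : ℝ) = 4 * W := by rw [hN]; push_cast; ring
    calc c1 * K / (4 * 27 ^ r) * (1 - qa n N W e o a q 1) ^ 2 =
        27 ^ e * (c1 * (K / 27 ^ (e + r)) / ((N : ℝ) * 27 ^ e) *
          (((27 : ℝ) ^ e * W) * (1 - qa n N W e o a q 1) ^ 2)) := by
          rw [hN', pow_add]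
          field_simp
      _ ≤ _ := by
          refine mul_le_mul_of_nonneg_left (mul_le_mul_of_nonneg_left h5 ?_) (by positivity)
          rw [hN']
          positivity
  -- combination
  rw [sum_box3 (3 ^ r) (fun x y z => (1 - UC n N e o a x y z) ^ 2)]
  have hU : ∀ q ∈ box3 (3 ^ r), (1 - UC n N e o a q.1 q.2.1 q.2.2) ^ 2 ≤
      2 * (1 - qa n N W e o a q 1) ^ 2 + 2 * ((qa n N W e o a q 1 - qa n N W e o a q 3) ^ 2 +
        (qa n N W e o a q 0 - qa n N W e o a q 3) ^ 2 +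
        (qa n N W e o a q 0 - qa n N W e o a q 2) ^ 2) := by
    intro q _
    rw [UC_eq hW hN o a q]
    set A0 := qa n N W e o a q 0
    set A1 := qa n N W e o a q 1
    set A2 := qa n N W e o a q 2
    set A3 := qa n N W e o a q 3
    have e1 : 1 - 1 / 4 * (A0 + A1 + A2 + A3) =
        (1 - A1) + (1 / 4) * (3 * (A1 - A3) + 2 * (A3 - A0) + (A0 - A2)) := by ring
    rw [e1]
    nlinarith [sq_nonneg ((1 - A1) - (1 / 4) * (3 * (A1 - A3) + 2 * (A3 - A0) + (A0 - A2))),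
      sq_nonneg (2 * (A1 - A3) - 3 * (A3 - A0)), sq_nonneg ((A1 - A3) - 3 * (A0 - A2)),
      sq_nonneg ((A3 - A0) - 2 * (A0 - A2)), sq_nonneg (A1 - A3), sq_nonneg (A3 - A0),
      sq_nonneg (A0 - A2)]
  have hsum := Finset.sum_le_sum hU
  rw [Finset.sum_add_distrib, ← Finset.mul_sum, ← Finset.mul_sum, Finset.sum_add_distrib,
    Finset.sum_add_distrib] at hsum
  set s1 := ∑ q ∈ box3 (3 ^ r), (1 - qa n N W e o a q 1) ^ 2
  set s2 := ∑ q ∈ box3 (3 ^ r), (qa n N W e o a q 1 - qa n N W e o a q 3) ^ 2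
  set s3 := ∑ q ∈ box3 (3 ^ r), (qa n N W e o a q 0 - qa n N W e o a q 3) ^ 2
  set s4 := ∑ q ∈ box3 (3 ^ r), (qa n N W e o a q 0 - qa n N W e o a q 2) ^ 2
  have hnet : 0 ≤ netK c a := le_trans (by positivity) hcon
  have hκ : 0 ≤ c1 * K * (1 / 27 ^ r) := by positivity
  refine (mul_le_mul_of_nonneg_left hsum hκ).trans ?_
  have t1 : c1 * K * (1 / 27 ^ r) * (2 * s1) ≤ 8 * netK c a := by
    have : c1 * K * (1 / 27 ^ r) * (2 * s1) = 8 * (c1 * K / (4 * 27 ^ r) * s1) := by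
      field_simp; ring
    rw [this]
    linarith
  have t2 : ∀ s : ℝ, c1 * 27 ^ e / 16 * s ≤ netK c a →
      c1 * K * (1 / 27 ^ r) * (2 * s) ≤ 32 * (K / 27 ^ (e + r)) * netK c a := by
    intro s hs
    have : c1 * K * (1 / 27 ^ r) * (2 * s) =
        32 * (K / 27 ^ (e + r)) * (c1 * 27 ^ e / 16 * s) := by
      rw [pow_add]
      field_simp
      ring
    rw [this]
    exact mul_le_mul_of_nonneg_left hs (by positivity)
  have t3 := t2 s2 q13
  have t4 := t2 s3 q03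
  have t5 := t2 s4 q02
  have t6 : 0 ≤ K / 27 ^ (e + r) * netK c a := by positivity
  nlinarith

end Vale.Agent.P361.LRO.Ind3
end

section

/-!
# P361, long range order: the one-node inequality (statement)
-/

namespace Vale.Agent.P361.LRO

open Finset

/-- The one-node inequality (Theorem 1 of note 8371 in covariance form):
`Cov(j_z², (a·j)²) ≤ F_z² / v_z + sqrt (1 - M_z²) Star_z(a)`. -/
def OneNode {X : Type} [Fintype X] [DecidableEq X] (μ : Equiv.Perm X → ℝ) : Prop :=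
  ∀ θ : X → ℝ, (∀ x, 0 ≤ θ x ∧ θ x ≤ 1) → ∀ z, 0 < θ z → ∀ a : X → ℝ,
    EE μ θ (fun π s => jj π s z ^ 2 * (∑ x, a x * jj π s x) ^ 2) - vv μ θ z * KK μ θ a
      ≤ (∑ x, cc μ θ z x * (a x - a z)) ^ 2 / vv μ θ z
        + Real.sqrt (1 - mag μ θ z ^ 2) * ∑ x, cc μ θ z x * (a x - a z) ^ 2

end Vale.Agent.P361.LRO
end

section

/-!
P361, note 9886, step (3) for the charge network of `Defs.lean` (Part A): lowering the node
parameters `θ` along `max (θ') (e^{-s} θ)`.
-/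

namespace Vale.Agent.P361.LRO.Net

open Finset Filter Topology
open Vale.Agent.P361.LRO

set_option linter.unusedSectionVars false

variable {X : Type} [Fintype X] [DecidableEq X]

/-- The properties of the law of the rings used by the network part. -/
structure Good (μ : Equiv.Perm X → ℝ) : Prop where
  nn : ∀ π, 0 ≤ μ π
  pos : 0 < ∑ π, μ π
  ccnn : ∀ θ : X → ℝ, (∀ x, 0 ≤ θ x ∧ θ x ≤ 1) → ∀ x y, x ≠ y → 0 ≤ cc μ θ x y
  vle : ∀ θ : X → ℝ, (∀ x, 0 ≤ θ x ∧ θ x ≤ 1) → ∀ z, vv μ θ z ≤ θ z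
  one : OneNode μ

/-! ### Elementary facts -/

theorem law_nonneg (l : List (X × X × ℝ)) (σ : Equiv.Perm X)
    (hl : ∀ g ∈ l, 0 ≤ g.2.2 ∧ g.2.2 ≤ 1) (π : Equiv.Perm X) : 0 ≤ law l σ π := by
  induction l generalizing π with
  | nil =>
    simp only [law]
    by_cases h : π = σ
    · subst h; simp
    · simp [Pi.single_eq_of_ne h]
  | cons g l ih =>
    have hg := hl g (by simp)
    have hl' : ∀ g ∈ l, 0 ≤ g.2.2 ∧ g.2.2 ≤ 1 := fun g hg => hl g (by simp [hg])
    simp only [law]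
    exact add_nonneg (mul_nonneg (by linarith [hg.2]) (ih hl' π)) (mul_nonneg hg.1 (ih hl' _))

theorem law_sum (l : List (X × X × ℝ)) (σ : Equiv.Perm X) : ∑ π, law l σ π = 1 := by
  induction l with
  | nil => simp [law]
  | cons g l ih =>
    simp only [law, Finset.sum_add_distrib, ← Finset.mul_sum]
    have h := Equiv.sum_comp (Equiv.mulLeft (Equiv.swap g.1 g.2.1)) (law l σ)
    simp only [Equiv.coe_mulLeft] at h
    rw [h, ih]
    ring

theorem wt_nonneg {θ : X → ℝ} (hθ : ∀ x, 0 ≤ θ x) (π : Equiv.Perm X) (s : X → Fin 2) :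
    0 ≤ wt θ π s := by
  unfold wt
  refine Finset.prod_nonneg fun x _ => ?_
  split_ifs
  · exact zero_le_one
  · exact hθ x

theorem ZZ_pos {μ : Equiv.Perm X → ℝ} (h0 : ∀ π, 0 ≤ μ π) (h1 : 0 < ∑ π, μ π) {θ : X → ℝ}
    (hθ : ∀ x, 0 ≤ θ x) : 0 < ZZ μ θ := by
  unfold ZZ
  refine lt_of_lt_of_le h1 (Finset.sum_le_sum fun π _ => ?_)
  have h2 : μ π * wt θ π (fun _ => 0) = μ π := by simp [wt]
  calc μ π = μ π * wt θ π (fun _ => 0) := h2.symm
    _ ≤ ∑ s, μ π * wt θ π s :=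
      Finset.single_le_sum (f := fun s => μ π * wt θ π s)
        (fun s _ => mul_nonneg (h0 π) (wt_nonneg hθ π s)) (Finset.mem_univ _)

theorem sum_jj (π : Equiv.Perm X) (s : X → Fin 2) : ∑ x, jj π s x = 0 := by
  unfold jj
  rw [Finset.sum_sub_distrib, Equiv.sum_comp π (fun x => ((s x : ℕ) : ℝ)), sub_self]

theorem jj_sq (π : Equiv.Perm X) (s : X → Fin 2) (x : X) :
    jj π s x ^ 2 = if s x = s (π x) then 0 else 1 := by
  unfold jj
  generalize s x = u
  generalize s (π x) = v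
  fin_cases u <;> fin_cases v <;> norm_num

/-! ### Linearity of the expectation -/

theorem EE_add (μ : Equiv.Perm X → ℝ) (θ : X → ℝ) (f g : Equiv.Perm X → (X → Fin 2) → ℝ) :
    EE μ θ (fun π s => f π s + g π s) = EE μ θ f + EE μ θ g := by
  unfold EE
  rw [← add_div, ← Finset.sum_add_distrib]
  congr 1
  refine Finset.sum_congr rfl fun π _ => ?_
  rw [← Finset.sum_add_distrib]
  exact Finset.sum_congr rfl fun s _ => by ring

theorem EE_const_mul (μ : Equiv.Perm X → ℝ) (θ : X → ℝ) (k : ℝ)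
    (f : Equiv.Perm X → (X → Fin 2) → ℝ) :
    EE μ θ (fun π s => k * f π s) = k * EE μ θ f := by
  unfold EE
  rw [← mul_div_assoc, Finset.mul_sum]
  congr 1
  refine Finset.sum_congr rfl fun π _ => ?_
  rw [Finset.mul_sum]
  exact Finset.sum_congr rfl fun s _ => by ring

theorem EE_sum {ι : Type*} (A : Finset ι) (μ : Equiv.Perm X → ℝ) (θ : X → ℝ)
    (f : ι → Equiv.Perm X → (X → Fin 2) → ℝ) :
    EE μ θ (fun π s => ∑ i ∈ A, f i π s) = ∑ i ∈ A, EE μ θ (f i) := by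
  classical
  induction A using Finset.induction_on with
  | empty => simp [EE]
  | insert i A hi ih =>
    simp only [Finset.sum_insert hi]
    rw [EE_add, ih]

/-- Pointwise form of `K(a) = ∑_{u<v} c_uv (a_u - a_v)²`. -/
theorem jj_square (π : Equiv.Perm X) (s : X → Fin 2) (a : X → ℝ) :
    (∑ x, a x * jj π s x) ^ 2 =
      (1 / 2) * ∑ x, ∑ y, (-(jj π s x * jj π s y)) * (a x - a y) ^ 2 := by
  have h0 := sum_jj π s
  have e : ∀ x y : X, (-(jj π s x * jj π s y)) * (a x - a y) ^ 2 =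
      -(a x ^ 2 * jj π s x) * jj π s y - jj π s x * (a y ^ 2 * jj π s y)
        + 2 * ((a x * jj π s x) * (a y * jj π s y)) := fun x y => by ring
  simp only [e, Finset.sum_add_distrib, Finset.sum_sub_distrib, ← Finset.mul_sum,
    ← Finset.sum_mul, h0]
  ring

/-- Off-diagonal conductances. -/
noncomputable def c0 (μ : Equiv.Perm X → ℝ) (θ : X → ℝ) (x y : X) : ℝ :=
  if x = y then 0 else cc μ θ x y

theorem netK_offdiag (c : X → X → ℝ) (a : X → ℝ) :
    P361.LRO.netK (fun x y => if x = y then 0 else c x y) a =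
      (1 / 2) * ∑ x, ∑ y, c x y * (a x - a y) ^ 2 := by
  unfold P361.LRO.netK
  congr 1
  refine Finset.sum_congr rfl fun x _ => Finset.sum_congr rfl fun y _ => ?_
  by_cases h : x = y
  · subst h; simp
  · simp [h]

/-- `K` of a bilinear functional. -/
theorem netK_EE (μ : Equiv.Perm X → ℝ) (θ : X → ℝ) (R : Equiv.Perm X → (X → Fin 2) → ℝ)
    (a : X → ℝ) :
    (1 / 2) * ∑ x, ∑ y, (-(EE μ θ fun π s => R π s * (jj π s x * jj π s y))) * (a x - a y) ^ 2 =
      EE μ θ (fun π s => R π s * (∑ x, a x * jj π s x) ^ 2) := by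
  have h1 : (fun (π : Equiv.Perm X) (s : X → Fin 2) => R π s * (∑ x, a x * jj π s x) ^ 2) =
      fun π s => ∑ x, ∑ y, ((-(1 / 2) * (a x - a y) ^ 2) *
        (R π s * (jj π s x * jj π s y))) := by
    funext π s
    rw [jj_square, Finset.mul_sum, Finset.mul_sum]
    refine Finset.sum_congr rfl fun x _ => ?_
    rw [Finset.mul_sum, Finset.mul_sum]
    exact Finset.sum_congr rfl fun y _ => by ring
  rw [h1, EE_sum, Finset.mul_sum]
  refine Finset.sum_congr rfl fun x _ => ?_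
  rw [EE_sum, Finset.mul_sum]
  refine Finset.sum_congr rfl fun y _ => ?_
  rw [EE_const_mul]
  ring

theorem netK_c0 (μ : Equiv.Perm X → ℝ) (θ : X → ℝ) (a : X → ℝ) :
    P361.LRO.netK (c0 μ θ) a = KK μ θ a := by
  have h := netK_EE μ θ (fun _ _ => 1) a
  simp only [one_mul] at h
  unfold c0
  rw [netK_offdiag]
  exact h

/-- `K(a) = (1/2) ∑ ∑ c_xy (a_x - a_y)²`. -/
theorem KK_eq (μ : Equiv.Perm X → ℝ) (θ : X → ℝ) (a : X → ℝ) :
    KK μ θ a = (1 / 2) * ∑ x, ∑ y, cc μ θ x y * (a x - a y) ^ 2 := by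
  rw [← netK_c0]; unfold c0; rw [netK_offdiag]

theorem cc_self (μ : Equiv.Perm X → ℝ) (θ : X → ℝ) (z : X) : cc μ θ z z = - vv μ θ z := by
  unfold cc vv
  simp only [pow_two]

theorem cc_comm (μ : Equiv.Perm X → ℝ) (θ : X → ℝ) (x y : X) : cc μ θ x y = cc μ θ y x := by
  unfold cc
  simp only [mul_comm]

theorem sum_cc (μ : Equiv.Perm X → ℝ) (θ : X → ℝ) (z : X) : ∑ x, cc μ θ z x = 0 := by
  unfold cc
  rw [Finset.sum_neg_distrib, ← EE_sum]
  have : (fun (π : Equiv.Perm X) (s : X → Fin 2) => ∑ i, jj π s z * jj π s i) =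
      fun _ _ => 0 := by
    funext π s
    rw [← Finset.mul_sum, sum_jj, mul_zero]
  rw [this]
  simp [EE]

theorem netV_c0 (μ : Equiv.Perm X → ℝ) (θ : X → ℝ) (z : X) :
    P361.LRO.netV (c0 μ θ) z = vv μ θ z := by
  unfold P361.LRO.netV c0
  have h1 : ∑ x, (if z = x then (0 : ℝ) else cc μ θ z x) =
      ∑ x, cc μ θ z x - ∑ x, (if z = x then cc μ θ z x else 0) := by
    rw [← Finset.sum_sub_distrib]
    refine Finset.sum_congr rfl fun x _ => ?_
    by_cases h : z = x <;> simp [h]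
  rw [h1, sum_cc, Finset.sum_ite_eq]
  simp [cc_self]

theorem netQ_c0 (μ : Equiv.Perm X → ℝ) (θ : X → ℝ) (a : X → ℝ) (z : X) :
    P361.LRO.netQ (c0 μ θ) a z = - ∑ x, cc μ θ z x * (a x - a z) := by
  unfold P361.LRO.netQ c0
  rw [← Finset.sum_neg_distrib]
  refine Finset.sum_congr rfl fun x _ => ?_
  by_cases h : z = x
  · subst h; simp
  · simp [h]; ring

theorem netStar_c0 (μ : Equiv.Perm X → ℝ) (θ : X → ℝ) (a : X → ℝ) (z : X) :
    P361.LRO.netStar (c0 μ θ) a z = ∑ x, cc μ θ z x * (a x - a z) ^ 2 := by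
  unfold P361.LRO.netStar c0
  refine Finset.sum_congr rfl fun x _ => ?_
  by_cases h : z = x
  · subst h; simp
  · simp [h]

/-! ### Derivatives along a path of parameters -/

section Deriv

variable {θs : ℝ → X → ℝ} {r : X → ℝ} {s₀ : ℝ} {S : Set ℝ}

/-- `∑_z r_z j_z²`. -/
noncomputable def RR (r : X → ℝ) (π : Equiv.Perm X) (s : X → Fin 2) : ℝ :=
  ∑ z, r z * jj π s z ^ 2

theorem wt_hasDeriv (h : ∀ x, HasDerivWithinAt (fun t => θs t x) (-(r x * θs s₀ x)) S s₀)
    (π : Equiv.Perm X) (s : X → Fin 2) :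
    HasDerivWithinAt (fun t => wt (θs t) π s) (-(RR r π s * wt (θs s₀) π s)) S s₀ := by
  have h1 : ∀ x ∈ (Finset.univ : Finset X),
      HasDerivWithinAt (fun t => if s x = s (π x) then (1 : ℝ) else θs t x)
        (-(r x * jj π s x ^ 2 * (if s x = s (π x) then (1 : ℝ) else θs s₀ x))) S s₀ := by
    intro x _
    rw [jj_sq]
    by_cases hx : s x = s (π x)
    · simp only [hx, if_true]
      simpa using hasDerivWithinAt_const s₀ S (1 : ℝ)
    · simp only [hx, if_false]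
      simpa using h x
  have h2 := HasDerivWithinAt.fun_finsetProd h1
  unfold wt
  refine h2.congr_deriv ?_
  simp only [smul_eq_mul]
  unfold RR
  rw [Finset.sum_mul, ← Finset.sum_neg_distrib]
  refine Finset.sum_congr rfl fun x hx => ?_
  rw [← Finset.mul_prod_erase Finset.univ _ hx]
  ring

/-- Numerator of the expectation. -/
noncomputable def NN (μ : Equiv.Perm X → ℝ) (θ : X → ℝ)
    (f : Equiv.Perm X → (X → Fin 2) → ℝ) : ℝ :=
  ∑ π, ∑ s, μ π * wt θ π s * f π s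

theorem EE_eq (μ : Equiv.Perm X → ℝ) (θ : X → ℝ) (f : Equiv.Perm X → (X → Fin 2) → ℝ) :
    EE μ θ f = NN μ θ f / ZZ μ θ := rfl

theorem NN_hasDeriv (μ : Equiv.Perm X → ℝ)
    (h : ∀ x, HasDerivWithinAt (fun t => θs t x) (-(r x * θs s₀ x)) S s₀)
    (f : Equiv.Perm X → (X → Fin 2) → ℝ) :
    HasDerivWithinAt (fun t => NN μ (θs t) f)
      (-NN μ (θs s₀) (fun π s => RR r π s * f π s)) S s₀ := by
  unfold NN
  have h1 := HasDerivWithinAt.fun_sum (u := (Finset.univ : Finset (Equiv.Perm X)))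
    (A := fun π t => ∑ s, μ π * wt (θs t) π s * f π s)
    (A' := fun π => ∑ s, μ π * (-(RR r π s * wt (θs s₀) π s)) * f π s) (s := S) (x := s₀)
    (fun π _ => HasDerivWithinAt.fun_sum
      (fun s _ => ((wt_hasDeriv h π s).const_mul (μ π)).mul_const (f π s)))
  refine h1.congr_deriv ?_
  rw [← Finset.sum_neg_distrib]
  refine Finset.sum_congr rfl fun π _ => ?_
  rw [← Finset.sum_neg_distrib]
  exact Finset.sum_congr rfl fun s _ => by ring

theorem ZZ_eq (μ : Equiv.Perm X → ℝ) (θ : X → ℝ) : ZZ μ θ = NN μ θ (fun _ _ => 1) := by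
  unfold ZZ NN; simp

theorem EE_hasDeriv {μ : Equiv.Perm X → ℝ}
    (h : ∀ x, HasDerivWithinAt (fun t => θs t x) (-(r x * θs s₀ x)) S s₀)
    (hZ : ZZ μ (θs s₀) ≠ 0) (f : Equiv.Perm X → (X → Fin 2) → ℝ) :
    HasDerivWithinAt (fun t => EE μ (θs t) f)
      (-(EE μ (θs s₀) (fun π s => RR r π s * f π s) -
        EE μ (θs s₀) (RR r) * EE μ (θs s₀) f)) S s₀ := by
  have h1 := NN_hasDeriv μ h f
  have h2 := NN_hasDeriv μ h (fun _ _ => (1 : ℝ))
  have h3 : (fun t => EE μ (θs t) f) =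
      fun t => NN μ (θs t) f / NN μ (θs t) (fun _ _ => 1) := by
    funext t; rw [EE_eq, ZZ_eq]
  rw [h3]
  have hZ' : NN μ (θs s₀) (fun _ _ => 1) ≠ 0 := by rwa [← ZZ_eq]
  refine (h1.div h2 hZ').congr_deriv ?_
  rw [EE_eq, EE_eq, EE_eq, ZZ_eq]
  simp only [mul_one]
  have h4 : NN μ (θs s₀) (fun π s => RR r π s) = NN μ (θs s₀) (RR r) := rfl
  rw [h4]
  field_simp
  ring

end Deriv

theorem wt_continuous (π : Equiv.Perm X) (s : X → Fin 2) :
    Continuous fun θ : X → ℝ => wt θ π s := by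
  unfold wt
  refine continuous_finsetProd _ fun x _ => ?_
  by_cases hx : s x = s (π x)
  · simp only [hx, if_true]; exact continuous_const
  · simp only [hx, if_false]; exact continuous_apply x

theorem NN_continuous (μ : Equiv.Perm X → ℝ) (f : Equiv.Perm X → (X → Fin 2) → ℝ) :
    Continuous fun θ : X → ℝ => NN μ θ f := by
  unfold NN
  refine continuous_finsetSum _ fun π _ => continuous_finsetSum _ fun s _ => ?_
  exact (continuous_const.mul (wt_continuous π s)).mul continuous_const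

/-- The lowering path. -/
noncomputable def path (θ θ' : X → ℝ) (s : ℝ) (x : X) : ℝ := max (θ' x) (Real.exp (-s) * θ x)

/-- The rates of the lowering path. -/
noncomputable def rate (θ θ' : X → ℝ) (s : ℝ) (x : X) : ℝ :=
  if θ' x < Real.exp (-s) * θ x then 1 else 0

theorem path_hasDeriv {θ θ' : X → ℝ} (hθ : ∀ x, 0 ≤ θ x) (s : ℝ) (x : X) :
    HasDerivWithinAt (fun t => path θ θ' t x) (-(rate θ θ' s x * path θ θ' s x))
      (Set.Ici s) s := by
  have he : HasDerivAt (fun t : ℝ => Real.exp (-t) * θ x) (-(Real.exp (-s) * θ x)) s := by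
    have h1 : HasDerivAt (fun t : ℝ => Real.exp (-t)) (-Real.exp (-s)) s := by
      have := (hasDerivAt_id s).neg.exp
      simpa using this
    exact (h1.mul_const (θ x)).congr_deriv (by ring)
  unfold path rate
  by_cases h : θ' x < Real.exp (-s) * θ x
  · simp only [h, if_true, one_mul, max_eq_right h.le]
    have hev : ∀ᶠ t in 𝓝[Set.Ici s] s, max (θ' x) (Real.exp (-t) * θ x) =
        Real.exp (-t) * θ x := by
      have hc : ContinuousAt (fun t : ℝ => Real.exp (-t) * θ x) s := he.continuousAt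
      have := hc.eventually (lt_mem_nhds h)
      exact (this.filter_mono nhdsWithin_le_nhds).mono fun t ht => max_eq_right ht.le
    exact he.hasDerivWithinAt.congr_of_eventuallyEq hev (by simp [max_eq_right h.le])
  · simp only [h, if_false, zero_mul, neg_zero]
    have h' := not_lt.mp h
    have hev : ∀ t ∈ Set.Ici s, max (θ' x) (Real.exp (-t) * θ x) = θ' x := by
      intro t ht
      apply max_eq_left
      refine le_trans ?_ h'
      exact mul_le_mul_of_nonneg_right (Real.exp_le_exp.mpr (neg_le_neg ht)) (hθ x)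
    exact (hasDerivWithinAt_const s (Set.Ici s) (θ' x)).congr hev (hev s Set.self_mem_Ici)

theorem path_zero {θ θ' : X → ℝ} (h : ∀ x, θ' x ≤ θ x) : path θ θ' 0 = θ := by
  funext x
  simp [path, h x]

theorem path_nonneg {θ θ' : X → ℝ} (h0 : ∀ x, 0 ≤ θ' x) (s : ℝ) (x : X) : 0 ≤ path θ θ' s x :=
  (h0 x).trans (le_max_left _ _)

theorem path_le {θ θ' : X → ℝ} (h0 : ∀ x, 0 ≤ θ' x) (h : ∀ x, θ' x ≤ θ x) {s : ℝ} (hs : 0 ≤ s)
    (x : X) : path θ θ' s x ≤ θ x := by
  refine max_le (h x) ?_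
  have h1 : Real.exp (-s) ≤ 1 := Real.exp_le_one_iff.mpr (by linarith)
  have h2 : 0 ≤ θ x := (h0 x).trans (h x)
  nlinarith

theorem path_continuous (θ θ' : X → ℝ) : Continuous fun s => path θ θ' s := by
  refine continuous_pi fun x => ?_
  unfold path
  fun_prop

/-- Derivative of the off-diagonal conductances. -/
noncomputable def c0' (μ : Equiv.Perm X → ℝ) (θ : X → ℝ) (r : X → ℝ) (x y : X) : ℝ :=
  if x = y then 0 else
    EE μ θ (fun π s => RR r π s * (jj π s x * jj π s y)) -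
      EE μ θ (RR r) * EE μ θ (fun π s => jj π s x * jj π s y)

theorem EE_RR (μ : Equiv.Perm X → ℝ) (θ : X → ℝ) (r : X → ℝ)
    (f : Equiv.Perm X → (X → Fin 2) → ℝ) :
    EE μ θ (fun π s => RR r π s * f π s) =
      ∑ z, r z * EE μ θ (fun π s => jj π s z ^ 2 * f π s) := by
  have h1 : (fun (π : Equiv.Perm X) (s : X → Fin 2) => RR r π s * f π s) =
      fun π s => ∑ z, r z * (jj π s z ^ 2 * f π s) := by
    funext π s
    unfold RR
    rw [Finset.sum_mul]
    exact Finset.sum_congr rfl fun z _ => by ring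
  rw [h1, EE_sum]
  exact Finset.sum_congr rfl fun z _ => EE_const_mul _ _ _ _

theorem netK_c0' (μ : Equiv.Perm X → ℝ) (θ : X → ℝ) (r : X → ℝ) (a : X → ℝ) :
    P361.LRO.netK (c0' μ θ r) a =
      - ∑ z, r z * (EE μ θ (fun π s => jj π s z ^ 2 * (∑ x, a x * jj π s x) ^ 2) -
        vv μ θ z * KK μ θ a) := by
  unfold c0'
  rw [netK_offdiag]
  have h1 := netK_EE μ θ (RR r) a
  have h2 := KK_eq μ θ a
  have h3 : (1 / 2) * ∑ x, ∑ y,
      (EE μ θ (fun π s => RR r π s * (jj π s x * jj π s y)) -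
        EE μ θ (RR r) * EE μ θ (fun π s => jj π s x * jj π s y)) * (a x - a y) ^ 2 =
      -((1 / 2) * ∑ x, ∑ y,
        (-(EE μ θ fun π s => RR r π s * (jj π s x * jj π s y))) * (a x - a y) ^ 2) +
      EE μ θ (RR r) * ((1 / 2) * ∑ x, ∑ y, cc μ θ x y * (a x - a y) ^ 2) := by
    unfold cc
    simp only [Finset.mul_sum, ← Finset.sum_neg_distrib, ← Finset.sum_add_distrib]
    exact Finset.sum_congr rfl fun x _ => Finset.sum_congr rfl fun y _ => by ring
  rw [h3, h1, ← h2, EE_RR]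
  have h4 : EE μ θ (RR r) = ∑ z, r z * vv μ θ z := by
    have := EE_RR μ θ r (fun _ _ => 1)
    simp only [mul_one] at this
    exact this
  rw [h4, Finset.sum_mul, ← Finset.sum_neg_distrib, ← Finset.sum_neg_distrib,
    ← Finset.sum_add_distrib]
  exact Finset.sum_congr rfl fun z _ => by ring

theorem c0_hasDeriv {μ : Equiv.Perm X → ℝ} (hμ : Good μ) {θ θ' : X → ℝ} (h0 : ∀ x, 0 ≤ θ' x)
    (h : ∀ x, θ' x ≤ θ x) (s : ℝ) (x y : X) :
    HasDerivWithinAt (fun t => c0 μ (path θ θ' t) x y)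
      (c0' μ (path θ θ' s) (rate θ θ' s) x y) (Set.Ici s) s := by
  have hθ : ∀ x, 0 ≤ θ x := fun x => (h0 x).trans (h x)
  by_cases hxy : x = y
  · simp only [c0, c0', hxy, if_true]
    exact hasDerivWithinAt_const _ _ _
  · simp only [c0, c0', hxy, if_false]
    have hZ : ZZ μ (path θ θ' s) ≠ 0 := (ZZ_pos hμ.nn hμ.pos (path_nonneg h0 s)).ne'
    have h1 := EE_hasDeriv (μ := μ) (S := Set.Ici s) (fun x => path_hasDeriv hθ s x) hZ
      (fun π s => jj π s x * jj π s y)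
    have h2 := h1.neg
    simp only [neg_neg] at h2
    exact h2

theorem EE_continuousOn {μ : Equiv.Perm X → ℝ} (hμ : Good μ)
    (f : Equiv.Perm X → (X → Fin 2) → ℝ) :
    ContinuousOn (fun θ : X → ℝ => EE μ θ f) {θ | ∀ x, 0 ≤ θ x} := by
  have h3 : (fun θ : X → ℝ => EE μ θ f) =
      fun θ => NN μ θ f / NN μ θ (fun _ _ => 1) := by
    funext t; rw [EE_eq, ZZ_eq]
  rw [h3]
  refine (NN_continuous μ f).continuousOn.div (NN_continuous μ _).continuousOn ?_
  intro θ hθ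
  rw [← ZZ_eq]
  exact (ZZ_pos hμ.nn hμ.pos hθ).ne'

theorem sqrt_mag_le {m ε : ℝ} (hε : 0 ≤ ε) (h : 1 - ε ^ 2 ≤ m) : Real.sqrt (1 - m ^ 2) ≤ 2 * ε := by
  rw [Real.sqrt_le_left (by positivity)]
  nlinarith [sq_nonneg ε, sq_nonneg (m - 1)]

/-- The lowering path is a `NetFlow`. -/
theorem netFlow {μ : Equiv.Perm X → ℝ} (hμ : Good μ) {θ θ' : X → ℝ} {E G : Finset X} {ε : ℝ}
    (hε : 0 ≤ ε) (h0 : ∀ x, 0 ≤ θ' x) (h : ∀ x, θ' x ≤ θ x) (h1 : ∀ x, θ x ≤ 1)
    (hE : ∀ x ∈ E, θ' x = θ x) (hG : ∀ x ∈ G, θ' x = θ x) (hEG : Disjoint E G)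
    (hmag : ∀ s, 0 ≤ s → ∀ z, θ' z < θ z →
      Real.sqrt (1 - mag μ (path θ θ' s) z ^ 2) ≤ 2 * ε) :
    P361.LRO.NetFlow (fun s => c0 μ (path θ θ' s)) (fun s => c0' μ (path θ θ' s) (rate θ θ' s))
      (rate θ θ') (E : Set X) (G : Set X) ε := by
  have hp0 : ∀ s x, 0 ≤ path θ θ' s x := fun s x => path_nonneg h0 s x
  have hp1 : ∀ s, 0 ≤ s → ∀ x, path θ θ' s x ≤ 1 := fun s hs x =>
    (path_le h0 h hs x).trans (h1 x)
  have hrate : ∀ s, 0 ≤ s → ∀ z, θ' z = θ z → rate θ θ' s z = 0 := by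
    intro s hs z hz
    unfold rate
    rw [if_neg]
    rw [hz, not_lt]
    have h1 : Real.exp (-s) ≤ 1 := Real.exp_le_one_iff.mpr (by linarith)
    have h2 : 0 ≤ θ z := (h0 z).trans (h z)
    nlinarith
  refine ⟨by exact_mod_cast hEG, ?_, ?_, ?_, ?_, ?_, ?_, ?_, ?_, hε, ?_⟩
  · intro s hs x y
    show 0 ≤ c0 μ (path θ θ' s) x y
    unfold c0
    split_ifs with hxy
    · exact le_rfl
    · exact hμ.ccnn _ (fun x => ⟨hp0 s x, hp1 s hs x⟩) x y hxy
  · intro s _ x y
    show c0 μ (path θ θ' s) x y = c0 μ (path θ θ' s) y x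
    unfold c0
    by_cases hxy : x = y
    · simp [hxy]
    · simp only [hxy, Ne.symm hxy, if_false]
      exact cc_comm _ _ _ _
  · intro x y
    show ContinuousOn (fun s => c0 μ (path θ θ' s) x y) (Set.Ici 0)
    unfold c0
    by_cases hxy : x = y
    · simp only [hxy, if_true]; exact continuousOn_const
    · simp only [hxy, if_false]
      unfold cc
      refine ContinuousOn.neg ?_
      exact (EE_continuousOn hμ _).comp (path_continuous θ θ').continuousOn
        (fun s _ => fun x => hp0 s x)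
  · intro s _ x y
    exact c0_hasDeriv hμ h0 h s x y
  · intro s _ z
    unfold rate; split_ifs <;> norm_num
  · intro s _ z
    unfold rate; split_ifs <;> norm_num
  · intro s hs z hz
    exact hrate s hs z (hE z (by exact_mod_cast hz))
  · intro s hs z hz
    exact hrate s hs z (hG z (by exact_mod_cast hz))
  · intro s hs a
    show _ ≤ P361.LRO.netK (c0' μ (path θ θ' s) (rate θ θ' s)) a
    rw [netK_c0', neg_le_neg_iff]
    refine Finset.sum_le_sum fun z _ => ?_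
    show _ ≤ rate θ θ' s z * ((P361.LRO.netQ (c0 μ (path θ θ' s)) a z) ^ 2 /
      P361.LRO.netV (c0 μ (path θ θ' s)) z + 2 * ε * P361.LRO.netStar (c0 μ (path θ θ' s)) a z)
    by_cases hz : θ' z < Real.exp (-s) * θ z
    · have hr : rate θ θ' s z = 1 := by simp [rate, hz]
      rw [hr, one_mul, one_mul, netQ_c0, netV_c0, netStar_c0]
      have hzpos : 0 < path θ θ' s z := lt_of_lt_of_le (lt_of_le_of_lt (h0 z) hz)
        (le_max_right _ _)
      have hzl : θ' z < θ z := by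
        refine lt_of_lt_of_le hz ?_
        have h1 : Real.exp (-s) ≤ 1 := Real.exp_le_one_iff.mpr (by linarith)
        have h2 : 0 ≤ θ z := (h0 z).trans (h z)
        nlinarith
      have h3 := hμ.one (path θ θ' s) (fun x => ⟨hp0 s x, hp1 s hs x⟩) z hzpos a
      have h4 := hmag s hs z hzl
      have h5 : 0 ≤ ∑ x, cc μ (path θ θ' s) z x * (a x - a z) ^ 2 := by
        refine Finset.sum_nonneg fun x _ => ?_
        by_cases hxz : z = x
        · subst hxz; simp
        · exact mul_nonneg (hμ.ccnn _ (fun x => ⟨hp0 s x, hp1 s hs x⟩) z x hxz) (sq_nonneg _)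
      rw [neg_sq]
      refine h3.trans ?_
      have h6 := mul_le_mul_of_nonneg_right h4 h5
      linarith
    · have hr : rate θ θ' s z = 0 := by simp [rate, hz]
      rw [hr, zero_mul, zero_mul]

theorem LB_iff_netCap {μ : Equiv.Perm X → ℝ} (hμ : Good μ) {θ : X → ℝ}
    (hθ : ∀ x, 0 ≤ θ x ∧ θ x ≤ 1) {E G : Finset X} (hEG : Disjoint E G) (C : ℝ) :
    LB μ θ E G C ↔ C ≤ P361.LRO.netCap (c0 μ θ) (E : Set X) (G : Set X) := by
  have hnn : ∀ x y, 0 ≤ c0 μ θ x y := by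
    intro x y
    unfold c0
    split_ifs with hxy
    · exact le_rfl
    · exact hμ.ccnn _ hθ x y hxy
  have hd : Disjoint (E : Set X) (G : Set X) := by exact_mod_cast hEG
  constructor
  · intro hLB
    obtain ⟨u, hu, h1, _⟩ := P361.LRO.exists_min (c0 μ θ) hd
    rw [← h1, netK_c0]
    exact hLB u (fun x hx => hu.2.1 x (by exact_mod_cast hx))
      (fun x hx => hu.2.2 x (by exact_mod_cast hx))
  · intro hC a ha1 ha0
    rw [← netK_c0]
    exact hC.trans (P361.LRO.netCap_le' hnn (fun x hx => ha1 x (by exact_mod_cast hx))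
      (fun x hx => ha0 x (by exact_mod_cast hx)))

/-- The end of the path is reached at a finite time. -/
theorem exists_time {θ θ' : X → ℝ} (h0 : ∀ x, 0 ≤ θ' x) (h : ∀ x, θ' x ≤ θ x)
    (hpos : ∀ x, θ' x < θ x → 0 < θ' x) : ∃ T : ℝ, 0 ≤ T ∧ path θ θ' T = θ' := by
  have h1 : ∀ x, ∀ᶠ T : ℝ in atTop, Real.exp (-T) * θ x ≤ θ' x := by
    intro x
    rcases (h x).lt_or_eq with hx | hx
    · have ht : Tendsto (fun T : ℝ => Real.exp (-T) * θ x) atTop (𝓝 (0 * θ x)) :=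
        (Real.tendsto_exp_neg_atTop_nhds_zero).mul_const _
      rw [zero_mul] at ht
      exact (ht.eventually (gt_mem_nhds (hpos x hx))).mono fun T hT => le_of_lt hT
    · filter_upwards [eventually_ge_atTop (0 : ℝ)] with T hT
      rw [hx]
      have h1 : Real.exp (-T) ≤ 1 := Real.exp_le_one_iff.mpr (by linarith)
      have h2 : 0 ≤ θ x := (h0 x).trans (h x)
      nlinarith
  obtain ⟨T, hT, hT0⟩ := ((eventually_all.mpr h1).and (eventually_ge_atTop (0 : ℝ))).exists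
  exact ⟨T, hT0, funext fun x => max_eq_left (hT x)⟩

/-- **Lowering, primal form** (`2 ε` bounds `sqrt (1 - M²)`). -/
theorem LB_lower' {μ : Equiv.Perm X → ℝ} (hμ : Good μ) {θ θ' : X → ℝ} {E G : Finset X}
    {ε S B C : ℝ} (hε : 0 ≤ ε) (h0 : ∀ x, 0 ≤ θ' x) (h : ∀ x, θ' x ≤ θ x) (h1 : ∀ x, θ x ≤ 1)
    (hE : ∀ x ∈ E, θ' x = θ x) (hG : ∀ x ∈ G, θ' x = θ x) (hEG : Disjoint E G)
    (hpos : ∀ x, θ' x < θ x → 0 < θ' x)
    (hmag : ∀ s, 0 ≤ s → ∀ z, θ' z < θ z →
      Real.sqrt (1 - mag μ (path θ θ' s) z ^ 2) ≤ 2 * ε)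
    (hS : 0 ≤ S) (hB : ∑ z, (if θ' z < θ z then θ z else 0) ≤ B) (hC : LB μ θ E G C) :
    LB μ θ' E G (Real.exp (-(4 * ε * S)) * C - 2 * ε * B * Real.exp (-S)) := by
  have H := netFlow hμ hε h0 h h1 hE hG hEG hmag
  obtain ⟨T, hT0, hT⟩ := exists_time h0 h hpos
  have hθ0 : ∀ x, 0 ≤ θ x := fun x => (h0 x).trans (h x)
  have hB0 : 0 ≤ B := by
    refine le_trans (Finset.sum_nonneg fun z _ => ?_) hB
    split_ifs
    · exact hθ0 z
    · exact le_rfl
  have hBB : ∀ s, 0 ≤ s →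
      ∑ z, rate θ θ' s z * P361.LRO.netV (c0 μ (path θ θ' s)) z ≤ B * Real.exp (-s) := by
    intro s hs
    have h2 : B * Real.exp (-s) ≥ (∑ z, (if θ' z < θ z then θ z else 0)) * Real.exp (-s) :=
      mul_le_mul_of_nonneg_right hB (Real.exp_pos _).le
    refine le_trans ?_ h2
    rw [Finset.sum_mul]
    refine Finset.sum_le_sum fun z _ => ?_
    rw [netV_c0]
    have hexp : Real.exp (-s) ≤ 1 := Real.exp_le_one_iff.mpr (by linarith)
    by_cases hz : θ' z < Real.exp (-s) * θ z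
    · have hzl : θ' z < θ z := by
        refine lt_of_lt_of_le hz ?_
        have h2 : 0 ≤ θ z := hθ0 z
        nlinarith
      have h3 := hμ.vle (path θ θ' s)
        (fun x => ⟨path_nonneg h0 s x, (path_le h0 h hs x).trans (h1 x)⟩) z
      have h4 : path θ θ' s z = Real.exp (-s) * θ z := by
        simp [path, max_eq_right hz.le]
      simp only [rate, hz, hzl, if_true, one_mul]
      rw [h4] at h3
      linarith
    · simp only [rate, hz, if_false, zero_mul]
      refine mul_nonneg ?_ (Real.exp_pos _).le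
      split_ifs
      · exact hθ0 z
      · exact le_rfl
  have key := H.cap_lower hB0 hBB hS hT0
  have hθ1 : ∀ x, 0 ≤ θ x ∧ θ x ≤ 1 := fun x => ⟨hθ0 x, h1 x⟩
  have hθ'1 : ∀ x, 0 ≤ θ' x ∧ θ' x ≤ 1 := fun x => ⟨h0 x, (h x).trans (h1 x)⟩
  rw [LB_iff_netCap hμ hθ'1 hEG]
  rw [LB_iff_netCap hμ hθ1 hEG] at hC
  simp only [hT, path_zero h] at key
  refine le_trans ?_ key
  have := mul_le_mul_of_nonneg_left hC (Real.exp_pos (-(4 * ε * S))).le
  linarith

/-- **Lowering, primal form.** -/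
theorem LB_lower {μ : Equiv.Perm X → ℝ} (hμ : Good μ) {θ θ' : X → ℝ} {E G : Finset X}
    {ε S B C : ℝ} (hε : 0 ≤ ε) (h0 : ∀ x, 0 ≤ θ' x) (h : ∀ x, θ' x ≤ θ x) (h1 : ∀ x, θ x ≤ 1)
    (hE : ∀ x ∈ E, θ' x = θ x) (hG : ∀ x ∈ G, θ' x = θ x) (hEG : Disjoint E G)
    (hpos : ∀ x, θ' x < θ x → 0 < θ' x)
    (hmag : ∀ s, 0 ≤ s → ∀ z, θ' z < θ z → 1 - ε ^ 2 ≤ mag μ (path θ θ' s) z)
    (hS : 0 ≤ S) (hB : ∑ z, (if θ' z < θ z then θ z else 0) ≤ B) (hC : LB μ θ E G C) :
    LB μ θ' E G (Real.exp (-(4 * ε * S)) * C - 2 * ε * B * Real.exp (-S)) :=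
  LB_lower' hμ hε h0 h h1 hE hG hEG hpos
    (fun s hs z hz => sqrt_mag_le hε (hmag s hs z hz)) hS hB hC

/-- 118's form of the primal ODE. -/
theorem ode_LB {μ : Equiv.Perm X → ℝ} (hμ : Good μ) {θ0 θ1 : X → ℝ}
    (h0 : ∀ x, 0 ≤ θ0 x) (h01 : ∀ x, θ0 x ≤ θ1 x) (h1 : ∀ x, θ1 x ≤ 1)
    (hpos : ∀ x, θ0 x < θ1 x → 0 < θ0 x) {E G : Finset X} (hEG : Disjoint E G)
    (hE : ∀ x ∈ E, θ0 x = θ1 x) (hG : ∀ x ∈ G, θ0 x = θ1 x) {τ : ℝ} (hτ : 0 ≤ τ)
    (hmag : ∀ s : ℝ, 0 ≤ s → ∀ z, θ0 z < θ1 z →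
      Real.sqrt (1 - mag μ (fun x => max (θ0 x) (Real.exp (-s) * θ1 x)) z ^ 2) ≤ τ)
    {c : ℝ} (hc : LB μ θ1 E G c) {S : ℝ} (hS : 0 ≤ S) :
    LB μ θ0 E G (Real.exp (-(2 * τ * S)) * c - τ * Real.exp (-S) *
      ∑ z ∈ univ.filter (fun z => θ0 z < θ1 z), θ1 z) := by
  have h := LB_lower' hμ (ε := τ / 2) (by positivity) h0 h01 h1 hE hG hEG hpos
    (fun s hs z hz => by
      have := hmag s hs z hz
      rw [show 2 * (τ / 2) = τ by ring]
      exact this) hS (B := ∑ z ∈ univ.filter (fun z => θ0 z < θ1 z), θ1 z)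
    (by rw [Finset.sum_filter]) hc
  have e : Real.exp (-(4 * (τ / 2) * S)) * c - 2 * (τ / 2) *
      (∑ z ∈ univ.filter (fun z => θ0 z < θ1 z), θ1 z) * Real.exp (-S) =
      Real.exp (-(2 * τ * S)) * c - τ * Real.exp (-S) *
      ∑ z ∈ univ.filter (fun z => θ0 z < θ1 z), θ1 z := by
    rw [show 4 * (τ / 2) * S = 2 * τ * S by ring]
    ring
  rw [e] at h
  exact h

/-! ### Dual form -/

/-- `v_z = θ M / (1 + θ M)`. -/
theorem vv_mag {μ : Equiv.Perm X → ℝ} (hμ : Good μ) {θ : X → ℝ} (hθ : ∀ x, 0 ≤ θ x) (z : X) :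
    vv μ θ z = θ z * mag μ θ z / (1 + θ z * mag μ θ z) := by
  set A : ℝ := ∑ π, ∑ s, if s z = s (π z) then 0 else μ π * wt (Function.update θ z 1) π s with hA
  set B : ℝ := ∑ π, ∑ s : X → Fin 2, if s z = s (π z) then μ π * wt θ π s else 0 with hB
  have hwt : ∀ (π : Equiv.Perm X) (s : X → Fin 2), ¬ s z = s (π z) →
      wt θ π s = θ z * wt (Function.update θ z 1) π s := by
    intro π s hs
    unfold wt
    rw [← Finset.mul_prod_erase Finset.univ _ (Finset.mem_univ z),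
      ← Finset.mul_prod_erase (s := Finset.univ)
        (f := fun x => if s x = s (π x) then (1 : ℝ) else Function.update θ z 1 x)
        (Finset.mem_univ z)]
    simp only [hs, if_false, Function.update_self, one_mul]
    congr 1
    refine Finset.prod_congr rfl fun x hx => ?_
    rw [Function.update_of_ne (Finset.ne_of_mem_erase hx)]
  have hnum : ∑ π, ∑ s, μ π * wt θ π s * jj π s z ^ 2 = θ z * A := by
    rw [hA, Finset.mul_sum]
    refine Finset.sum_congr rfl fun π _ => ?_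
    rw [Finset.mul_sum]
    refine Finset.sum_congr rfl fun s _ => ?_
    rw [jj_sq]
    by_cases hs : s z = s (π z)
    · simp [hs]
    · simp only [hs, if_false, hwt π s hs]; ring
  have hZ : ZZ μ θ = B + θ z * A := by
    rw [hA, hB, Finset.mul_sum, ← Finset.sum_add_distrib]
    unfold ZZ
    refine Finset.sum_congr rfl fun π _ => ?_
    rw [Finset.mul_sum, ← Finset.sum_add_distrib]
    refine Finset.sum_congr rfl fun s _ => ?_
    by_cases hs : s z = s (π z)
    · simp [hs]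
    · simp only [hs, if_false, hwt π s hs]; ring
  have hBpos : 0 < B := by
    refine lt_of_lt_of_le hμ.pos ?_
    rw [hB]
    refine Finset.sum_le_sum fun π _ => ?_
    have h3 : ∀ s ∈ (Finset.univ : Finset (X → Fin 2)),
        0 ≤ (if s z = s (π z) then μ π * wt θ π s else 0) := by
      intro s _
      split_ifs
      · exact mul_nonneg (hμ.nn π) (wt_nonneg hθ π s)
      · exact le_rfl
    have h4 := Finset.single_le_sum h3 (Finset.mem_univ (fun _ : X => (0 : Fin 2)))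
    simpa [wt] using h4
  have hmag : mag μ θ z = A / B := rfl
  have hZpos : 0 < ZZ μ θ := ZZ_pos hμ.nn hμ.pos hθ
  have hvv : vv μ θ z = θ z * A / (B + θ z * A) := by
    unfold vv EE
    rw [hnum, hZ]
  rw [hvv, hmag]
  rw [hZ] at hZpos
  have h1 : 1 + θ z * (A / B) = (B + θ z * A) / B := by field_simp
  rw [h1]
  field_simp

theorem vv_ge {μ : Equiv.Perm X → ℝ} (hμ : Good μ) {θ : X → ℝ} (hθ : ∀ x, 0 ≤ θ x ∧ θ x ≤ 1)
    (z : X) (hm : 1 / 2 ≤ mag μ θ z) : θ z / 4 ≤ vv μ θ z := by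
  rw [vv_mag hμ (fun x => (hθ x).1) z]
  have h1 := (hθ z).1
  have h2 := (hθ z).2
  set m := mag μ θ z with hm'
  have h3 : 0 < 1 + θ z * m := by nlinarith
  rw [div_le_div_iff₀ (by norm_num) h3]
  nlinarith [mul_nonneg h1 (sub_nonneg.mpr hm), mul_nonneg h1 h1,
    mul_nonneg (mul_nonneg h1 (sub_nonneg.mpr h2)) (sub_nonneg.mpr hm)]

/-- **Lowering, dual form.** -/
theorem ode_RB {μ : Equiv.Perm X → ℝ} (hμ : Good μ) {θ0 θ1 : X → ℝ}
    (h0 : ∀ x, 0 ≤ θ0 x) (h01 : ∀ x, θ0 x ≤ θ1 x) (h1 : ∀ x, θ1 x ≤ 1)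
    {E : Finset X}
    (hE : ∀ x ∈ E, θ0 x = θ1 x) {q : X → ℝ} (hq1 : ∑ x, q x = 1) {τ : ℝ} (hτ : 0 ≤ τ)
    (hmag : ∀ s : ℝ, 0 ≤ s → ∀ z, θ0 z < θ1 z →
      Real.sqrt (1 - mag μ (fun x => max (θ0 x) (Real.exp (-s) * θ1 x)) z ^ 2) ≤ τ ∧
        1 / 2 ≤ mag μ (fun x => max (θ0 x) (Real.exp (-s) * θ1 x)) z)
    {R : ℝ} (hR0 : 0 ≤ R) (hR : RB μ θ1 E q R) {S : ℝ} (hS : 0 ≤ S)
    (hS1 : ∀ x, θ1 x ≤ Real.exp S * θ0 x) :
    RB μ θ0 E q (Real.exp (2 * τ * S) *
      (R + 4 * (Real.exp S - 1) *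
        ∑ z ∈ univ.filter (fun z => θ0 z < θ1 z), q z ^ 2 / θ1 z)) := by
  have H := netFlow hμ (θ := θ1) (θ' := θ0) (E := E) (G := ∅) (ε := τ / 2) (by positivity)
    h0 h01 h1 hE (by simp) (by simp)
    (fun s hs z hz => by
      have := (hmag s hs z hz).1
      rw [show 2 * (τ / 2) = τ by ring]
      exact this)
  have hθ1 : ∀ x, 0 ≤ θ1 x := fun x => (h0 x).trans (h01 x)
  have hend : path θ1 θ0 S = θ0 := by
    funext x
    refine max_eq_left ?_
    have h3 := mul_le_mul_of_nonneg_left (hS1 x) (Real.exp_pos (-S)).le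
    rw [← mul_assoc, ← Real.exp_add, neg_add_cancel, Real.exp_zero, one_mul] at h3
    exact h3
  have hvz : ∀ s, 0 ≤ s → ∀ z, θ0 z < Real.exp (-s) * θ1 z →
      θ0 z < θ1 z ∧ 0 < θ1 z ∧ Real.exp (-s) * θ1 z / 4 ≤ vv μ (path θ1 θ0 s) z := by
    intro s hs z hz
    have hexp : Real.exp (-s) ≤ 1 := Real.exp_le_one_iff.mpr (by linarith)
    have hzl : θ0 z < θ1 z := by
      refine lt_of_lt_of_le hz ?_
      nlinarith [hθ1 z]
    have h4 : path θ1 θ0 s z = Real.exp (-s) * θ1 z := by simp [path, max_eq_right hz.le]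
    refine ⟨hzl, (h0 z).trans_lt hzl, ?_⟩
    have h5 := vv_ge hμ (θ := path θ1 θ0 s)
      (fun x => ⟨path_nonneg h0 s x, (path_le h0 h01 hs x).trans (h1 x)⟩) z (hmag s hs z hzl).2
    rwa [h4] at h5
  set D : ℝ := 4 * ∑ z ∈ univ.filter (fun z => θ0 z < θ1 z), q z ^ 2 / θ1 z with hD
  have hD0 : 0 ≤ D := by
    rw [hD]
    refine mul_nonneg (by norm_num) (Finset.sum_nonneg fun z _ => ?_)
    exact div_nonneg (sq_nonneg _) (hθ1 z)
  have hq : ∀ s, 0 ≤ s → s ≤ S → ∑ z, rate θ1 θ0 s z *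
      (q z ^ 2 / P361.LRO.netV (c0 μ (path θ1 θ0 s)) z) ≤ D * Real.exp s := by
    intro s hs _
    rw [hD, Finset.sum_filter, mul_assoc, Finset.sum_mul, Finset.mul_sum]
    refine Finset.sum_le_sum fun z _ => ?_
    rw [netV_c0]
    by_cases hz : θ0 z < Real.exp (-s) * θ1 z
    · obtain ⟨hzl, hpz, hv⟩ := hvz s hs z hz
      simp only [rate, hz, hzl, if_true, one_mul]
      have hpos1 : 0 < Real.exp (-s) * θ1 z / 4 := by positivity
      calc q z ^ 2 / vv μ (path θ1 θ0 s) z ≤ q z ^ 2 / (Real.exp (-s) * θ1 z / 4) :=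
            div_le_div_of_nonneg_left (sq_nonneg _) hpos1 hv
        _ = 4 * (q z ^ 2 / θ1 z * Real.exp s) := by
            rw [Real.exp_neg]
            have := Real.exp_pos s
            field_simp
    · simp only [rate, hz, if_false, zero_mul]
      split_ifs
      · exact mul_nonneg (by norm_num) (mul_nonneg (div_nonneg (sq_nonneg _) (hθ1 z))
          (Real.exp_pos _).le)
      · simp
  have hW : ∀ s, 0 ≤ s → s ≤ S → ∑ z, rate θ1 θ0 s z *
      (P361.LRO.netV (c0 μ (path θ1 θ0 s)) z)⁻¹ ≤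
      ∑ z ∈ univ.filter (fun z => θ0 z < θ1 z), 4 * Real.exp S / θ1 z := by
    intro s hs hsS
    rw [Finset.sum_filter]
    refine Finset.sum_le_sum fun z _ => ?_
    rw [netV_c0]
    by_cases hz : θ0 z < Real.exp (-s) * θ1 z
    · obtain ⟨hzl, hpz, hv⟩ := hvz s hs z hz
      simp only [rate, hz, hzl, if_true, one_mul]
      have hpos1 : 0 < Real.exp (-s) * θ1 z / 4 := by positivity
      calc (vv μ (path θ1 θ0 s) z)⁻¹ ≤ (Real.exp (-s) * θ1 z / 4)⁻¹ :=
            inv_anti₀ hpos1 hv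
        _ = 4 * Real.exp s / θ1 z := by
            rw [Real.exp_neg]
            have := Real.exp_pos s
            field_simp
        _ ≤ 4 * Real.exp S / θ1 z := by
            have := Real.exp_le_exp.mpr hsS
            gcongr
    · simp only [rate, hz, if_false, zero_mul]
      split_ifs
      · have := hθ1 z
        positivity
      · exact le_rfl
  intro a ha
  have key := H.RB_lower q hq1 (T := S) (D := D) (R := R) hS hD0 hR0 hq hW
    (fun a ha => by
      rw [path_zero h01, netK_c0]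
      exact hR a (fun x hx => ha x (by exact_mod_cast hx)))
    (a := a) (fun x hx => ha x (by exact_mod_cast hx))
  rw [hend, netK_c0] at key
  refine key.trans (le_of_eq ?_)
  rw [hD, show 4 * (τ / 2) * S = 2 * τ * S by ring]
  ring

end Vale.Agent.P361.LRO.Net
end

section

/-!
P361 LRO: the structure `Low` of block (6) from the network ODE (step (3)) on the physical circuit.
-/

namespace Vale.Agent.P361.LRO.Net

open Finset Filter Topology
open Vale.Agent.P361.LRO Vale.Agent.P361.LRO.Ind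

set_option linter.unusedSectionVars false

variable {n : ℕ} [NeZero n]

/-- The physical network in the field `h`. -/
noncomputable def cphys (n : ℕ) [NeZero n] (β : ℝ) (N : ℕ) (K : ℝ) (b : Finset (Tor n))
    (h : Tor n → ℝ) : Nd n N → Nd n N → ℝ :=
  c0 (phys (edges n) β N) (th β N h (blk K b))

theorem blk_mem {K : ℝ} (hK : 0 ≤ K) (b : Finset (Tor n)) (x : Tor n) :
    0 ≤ blk K b x ∧ blk K b x ≤ 1 := by
  unfold blk
  split_ifs
  · refine ⟨?_, (Real.tanh_lt_one _).le⟩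
    rw [Real.tanh_eq_sinh_div_cosh]
    exact div_nonneg (Real.sinh_nonneg_iff.mpr (by positivity)) (Real.cosh_pos _).le
  · exact ⟨le_rfl, zero_le_one⟩

theorem th_mem {β : ℝ} (hβ : 0 < β) {N : ℕ} (hN : β ≤ N) {K : ℝ} (hK : 0 ≤ K)
    (b : Finset (Tor n)) {h : Tor n → ℝ} (h0 : ∀ x, 0 ≤ h x) (h1 : ∀ x, h x ≤ 1)
    (z : Nd n N) : 0 ≤ th β N h (blk K b) z ∧ th β N h (blk K b) z ≤ 1 := by
  have hNpos : (0 : ℝ) < N := lt_of_lt_of_le hβ hN
  unfold th
  split_ifs
  · exact blk_mem hK b z.2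
  · have := h0 z.2
    refine ⟨by positivity, ?_⟩
    rw [div_le_one (by positivity)]
    nlinarith [h1 z.2]

theorem Fam.lower {h0 lam : ℝ} (hlam : 0 ≤ h0) {h h' : Tor n → ℝ} (hh : Fam n h0 lam h)
    (hh' : Fam n h0 lam h') {s : ℝ} (hs : 0 ≤ s) :
    Fam n h0 lam fun x => max (h' x) (Real.exp (-s) * h x) := by
  have he : Real.exp (-s) ≤ 1 := Real.exp_le_one_iff.mpr (by linarith)
  have he0 : 0 < Real.exp (-s) := Real.exp_pos _
  refine ⟨fun x => ⟨(hh'.1 x).1.trans (le_max_left _ _), max_le (hh'.1 x).2 ?_⟩, fun x i => ?_⟩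
  · have h1 := (hh.1 x).2
    have h2 := hlam.trans (hh.1 x).1
    nlinarith
  · have hl : 0 < Real.exp lam := Real.exp_pos _
    constructor
    · refine max_le ?_ ?_
      · exact ((hh'.2 x i).1).trans (mul_le_mul_of_nonneg_left (le_max_left _ _) hl.le)
      · have h3 := mul_le_mul_of_nonneg_left (hh.2 x i).1 he0.le
        refine h3.trans ?_
        have h4 := le_max_right (h' (x + Pi.single i 1)) (Real.exp (-s) * h (x + Pi.single i 1))
        calc Real.exp (-s) * (Real.exp lam * h (x + Pi.single i 1))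
            = Real.exp lam * (Real.exp (-s) * h (x + Pi.single i 1)) := by ring
          _ ≤ _ := mul_le_mul_of_nonneg_left h4 hl.le
    · refine max_le ?_ ?_
      · exact ((hh'.2 x i).2).trans (mul_le_mul_of_nonneg_left (le_max_left _ _) hl.le)
      · have h3 := mul_le_mul_of_nonneg_left (hh.2 x i).2 he0.le
        refine h3.trans ?_
        have h4 := le_max_right (h' x) (Real.exp (-s) * h x)
        calc Real.exp (-s) * (Real.exp lam * h x)
            = Real.exp lam * (Real.exp (-s) * h x) := by ring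
          _ ≤ _ := mul_le_mul_of_nonneg_left h4 hl.le

theorem path_th {β : ℝ} (hβ : 0 < β) {N : ℕ} (hN : β ≤ N) {K : ℝ} (hK : 0 ≤ K)
    (b : Finset (Tor n)) (h h' : Tor n → ℝ) {s : ℝ} (hs : 0 ≤ s) :
    path (th β N h (blk K b)) (th β N h' (blk K b)) s =
      th β N (fun x => max (h' x) (Real.exp (-s) * h x)) (blk K b) := by
  have hNpos : (0 : ℝ) < N := lt_of_lt_of_le hβ hN
  have he : Real.exp (-s) ≤ 1 := Real.exp_le_one_iff.mpr (by linarith)
  funext z
  unfold path th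
  by_cases hz : z.1 = 0
  · simp only [hz, if_true]
    refine max_eq_left ?_
    nlinarith [(blk_mem hK b z.2).1]
  · simp only [hz, if_false]
    have hc : 0 ≤ β / (2 * N) := by positivity
    have e1 : β * h' z.2 / (2 * N) = β / (2 * N) * h' z.2 := by ring
    have e2 : Real.exp (-s) * (β * h z.2 / (2 * N)) = β / (2 * N) * (Real.exp (-s) * h z.2) := by
      ring
    have e3 : β * max (h' z.2) (Real.exp (-s) * h z.2) / (2 * N) =
        β / (2 * N) * max (h' z.2) (Real.exp (-s) * h z.2) := by ring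
    rw [e1, e2, e3, mul_max_of_nonneg _ _ hc]

theorem LBn_iff {X : Type} [Fintype X] [DecidableEq X] (μ : Equiv.Perm X → ℝ) (θ : X → ℝ)
    (E G : Finset X) (A : ℝ) : LBn (c0 μ θ) E G A ↔ LB μ θ E G A := by
  unfold LBn LB
  simp only [netK_c0]

theorem RBn_iff {X : Type} [Fintype X] [DecidableEq X] (μ : Equiv.Perm X → ℝ) (θ : X → ℝ)
    (E : Finset X) (q : X → ℝ) (R : ℝ) : RBn (c0 μ θ) E q R ↔ RB μ θ E q R := by
  unfold RBn RB
  simp only [netK_c0]

theorem sum_lowered {β : ℝ} (hβ : 0 < β) {N : ℕ} (hN : β ≤ N) (K : ℝ)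
    (b : Finset (Tor n)) {h h' : Tor n → ℝ} (hle : ∀ x, h' x ≤ h x) :
    ∑ z : Nd n N, (if th β N h' (blk K b) z < th β N h (blk K b) z then
        th β N h (blk K b) z else 0) =
      β / 2 * ∑ x, (if h' x = h x then 0 else h x) := by
  have hNpos : (0 : ℝ) < N := lt_of_lt_of_le hβ hN
  rw [Fintype.sum_prod_type, Fin.sum_univ_succ]
  have h1 : ∑ x : Tor n, (if th β N h' (blk K b) ((0 : Fin (N + 1)), x) <
      th β N h (blk K b) ((0 : Fin (N + 1)), x) then
        th β N h (blk K b) ((0 : Fin (N + 1)), x) else 0) = 0 := by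
    refine Finset.sum_eq_zero fun x _ => ?_
    simp [th]
  have h2 : ∀ i : Fin N, ∑ x : Tor n, (if th β N h' (blk K b) (i.succ, x) <
      th β N h (blk K b) (i.succ, x) then th β N h (blk K b) (i.succ, x) else 0) =
      β / (2 * N) * ∑ x, (if h' x = h x then 0 else h x) := by
    intro i
    rw [Finset.mul_sum]
    refine Finset.sum_congr rfl fun x _ => ?_
    have hi : i.succ ≠ 0 := Fin.succ_ne_zero i
    simp only [th, hi, if_false]
    have hc : 0 < β / (2 * N) := by positivity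
    have e1 : β * h' x / (2 * N) = β / (2 * N) * h' x := by ring
    have e2 : β * h x / (2 * N) = β / (2 * N) * h x := by ring
    rw [e1, e2]
    by_cases hx : h' x = h x
    · simp [hx]
    · have hlt : h' x < h x := lt_of_le_of_ne (hle x) hx
      rw [if_pos (by exact mul_lt_mul_of_pos_left hlt hc), if_neg hx]
  rw [h1, zero_add, Finset.sum_congr rfl fun i _ => h2 i, Finset.sum_const, Finset.card_univ,
    Fintype.card_fin, nsmul_eq_mul]
  field_simp

/-- **`Low` for the physical network.** -/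
theorem low_of {β : ℝ} (hβ : 0 < β) {N : ℕ} (hN : β ≤ N) {K : ℝ} (hK : 0 ≤ K)
    (b : Finset (Tor n)) {h0 lam ε : ℝ} (hh0 : 0 < h0) (hε : 0 ≤ ε) (hε1 : ε ^ 2 ≤ 1 / 2)
    (hG : Good (phys (edges n) β N))
    (hmag : ∀ h, Fam n h0 lam h → ∀ z : Nd n N, z.1 ≠ 0 →
      1 - ε ^ 2 ≤ mag (phys (edges n) β N) (th β N h (blk K b)) z) :
    Low n N β h0 lam ε (cphys n β N K b) := by
  have hNpos : (0 : ℝ) < N := lt_of_lt_of_le hβ hN
  have hfpos : ∀ {h : Tor n → ℝ}, Fam n h0 lam h → ∀ x, 0 < h x :=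
    fun hf x => hh0.trans_le (hf.1 x).1
  have hmem : ∀ {h : Tor n → ℝ}, Fam n h0 lam h → ∀ z : Nd n N,
      0 ≤ th β N h (blk K b) z ∧ th β N h (blk K b) z ≤ 1 := fun hf z =>
    th_mem hβ hN hK b (fun x => (hfpos hf x).le) (fun x => (hf.1 x).2) z
  have hmono : ∀ {h h' : Tor n → ℝ}, (∀ x, h' x ≤ h x) → ∀ z : Nd n N,
      th β N h' (blk K b) z ≤ th β N h (blk K b) z := by
    intro h h' hle z
    unfold th
    split_ifs
    · exact le_rfl
    · have := hle z.2
      gcongr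
  have hlt : ∀ {h h' : Tor n → ℝ} (z : Nd n N),
      th β N h' (blk K b) z < th β N h (blk K b) z → z.1 ≠ 0 := by
    intro h h' z hz h0
    unfold th at hz
    simp [h0] at hz
  have hfix : ∀ {h h' : Tor n → ℝ} (z : Nd n N), (z.1 ≠ 0 → h' z.2 = h z.2) →
      th β N h' (blk K b) z = th β N h (blk K b) z := by
    intro h h' z hz
    unfold th
    split_ifs with h1
    · rfl
    · rw [hz h1]
  have hpos : ∀ {h h' : Tor n → ℝ}, Fam n h0 lam h' → ∀ z : Nd n N,
      th β N h' (blk K b) z < th β N h (blk K b) z → 0 < th β N h' (blk K b) z := by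
    intro h h' hf z hz
    have h1 := hlt z hz
    unfold th
    rw [if_neg h1]
    have := hfpos hf z.2
    positivity
  have hm : ∀ {h h' : Tor n → ℝ}, Fam n h0 lam h → Fam n h0 lam h' → ∀ s : ℝ, 0 ≤ s →
      ∀ z : Nd n N, th β N h' (blk K b) z < th β N h (blk K b) z →
      1 - ε ^ 2 ≤ mag (phys (edges n) β N)
        (path (th β N h (blk K b)) (th β N h' (blk K b)) s) z := by
    intro h h' hf hf' s hs z hz
    rw [path_th hβ hN hK b h h' hs]
    exact hmag _ (Fam.lower hh0.le hf hf' hs) z (hlt z hz)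
  refine ⟨?_, ?_⟩
  · intro h h' hf hf' hle E G hEG hfixEG S hS hsum A hA hLB
    rw [cphys, LBn_iff] at hLB ⊢
    have hE : ∀ z ∈ E, th β N h' (blk K b) z = th β N h (blk K b) z := fun z hz =>
      hfix z (hfixEG z (Finset.mem_union_left _ hz))
    have hG' : ∀ z ∈ G, th β N h' (blk K b) z = th β N h (blk K b) z := fun z hz =>
      hfix z (hfixEG z (Finset.mem_union_right _ hz))
    have key := LB_lower hG hε (fun z => (hmem hf' z).1) (hmono hle) (fun z => (hmem hf z).2)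
      hE hG' hEG (hpos hf') (hm hf hf') (Real.log_nonneg hS)
      (B := β * S / 2) (by
        rw [sum_lowered hβ hN K b hle]
        have := mul_le_mul_of_nonneg_left hsum (by positivity : (0 : ℝ) ≤ β / 2)
        linarith) hLB
    intro a haE haG
    refine le_trans ?_ (key a haE haG)
    have hSpos : 0 < β * S := by linarith
    have e1 : Real.exp (-(4 * ε * Real.log (β * S))) = (β * S) ^ (-(4 * ε)) := by
      rw [Real.rpow_def_of_pos hSpos]
      congr 1
      ring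
    rw [e1, Real.exp_neg, Real.exp_log hSpos]
    have e2 : 2 * ε * (β * S / 2) * (β * S)⁻¹ = ε := by
      have h5 : (β * S) * (β * S)⁻¹ = 1 := mul_inv_cancel₀ hSpos.ne'
      linear_combination ε * h5
    rw [e2]
    linarith
  · intro _ hh1 h' hf' E q hfixE hqE hq0 hqnn hq1 R hR hRB
    rw [cphys, RBn_iff] at hRB ⊢
    have hlam : 1 ≤ Real.exp lam := by
      have h1 := hf'.2 0 0
      have h2 := hfpos hf' 0
      have h3 : h' 0 ≤ Real.exp lam * (Real.exp lam * h' 0) :=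
        h1.1.trans (mul_le_mul_of_nonneg_left h1.2 (Real.exp_pos _).le)
      by_contra hcon
      have h4 : Real.exp lam < 1 := not_le.mp hcon
      have h5 := Real.exp_pos lam
      nlinarith [mul_pos h5 h2, mul_pos (sub_pos.mpr h4) h2,
        mul_pos (mul_pos h5 h2) (sub_pos.mpr h4)]
    have hf : Fam n h0 lam fun _ => (1 : ℝ) :=
      ⟨fun x => ⟨hh1, le_rfl⟩, fun x i => ⟨by linarith, by linarith⟩⟩
    have hle : ∀ x, h' x ≤ (fun _ : Tor n => (1 : ℝ)) x := fun x => (hf'.1 x).2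
    have hE : ∀ z ∈ E, th β N h' (blk K b) z = th β N (fun _ => 1) (blk K b) z := fun z hz =>
      hfix z (hfixE z hz)
    have hlog : 0 ≤ Real.log (1 / h0) := Real.log_nonneg (by rw [le_div_iff₀ hh0]; linarith)
    have key := ode_RB hG (fun z => (hmem hf' z).1) (hmono hle) (fun z => (hmem hf z).2)
      hE hq1 (τ := 2 * ε) (by positivity)
      (fun s hs z hz => by
        have h1 := hm hf hf' s hs z hz
        refine ⟨sqrt_mag_le hε h1, ?_⟩
        have h2 : 1 / 2 ≤ 1 - ε ^ 2 := by linarith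
        exact h2.trans h1)
      hR hRB hlog (fun z => by
        rw [Real.exp_log (by positivity)]
        unfold th
        by_cases hz : z.1 = 0
        · simp only [hz, if_true]
          have h1 := (blk_mem hK b z.2).1
          have h2 : 1 ≤ 1 / h0 := by rw [le_div_iff₀ hh0]; linarith
          nlinarith
        · simp only [hz, if_false]
          have h2 := (hf'.1 z.2).1
          have h3 : (1 : ℝ) ≤ 1 / h0 * h' z.2 := by
            rw [one_div, inv_mul_eq_div, le_div_iff₀ hh0]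
            linarith
          have hc : 0 ≤ β / (2 * N) := by positivity
          calc β * 1 / (2 * N) = β / (2 * N) * 1 := by ring
            _ ≤ β / (2 * N) * (1 / h0 * h' z.2) := mul_le_mul_of_nonneg_left h3 hc
            _ = 1 / h0 * (β * h' z.2 / (2 * N)) := by ring)
    intro a ha
    refine (key a ha).trans ?_
    have hKK : 0 ≤ KK (phys (edges n) β N) (th β N h' (blk K b)) a := by
      rw [← netK_c0]
      refine P361.LRO.netK_nonneg (fun x y => ?_) a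
      unfold c0
      split_ifs with hxy
      · exact le_rfl
      · exact hG.ccnn _ (hmem hf') x y hxy
    refine mul_le_mul_of_nonneg_right ?_ hKK
    have e1 : Real.exp (2 * (2 * ε) * Real.log (1 / h0)) = h0 ^ (-(4 * ε)) := by
      rw [Real.rpow_def_of_pos hh0, one_div, Real.log_inv]
      congr 1
      ring
    rw [e1]
    refine mul_le_mul_of_nonneg_left ?_ (Real.rpow_nonneg hh0.le _)
    refine add_le_add le_rfl ?_
    rw [Real.exp_log (by positivity)]
    have h5 : ∑ z ∈ univ.filter (fun z : Nd n N =>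
        th β N h' (blk K b) z < th β N (fun _ => 1) (blk K b) z),
        q z ^ 2 / th β N (fun _ => 1) (blk K b) z ≤ 2 * N / β * ∑ z, q z ^ 2 := by
      rw [Finset.mul_sum, Finset.sum_filter]
      refine Finset.sum_le_sum fun z _ => ?_
      split_ifs with h1
      · have hz := hlt z h1
        unfold th
        rw [if_neg hz]
        apply le_of_eq
        field_simp
      · positivity
    have h6 : 0 ≤ ∑ z ∈ univ.filter (fun z : Nd n N =>
        th β N h' (blk K b) z < th β N (fun _ => 1) (blk K b) z),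
        q z ^ 2 / th β N (fun _ => 1) (blk K b) z :=
      Finset.sum_nonneg fun z _ => div_nonneg (sq_nonneg _) (hmem hf z).1
    have h7 : 1 / h0 - 1 ≤ 1 / h0 := by linarith
    have h8 : 0 ≤ 1 / h0 := by positivity
    calc 4 * (1 / h0 - 1) * ∑ z ∈ univ.filter (fun z : Nd n N =>
        th β N h' (blk K b) z < th β N (fun _ => 1) (blk K b) z),
        q z ^ 2 / th β N (fun _ => 1) (blk K b) z
        ≤ 4 * (1 / h0) * (2 * N / β * ∑ z, q z ^ 2) := by
          apply mul_le_mul _ h5 h6 (by positivity)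
          linarith
      _ = 8 * N / (β * h0) * ∑ z, q z ^ 2 := by
          field_simp
          ring

end Vale.Agent.P361.LRO.Net
end

section

/-!
P361 LRO, stage 3: the structure `Low` for an arbitrary good law, and for the scaled fields
`h = g / β` (slice parameters `g / (2N)`).
-/

namespace Vale.Agent.P361.LRO.Net

open Finset Filter Topology
open Vale.Agent.P361.LRO Vale.Agent.P361.LRO.Ind

set_option linter.unusedSectionVars false

variable {n : ℕ} [NeZero n]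

/-- **`Low` for any good law `μ` and slice parameters `β g / (2N)`** (`β` is only the scale of the
fields here, not the inverse temperature). -/
theorem low_of_gen {β : ℝ} (hβ : 0 < β) {N : ℕ} (hN : β ≤ N) {K : ℝ} (hK : 0 ≤ K)
    (b : Finset (Tor n)) {h0 lam ε : ℝ} (hh0 : 0 < h0) (hε : 0 ≤ ε) (hε1 : ε ^ 2 ≤ 1 / 2)
    {μ : Equiv.Perm (Nd n N) → ℝ} (hG : Good μ)
    (hmag : ∀ h, Fam n h0 lam h → ∀ z : Nd n N, z.1 ≠ 0 →
      1 - ε ^ 2 ≤ mag μ (th β N h (blk K b)) z) :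
    Low n N β h0 lam ε (fun h => c0 μ (th β N h (blk K b))) := by
  have hNpos : (0 : ℝ) < N := lt_of_lt_of_le hβ hN
  have hfpos : ∀ {h : Tor n → ℝ}, Fam n h0 lam h → ∀ x, 0 < h x :=
    fun hf x => hh0.trans_le (hf.1 x).1
  have hmem : ∀ {h : Tor n → ℝ}, Fam n h0 lam h → ∀ z : Nd n N,
      0 ≤ th β N h (blk K b) z ∧ th β N h (blk K b) z ≤ 1 := fun hf z =>
    th_mem hβ hN hK b (fun x => (hfpos hf x).le) (fun x => (hf.1 x).2) z
  have hmono : ∀ {h h' : Tor n → ℝ}, (∀ x, h' x ≤ h x) → ∀ z : Nd n N,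
      th β N h' (blk K b) z ≤ th β N h (blk K b) z := by
    intro h h' hle z
    unfold th
    split_ifs
    · exact le_rfl
    · have := hle z.2
      gcongr
  have hlt : ∀ {h h' : Tor n → ℝ} (z : Nd n N),
      th β N h' (blk K b) z < th β N h (blk K b) z → z.1 ≠ 0 := by
    intro h h' z hz h0
    unfold th at hz
    simp [h0] at hz
  have hfix : ∀ {h h' : Tor n → ℝ} (z : Nd n N), (z.1 ≠ 0 → h' z.2 = h z.2) →
      th β N h' (blk K b) z = th β N h (blk K b) z := by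
    intro h h' z hz
    unfold th
    split_ifs with h1
    · rfl
    · rw [hz h1]
  have hpos : ∀ {h h' : Tor n → ℝ}, Fam n h0 lam h' → ∀ z : Nd n N,
      th β N h' (blk K b) z < th β N h (blk K b) z → 0 < th β N h' (blk K b) z := by
    intro h h' hf z hz
    have h1 := hlt z hz
    unfold th
    rw [if_neg h1]
    have := hfpos hf z.2
    positivity
  have hm : ∀ {h h' : Tor n → ℝ}, Fam n h0 lam h → Fam n h0 lam h' → ∀ s : ℝ, 0 ≤ s →
      ∀ z : Nd n N, th β N h' (blk K b) z < th β N h (blk K b) z →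
      1 - ε ^ 2 ≤ mag μ
        (path (th β N h (blk K b)) (th β N h' (blk K b)) s) z := by
    intro h h' hf hf' s hs z hz
    rw [path_th hβ hN hK b h h' hs]
    exact hmag _ (Fam.lower hh0.le hf hf' hs) z (hlt z hz)
  refine ⟨?_, ?_⟩
  · intro h h' hf hf' hle E G hEG hfixEG S hS hsum A hA hLB
    simp only [LBn_iff] at hLB ⊢
    have hE : ∀ z ∈ E, th β N h' (blk K b) z = th β N h (blk K b) z := fun z hz =>
      hfix z (hfixEG z (Finset.mem_union_left _ hz))
    have hG' : ∀ z ∈ G, th β N h' (blk K b) z = th β N h (blk K b) z := fun z hz =>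
      hfix z (hfixEG z (Finset.mem_union_right _ hz))
    have key := LB_lower hG hε (fun z => (hmem hf' z).1) (hmono hle) (fun z => (hmem hf z).2)
      hE hG' hEG (hpos hf') (hm hf hf') (Real.log_nonneg hS)
      (B := β * S / 2) (by
        rw [sum_lowered hβ hN K b hle]
        have := mul_le_mul_of_nonneg_left hsum (by positivity : (0 : ℝ) ≤ β / 2)
        linarith) hLB
    intro a haE haG
    refine le_trans ?_ (key a haE haG)
    have hSpos : 0 < β * S := by linarith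
    have e1 : Real.exp (-(4 * ε * Real.log (β * S))) = (β * S) ^ (-(4 * ε)) := by
      rw [Real.rpow_def_of_pos hSpos]
      congr 1
      ring
    rw [e1, Real.exp_neg, Real.exp_log hSpos]
    have e2 : 2 * ε * (β * S / 2) * (β * S)⁻¹ = ε := by
      have h5 : (β * S) * (β * S)⁻¹ = 1 := mul_inv_cancel₀ hSpos.ne'
      linear_combination ε * h5
    rw [e2]
    linarith
  · intro _ hh1 h' hf' E q hfixE hqE hq0 hqnn hq1 R hR hRB
    simp only [RBn_iff] at hRB ⊢
    have hlam : 1 ≤ Real.exp lam := by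
      have h1 := hf'.2 0 0
      have h2 := hfpos hf' 0
      have h3 : h' 0 ≤ Real.exp lam * (Real.exp lam * h' 0) :=
        h1.1.trans (mul_le_mul_of_nonneg_left h1.2 (Real.exp_pos _).le)
      by_contra hcon
      have h4 : Real.exp lam < 1 := not_le.mp hcon
      have h5 := Real.exp_pos lam
      nlinarith [mul_pos h5 h2, mul_pos (sub_pos.mpr h4) h2,
        mul_pos (mul_pos h5 h2) (sub_pos.mpr h4)]
    have hf : Fam n h0 lam fun _ => (1 : ℝ) :=
      ⟨fun x => ⟨hh1, le_rfl⟩, fun x i => ⟨by linarith, by linarith⟩⟩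
    have hle : ∀ x, h' x ≤ (fun _ : Tor n => (1 : ℝ)) x := fun x => (hf'.1 x).2
    have hE : ∀ z ∈ E, th β N h' (blk K b) z = th β N (fun _ => 1) (blk K b) z := fun z hz =>
      hfix z (hfixE z hz)
    have hlog : 0 ≤ Real.log (1 / h0) := Real.log_nonneg (by rw [le_div_iff₀ hh0]; linarith)
    have key := ode_RB hG (fun z => (hmem hf' z).1) (hmono hle) (fun z => (hmem hf z).2)
      hE hq1 (τ := 2 * ε) (by positivity)
      (fun s hs z hz => by
        have h1 := hm hf hf' s hs z hz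
        refine ⟨sqrt_mag_le hε h1, ?_⟩
        have h2 : 1 / 2 ≤ 1 - ε ^ 2 := by linarith
        exact h2.trans h1)
      hR hRB hlog (fun z => by
        rw [Real.exp_log (by positivity)]
        unfold th
        by_cases hz : z.1 = 0
        · simp only [hz, if_true]
          have h1 := (blk_mem hK b z.2).1
          have h2 : 1 ≤ 1 / h0 := by rw [le_div_iff₀ hh0]; linarith
          nlinarith
        · simp only [hz, if_false]
          have h2 := (hf'.1 z.2).1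
          have h3 : (1 : ℝ) ≤ 1 / h0 * h' z.2 := by
            rw [one_div, inv_mul_eq_div, le_div_iff₀ hh0]
            linarith
          have hc : 0 ≤ β / (2 * N) := by positivity
          calc β * 1 / (2 * N) = β / (2 * N) * 1 := by ring
            _ ≤ β / (2 * N) * (1 / h0 * h' z.2) := mul_le_mul_of_nonneg_left h3 hc
            _ = 1 / h0 * (β * h' z.2 / (2 * N)) := by ring)
    intro a ha
    refine (key a ha).trans ?_
    have hKK : 0 ≤ KK μ (th β N h' (blk K b)) a := by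
      rw [← netK_c0]
      refine P361.LRO.netK_nonneg (fun x y => ?_) a
      unfold c0
      split_ifs with hxy
      · exact le_rfl
      · exact hG.ccnn _ (hmem hf') x y hxy
    refine mul_le_mul_of_nonneg_right ?_ hKK
    have e1 : Real.exp (2 * (2 * ε) * Real.log (1 / h0)) = h0 ^ (-(4 * ε)) := by
      rw [Real.rpow_def_of_pos hh0, one_div, Real.log_inv]
      congr 1
      ring
    rw [e1]
    refine mul_le_mul_of_nonneg_left ?_ (Real.rpow_nonneg hh0.le _)
    refine add_le_add le_rfl ?_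
    rw [Real.exp_log (by positivity)]
    have h5 : ∑ z ∈ univ.filter (fun z : Nd n N =>
        th β N h' (blk K b) z < th β N (fun _ => 1) (blk K b) z),
        q z ^ 2 / th β N (fun _ => 1) (blk K b) z ≤ 2 * N / β * ∑ z, q z ^ 2 := by
      rw [Finset.mul_sum, Finset.sum_filter]
      refine Finset.sum_le_sum fun z _ => ?_
      split_ifs with h1
      · have hz := hlt z h1
        unfold th
        rw [if_neg hz]
        apply le_of_eq
        field_simp
      · positivity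
    have h6 : 0 ≤ ∑ z ∈ univ.filter (fun z : Nd n N =>
        th β N h' (blk K b) z < th β N (fun _ => 1) (blk K b) z),
        q z ^ 2 / th β N (fun _ => 1) (blk K b) z :=
      Finset.sum_nonneg fun z _ => div_nonneg (sq_nonneg _) (hmem hf z).1
    have h7 : 1 / h0 - 1 ≤ 1 / h0 := by linarith
    have h8 : 0 ≤ 1 / h0 := by positivity
    calc 4 * (1 / h0 - 1) * ∑ z ∈ univ.filter (fun z : Nd n N =>
        th β N h' (blk K b) z < th β N (fun _ => 1) (blk K b) z),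
        q z ^ 2 / th β N (fun _ => 1) (blk K b) z
        ≤ 4 * (1 / h0) * (2 * N / β * ∑ z, q z ^ 2) := by
          apply mul_le_mul _ h5 h6 (by positivity)
          linarith
      _ = 8 * N / (β * h0) * ∑ z, q z ^ 2 := by
          field_simp
          ring


/-- The physical network in the scaled field `g` (physical field `g / β`). -/
noncomputable def cphys3 (n : ℕ) [NeZero n] (β : ℝ) (N : ℕ) (K : ℝ) (b : Finset (Tor n))
    (g : Tor n → ℝ) : Nd n N → Nd n N → ℝ :=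
  c0 (phys (edges n) β N) (th 1 N g (blk K b))

/-- The slice parameters of the physical field `g / β`. -/
theorem th_scaled {V : Type} {β : ℝ} (hβ : 0 < β) (N : ℕ) (g T : V → ℝ) :
    th β N (fun x => g x / β) T = th 1 N g T := by
  funext z
  unfold th
  split_ifs
  · rfl
  · congr 1
    field_simp

theorem cphys3_eq {β : ℝ} (hβ : 0 < β) (N : ℕ) (K : ℝ) (b : Finset (Tor n)) (g : Tor n → ℝ) :
    cphys3 n β N K b g = cphys n β N K b (fun x => g x / β) := by
  unfold cphys3 cphys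
  rw [th_scaled hβ]

/-- `κ_b` in the physical field `g / β` is the energy of the indicator of the extra slice on `b`. -/
theorem kap_scaled {β : ℝ} (hβ : 0 < β) (N : ℕ) (K : ℝ) (b : Finset (Tor n)) (g : Tor n → ℝ) :
    kap (edges n) β N (fun x => g x / β) K b =
      P361.LRO.netK (cphys3 n β N K b g) fun z => if z ∈ hatb N b then 1 else 0 := by
  unfold kap cphys3
  rw [netK_c0, th_scaled hβ]

/-- **`Low` for the scaled fields** (used with `β := 1` in `Low`). -/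
theorem low_scaled {β : ℝ} {N : ℕ} (hN : 1 ≤ N) {K : ℝ} (hK : 0 ≤ K)
    (b : Finset (Tor n)) {h0 lam ε : ℝ} (hh0 : 0 < h0) (hε : 0 ≤ ε) (hε1 : ε ^ 2 ≤ 1 / 2)
    (hG : Good (phys (edges n) β N))
    (hmag : ∀ g, Fam n h0 lam g → ∀ z : Nd n N, z.1 ≠ 0 →
      1 - ε ^ 2 ≤ mag (phys (edges n) β N) (th 1 N g (blk K b)) z) :
    Low n N 1 h0 lam ε (cphys3 n β N K b) :=
  low_of_gen one_pos (by exact_mod_cast hN) hK b hh0 hε hε1 hG hmag

end Vale.Agent.P361.LRO.Net
end
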