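import Mathlib
import Vale.Agent.P361.Bdl.B1
import Vale.Agent.P361.Bdl.B3
import Vale.Agent.P361.Bdl.B7
import Vale.Agent.P361.Bdl.B5
import Vale.Agent.P361.Bdl.B6

set_option linter.all false

section

/-!
P361, low-temperature order: the step of the bootstrap from the blocks.
-/

namespace Vale.Agent.P361.LRO

open Filter Finset Matrix

noncomputable section

theorem etaB_pos {β : ℝ} (hβ : 0 < β) : 0 < etaB β := Real.rpow_pos_of_pos hβ _

theorem etaB_le_one {β : ℝ} (hβ : 1 ≤ β) : etaB β ≤ 1 := by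
  unfold etaB
  exact Real.rpow_le_one_of_one_le_of_nonpos hβ (by norm_num)

theorem edges_ne {n : ℕ} [NeZero n] (hn : 2 ≤ n) : ∀ e ∈ edges n, e.1 ≠ e.2 := by
  intro e he
  unfold edges at he
  rw [List.mem_map] at he
  obtain ⟨z, -, rfl⟩ := he
  intro h
  have h1 : (Pi.single z.2 1 : Tor n) = 0 := by
    have h2 : z.1 + 0 = z.1 + Pi.single z.2 1 := by
      rw [add_zero]
      exact h
    exact (add_left_cancel h2).symm
  have h3 := congrFun h1 z.2
  rw [Pi.single_eq_same, Pi.zero_apply] at h3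
  have : Fact (1 < n) := ⟨hn⟩
  exact one_ne_zero h3

/-- in the cube the field varies slowly -/
theorem fam_log {n : ℕ} [NeZero n] {h0 lam : ℝ} {h : Tor n → ℝ} (hh : Fam n h0 lam h)
    (h0p : 0 < h0) (x : Tor n) (i : Fin 3) :
    |Real.log (h (x + Pi.single i 1)) - Real.log (h x)| ≤ lam := by
  have hp : ∀ y, 0 < h y := fun y => h0p.trans_le (hh.1 y).1
  obtain ⟨h1, h2⟩ := hh.2 x i
  have h3 := Real.log_le_log (hp _) h1
  have h4 := Real.log_le_log (hp _) h2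
  rw [Real.log_mul (Real.exp_pos _).ne' (hp _).ne', Real.log_exp] at h3 h4
  rw [abs_le]
  constructor <;> linarith

theorem fam_log_nat {n : ℕ} [NeZero n] {h0 lam : ℝ} {h : Tor n → ℝ} (hh : Fam n h0 lam h)
    (h0p : 0 < h0) (i : Fin 3) (k : ℕ) (x : Tor n) :
    |Real.log (h (x + Pi.single i (k : ZMod n))) - Real.log (h x)| ≤ k * lam := by
  induction k with
  | zero =>
    rw [Nat.cast_zero, Pi.single_zero, add_zero, sub_self, abs_zero, Nat.cast_zero, zero_mul]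
  | succ k ih =>
    have h1 : x + Pi.single i ((k + 1 : ℕ) : ZMod n) =
        x + Pi.single i (k : ZMod n) + Pi.single i 1 := by
      rw [Nat.cast_succ, Pi.single_add, add_assoc]
    rw [h1]
    have h2 := fam_log hh h0p (x + Pi.single i (k : ZMod n)) i
    have h3 := abs_add_le (Real.log (h (x + Pi.single i (k : ZMod n) + Pi.single i 1)) -
      Real.log (h (x + Pi.single i (k : ZMod n))))
      (Real.log (h (x + Pi.single i (k : ZMod n))) - Real.log (h x))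
    rw [sub_add_sub_cancel] at h3
    push_cast
    linarith

theorem fam_log_vec {n : ℕ} [NeZero n] {h0 lam : ℝ} {h : Tor n → ℝ} (hh : Fam n h0 lam h)
    (h0p : 0 < h0) (l : ℕ) (k : Fin 3 → ℕ) (hk : ∀ i, k i ≤ l) (hlam : 0 ≤ lam) (x : Tor n) :
    |Real.log (h (x + fun i => (k i : ZMod n))) - Real.log (h x)| ≤ 3 * l * lam := by
  have h1 : (x + fun i => (k i : ZMod n)) = x + Pi.single 0 (k 0 : ZMod n) +
      Pi.single 1 (k 1 : ZMod n) + Pi.single 2 (k 2 : ZMod n) := by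
    funext i
    fin_cases i <;> simp
  rw [h1]
  have e0 := fam_log_nat hh h0p 0 (k 0) x
  have e1 := fam_log_nat hh h0p 1 (k 1) (x + Pi.single 0 (k 0 : ZMod n))
  have e2 := fam_log_nat hh h0p 2 (k 2) (x + Pi.single 0 (k 0 : ZMod n) +
    Pi.single 1 (k 1 : ZMod n))
  have hb : ∀ i, (k i : ℝ) * lam ≤ l * lam := fun i =>
    mul_le_mul_of_nonneg_right (by exact_mod_cast hk i) hlam
  have b0 := hb 0
  have b1 := hb 1
  have b2 := hb 2
  rw [abs_le] at *
  constructor <;> linarith [e0.1, e0.2, e1.1, e1.2, e2.1, e2.2]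

/-- **The step from the blocks.** -/
theorem step_of {q : ℕ} {w m : ℝ → ℕ} {lam : ℝ → ℝ} (h1 : PTwist) (h7 : PEnergy q)
    (h8 : PHarn) (ht : PTrans) (h6 : PSix w lam) (hp : Par q w m lam) : PStep lam := by
  obtain ⟨c, hc, h6⟩ := h6
  obtain ⟨C1, hC1, h1⟩ := h1
  obtain ⟨C, hC, h7⟩ := h7
  have hA : (0 : ℝ) < 32 * C1 / c := by positivity
  have hCC : 0 < C1 * C := by positivity
  filter_upwards [h6 _ hA, hp _ (C1 * C) hA hCC, eventually_ge_atTop (1 : ℝ)] with β h6 hp hβ1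
  obtain ⟨hw, hm, hlam, hK10, hKw, hpar, hd1, hd2⟩ := hp
  have hβ : 0 < β := by linarith
  have hη := etaB_pos hβ
  have hη1 := etaB_le_one hβ1
  filter_upwards [h6, eventually_ge_atTop 3, eventually_ge_atTop (3 * (w β * m β))] with
    n h6 hn3 hnw3
  intro hodd _ h0 hh0 hh01 hB h hh x
  have hnw : w β * m β ≤ n := by omega
  have hn0 : (0 : ℝ) < n := by
    have : (3 : ℝ) ≤ n := by exact_mod_cast hn3
    linarith
  have h0p : 0 < h0 := (Real.rpow_pos_of_pos hn0 _).trans_le hh0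
  have hpos : ∀ y, 0 < h y := fun y => h0p.trans_le (hh.1 y).1
  set K : ℝ := 32 * C1 / c / etaB β with hK
  set κ : ℝ := c * K with hκ
  have hκ' : C1 / κ = etaB β / 32 := by
    rw [hκ, hK]
    field_simp
  have hκp : 0 < κ := by
    rw [hκ, hK]
    positivity
  -- the blocks of the cube
  set bl : (Fin 3 → Fin (m β)) → Finset (Tor n) := fun y =>
    cube n (x + fun i => ((w β * (y i : ℕ) : ℕ) : ZMod n)) (w β) with hbl
  have hwn : w β ≤ n := le_trans (Nat.le_mul_of_pos_right _ hm) hnw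
  have hcard : ∀ z : Tor n, (cube n z (w β)).card = w β ^ 3 := by
    intro z
    unfold cube
    rw [Finset.card_image_of_injective, Finset.card_univ, Fintype.card_fun, Fintype.card_fin,
      Fintype.card_fin]
    intro a b hab
    have h2 := add_left_cancel hab
    funext i
    have h3 := congrFun h2 i
    have h4 : ((a i : ℕ) : ZMod n) = ((b i : ℕ) : ZMod n) := h3
    rw [ZMod.natCast_eq_natCast_iff'] at h4
    rw [Nat.mod_eq_of_lt ((a i).2.trans_le hwn), Nat.mod_eq_of_lt ((b i).2.trans_le hwn)] at h4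
    exact Fin.ext h4
  have htw : ∀ y, (∑ z ∈ bl y, rho (edges n) β h z) / (bl y).card ≤
      etaB β / 32 + C1 * (1 + K) ^ 4 * Dst (edges n) β h (bl y) := by
    intro y
    have h2 := h1 (Tor n) (edges n) (edges_ne (by omega)) β hβ h (fun z => ⟨hpos z, (hh.1 z).2⟩)
      (bl y) K κ
      (by
        rw [← Finset.card_pos, hbl]
        dsimp only
        rw [hcard]
        positivity) hK10
      (by
        rw [hbl]
        dsimp only
        rw [hcard]
        exact_mod_cast hKw) hκp (h6 hodd h0 hh0 hh01 hB h hh _)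
    rwa [hκ'] at h2
  have hsum : ∑ y, (∑ z ∈ bl y, rho (edges n) β h z) / (bl y).card ≤
      (m β : ℝ) ^ 3 * (etaB β / 16) := by
    refine (Finset.sum_le_sum fun y _ => htw y).trans ?_
    rw [Finset.sum_add_distrib, ← Finset.mul_sum, Finset.sum_const, Finset.card_univ,
      Fintype.card_fun, Fintype.card_fin, Fintype.card_fin, nsmul_eq_mul]
    push_cast
    have h2 := h7 β hβ1 n (w β) (m β) hw hm hnw3 h (fun z => ⟨hpos z, (hh.1 z).2⟩) x
    have hK3 : 0 ≤ C1 * (1 + K) ^ 4 := by positivity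
    have h3 := mul_le_mul_of_nonneg_left h2 hK3
    have hm3 : (0 : ℝ) ≤ (m β : ℝ) ^ 3 := by positivity
    have h4 := mul_le_mul_of_nonneg_left hpar hm3
    have h5 : C1 * (1 + K) ^ 4 * ((m β : ℝ) ^ 3 * (C * (w β : ℝ) ^ q *
        (1 / β + 1 / ((w β : ℝ) * m β)))) =
        (m β : ℝ) ^ 3 * ((1 + K) ^ 4 * (C1 * C * (w β : ℝ) ^ q *
          (1 / β + 1 / ((w β : ℝ) * m β)))) := by ring
    rw [h5] at h3
    nlinarith
  -- a good point
  obtain ⟨y, z, hz, hρz⟩ : ∃ y, ∃ z ∈ bl y, rho (edges n) β h z ≤ etaB β / 16 := by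
    by_contra hcon
    push Not at hcon
    have hcp : ∀ y, (0 : ℝ) < (bl y).card := by
      intro y
      rw [hbl]
      dsimp only
      rw [hcard]
      positivity
    have h2 : ∀ y, etaB β / 16 < (∑ z ∈ bl y, rho (edges n) β h z) / (bl y).card := by
      intro y
      rw [lt_div_iff₀ (hcp y)]
      have h3 : ∑ z ∈ bl y, etaB β / 16 < ∑ z ∈ bl y, rho (edges n) β h z := by
        refine Finset.sum_lt_sum_of_nonempty ?_ fun z hz => hcon y z hz
        rw [← Finset.card_pos]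
        exact_mod_cast hcp y
      rw [Finset.sum_const, nsmul_eq_mul] at h3
      linarith
    have : Nonempty (Fin (m β)) := ⟨⟨0, hm⟩⟩
    have h3 : ∑ y : Fin 3 → Fin (m β), etaB β / 16 <
        ∑ y, (∑ z ∈ bl y, rho (edges n) β h z) / (bl y).card :=
      Finset.sum_lt_sum_of_nonempty Finset.univ_nonempty fun y _ => h2 y
    rw [Finset.sum_const, Finset.card_univ, Fintype.card_fun, Fintype.card_fin, Fintype.card_fin,
      nsmul_eq_mul] at h3
    push_cast at h3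
    linarith
  -- the vector from `x` to `z`
  obtain ⟨k, hk, hzk⟩ : ∃ k : Fin 3 → ℕ, (∀ i, k i ≤ w β * m β) ∧ z = x + fun i => (k i : ZMod n) := by
    rw [hbl] at hz
    unfold cube at hz
    dsimp only at hz
    rw [Finset.mem_image] at hz
    obtain ⟨a, -, ha⟩ := hz
    refine ⟨fun i => w β * (y i : ℕ) + (a i : ℕ), fun i => ?_, ?_⟩
    · have h2 : (y i : ℕ) + 1 ≤ m β := (y i).2
      have h3 := Nat.mul_le_mul_left (w β) h2
      have h4 : (a i : ℕ) < w β := (a i).2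
      rw [mul_add, mul_one] at h3
      exact (Nat.add_le_add_left h4.le _).trans h3
    · rw [← ha, add_assoc]
      congr 1
      funext i
      simp only [Pi.add_apply]
      push_cast
      ring
  set v : Tor n := fun i => (k i : ZMod n) with hv
  -- Harnack
  have hd0 : (0 : ℝ) ≤ 3 * (w β * m β) * lam β := by positivity
  have hlog : ∀ u, |Real.log (h (u + v)) - Real.log (h u)| ≤ 3 * (w β * m β) * lam β := by
    intro u
    have := fam_log_vec hh h0p (w β * m β) k hk hlam u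
    push_cast at this
    exact this
  obtain ⟨hM, hH⟩ := h8 (Tor n) (edges n) (edges_ne (by omega)) β hβ (fun u => h (u + v)) h
    (fun u => hpos _) hpos _ hd0 hd2 hlog x
  rw [ht n β h v x, ← hzk] at hM hH
  have hM' : 0 < 1 - 2 * rho (edges n) β h x :=
    (h8 (Tor n) (edges n) (edges_ne (by omega)) β hβ h h hpos hpos 0 le_rfl
      (by rw [mul_zero]; positivity) (fun u => by rw [sub_self, abs_zero]) x).1
  -- the end
  have h10 : 1 / (1 - 2 * rho (edges n) β h z) ≤ 1 + etaB β / 7 := by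
    rw [div_le_iff₀ hM]
    nlinarith
  have h11 : 1 / (1 - 2 * rho (edges n) β h x) ≤ 1 + 3 * (etaB β / 7) := by linarith
  rw [div_le_iff₀ hM'] at h11
  by_contra hcon
  push Not at hcon
  nlinarith

end

end Vale.Agent.P361.LRO
end

section

/-! P361, LRO: the Harnack step of block (8).  `F = 1/M` is analytic in the strip `|Im z| < π/2`
with `Re F ≥ cos (Im z)`; then `f = F - 1` satisfies `f y ≤ 2 f x + (9/2) (y-x)^2`. -/

namespace Vale.Agent.P361.LRO

open Complex Metric Set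

theorem norm_sub_le_norm_add {w g : ℂ} (hw : 0 ≤ w.re) (hg : 0 ≤ g.re) (hgi : g.im = 0) :
    ‖w - g‖ ≤ ‖w + g‖ := by
  rw [Complex.norm_def, Complex.norm_def]
  apply Real.sqrt_le_sqrt
  simp only [Complex.normSq_apply, Complex.sub_re, Complex.sub_im, Complex.add_re,
    Complex.add_im, hgi]
  nlinarith [mul_nonneg hw hg]

/-- Harnack inequality with radius three times the distance, at real values. -/
theorem harnack_ball (G : ℂ → ℂ) (c z : ℂ) {r : ℝ} (hr : 0 < r)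
    (hG : DifferentiableOn ℂ G (ball c r)) (hre : ∀ w ∈ ball c r, 0 ≤ (G w).re)
    (hz : 3 * dist z c ≤ r) (hc : (G c).im = 0) (hzi : (G z).im = 0) :
    (G z).re ≤ 2 * (G c).re := by
  have hzb : z ∈ ball c r := by
    rw [mem_ball]
    have := dist_nonneg (x := z) (y := c)
    rcases this.eq_or_lt with h | h
    · rw [← h]; exact hr
    · linarith
  have hcb : c ∈ ball c r := mem_ball_self hr
  refine le_of_forall_pos_le_add fun δ hδ => ?_
  set g : ℂ := (((G c).re + δ : ℝ) : ℂ) with hg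
  have hgpos : 0 < (G c).re + δ := by have := hre c hcb; linarith
  have hden : ∀ w ∈ ball c r, (G w + (δ : ℂ)) + g ≠ 0 := by
    intro w hw h0
    have := congrArg Complex.re h0
    simp only [hg, Complex.add_re, Complex.ofReal_re, Complex.zero_re] at this
    have h1 := hre w hw
    linarith
  have hGc : G c + (δ : ℂ) = g := by
    apply Complex.ext
    · simp [hg]
    · simp [hg, hc]
  let φ : ℂ → ℂ := fun w => ((G w + (δ : ℂ)) - g) / ((G w + (δ : ℂ)) + g)
  have hφd : DifferentiableOn ℂ φ (ball c r) := by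
    refine DifferentiableOn.div ?_ ?_ hden
    · exact (hG.add_const _).sub_const _
    · exact (hG.add_const _).add_const _
  have hφc : φ c = 0 := by simp [φ, hGc]
  have hmaps : MapsTo φ (ball c r) (closedBall (φ c) 1) := by
    intro w hw
    rw [hφc, mem_closedBall, dist_zero_right, norm_div]
    refine div_le_one_of_le₀ ?_ (norm_nonneg _)
    refine norm_sub_le_norm_add ?_ ?_ ?_
    · have := hre w hw
      simp only [Complex.add_re, Complex.ofReal_re]; linarith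
    · simp only [hg, Complex.ofReal_re]; linarith
    · simp [hg]
  have hs := dist_le_div_mul_dist_of_mapsTo_ball hφd hmaps hzb
  rw [hφc, dist_zero_right, norm_div] at hs
  have h13 : 1 / r * dist z c ≤ 1 / 3 := by
    rw [one_div_mul_eq_div, div_le_div_iff₀ hr (by norm_num)]
    linarith
  have hs' := hs.trans h13
  have hnp : 0 < ‖(G z + (δ : ℂ)) + g‖ := norm_pos_iff.mpr (hden z hzb)
  rw [div_le_iff₀ hnp] at hs'
  have e1 : (G z + (δ : ℂ)) - g = (((G z).re + δ - ((G c).re + δ) : ℝ) : ℂ) := by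
    apply Complex.ext <;> simp [hg, hzi]
  have e2 : (G z + (δ : ℂ)) + g = (((G z).re + δ + ((G c).re + δ) : ℝ) : ℂ) := by
    apply Complex.ext <;> simp [hg, hzi]
  rw [e1, e2, Complex.norm_real, Complex.norm_real, Real.norm_eq_abs, Real.norm_eq_abs,
    abs_of_pos (by have := hre z hzb; linarith : 0 < (G z).re + δ + ((G c).re + δ))] at hs'
  have := (le_abs_self _).trans hs'
  linarith

/-- The Harnack step: `f = F - 1` with `Re F ≥ cos (Im z)` in the strip `|Im z| < π/2`. -/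
theorem harnack_strip (F : ℂ → ℂ)
    (hF : DifferentiableOn ℂ F {z | |z.im| < Real.pi / 2})
    (hre : ∀ z : ℂ, |z.im| < Real.pi / 2 → Real.cos z.im ≤ (F z).re)
    (x y : ℝ) (hx : (F x).im = 0) (hy : (F y).im = 0) (hd : 3 * |y - x| < Real.pi / 2) :
    (F y).re - 1 ≤ 2 * ((F x).re - 1) + (9 / 2) * (y - x) ^ 2 := by
  have hx1 : 1 ≤ (F x).re := by
    have := hre x (by simp [Real.pi_pos])
    simpa using this
  rcases eq_or_ne x y with rfl | hne
  · simp; linarith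
  set d := |y - x| with hdd
  have hdpos : 0 < d := abs_pos.mpr (sub_ne_zero.mpr hne.symm)
  have him : ∀ w ∈ ball (x : ℂ) (3 * d), |w.im| < 3 * d := by
    intro w hw
    rw [mem_ball, Complex.dist_eq] at hw
    have h1 := Complex.abs_im_le_norm (w - x)
    simp only [Complex.sub_im, Complex.ofReal_im, sub_zero] at h1
    linarith
  have h := harnack_ball (fun w => F w + (((3 * d) ^ 2 / 2 - 1 : ℝ) : ℂ)) x y (r := 3 * d)
    (by positivity) ?_ ?_ ?_ ?_ ?_
  · simp only [Complex.add_re, Complex.ofReal_re] at h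
    have hd2 : d ^ 2 = (y - x) ^ 2 := by rw [hdd, sq_abs]
    nlinarith [h, hd2]
  · refine (hF.mono ?_).add_const _
    intro w hw
    exact (him w hw).trans hd
  · intro w hw
    have h1 := him w hw
    have h2 := hre w (h1.trans hd)
    have h3 := Real.one_sub_sq_div_two_le_cos (x := w.im)
    have h4 : w.im ^ 2 ≤ (3 * d) ^ 2 := by
      rw [← sq_abs w.im]
      exact pow_le_pow_left₀ (abs_nonneg _) h1.le 2
    simp only [Complex.add_re, Complex.ofReal_re]
    linarith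
  · rw [Complex.dist_eq, ← Complex.ofReal_sub, Complex.norm_real, Real.norm_eq_abs]
  · rw [Complex.add_im, Complex.ofReal_im, hx, add_zero]
  · rw [Complex.add_im, Complex.ofReal_im, hy, add_zero]

end Vale.Agent.P361.LRO
end

section

/-!
P361, step (8) at finite Trotter number: zero-free strip and the Harnack inequality for the
magnetization.
-/

namespace Vale.Agent.P361.LRO

open Complex Matrix

noncomputable section

variable {V : Type*} [Fintype V] [DecidableEq V]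

/-- All gates of one step. -/
def gprod (l : List (V × V)) (a b : ℝ) : Matrix (V → Fin 2) (V → Fin 2) ℂ :=
  (l.map fun e => gate a b e.1 e.2).prod

lemma good_gprod {g : ℝ} (l : List (V × V)) {a b : ℝ} (ha : 0 ≤ a) (hb : 0 ≤ b)
    (hab : 0 < a + b) : Good g (gprod l a b) := by
  refine Good.list fun A hA => ?_
  obtain ⟨e, _, rfl⟩ := List.mem_map.mp hA
  exact good_gate ha hb hab _ _

lemma par_gprod (l : List (V × V)) (a b : ℝ) : par * gprod l a b = gprod l a b * par := by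
  induction l with
  | nil => simp [gprod]
  | cons e l ih =>
    have : gprod (e :: l) a b = gate a b e.1 e.2 * gprod l a b := by simp [gprod]
    rw [this, ← Matrix.mul_assoc, par_gate, Matrix.mul_assoc, ih, Matrix.mul_assoc]

/-- One Trotter step. -/
def step (l : List (V × V)) (a b : ℝ) (s : V → ℂ) : Matrix (V → Fin 2) (V → Fin 2) ℂ :=
  gprod l a b * fieldMat s

lemma strict_step {g : ℝ} (hg : 0 < Real.cos g) (l : List (V × V)) {a b : ℝ} (ha : 0 ≤ a)
    (hb : 0 ≤ b) (hab : 0 < a + b) {s : V → ℂ}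
    (hs : ∀ x, |(s x).im| * |Real.sin g| < (s x).re * Real.cos g) :
    Strict g (step l a b s) :=
  Strict.mul_left (good_gprod l ha hb hab) (strict_field hg hs)

lemma strict_pow {g : ℝ} {A : Matrix (V → Fin 2) (V → Fin 2) ℂ} (h : Strict g A) (n : ℕ) :
    Strict g (A ^ (n + 1)) := by
  rw [pow_succ]
  exact Strict.mul_left (h.good.pow n) h

lemma par_step (l : List (V × V)) (a b : ℝ) (s : V → ℂ) :
    par * step l a b s = step l a b s * par := by
  rw [step, ← Matrix.mul_assoc, par_gprod, Matrix.mul_assoc, par_field, Matrix.mul_assoc]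

lemma par_pow {A : Matrix (V → Fin 2) (V → Fin 2) ℂ} (h : par * A = A * par) (n : ℕ) :
    par * A ^ n = A ^ n * par := by
  have : Commute par A := h
  exact (this.pow_right n).eq

/-- Partition function of the Trotter word. -/
def ZW (l : List (V × V)) (a b : ℝ) (N : ℕ) (s : V → ℂ) : ℂ := (step l a b s ^ N).trace

/-- The same with `σ³_x` inserted. -/
def WW (l : List (V × V)) (a b : ℝ) (N : ℕ) (x : V) (s : V → ℂ) : ℂ :=
  (ins x s3 * step l a b s ^ N).trace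

lemma WW_ne_zero (l : List (V × V)) {a b : ℝ} (ha : 0 ≤ a) (hb : 0 ≤ b) (hab : 0 < a + b)
    {N : ℕ} (hN : 2 ≤ N) (x : V) {s : V → ℂ} (hs : ∀ x, 0 < (s x).re) :
    WW l a b N x s ≠ 0 := by
  obtain ⟨n, rfl⟩ : ∃ n, N = n + 1 + 1 := ⟨N - 2, by omega⟩
  have h0 : Strict 0 (step l a b s) := strict_step (by simp) l ha hb hab (by simpa using hs)
  have e : step l a b s ^ (n + 1 + 1) = step l a b s ^ (n + 1) * step l a b s := pow_succ _ _
  rw [WW, e]
  exact trace_s3_ne_zero x h0 (strict_pow h0 n) (by rw [← e]; exact par_pow (par_step l a b s) _)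

/-- The half plane bound at finite Trotter number. -/
lemma re_ZW_div {l : List (V × V)} {a b : ℝ} (ha : 0 ≤ a) (hb : 0 ≤ b) (hab : 0 < a + b)
    {N : ℕ} (hN : 2 ≤ N) (x : V) {al : ℝ} (hal0 : 0 ≤ al) (hal : al < Real.pi / 2) {s : V → ℂ}
    (hs : ∀ g : ℝ, |g| < Real.pi / 2 - al →
      ∀ x, |(s x).im| * |Real.sin g| < (s x).re * Real.cos g) :
    Real.cos al ≤ (ZW l a b N s / WW l a b N x s).re := by
  have hpi := Real.pi_pos
  have hs0 : ∀ x, 0 < (s x).re := fun y => by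
    have := hs 0 (by rw [abs_zero]; linarith) y
    simpa using this
  refine region hal0 hal (WW_ne_zero l ha hb hab hN x hs0) fun t ht => ?_
  obtain ⟨n, rfl⟩ : ∃ n, N = n + 1 := ⟨N - 1, by omega⟩
  set c : ℝ := (Real.pi / 2 - al) / (Real.pi - al) with hc
  have hd : 0 < Real.pi - al := by linarith
  have hc0 : 0 < c := div_pos (by linarith) hd
  have hg1 : |t.re * c| < Real.pi / 2 - al := by
    rw [abs_mul, abs_of_pos hc0]
    calc |t.re| * c < (Real.pi - al) * c := mul_lt_mul_of_pos_right ht hc0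
      _ = Real.pi / 2 - al := by rw [hc]; field_simp
  have hg2 : |t.re - t.re * c| < Real.pi / 2 := by
    have e : t.re - t.re * c = t.re * (1 - c) := by ring
    have h1c : 1 - c = (Real.pi / 2) / (Real.pi - al) := by
      rw [hc]; field_simp; ring
    have h1c0 : 0 < 1 - c := by rw [h1c]; positivity
    rw [e, abs_mul, abs_of_pos h1c0]
    calc |t.re| * (1 - c) < (Real.pi - al) * (1 - c) := mul_lt_mul_of_pos_right ht h1c0
      _ = Real.pi / 2 := by rw [h1c]; field_simp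
  have hcg : 0 < Real.cos (t.re * c) := by
    rw [← Real.cos_abs]
    exact Real.cos_pos_of_mem_Ioo ⟨by have := abs_nonneg (t.re * c); linarith, by linarith⟩
  have hct : 0 < Real.cos (t.re - t.re * c) := by
    rw [← Real.cos_abs]
    exact Real.cos_pos_of_mem_Ioo ⟨by have := abs_nonneg (t.re - t.re * c); linarith, hg2⟩
  exact trace_ins_ne_zero x hct (strict_pow (strict_step hcg l ha hb hab (hs _ hg1)) n)
    (par_pow (par_step l a b s) _)

/-! ### Differentiability -/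

/-- Entrywise differentiability. -/
def MD (A : ℂ → Matrix (V → Fin 2) (V → Fin 2) ℂ) : Prop :=
  ∀ σ τ, Differentiable ℂ fun ζ => A ζ σ τ

omit [Fintype V] [DecidableEq V] in
lemma MD.const (A : Matrix (V → Fin 2) (V → Fin 2) ℂ) : MD fun _ => A := fun _ _ =>
  differentiable_const _

lemma MD.mul {A B : ℂ → Matrix (V → Fin 2) (V → Fin 2) ℂ} (hA : MD A) (hB : MD B) :
    MD fun ζ => A ζ * B ζ := fun σ τ => by
  simp only [Matrix.mul_apply]
  exact Differentiable.fun_sum fun i _ => (hA σ i).mul (hB i τ)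

lemma MD.pow {A : ℂ → Matrix (V → Fin 2) (V → Fin 2) ℂ} (hA : MD A) (n : ℕ) :
    MD fun ζ => A ζ ^ n := by
  induction n with
  | zero => simp only [pow_zero]; exact MD.const 1
  | succ n ih => simp only [pow_succ]; exact ih.mul hA

lemma MD.trace {A : ℂ → Matrix (V → Fin 2) (V → Fin 2) ℂ} (hA : MD A) :
    Differentiable ℂ fun ζ => (A ζ).trace := by
  simp only [Matrix.trace, Matrix.diag_apply]
  exact Differentiable.fun_sum fun i _ => hA i i

omit [DecidableEq V] in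
lemma MD.field {s : ℂ → V → ℂ} (hs : ∀ x, Differentiable ℂ fun ζ => s ζ x) :
    MD fun ζ => fieldMat (s ζ) := fun σ τ => by
  simp only [fieldMat, prodMat, Matrix.of_apply]
  refine Differentiable.fun_finsetProd fun y _ => ?_
  generalize σ y = i
  generalize τ y = j
  fin_cases i <;> fin_cases j <;> simp [fieldFac]
  · exact (hs y).cexp
  · exact (hs y).neg.cexp

lemma MD.step {s : ℂ → V → ℂ} (l : List (V × V)) (a b : ℝ)
    (hs : ∀ x, Differentiable ℂ fun ζ => s ζ x) : MD fun ζ => step l a b (s ζ) :=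
  (MD.const _).mul (MD.field hs)

/-! ### Real words -/

/-- Real matrices. -/
def RM (A : Matrix (V → Fin 2) (V → Fin 2) ℂ) : Prop := ∀ σ τ, (A σ τ).im = 0

lemma RM.mul {A B : Matrix (V → Fin 2) (V → Fin 2) ℂ} (hA : RM A) (hB : RM B) : RM (A * B) :=
  fun σ τ => by
    rw [Matrix.mul_apply, im_sum]
    exact Finset.sum_eq_zero fun i _ => by rw [mul_im, hA, hB]; ring

lemma RM.one : RM (1 : Matrix (V → Fin 2) (V → Fin 2) ℂ) := fun σ τ => by
  rw [Matrix.one_apply]; split <;> simp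

lemma RM.pow {A : Matrix (V → Fin 2) (V → Fin 2) ℂ} (hA : RM A) (n : ℕ) : RM (A ^ n) := by
  induction n with
  | zero => rw [pow_zero]; exact RM.one
  | succ n ih => rw [pow_succ]; exact ih.mul hA

lemma RM.trace {A : Matrix (V → Fin 2) (V → Fin 2) ℂ} (hA : RM A) : (A.trace).im = 0 := by
  rw [Matrix.trace, im_sum]
  exact Finset.sum_eq_zero fun i _ => hA i i

lemma RM.gate (a b : ℝ) (x y : V) : RM (gate a b x y) := fun σ τ => by
  simp only [Vale.Agent.P361.LRO.gate, swapMat, Matrix.add_apply, Matrix.smul_apply, smul_eq_mul,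
    Matrix.of_apply, Matrix.one_apply]
  split <;> split <;> simp

lemma RM.gprod (l : List (V × V)) (a b : ℝ) : RM (gprod l a b) := by
  induction l with
  | nil => simp only [Vale.Agent.P361.LRO.gprod, List.map_nil, List.prod_nil]; exact RM.one
  | cons e l ih =>
    simp only [Vale.Agent.P361.LRO.gprod, List.map_cons, List.prod_cons]
    exact (RM.gate _ _ _ _).mul ih

lemma RM.prodMat {R : V → Matrix (Fin 2) (Fin 2) ℂ} (h : ∀ y i j, (R y i j).im = 0) :
    RM (prodMat R) := fun σ τ => by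
  rw [Vale.Agent.P361.LRO.prodMat, Matrix.of_apply]
  have : ∀ s : Finset V, (∏ y ∈ s, R y (σ y) (τ y)).im = 0 := fun s => by
    induction s using Finset.induction_on with
    | empty => simp
    | insert y s hy ih => rw [Finset.prod_insert hy, mul_im, ih, h]; ring
  exact this _

lemma RM.fieldMat {s : V → ℂ} (hs : ∀ x, (s x).im = 0) : RM (fieldMat s) := by
  refine RM.prodMat fun y i j => ?_
  have e : s y = ((s y).re : ℂ) := by apply Complex.ext <;> simp [hs y]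
  rw [e]
  fin_cases i <;> fin_cases j <;> simp [fieldFac, exp_im]

lemma RM.ins (x : V) : RM (ins x s3) := by
  refine RM.prodMat fun y i j => ?_
  split
  · fin_cases i <;> fin_cases j <;> simp [s3]
  · rw [Matrix.one_apply]; split <;> simp

lemma ZW_im {l : List (V × V)} {a b : ℝ} {N : ℕ} {s : V → ℂ} (hs : ∀ x, (s x).im = 0) :
    (ZW l a b N s).im = 0 :=
  (((RM.gprod l a b).mul (RM.fieldMat hs)).pow N).trace

lemma WW_im {l : List (V × V)} {a b : ℝ} {N : ℕ} {x : V} {s : V → ℂ}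
    (hs : ∀ x, (s x).im = 0) : (WW l a b N x s).im = 0 :=
  ((RM.ins x).mul (((RM.gprod l a b).mul (RM.fieldMat hs)).pow N)).trace

/-- Step (8) at finite Trotter number. -/
theorem finite_harnack (l : List (V × V)) {a b : ℝ} (ha : 0 ≤ a) (hb : 0 ≤ b) (hab : 0 < a + b)
    {N : ℕ} (hN : 2 ≤ N) (x : V) {c c' : V → ℝ} (hc : ∀ y, 0 < c y) (hc' : ∀ y, 0 < c' y) {s : ℝ}
    (hs : 3 * s < Real.pi / 2) (hcc : ∀ y, |Real.log (c' y) - Real.log (c y)| ≤ s) :
    (ZW l a b N (fun y => (c' y : ℂ)) / WW l a b N x (fun y => (c' y : ℂ))).re - 1 ≤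
      2 * ((ZW l a b N (fun y => (c y : ℂ)) / WW l a b N x (fun y => (c y : ℂ))).re - 1) +
        (9 / 2) * s ^ 2 := by
  have hs0 : 0 ≤ s := (abs_nonneg _).trans (hcc x)
  set u : V → ℝ := fun y => (Real.log (c' y) - Real.log (c y)) / s with hu
  have hu1 : ∀ y, |u y| ≤ 1 := fun y => by
    rw [hu]; simp only
    rw [abs_div, abs_of_nonneg hs0]
    exact div_le_one_of_le₀ (hcc y) hs0
  set p : ℂ → V → ℂ := fun ζ y => (c y : ℂ) * exp (ζ * u y) with hp
  set F : ℂ → ℂ := fun ζ => ZW l a b N (p ζ) / WW l a b N x (p ζ) with hF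
  have hpre : ∀ ζ y, (p ζ y).re = c y * Real.exp (ζ.re * u y) * Real.cos (ζ.im * u y) := by
    intro ζ y
    simp only [hp, mul_re, exp_re, exp_im, ofReal_re, ofReal_im, mul_im, mul_zero, sub_zero,
      zero_mul, zero_add]
    ring
  have hpim : ∀ ζ y, (p ζ y).im = c y * Real.exp (ζ.re * u y) * Real.sin (ζ.im * u y) := by
    intro ζ y
    simp only [hp, mul_re, exp_re, exp_im, ofReal_re, ofReal_im, mul_im, mul_zero, sub_zero,
      zero_mul, zero_add, add_zero]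
    ring
  have hpi := Real.pi_pos
  have key : ∀ ζ : ℂ, |ζ.im| < Real.pi / 2 → ∀ g : ℝ, |g| < Real.pi / 2 - |ζ.im| →
      ∀ y, |(p ζ y).im| * |Real.sin g| < (p ζ y).re * Real.cos g := by
    intro ζ hζ g hg y
    rw [hpre, hpim, abs_mul, abs_of_pos (mul_pos (hc y) (Real.exp_pos _))]
    have h1 : |ζ.im * u y| ≤ |ζ.im| := by
      rw [abs_mul]
      calc |ζ.im| * |u y| ≤ |ζ.im| * 1 := mul_le_mul_of_nonneg_left (hu1 y) (abs_nonneg _)
        _ = _ := mul_one _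
    have h2 : |Real.sin (ζ.im * u y)| * |Real.sin g| <
        Real.cos (ζ.im * u y) * Real.cos g := by
      have e1 : |Real.sin (ζ.im * u y)| = Real.sin |ζ.im * u y| :=
        Real.abs_sin_eq_sin_abs_of_abs_le_pi (by linarith)
      have e2 : |Real.sin g| = Real.sin |g| :=
        Real.abs_sin_eq_sin_abs_of_abs_le_pi (by have := abs_nonneg ζ.im; linarith)
      rw [e1, e2, ← Real.cos_abs (ζ.im * u y), ← Real.cos_abs g]
      have h3 : 0 < Real.cos (|ζ.im * u y| + |g|) :=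
        Real.cos_pos_of_mem_Ioo ⟨by
          have := abs_nonneg g; have := abs_nonneg (ζ.im * u y); linarith, by linarith⟩
      rw [Real.cos_add] at h3
      linarith
    calc c y * Real.exp (ζ.re * u y) * |Real.sin (ζ.im * u y)| * |Real.sin g|
        = (c y * Real.exp (ζ.re * u y)) * (|Real.sin (ζ.im * u y)| * |Real.sin g|) := by ring
      _ < (c y * Real.exp (ζ.re * u y)) * (Real.cos (ζ.im * u y) * Real.cos g) :=
          mul_lt_mul_of_pos_left h2 (mul_pos (hc y) (Real.exp_pos _))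
      _ = _ := by ring
  have hp0 : ∀ ζ : ℂ, |ζ.im| < Real.pi / 2 → ∀ y, 0 < (p ζ y).re := fun ζ hζ y => by
    have := key ζ hζ 0 (by rw [abs_zero]; linarith) y
    simpa using this
  have hpd : ∀ y, Differentiable ℂ fun ζ => p ζ y := fun y => by
    simp only [hp]
    fun_prop
  have hFd : DifferentiableOn ℂ F {z | |z.im| < Real.pi / 2} := by
    refine DifferentiableOn.div ?_ ?_ fun z hz => WW_ne_zero l ha hb hab hN x (hp0 z hz)
    · exact (((MD.step l a b hpd).pow N).trace).differentiableOn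
    · exact (((MD.const _).mul ((MD.step l a b hpd).pow N)).trace).differentiableOn
  have hFre : ∀ z : ℂ, |z.im| < Real.pi / 2 → Real.cos z.im ≤ (F z).re := fun z hz => by
    rw [← Real.cos_abs]
    exact re_ZW_div ha hb hab hN x (abs_nonneg _) hz (key z hz)
  have hp_real : ∀ (t : ℝ) y, (p t y).im = 0 := fun t y => by
    rw [hpim]; simp
  have hFim : ∀ t : ℝ, (F t).im = 0 := fun t => by
    simp only [hF]
    have h1 := ZW_im (l := l) (a := a) (b := b) (N := N) (hp_real t)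
    have h2 := WW_im (l := l) (a := a) (b := b) (N := N) (x := x) (hp_real t)
    rw [div_im, h1, h2]; simp
  have h := harnack_strip F hFd hFre 0 s (hFim 0) (hFim s)
    (by rw [sub_zero, abs_of_nonneg hs0]; exact hs)
  have e0 : p ((0 : ℝ) : ℂ) = fun y => (c y : ℂ) := by
    funext y; simp [hp]
  have e1 : p ((s : ℝ) : ℂ) = fun y => (c' y : ℂ) := by
    funext y
    have h1 : s * u y = Real.log (c' y) - Real.log (c y) := by
      rcases eq_or_ne s 0 with h0 | h0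
      · have := hcc y
        rw [h0] at this
        have := abs_nonpos_iff.mp this
        rw [h0, this, zero_mul]
      · rw [hu]; simp only; field_simp
    have h2 : c' y = c y * Real.exp (s * u y) := by
      rw [h1, Real.exp_sub, Real.exp_log (hc' y), Real.exp_log (hc y)]
      field_simp [(hc y).ne']
    simp only [hp]
    rw [h2]; push_cast; rfl
  simp only [hF] at h
  rw [e0, e1, sub_zero] at h
  exact h

end

end Vale.Agent.P361.LRO
end

section

/-!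
P361, block (8): the regularity statements `RegStmt`, `PHarn`.
-/

namespace Vale.Agent.P361.LRO.LY

open Finset Matrix Filter Topology

noncomputable section

section Conn

variable {V : Type} [Fintype V] [DecidableEq V]

theorem swapMat_eq (x y : V) : swapMat x y = swapC x y := by
  ext σ τ
  simp only [swapMat, swapC, Matrix.of_apply]
  have : τ = σ ∘ Equiv.swap x y ↔ σ = τ ∘ Equiv.swap x y := by
    constructor
    · rintro rfl; funext z; simp
    · rintro rfl; funext z; simp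
  simp only [this]

theorem gate_eq (x y : V) (p : ℝ) : gate (1 - p) p x y = gateC x y p := by
  unfold gate gateC
  rw [swapMat_eq]

theorem fieldMat_eq (b : V → ℝ) : fieldMat (fun y => ((b y / 2 : ℝ) : ℂ)) = sliceC b := by
  rw [fieldMat_eq_diagonal, sliceC]
  congr 1
  funext σ
  refine Finset.prod_congr rfl fun y _ => ?_
  generalize σ y = i
  fin_cases i <;> simp [fieldFac]

theorem ins_eq (z : V) : ins z s3 = cM (szM z) := by
  ext σ τ
  rw [ins_apply]
  simp only [cM, szM, Matrix.map_apply, Matrix.diagonal_apply]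
  by_cases h : σ = τ
  · subst h
    rw [if_pos rfl]
    have h1 : ∏ y ∈ Finset.univ.erase z, (1 : Matrix (Fin 2) (Fin 2) ℂ) (σ y) (σ y) = 1 :=
      Finset.prod_eq_one fun y _ => by simp
    rw [h1, mul_one]
    generalize σ z = i
    fin_cases i <;> simp [s3]
  · rw [if_neg h, Complex.ofReal_zero]
    obtain ⟨y, hy⟩ := Function.ne_iff.mp h
    by_cases hyz : y = z
    · subst hyz
      have : s3 (σ y) (τ y) = 0 := by
        generalize σ y = i at hy
        generalize τ y = j at hy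
        fin_cases i <;> fin_cases j <;> simp_all [s3]
      rw [this, zero_mul]
    · have h2 : ∏ y ∈ Finset.univ.erase z, (1 : Matrix (Fin 2) (Fin 2) ℂ) (σ y) (τ y) = 0 :=
        Finset.prod_eq_zero (Finset.mem_erase.mpr ⟨hyz, Finset.mem_univ y⟩)
          (Matrix.one_apply_ne hy)
      rw [h2, mul_zero]

theorem mul_pow_comm' {m : Type} [Fintype m] [DecidableEq m] (A B : Matrix m m ℂ) (n : ℕ) :
    (A * B) ^ (n + 1) = A * (B * A) ^ n * B := by
  induction n with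
  | zero => simp
  | succ n ih =>
    rw [pow_succ, ih, pow_succ]
    simp only [Matrix.mul_assoc]

/-- The two orders of the Trotter step have the same traces. -/
theorem trace_reorder {m : Type} [Fintype m] [DecidableEq m] (A B S : Matrix m m ℂ)
    (h : S * A = A * S) (n : ℕ) :
    ((A * B) ^ n * S).trace = (S * (B * A) ^ n).trace := by
  cases n with
  | zero => simp
  | succ n =>
    rw [mul_pow_comm', mul_pow_comm' B A]
    have e2 : (B * (A * B) ^ n * A : Matrix m m ℂ) = (B * A) ^ (n + 1) := (mul_pow_comm' B A n).symm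
    rw [Matrix.mul_assoc, Matrix.mul_assoc, Matrix.trace_mul_comm]
    have e3 : (B * A) ^ n * (B * S) * A = (B * A) ^ (n + 1) * S := by
      rw [pow_succ]
      simp only [Matrix.mul_assoc]
      rw [h]
    rw [e3, e2, Matrix.trace_mul_comm]

variable (L : List (V × V)) (β : ℝ) (h : V → ℝ) (N : ℕ)

theorem stepC_eq : stepC L β h N = fieldMat (fun y => ((β * h y / N / 2 : ℝ) : ℂ)) *
    gprod L (1 - (1 - Real.exp (-(β / N))) / 2) ((1 - Real.exp (-(β / N))) / 2) := by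
  unfold stepC gprod
  rw [fieldMat_eq (fun y => β * h y / N)]
  congr 2
  refine List.map_congr_left fun e _ => ?_
  rw [gate_eq]

theorem szM_comm (z : V) (b : V → ℝ) : cM (szM z) * sliceC b = sliceC b * cM (szM z) := by
  have h1 : cM (szM z) = Matrix.diagonal fun σ : V → Fin 2 =>
      (((if σ z = 0 then 1 else -1 : ℝ)) : ℂ) := by
    ext σ τ
    simp only [cM, szM, Matrix.map_apply, Matrix.diagonal_apply]
    split_ifs <;> simp
  rw [h1, sliceC, Matrix.diagonal_mul_diagonal, Matrix.diagonal_mul_diagonal]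
  congr 1
  funext σ
  ring

theorem trace_W (z : V) : (stepC L β h N ^ N * cM (szM z)).trace =
    WW L (1 - (1 - Real.exp (-(β / N))) / 2) ((1 - Real.exp (-(β / N))) / 2) N z
      (fun y => ((β * h y / N / 2 : ℝ) : ℂ)) := by
  rw [stepC_eq, trace_reorder, WW, ins_eq]
  · rfl
  · rw [fieldMat_eq (fun y => β * h y / N), szM_comm]

theorem trace_Z : (stepC L β h N ^ N).trace =
    ZW L (1 - (1 - Real.exp (-(β / N))) / 2) ((1 - Real.exp (-(β / N))) / 2) N
      (fun y => ((β * h y / N / 2 : ℝ) : ℂ)) := by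
  have h1 := trace_reorder (fieldMat (fun y => ((β * h y / N / 2 : ℝ) : ℂ)))
    (gprod L (1 - (1 - Real.exp (-(β / N))) / 2) ((1 - Real.exp (-(β / N))) / 2)) 1
    (by rw [Matrix.one_mul, Matrix.mul_one]) N
  rw [Matrix.mul_one, Matrix.one_mul] at h1
  rw [stepC_eq, h1, ZW]
  rfl

end Conn

/-- Division of two real complex numbers. -/
theorem re_div_of_im {z w : ℂ} (hz : z.im = 0) (hw : w.im = 0) : (z / w).re = z.re / w.re := by
  have e1 : z = ((z.re : ℝ) : ℂ) := by apply Complex.ext <;> simp [hz]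
  have e2 : w = ((w.re : ℝ) : ℂ) := by apply Complex.ext <;> simp [hw]
  rw [e1, e2, ← Complex.ofReal_div, Complex.ofReal_re, Complex.ofReal_re, Complex.ofReal_re]

theorem finReg : FinReg := by
  intro V _ _ L β h h' s N z hβ hh hh' hs hs' hd hN hZ hZ'
  have hN0 : (0 : ℝ) < N := by
    have : 0 < N := by omega
    exact_mod_cast this
  have hp0 : 0 ≤ (1 - Real.exp (-(β / N))) / 2 := by
    have : Real.exp (-(β / N)) ≤ 1 := Real.exp_le_one_iff.mpr (by
      have : 0 ≤ β / N := by positivity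
      linarith)
    linarith
  have hp1 : 0 ≤ 1 - (1 - Real.exp (-(β / N))) / 2 := by
    have := Real.exp_pos (-(β / N))
    linarith
  have hab : 0 < 1 - (1 - Real.exp (-(β / N))) / 2 + (1 - Real.exp (-(β / N))) / 2 := by
    linarith
  set c : V → ℝ := fun y => β * h y / N / 2 with hc
  set c' : V → ℝ := fun y => β * h' y / N / 2 with hc'
  have hcp : ∀ y, 0 < c y := fun y => by
    have := hh y
    rw [hc]; positivity
  have hcp' : ∀ y, 0 < c' y := fun y => by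
    have := hh' y
    rw [hc']; positivity
  have hlog : ∀ y, |Real.log (c' y) - Real.log (c y)| ≤ s := fun y => by
    have e1 : c' y = (β / N / 2) * h' y := by rw [hc']; ring
    have e2 : c y = (β / N / 2) * h y := by rw [hc]; ring
    have h0 : β / N / 2 ≠ 0 := by positivity
    rw [e1, e2, Real.log_mul h0 (hh' y).ne', Real.log_mul h0 (hh y).ne', add_sub_add_left_eq_sub,
      abs_sub_comm]
    exact hd y
  have key := finite_harnack L hp1 hp0 hab hN z hcp hcp' hs' hlog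
  have im0 : ∀ y, (((c y : ℝ)) : ℂ).im = 0 := fun y => Complex.ofReal_im _
  have im0' : ∀ y, (((c' y : ℝ)) : ℂ).im = 0 := fun y => Complex.ofReal_im _
  have r1 := re_ZW_div (l := L) hp1 hp0 hab hN z (al := 0) le_rfl (by positivity)
    (s := fun y => ((c y : ℝ) : ℂ)) (fun g hg x => by
      rw [Complex.ofReal_im, Complex.ofReal_re, abs_zero, zero_mul]
      rw [sub_zero, abs_lt] at hg
      exact mul_pos (hcp x) (Real.cos_pos_of_mem_Ioo ⟨by linarith [hg.1], hg.2⟩))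
  have r1' := re_ZW_div (l := L) hp1 hp0 hab hN z (al := 0) le_rfl (by positivity)
    (s := fun y => ((c' y : ℝ) : ℂ)) (fun g hg x => by
      rw [Complex.ofReal_im, Complex.ofReal_re, abs_zero, zero_mul]
      rw [sub_zero, abs_lt] at hg
      exact mul_pos (hcp' x) (Real.cos_pos_of_mem_Ioo ⟨by linarith [hg.1], hg.2⟩))
  rw [Real.cos_zero] at r1 r1'
  have eZ := trace_Z L β h N
  have eZ' := trace_Z L β h' N
  have eW := trace_W L β h N z
  have eW' := trace_W L β h' N z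
  rw [re_div_of_im (ZW_im im0) (WW_im im0)] at r1 key
  rw [re_div_of_im (ZW_im im0') (WW_im im0')] at r1' key
  rw [eW, eW', eZ, eZ']
  rw [eZ] at hZ
  rw [eZ'] at hZ'
  refine ⟨?_, ?_, key⟩
  · by_contra hcon
    rw [not_lt] at hcon
    have : (ZW L (1 - (1 - Real.exp (-(β / N))) / 2) ((1 - Real.exp (-(β / N))) / 2) N
      (fun y => ((c y : ℝ) : ℂ))).re / (WW L (1 - (1 - Real.exp (-(β / N))) / 2)
        ((1 - Real.exp (-(β / N))) / 2) N z (fun y => ((c y : ℝ) : ℂ))).re ≤ 0 :=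
      div_nonpos_of_nonneg_of_nonpos hZ.le hcon
    linarith
  · by_contra hcon
    rw [not_lt] at hcon
    have : (ZW L (1 - (1 - Real.exp (-(β / N))) / 2) ((1 - Real.exp (-(β / N))) / 2) N
      (fun y => ((c' y : ℝ) : ℂ))).re / (WW L (1 - (1 - Real.exp (-(β / N))) / 2)
        ((1 - Real.exp (-(β / N))) / 2) N z (fun y => ((c' y : ℝ) : ℂ))).re ≤ 0 :=
      div_nonpos_of_nonneg_of_nonpos hZ'.le hcon
    linarith

/-- Block (8). -/
theorem regStmt : RegStmt := regStmt_of finReg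

/-- Block (8), the form of `Top.lean`. -/
theorem pHarn : PHarn := fun V _ _ L _ β hβ h h' hh hh' d hd hd' hl z =>
  regStmt V L β h h' d hβ hh hh' hd hd' hl z

end

end Vale.Agent.P361.LRO.LY
end

section

/-!
P361, stage 3, block (B): the bootstrap on the capped family.
-/

namespace Vale.Agent.P361.LRO.S3

open Finset Matrix Filter Topology

noncomputable section

/-- A good point in a cube tiled by blocks. -/
theorem good_point {n : ℕ} [NeZero n] (x : Tor n) {w m : ℕ} (hw : 0 < w) (hm : 0 < m)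
    (hwn : w ≤ n) (F : Tor n → ℝ) (G : (Fin 3 → Fin m) → ℝ) {R : ℝ}
    (hF : ∀ y : Fin 3 → Fin m,
      (∑ z ∈ cube n (x + fun i => ((w * (y i : ℕ) : ℕ) : ZMod n)) w, F z) /
        (cube n (x + fun i => ((w * (y i : ℕ) : ℕ) : ZMod n)) w).card ≤ G y)
    (hG : ∑ y, G y ≤ (m : ℝ) ^ 3 * R) :
    ∃ k : Fin 3 → ℕ, (∀ i, k i ≤ w * m) ∧ F (x + fun i => (k i : ZMod n)) ≤ R := by
  set bl : (Fin 3 → Fin m) → Finset (Tor n) := fun y =>
    cube n (x + fun i => ((w * (y i : ℕ) : ℕ) : ZMod n)) w with hbl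
  have hcard : ∀ z : Tor n, (cube n z w).card = w ^ 3 := by
    intro z
    unfold cube
    rw [Finset.card_image_of_injective, Finset.card_univ, Fintype.card_fun, Fintype.card_fin,
      Fintype.card_fin]
    intro a b hab
    have h2 := add_left_cancel hab
    funext i
    have h3 := congrFun h2 i
    have h4 : ((a i : ℕ) : ZMod n) = ((b i : ℕ) : ZMod n) := h3
    rw [ZMod.natCast_eq_natCast_iff'] at h4
    rw [Nat.mod_eq_of_lt ((a i).2.trans_le hwn), Nat.mod_eq_of_lt ((b i).2.trans_le hwn)] at h4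
    exact Fin.ext h4
  obtain ⟨y, z, hz, hFz⟩ : ∃ y, ∃ z ∈ bl y, F z ≤ R := by
    by_contra hcon
    push Not at hcon
    have hcp : ∀ y, (0 : ℝ) < (bl y).card := by
      intro y
      rw [hbl]
      dsimp only
      rw [hcard]
      positivity
    have h2 : ∀ y, R < (∑ z ∈ bl y, F z) / (bl y).card := by
      intro y
      rw [lt_div_iff₀ (hcp y)]
      have h3 : ∑ z ∈ bl y, R < ∑ z ∈ bl y, F z := by
        refine Finset.sum_lt_sum_of_nonempty ?_ fun z hz => hcon y z hz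
        rw [← Finset.card_pos]
        exact_mod_cast hcp y
      rw [Finset.sum_const, nsmul_eq_mul] at h3
      linarith
    have : Nonempty (Fin m) := ⟨⟨0, hm⟩⟩
    have h3 : ∑ y : Fin 3 → Fin m, R < ∑ y, G y :=
      Finset.sum_lt_sum_of_nonempty Finset.univ_nonempty fun y _ => (h2 y).trans_le (hF y)
    rw [Finset.sum_const, Finset.card_univ, Fintype.card_fun, Fintype.card_fin, Fintype.card_fin,
      nsmul_eq_mul] at h3
    push_cast at h3
    linarith
  rw [hbl] at hz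
  unfold cube at hz
  dsimp only at hz
  rw [Finset.mem_image] at hz
  obtain ⟨a, -, ha⟩ := hz
  refine ⟨fun i => w * (y i : ℕ) + (a i : ℕ), fun i => ?_, ?_⟩
  · have h2 : (y i : ℕ) + 1 ≤ m := (y i).2
    have h3 := Nat.mul_le_mul_left w h2
    have h4 : (a i : ℕ) < w := (a i).2
    rw [mul_add, mul_one] at h3
    exact (Nat.add_le_add_left h4.le _).trans h3
  · have h5 : (x + fun i => ((w * (y i : ℕ) + (a i : ℕ) : ℕ) : ZMod n)) = z := by
      rw [← ha, add_assoc]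
      congr 1
      funext i
      simp only [Pi.add_apply]
      push_cast
      ring
    rw [h5]
    exact hFz

/-- the scale: `√β ≤ 3 ^ a ≤ 3 √β` -/
def a3 (β : ℝ) : ℕ := Nat.clog 3 ⌈Real.sqrt β⌉₊

theorem a3_ge (β : ℝ) : Real.sqrt β ≤ (3 : ℝ) ^ a3 β := by
  refine (Nat.le_ceil _).trans ?_
  have : ⌈Real.sqrt β⌉₊ ≤ 3 ^ a3 β := Nat.le_pow_clog (by norm_num) _
  exact_mod_cast this

theorem a3_le {β : ℝ} (hβ : 1 < β) : (3 : ℝ) ^ a3 β ≤ 3 * Real.sqrt β := by
  have h1 : 1 < Real.sqrt β := by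
    rw [Real.lt_sqrt (by norm_num)]
    linarith
  have h2 : 1 < ⌈Real.sqrt β⌉₊ := by
    rw [Nat.lt_ceil]
    exact_mod_cast h1
  have h3 := Nat.pow_pred_clog_lt_self (b := 3) (by norm_num) h2
  have h4 : ((3 ^ (Nat.clog 3 ⌈Real.sqrt β⌉₊).pred : ℕ) : ℝ) < Real.sqrt β := by
    rwa [← Nat.lt_ceil]
  have h5 : 0 < Nat.clog 3 ⌈Real.sqrt β⌉₊ := Nat.clog_pos (by norm_num) h2
  unfold a3
  obtain ⟨k, hk⟩ := Nat.exists_eq_succ_of_ne_zero h5.ne'
  rw [hk] at h4 ⊢
  rw [Nat.pred_succ] at h4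
  push_cast at h4 ⊢
  rw [pow_succ]
  linarith

/-- regularity: from a good point to `x` -/
theorem reg_step {n : ℕ} [NeZero n] {β : ℝ} (hβp : 0 < β)
    (h3 : 81 ≤ β ^ (3 / 2 : ℝ)) {g0 : ℝ} (g0p : 0 < g0) {g : Tor n → ℝ}
    (hg : Fam n g0 (β ^ (-(9 / 2) : ℝ)) g) (x : Tor n) {l : ℕ} (hl : (l : ℝ) ≤ 2 * β ^ (3 : ℝ))
    {k : Fin 3 → ℕ} (hk : ∀ i, k i ≤ l) {r : ℝ} (hrp : 0 < r) (hr8 : r ≤ 1 / 8)
    (hρz : rho (edges n) β (fun u => g u / β) (x + fun i => (k i : ZMod n)) ≤ r) :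
    rho (edges n) β (fun u => g u / β) x ≤ 3 * r + β ^ (-(3 / 2) : ℝ) := by
  have hp : ∀ a : ℝ, 0 < β ^ a := fun a => Real.rpow_pos_of_pos hβp a
  have hgp : ∀ y, 0 < g y := fun y => g0p.trans_le (hg.1 y).1
  set lam : ℝ := β ^ (-(9 / 2) : ℝ) with hlam
  have hlamp : 0 < lam := hp _
  set v : Tor n := fun i => (k i : ZMod n) with hv
  set d : ℝ := 3 * (l : ℝ) * lam with hd
  have hd0 : 0 ≤ d := by positivity
  have hd1 : d ≤ 6 * β ^ (-(3 / 2) : ℝ) := by
    have h5 : β ^ (3 : ℝ) * lam = β ^ (-(3 / 2) : ℝ) := by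
      rw [hlam, ← Real.rpow_add hβp]
      norm_num
    calc d ≤ 3 * (2 * β ^ (3 : ℝ)) * lam := by
          rw [hd]
          exact mul_le_mul_of_nonneg_right (by linarith) hlamp.le
      _ = 6 * β ^ (-(3 / 2) : ℝ) := by rw [← h5]; ring
  have hβ2 : β ^ (-(3 / 2) : ℝ) ≤ 1 / 81 := by
    rw [Real.rpow_neg hβp.le, one_div]
    exact inv_anti₀ (by norm_num) h3
  have hlog : ∀ u, |Real.log (g (u + v) / β) - Real.log (g u / β)| ≤ d := by
    intro u
    rw [Real.log_div (hgp _).ne' hβp.ne', Real.log_div (hgp _).ne' hβp.ne', sub_sub_sub_cancel_right]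
    exact fam_log_vec hg g0p l k hk hlamp.le u
  have hpi : 3 * d < Real.pi / 2 := by
    have := Real.pi_gt_three
    linarith
  obtain ⟨hMz, hH⟩ := LY.regStmt (Tor n) (edges n) β (fun u => g (u + v) / β) (fun u => g u / β) d
    hβp (fun u => div_pos (hgp _) hβp) (fun u => div_pos (hgp _) hβp) hd0 hpi hlog x
  have hMx : 0 < 1 - 2 * rho (edges n) β (fun u => g u / β) x :=
    (LY.regStmt (Tor n) (edges n) β (fun u => g u / β) (fun u => g u / β) 0 hβp
      (fun u => div_pos (hgp _) hβp) (fun u => div_pos (hgp _) hβp) le_rfl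
      (by rw [mul_zero]; positivity) (fun u => by rw [sub_self, abs_zero]) x).1
  have htr : rho (edges n) β (fun u => g (u + v) / β) x =
      rho (edges n) β (fun u => g u / β) (x + v) := transStmt n β (fun u => g u / β) x v
  rw [htr] at hMz hH
  have e1 : 1 / (1 - 2 * rho (edges n) β (fun u => g u / β) (x + v)) ≤ 1 + 3 * r := by
    rw [div_le_iff₀ hMz]
    nlinarith
  have e2 : 1 + 2 * rho (edges n) β (fun u => g u / β) x ≤
      1 / (1 - 2 * rho (edges n) β (fun u => g u / β) x) := by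
    rw [le_div_iff₀ hMx]
    nlinarith [sq_nonneg (rho (edges n) β (fun u => g u / β) x)]
  have e3 : d ^ 2 ≤ 36 * (β ^ (-(3 / 2) : ℝ)) ^ 2 := by
    have := pow_le_pow_left₀ hd0 hd1 2
    linarith [this]
  have e4 : (β ^ (-(3 / 2) : ℝ)) ^ 2 = β ^ (-(3 : ℝ)) := by
    rw [← Real.rpow_natCast (β ^ (-(3 / 2) : ℝ)), ← Real.rpow_mul hβp.le]
    norm_num
  have e5 : 81 * β ^ (-(3 : ℝ)) ≤ β ^ (-(3 / 2) : ℝ) := by
    have h4 : β ^ (-(3 / 2) : ℝ) = β ^ (3 / 2 : ℝ) * β ^ (-(3 : ℝ)) := by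
      rw [← Real.rpow_add hβp]
      norm_num
    rw [h4]
    exact mul_le_mul_of_nonneg_right h3 (hp _).le
  rw [e4] at e3
  linarith

/-- **The step of the bootstrap.** -/
theorem step3 (hK : KappaStmt3) (hD : DirStmt3) (hE : EnergyStmt3) :
    ∃ Cs : ℝ, 0 < Cs ∧ ∀ C7 : ℝ, 2 * Cs ≤ C7 → ∃ β0 : ℝ, 1 < β0 ∧ ∀ β : ℝ, β0 ≤ β → ∃ n0 : ℕ,
      ∀ (n : ℕ) [NeZero n], n0 ≤ n → Odd n → ∀ g0 : ℝ, (n : ℝ) ^ (-(1 / 4) : ℝ) ≤ g0 → g0 ≤ 1 →
        BH3 n β (C7 * β ^ (-(3 / 2) : ℝ)) g0 → BH3 n β (C7 * β ^ (-(3 / 2) : ℝ) / 2) g0 := by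
  obtain ⟨c2, c3, hc2, hc3, hK⟩ := hK
  obtain ⟨CD, hCD, hD⟩ := hD
  obtain ⟨CE', βE, hE⟩ := hE
  set CE : ℝ := max CE' 1 with hCE
  have hCE1 : 1 ≤ CE := le_max_right _ _
  set c7 : ℝ := min c2 1 with hc7
  have hc7p : 0 < c7 := lt_min hc2 one_pos
  set Cr : ℝ := CD * (1 + 1 / c3) * CE + CD / (c3 * c7) with hCr
  have hCrp : 0 < Cr := by positivity
  refine ⟨3 * Cr + 1, by positivity, fun C7 hC7 => ?_⟩
  have hC7p : 0 < C7 := by linarith
  obtain ⟨βK, hK⟩ := hK C7 c7 hC7p hc7p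
  have hlim : ∀ (a : ℝ), 0 < a → ∀ B : ℝ, ∀ᶠ β : ℝ in atTop, B ≤ β ^ a := fun a ha B =>
    (tendsto_rpow_atTop ha).eventually_ge_atTop B
  obtain ⟨β1, hβ1⟩ := eventually_atTop.1 ((hlim (3 / 2) (by norm_num) (1 / c7)).and
    ((hlim (3 / 2) (by norm_num) (8 * Cr)).and ((hlim (3 / 2) (by norm_num) 81).and
      ((hlim (1 / 4) (by norm_num) 3).and (eventually_ge_atTop (9 : ℝ))))))
  refine ⟨max (max βE βK) (max β1 2), lt_max_of_lt_right (lt_max_of_lt_right (by norm_num)),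
    fun β hβ => ?_⟩
  have hβE : βE ≤ β := (le_max_left _ _).trans ((le_max_left _ _).trans hβ)
  have hβK : βK ≤ β := (le_max_right _ _).trans ((le_max_left _ _).trans hβ)
  obtain ⟨h1, h2, h3, h14, h9⟩ := hβ1 β ((le_max_left _ _).trans ((le_max_right _ _).trans hβ))
  have hβp : 0 < β := by linarith
  have hp : ∀ a : ℝ, 0 < β ^ a := fun a => Real.rpow_pos_of_pos hβp a
  obtain ⟨nK, hK⟩ := hK β hβK
  obtain ⟨nE, hE⟩ := hE β hβE
  set w : ℕ := 3 ^ a3 β with hw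
  have hwr : (w : ℝ) = (3 : ℝ) ^ a3 β := by
    rw [hw]
    push_cast
    rfl
  have hw1 : Real.sqrt β ≤ w := hwr ▸ a3_ge β
  have hw2 : (w : ℝ) ≤ 3 * Real.sqrt β := hwr ▸ a3_le (by linarith)
  have hsq : 3 ≤ Real.sqrt β := by
    rw [Real.le_sqrt (by norm_num) hβp.le]
    linarith
  have hss : Real.sqrt β * Real.sqrt β = β := Real.mul_self_sqrt hβp.le
  have hwp : (0 : ℝ) < w := by linarith
  have hwN : 0 < w := by exact_mod_cast hwp
  have hwβ : (w : ℝ) ≤ β := by nlinarith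
  have hw34 : (w : ℝ) ≤ β ^ (3 / 4 : ℝ) := by
    have e1 : β ^ (3 / 4 : ℝ) = β ^ (1 / 4 : ℝ) * Real.sqrt β := by
      rw [Real.sqrt_eq_rpow, ← Real.rpow_add hβp]
      norm_num
    rw [e1]
    exact hw2.trans (mul_le_mul_of_nonneg_right h14 (Real.sqrt_nonneg _))
  set m : ℕ := ⌈β ^ (3 : ℝ) / w⌉₊ with hm
  have hmp : 0 < m := Nat.ceil_pos.2 (div_pos (hp _) hwp)
  have hm1 : β ^ (3 : ℝ) ≤ w * m := by
    have := Nat.le_ceil (β ^ (3 : ℝ) / w)
    rw [div_le_iff₀ hwp] at this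
    rw [hm]
    linarith
  have hβ3 : β ≤ β ^ (3 : ℝ) := by
    conv_lhs => rw [← Real.rpow_one β]
    exact Real.rpow_le_rpow_of_exponent_le (by linarith) (by norm_num)
  have hm2 : (w : ℝ) * m ≤ 2 * β ^ (3 : ℝ) := by
    have h4 : (m : ℝ) < β ^ (3 : ℝ) / w + 1 := Nat.ceil_lt_add_one (div_pos (hp _) hwp).le
    have h5 : (w : ℝ) * m ≤ w * (β ^ (3 : ℝ) / w + 1) := mul_le_mul_of_nonneg_left h4.le hwp.le
    rw [mul_add, mul_div_cancel₀ _ hwp.ne', mul_one] at h5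
    linarith
  refine ⟨max (max nK nE) (max (w * m) 2), ?_⟩
  intro n _ hn hodd g0 hg0 hg1 hB g hg x
  have hnK : nK ≤ n := (le_max_left _ _).trans ((le_max_left _ _).trans hn)
  have hnE : nE ≤ n := (le_max_right _ _).trans ((le_max_left _ _).trans hn)
  have hnw : w * m ≤ n := (le_max_left _ _).trans ((le_max_right _ _).trans hn)
  have hwn : w ≤ n := le_trans (Nat.le_mul_of_pos_right _ hmp) hnw
  have hn0 : (0 : ℝ) < n := by exact_mod_cast NeZero.pos n
  have g0p : 0 < g0 := (Real.rpow_pos_of_pos hn0 _).trans_le hg0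
  have hgp : ∀ y, 0 < g y := fun y => g0p.trans_le (hg.1 y).1
  have hhp : ∀ y, 0 < g y / β := fun y => div_pos (hgp y) hβp
  set K : ℝ := c7 * β ^ (3 / 2 : ℝ) with hKdef
  have hK1 : 1 ≤ K := by
    rw [div_le_iff₀ hc7p] at h1
    rw [hKdef]
    linarith
  have hKp : 0 < K := by linarith
  have hβ32 : β ^ (3 / 2 : ℝ) = β * Real.sqrt β := by
    rw [Real.sqrt_eq_rpow]
    conv_rhs => rw [← Real.rpow_one β, ← Real.rpow_mul hβp.le, one_mul]
    rw [← Real.rpow_add hβp]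
    norm_num
  have hK2 : K ≤ c2 * β * 3 ^ a3 β := by
    rw [hKdef, hβ32, ← hwr]
    have h4 : c7 ≤ c2 := min_le_left _ _
    have h5 : c7 * (β * Real.sqrt β) ≤ c2 * (β * Real.sqrt β) :=
      mul_le_mul_of_nonneg_right h4 (by positivity)
    have h6 : c2 * β * Real.sqrt β ≤ c2 * β * w :=
      mul_le_mul_of_nonneg_left hw1 (by positivity)
    linarith
  have hinv : β ^ (-(3 / 2) : ℝ) = (β ^ (3 / 2 : ℝ))⁻¹ := Real.rpow_neg hβp.le _
  set r : ℝ := Cr * β ^ (-(3 / 2) : ℝ) with hr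
  -- the direction estimate in a block
  have hblock : ∀ z : Tor n, (∑ y ∈ cube n z w, rho (edges n) β (fun y => g y / β) y) /
      (cube n z w).card ≤ CD * (1 + 1 / c3) * yb (edges n) β (fun y => g y / β) (cube n z w) +
        CD / (c3 * c7) * β ^ (-(3 / 2) : ℝ) := by
    intro z
    have hkap := hK n hnK hodd (a3 β) (a3_ge β) (hwr ▸ hw34) K hK1 le_rfl hK2 g0 hg0 hg1 hB g hg z
    have hne : (cube n z w).Nonempty := by
      refine ⟨z + fun i => ((0 : ℕ) : ZMod n), ?_⟩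
      unfold cube
      rw [Finset.mem_image]
      exact ⟨fun _ => ⟨0, hwN⟩, Finset.mem_univ _, rfl⟩
    have h4 := hD (Tor n) (edges n) β (fun y => g y / β) K (c3 * K) (cube n z w) hβp
      (fun y => (hhp y).le) hK1 (by positivity) hne hkap
    have h5 : K / (c3 * K) = 1 / c3 := by field_simp
    have h6 : CD / (c3 * K) = CD / (c3 * c7) * β ^ (-(3 / 2) : ℝ) := by
      rw [hKdef, hinv]
      field_simp
    rw [h5, h6] at h4
    exact h4
  have hsum : ∑ y : Fin 3 → Fin m, (CD * (1 + 1 / c3) * yb (edges n) β (fun y => g y / β)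
      (cube n (x + fun i => ((w * (y i : ℕ) : ℕ) : ZMod n)) w) +
        CD / (c3 * c7) * β ^ (-(3 / 2) : ℝ)) ≤ (m : ℝ) ^ 3 * r := by
    rw [Finset.sum_add_distrib, ← Finset.mul_sum, Finset.sum_const, Finset.card_univ,
      Fintype.card_fun, Fintype.card_fin, Fintype.card_fin, nsmul_eq_mul, Nat.cast_pow]
    have hm3 : (0 : ℝ) < (m : ℝ) ^ 3 := by positivity
    have h4 := hE n hnE g (fun y => ⟨hgp y, (hg.1 y).2⟩) x w m hwN hw2 hm1 hm2
    rw [div_le_iff₀ hm3] at h4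
    have h5 : CE' * β ^ (-(3 / 2) : ℝ) * (m : ℝ) ^ 3 ≤ CE * β ^ (-(3 / 2) : ℝ) * (m : ℝ) ^ 3 := by
      refine mul_le_mul_of_nonneg_right (mul_le_mul_of_nonneg_right (le_max_left _ _) (hp _).le)
        hm3.le
    have h6 : 0 ≤ CD * (1 + 1 / c3) := by positivity
    have h7 := mul_le_mul_of_nonneg_left (h4.trans h5) h6
    rw [hr, hCr]
    linarith
  obtain ⟨k, hk, hρ⟩ := good_point x hwN hmp hwn
    (fun z => rho (edges n) β (fun y => g y / β) z) _ (fun y => hblock _) hsum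
  have hr8 : r ≤ 1 / 8 := by
    rw [hr, hinv, ← div_eq_mul_inv, div_le_iff₀ (hp _)]
    linarith
  have hrp : 0 < r := mul_pos hCrp (hp _)
  have e6 := reg_step hβp h3 g0p hg x (l := w * m) (by push_cast; exact hm2) hk hrp hr8 hρ
  have e8 : (3 * Cr + 1) * β ^ (-(3 / 2) : ℝ) ≤ C7 * β ^ (-(3 / 2) : ℝ) / 2 := by
    have := mul_le_mul_of_nonneg_right hC7 (hp (-(3 / 2))).le
    linarith
  rw [hr] at e6
  linarith

/-- **(B)** the bootstrap of stage 3. -/
theorem bootStmt3_of (hK : KappaStmt3) (hD : DirStmt3) (hE : EnergyStmt3) (hS : StartStmt3) :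
    BootStmt3 := by
  obtain ⟨Cs, hCs, hst⟩ := step3 hK hD hE
  obtain ⟨CS, βS, hS⟩ := hS
  obtain ⟨β0, hβ0, hst⟩ := hst (max (2 * Cs) CS) (le_max_left _ _)
  have hC7 : 0 < max (2 * Cs) CS := lt_max_of_lt_left (by positivity)
  refine ⟨max (2 * Cs) CS, max β0 βS, hC7, fun β hβ => ?_⟩
  have hβ0' : β0 ≤ β := (le_max_left _ _).trans hβ
  have hβp : 0 < β := by linarith
  obtain ⟨n1, hst⟩ := hst β hβ0'
  obtain ⟨n2, hS⟩ := hS β ((le_max_right _ _).trans hβ)
  refine ⟨max n1 n2, ?_⟩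
  intro n _ hn hodd g0 hg0 hg1
  have hn1 : n1 ≤ n := (le_max_left _ _).trans hn
  have hn2 : n2 ≤ n := (le_max_right _ _).trans hn
  have hn0 : (0 : ℝ) < n := by exact_mod_cast NeZero.pos n
  have g0p : 0 < g0 := (Real.rpow_pos_of_pos hn0 _).trans_le hg0
  set lam : ℝ := β ^ (-(9 / 2) : ℝ) with hlam
  have hlamp : 0 ≤ lam := (Real.rpow_pos_of_pos hβp _).le
  set η : ℝ := max (2 * Cs) CS * β ^ (-(3 / 2) : ℝ) with hη
  have hηp : 0 < η := mul_pos hC7 (Real.rpow_pos_of_pos hβp _)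
  have hexp : 1 ≤ Real.exp lam := Real.one_le_exp hlamp
  have hdiv : Continuous fun g : Tor n → ℝ => fun y => g y / β := by
    fun_prop
  have key := bootstrap_abs (V := Tor n) (fun g x => rho (edges n) β (fun y => g y / β) x)
    (fun x => (continuous_rho (edges n) β x).comp hdiv)
    (fun h => ∀ (x : Tor n) (i : Fin 3), h x ≤ Real.exp lam * h (x + Pi.single i 1) ∧
      h (x + Pi.single i 1) ≤ Real.exp lam * h x) ?_ g0p hηp ?_ ?_ hg1
  · intro g hg x
    have := key g hg.1 hg.2 x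
    linarith
  · intro h c hc hreg x i
    have hm : ∀ u v : ℝ, u ≤ Real.exp lam * v → max u c ≤ Real.exp lam * max v c := by
      intro u v huv
      refine max_le (huv.trans ?_) ?_
      · exact mul_le_mul_of_nonneg_left (le_max_left _ _) (Real.exp_pos _).le
      · calc c ≤ Real.exp lam * c := by nlinarith
          _ ≤ _ := mul_le_mul_of_nonneg_left (le_max_right _ _) (Real.exp_pos _).le
    exact ⟨hm _ _ (hreg x i).1, hm _ _ (hreg x i).2⟩
  · intro x
    refine (hS n hn2 hodd x).trans ?_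
    exact mul_le_mul_of_nonneg_right (le_max_right _ _) (Real.rpow_pos_of_pos hβp _).le
  · intro h0 h2 h3 h4 h h5 h6 x
    exact hst n hn1 hodd h0 (hg0.trans h2) h3 (fun g hg y => h4 g hg.1 hg.2 y) h ⟨h5, h6⟩ x

end

end Vale.Agent.P361.LRO.S3
end

section

/-!
P361 LRO: the physical network satisfies `Ind.Local` (block (4) → block (6)).
-/

namespace Vale.Agent.P361.LRO.Ind

open Finset Vale.Agent.P361.LRO _root_.P361.LRO

noncomputable section

/-- the physical network, zero on the diagonal -/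
def physC (n N : ℕ) [NeZero n] (β K : ℝ) (b : Finset (Tor n)) (h : Tor n → ℝ) :
    Nd n N → Nd n N → ℝ :=
  Net.c0 (phys (edges n) β N) (th β N h (blk K b))

theorem isLaw_phys' {V : Type} [Fintype V] [DecidableEq V] (L : List (V × V)) {β : ℝ}
    (hβ : 0 ≤ β) {N : ℕ} (hN : β ≤ N) : IsLaw (phys L β N) := by
  refine ⟨gates L N (β / (2 * N)), base N, ?_, rfl⟩
  intro g hg
  unfold gates at hg
  rw [List.mem_flatMap] at hg
  obtain ⟨k, _, hk⟩ := hg
  rw [List.mem_map] at hk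
  obtain ⟨e, _, rfl⟩ := hk
  refine ⟨by positivity, ?_⟩
  by_cases hN0 : (N : ℝ) = 0
  · rw [hN0]; simp
  · have hNp : (0:ℝ) < N := lt_of_le_of_ne (Nat.cast_nonneg N) (Ne.symm hN0)
    rw [div_le_div_iff₀ (by positivity) (by norm_num)]
    linarith

theorem deg_edges (n : ℕ) [NeZero n] (x : Tor n) :
    ((edges n).filter fun e => e.1 = x ∨ e.2 = x).length ≤ 6 := by
  unfold edges
  rw [List.filter_map, List.length_map]
  have h1 : (((Finset.univ : Finset (Tor n × Fin 3)).toList).filter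
      ((fun e : Tor n × Tor n => decide (e.1 = x ∨ e.2 = x)) ∘
        fun z : Tor n × Fin 3 => (z.1, z.1 + Pi.single z.2 1))).length =
      ((Finset.univ : Finset (Tor n × Fin 3)).filter
        fun z => z.1 = x ∨ z.1 + Pi.single z.2 1 = x).card := by
    rw [← Finset.length_toList]
    apply List.Perm.length_eq
    rw [List.perm_ext_iff_of_nodup ((Finset.nodup_toList _).filter _) (Finset.nodup_toList _)]
    intro z
    simp
  rw [h1]
  have h2 : ((Finset.univ : Finset (Tor n × Fin 3)).filter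
      fun z => z.1 = x ∨ z.1 + Pi.single z.2 1 = x) ⊆
      ((Finset.univ : Finset (Fin 3)).image fun i => (x, i)) ∪
      ((Finset.univ : Finset (Fin 3)).image fun i => (x - Pi.single i 1, i)) := by
    rintro ⟨y, i⟩ hy
    simp only [Finset.mem_filter, Finset.mem_univ, true_and] at hy
    simp only [Finset.mem_union, Finset.mem_image, Finset.mem_univ, true_and, Prod.mk.injEq]
    rcases hy with rfl | hy
    · exact Or.inl ⟨i, rfl, rfl⟩
    · refine Or.inr ⟨i, ?_, rfl⟩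
      rw [← hy]; simp
  refine (Finset.card_le_card h2).trans ((Finset.card_union_le _ _).trans ?_)
  have h3 := Finset.card_image_le (s := (Finset.univ : Finset (Fin 3))) (f := fun i => (x, i))
  have h4 := Finset.card_image_le (s := (Finset.univ : Finset (Fin 3)))
    (f := fun i => (x - Pi.single i 1, i))
  simp only [Finset.card_univ, Fintype.card_fin] at h3 h4
  omega

theorem mem_edges (n : ℕ) [NeZero n] (x : Tor n) (i : Fin 3) :
    (x, x + Pi.single i 1) ∈ edges n := by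
  unfold edges
  rw [List.mem_map]
  exact ⟨(x, i), by simp, rfl⟩

theorem ne_add (n : ℕ) [NeZero n] (hn : 2 ≤ n) (x : Tor n) (i : Fin 3) :
    x ≠ x + Pi.single i 1 := by
  intro h
  have h1 := congrFun h i
  simp only [Pi.add_apply, Pi.single_eq_same] at h1
  have h2 : (1 : ZMod n) = 0 := by
    have := congrArg (fun t => t - x i) h1
    simpa using this.symm
  have : Fact (1 < n) := ⟨by omega⟩
  exact one_ne_zero h2

theorem tanh_ge (y : ℝ) (h0 : 0 ≤ y) (h1 : y ≤ 1) : y / 2 ≤ Real.tanh y := by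
  rw [Real.tanh_eq_sinh_div_cosh, div_le_div_iff₀ (by norm_num) (Real.cosh_pos y)]
  have h2 : y ≤ Real.sinh y := Real.self_le_sinh_iff.2 h0
  have h3 : Real.cosh y ≤ 2 := by
    have h4 : Real.cosh y ≤ Real.cosh 1 := by
      rw [Real.cosh_le_cosh, abs_of_nonneg h0, abs_of_nonneg (by norm_num)]; exact h1
    have h5 : Real.cosh 1 ≤ 2 := by
      rw [Real.cosh_eq]
      have := Real.exp_one_lt_d9
      have h6 : Real.exp (-1) ≤ 1 := by
        rw [Real.exp_le_one_iff]; norm_num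
      linarith
    linarith
  nlinarith [Real.cosh_pos y]

theorem blk_mem {V : Type} [Fintype V] [DecidableEq V] {K : ℝ} (hK : 0 ≤ K) (b : Finset V)
    (x : V) : 0 ≤ blk K b x ∧ blk K b x ≤ 1 := by
  unfold blk
  split_ifs
  · have h0 : 0 ≤ K / (2 * b.card) := by positivity
    refine ⟨?_, (Real.tanh_lt_one _).le⟩
    rw [Real.tanh_eq_sinh_div_cosh]
    exact div_nonneg (Real.sinh_nonneg_iff.2 h0) (Real.cosh_pos _).le
  · norm_num

theorem local_inst
    (hS : ∀ (V : Type) [Fintype V] [DecidableEq V] (L : List (V × V)), Loc.LocSame V L 6)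
    (hNN : ∀ (V : Type) [Fintype V] [DecidableEq V] (L : List (V × V)), Loc.LocNN V L 6)
    (hNet : Loc.NetStmt) :
    ∃ c1 : ℝ, 0 < c1 ∧ ∀ (n N W m : ℕ) [NeZero n] (β K : ℝ) (b : Finset (Tor n))
      (h : Tor n → ℝ), 2 ≤ n → 1 ≤ β → 8 * β ≤ N → 0 < W → N = m * W → Win β m →
      0 < K → K ≤ b.card → (∀ x, 0 ≤ h x ∧ h x ≤ 1) →
      Local n N W β K c1 b h (physC n N β K b h) := by
  obtain ⟨c0, hc0, hloc⟩ := Loc.loc_ofL hS hNN
  refine ⟨c0 / 16, by positivity, ?_⟩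
  intro n N W m _ β K b h hn hβ hN hW hNm hwin hK hKb hh
  have hβ0 : (0:ℝ) < β := by linarith
  have hNp : (0:ℝ) < N := by linarith
  have hβN : β ≤ N := by linarith
  have hT : ∀ x, 0 ≤ blk K b x ∧ blk K b x ≤ 1 := blk_mem hK.le b
  have hlaw := isLaw_phys' (edges n) hβ0.le hβN
  have hθ := fun z => Loc.th_memL (h := h) (T := blk K b) hβ0.le hβN hh hT z
  obtain ⟨hZ, hccn, hccs, hsum, hKK, hvv⟩ := hNet _ _ hlaw _ hθ
  obtain ⟨l1, l2, l3⟩ := hloc (edges n) (deg_edges n) β hβ N hN h (blk K b) hh hT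
  have hmW : (N : ℝ) = m * W := by rw [hNm]; push_cast; ring
  have hWp : (0:ℝ) < W := by exact_mod_cast hW
  have hmp : (0:ℝ) < m := by exact_mod_cast hwin.pos
  have hWβ : (W:ℝ) * β / N = β / m := by rw [hmW]; field_simp
  refine ⟨?_, ?_, ?_, ?_, ?_, ?_⟩
  · intro u v
    unfold physC Net.c0
    by_cases huv : u = v
    · rw [if_pos huv, if_pos huv.symm]
    · rw [if_neg huv, if_neg (Ne.symm huv), hccs]
  · intro u v
    unfold physC Net.c0
    by_cases huv : u = v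
    · rw [if_pos huv]
    · rw [if_neg huv]; exact hccn u v huv
  · intro k x hk
    have h1 : ∑ v, physC n N β K b h (k, x) v =
        ∑ v ∈ univ.erase (k, x), cc (phys (edges n) β N) (th β N h (blk K b)) (k, x) v := by
      unfold physC Net.c0
      rw [← Finset.add_sum_erase Finset.univ _ (Finset.mem_univ (k, x))]
      rw [if_pos rfl, zero_add]
      refine Finset.sum_congr rfl fun v hv => ?_
      rw [if_neg (Ne.symm (Finset.ne_of_mem_erase hv))]
    rw [h1, hsum]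
    refine (hvv _).trans ?_
    unfold th; rw [if_neg hk]
  · intro k l x hk hkl hl hx
    have hk0 : 0 < k := Fin.pos_of_ne_zero hk
    have hne : (k, x) ≠ (l, x) := fun h => (ne_of_lt hkl) (congrArg Prod.fst h)
    unfold physC Net.c0; rw [if_neg hne]
    have hd : ((l : ℝ) - (k : ℝ)) * β / N ≤ 1 := by
      have h2 : ((l : ℝ) - (k : ℝ)) ≤ 3 * W := by
        have : ((l : ℕ) : ℝ) ≤ ((k : ℕ) + 3 * W : ℕ) := by exact_mod_cast hl
        push_cast at this; linarith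
      calc ((l : ℝ) - (k : ℝ)) * β / N ≤ (3 * W) * β / N := by
            apply div_le_div_of_nonneg_right _ hNp.le
            exact mul_le_mul_of_nonneg_right h2 hβ0.le
        _ = 3 * (W * β / N) := by ring
        _ ≤ 1 := by rw [hWβ]; have := hwin.hi; linarith
    have h1 := l1 k l x hk0 hkl hd
    rw [hx] at h1
    refine le_trans ?_ h1
    have : c0 * (β * 1 / (2 * N)) ^ 2 = c0 / 4 * (β / N) ^ 2 := by field_simp; ring
    rw [this]
    have h5 : 0 ≤ c0 * (β / N) ^ 2 := by positivity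
    nlinarith
  · intro k l x i hk hl hkl h3 h4 hx hx'
    have hk0 : 0 < k := Fin.pos_of_ne_zero hk
    have hl0 : 0 < l := Fin.pos_of_ne_zero hl
    have hxne := ne_add n hn x i
    have hne : (k, x) ≠ (l, x + Pi.single i 1) := fun h => hxne (congrArg Prod.snd h)
    unfold physC Net.c0; rw [if_neg hne]
    have hfin : c0 / 16 * (β / N) ^ 2 ≤ c0 * (β * 1 / (2 * N)) * (β * 1 / (2 * N)) := by
      have : c0 * (β * 1 / (2 * N)) * (β * 1 / (2 * N)) = c0 / 4 * (β / N) ^ 2 := by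
        field_simp; ring
      rw [this]
      have h5 : 0 ≤ c0 * (β / N) ^ 2 := by positivity
      nlinarith
    have upper : ∀ k l : Fin (N + 1), (l : ℕ) ≤ k + 3 * W → ((l : ℝ) - (k : ℝ)) * β / N ≤ 1 := by
      intro k l hl
      have h2 : ((l : ℝ) - (k : ℝ)) ≤ 3 * W := by
        have : ((l : ℕ) : ℝ) ≤ ((k : ℕ) + 3 * W : ℕ) := by exact_mod_cast hl
        push_cast at this; linarith
      calc ((l : ℝ) - (k : ℝ)) * β / N ≤ (3 * W) * β / N := by
            apply div_le_div_of_nonneg_right _ hNp.le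
            exact mul_le_mul_of_nonneg_right h2 hβ0.le
        _ = 3 * (W * β / N) := by ring
        _ ≤ 1 := by rw [hWβ]; have := hwin.hi; linarith
    have lower : ∀ k l : Fin (N + 1), (k : ℕ) + W ≤ l → 1 / 4 ≤ ((l : ℝ) - (k : ℝ)) * β / N := by
      intro k l hl
      have h2 : (W : ℝ) ≤ ((l : ℝ) - (k : ℝ)) := by
        have : (((k : ℕ) + W : ℕ) : ℝ) ≤ ((l : ℕ) : ℝ) := by exact_mod_cast hl
        push_cast at this; linarith
      calc (1:ℝ) / 4 ≤ W * β / N := by rw [hWβ]; exact hwin.lo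
        _ ≤ _ := by
            apply div_le_div_of_nonneg_right _ hNp.le
            exact mul_le_mul_of_nonneg_right h2 hβ0.le
    rcases hkl with hkl | hkl
    · have hlt : k < l := by
        rw [Fin.lt_def]; omega
      have h1 := l2 k l x (x + Pi.single i 1) hk0 hlt (lower k l hkl) (upper k l h3)
        (Or.inl (mem_edges n x i)) hxne
      rw [hx, hx'] at h1
      exact hfin.trans h1
    · have hlt : l < k := by
        rw [Fin.lt_def]; omega
      have h1 := l2 l k (x + Pi.single i 1) x hl0 hlt (lower l k hkl) (upper l k h4)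
        (Or.inr (mem_edges n x i)) (Ne.symm hxne)
      rw [hx, hx'] at h1
      rw [hccs]
      exact hfin.trans h1
  · intro k x hk hkW hxb hx
    have hk0 : 0 < k := Fin.pos_of_ne_zero hk
    have hne : ((0 : Fin (N + 1)), x) ≠ (k, x) := fun h => hk (congrArg Prod.fst h).symm
    unfold physC Net.c0; rw [if_neg hne]
    have hd : (k : ℝ) * β / N ≤ 1 := by
      have h2 : (k : ℝ) ≤ W := by exact_mod_cast hkW
      calc (k : ℝ) * β / N ≤ W * β / N := by
            apply div_le_div_of_nonneg_right _ hNp.le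
            exact mul_le_mul_of_nonneg_right h2 hβ0.le
        _ ≤ 1 := by rw [hWβ]; have := hwin.hi; linarith
    have h1 := l3 k x hk0 hd
    rw [hx] at h1
    refine le_trans ?_ h1
    have hbp : (0:ℝ) < b.card := by
      have : 0 < b.card := Finset.card_pos.2 ⟨x, hxb⟩
      exact_mod_cast this
    have ht : K / b.card / 4 ≤ blk K b x := by
      unfold blk; rw [if_pos hxb]
      have h6 : K / (2 * b.card) ≤ 1 := by
        rw [div_le_one (by positivity)]; linarith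
      have := tanh_ge (K / (2 * b.card)) (by positivity) h6
      refine le_trans ?_ this
      apply le_of_eq; field_simp; ring
    have h7 : c0 * (K / b.card / 4) * (β * 1 / (2 * N)) ≤ c0 * blk K b x * (β * 1 / (2 * N)) := by
      have : 0 ≤ β * 1 / (2 * N) := by positivity
      exact mul_le_mul_of_nonneg_right (mul_le_mul_of_nonneg_left ht hc0.le) this
    refine le_trans ?_ h7
    have : c0 * (K / b.card / 4) * (β * 1 / (2 * N)) = 2 * (c0 / 16 * (K / b.card) * (β / N)) := by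
      field_simp; ring
    rw [this]
    have h8 : 0 ≤ c0 / 16 * (K / b.card) * (β / N) := by positivity
    linarith

end

end Vale.Agent.P361.LRO.Ind
end

section

/-!
P361 LRO, block (4), with arbitrary additional gates between the layers `N` and `0`.
`E₁ ++ (gates L N p ++ E₂)`; for spin `S` these gates are the projector onto the symmetric
subspace of the copies.
-/

namespace Vale.Agent.P361.LRO

open Finset

noncomputable section

/-- All gates of the list live in the layer `N` (between the layers `N` and `0`) and have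
probabilities in `[0, 1]`. -/
def OutG {V : Type} (N : ℕ) (E : List ((Fin (N + 1) × V) × (Fin (N + 1) × V) × ℝ)) : Prop :=
  ∀ g ∈ E, (0 ≤ g.2.2 ∧ g.2.2 ≤ 1) ∧ g.1.1 = Fin.last N ∧ g.2.1.1 = Fin.last N

/-- The physical law with additional gates. -/
def physE {V : Type} [Fintype V] [DecidableEq V] {N : ℕ}
    (E₁ E₂ : List ((Fin (N + 1) × V) × (Fin (N + 1) × V) × ℝ)) (L : List (V × V)) (β : ℝ) :
    Equiv.Perm (Fin (N + 1) × V) → ℝ :=
  law (E₁ ++ (gates L N (β / (2 * N)) ++ E₂)) (base N)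

theorem physE_nil {V : Type} [Fintype V] [DecidableEq V] (N : ℕ) (L : List (V × V)) (β : ℝ) :
    physE (N := N) [] [] L β = phys L β N := by
  unfold physE phys
  simp

namespace Loc.Ext

open Vale.Agent.P361.LRO.Loc Vale.Agent.P361.LRO.Loc.Geo

variable {V : Type} [Fintype V] [DecidableEq V]

/-- The window. -/
def win (N : ℕ) (Q : V → Prop) [DecidablePred Q] (lo hi : ℕ) : Finset (Fin (N + 1) × V) :=
  univ.filter fun z => lo ≤ (z.1 : ℕ) ∧ (z.1 : ℕ) < hi ∧ Q z.2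

lemma bad_gates {L : List (V × V)} {N : ℕ} {p : ℝ} (Q : V → Prop) [DecidablePred Q]
    (lo hi : ℕ) {g : (Fin (N + 1) × V) × (Fin (N + 1) × V) × ℝ} (hg : g ∈ gates L N p)
    (h : Bad (win N Q lo hi) g) : tch N Q lo hi g := by
  obtain ⟨k, e, _, rfl⟩ := mem_gates hg
  simp only [Bad, win, Finset.mem_filter, Finset.mem_univ, true_and] at h
  unfold tch
  simp only
  tauto

lemma not_bad {N : ℕ} (Q : V → Prop) [DecidablePred Q] (lo hi : ℕ) (hhi : hi ≤ N)
    {E : List ((Fin (N + 1) × V) × (Fin (N + 1) × V) × ℝ)} (hE : OutG N E)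
    {g : (Fin (N + 1) × V) × (Fin (N + 1) × V) × ℝ} (hg : g ∈ E) :
    ¬ Bad (win N Q lo hi) g := by
  obtain ⟨_, h1, h2⟩ := hE g hg
  simp only [Bad, win, Finset.mem_filter, Finset.mem_univ, true_and, h1, h2, Fin.val_last]
  omega

lemma DD_append {X : Type} [DecidableEq X] (B : Finset X) (l l' : List (X × X × ℝ)) :
    DD B (l ++ l') = DD B l * DD B l' := by
  unfold DD
  rw [List.map_append, List.prod_append]

lemma DD_out {N : ℕ} (Q : V → Prop) [DecidablePred Q] (lo hi : ℕ) (hhi : hi ≤ N)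
    {E : List ((Fin (N + 1) × V) × (Fin (N + 1) × V) × ℝ)} (hE : OutG N E) :
    DD (win N Q lo hi) E = 1 := by
  unfold DD
  apply List.prod_eq_one
  intro r hr
  rw [List.mem_map] at hr
  obtain ⟨g, hg, rfl⟩ := hr
  rw [if_neg (not_bad Q lo hi hhi hE hg)]

lemma DD_gates (L : List (V × V)) (N : ℕ) {p : ℝ} (h0 : 0 ≤ p) (h1 : p ≤ 1) (Q : V → Prop)
    [DecidablePred Q] (lo hi d : ℕ) (hd : (L.countP fun e => Q e.1 ∨ Q e.2) ≤ d) :
    ((1 - p) / (1 + p)) ^ (d * (hi - lo)) ≤ DD (win N Q lo hi) (gates L N p) := by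
  unfold DD
  rw [prod_ite_pow (gates L N p) (Bad (win N Q lo hi)) p gates_p (fun t => (1 - t) / (1 + t))]
  have hpp : 0 ≤ (1 - p) / (1 + p) := div_nonneg (by linarith) (by linarith)
  have hpp1 : (1 - p) / (1 + p) ≤ 1 := by
    rw [div_le_one (by linarith)]; linarith
  refine pow_le_pow_of_le_one hpp hpp1 (le_trans ?_ (countP_gates L N p Q lo hi d hd))
  apply List.countP_mono_left
  intro g hg hb
  have := bad_gates Q lo hi hg (of_decide_eq_true hb)
  exact decide_eq_true this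

lemma pr_ext {L : List (V × V)} {N : ℕ} {p : ℝ} (h0 : 0 ≤ p) (h1 : p ≤ 1)
    {E₁ E₂ : List ((Fin (N + 1) × V) × (Fin (N + 1) × V) × ℝ)} (hE₁ : OutG N E₁)
    (hE₂ : OutG N E₂) : Pr (E₁ ++ (gates L N p ++ E₂)) := by
  intro g hg
  rw [List.mem_append, List.mem_append] at hg
  rcases hg with hg | hg | hg
  · exact (hE₁ g hg).1
  · rw [gates_p g hg]; exact ⟨h0, h1⟩
  · exact (hE₂ g hg).1

lemma agr_step {N : ℕ} (Q : V → Prop) [DecidablePred Q] (lo hi : ℕ) (hhi : hi ≤ N)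
    {π : Equiv.Perm (Fin (N + 1) × V)} (h : Agr (base N) (win N Q lo hi) π)
    (n : ℕ) (hn1 : lo ≤ n) (hn2 : n < hi) (x : V) (hx : Q x) :
    π (fn N (n + 1), x) = (fn N n, x) := by
  have hb := base_apply N n (by omega) x
  have := h (fn N (n + 1), x) (by
    rw [hb]
    simp only [win, Finset.mem_filter, Finset.mem_univ, true_and]
    rw [cast_val (by omega)]
    exact ⟨hn1, hn2, hx⟩)
  rw [this, hb]

lemma dbl_Zp {X : Type} [Fintype X] [DecidableEq X] {θ : X → ℝ} (hθ : ∀ x, 0 ≤ θ x ∧ θ x ≤ 1) :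
    Dbl fun π : Equiv.Perm X => Zp π θ :=
  ⟨fun π => (ringStmt X π θ hθ).1.le, fun a b π => (ringStmt X π θ hθ).2 a b⟩

/-- From a bound on `EL` to a bound on `cc`. -/
lemma cc_ge {X : Type} [Fintype X] [DecidableEq X] {l : List (X × X × ℝ)} (hl : Pr l)
    (σ : Equiv.Perm X) {θ : X → ℝ} (hθ : ∀ x, 0 ≤ θ x ∧ θ x ≤ 1) {u v : X} (huv : u ≠ v)
    {C : ℝ} (h : C * EL σ l (fun π => Zp π θ) ≤ EL σ l fun π => Zf π θ u v) :
    θ u * θ v * C ≤ cc (law l σ) θ u v := by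
  rw [Geo.cc_eq fourierStmt l σ θ u v huv]
  have hpos := ev_pos ringStmt hl σ θ hθ
  rw [mul_div_assoc]
  refine mul_le_mul_of_nonneg_left ?_ (mul_nonneg (hθ u).1 (hθ v).1)
  rw [le_div_iff₀ hpos]
  unfold ev
  rw [sum_law, sum_law]
  exact h

theorem same (L : List (V × V)) (d N : ℕ) (p : ℝ) (h0p : 0 ≤ p) (h1p : p ≤ 1)
    (E₁ E₂ : List ((Fin (N + 1) × V) × (Fin (N + 1) × V) × ℝ)) (hE₁ : OutG N E₁)
    (hE₂ : OutG N E₂) (hdeg : ∀ x : V, (L.countP fun e => e.1 = x ∨ e.2 = x) ≤ d)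
    (θ : Fin (N + 1) × V → ℝ) (hθ : ∀ z, 0 ≤ θ z ∧ θ z ≤ 1)
    (x : V) (k k' : Fin (N + 1)) (τ : ℝ) (h0 : 0 ≤ τ) (h1 : τ < 1) (hkk : k < k')
    (hbd : ∀ i, k < i → i < k' → θ (i, x) ≤ τ) :
    θ (k', x) * θ (k, x) * ((1 / 4) *
        (((1 - p) / (1 + p)) ^ (d * ((k' : ℕ) - k)) * ((1 - τ) / (1 + τ)) ^ ((k' : ℕ) - k))) ≤
      cc (law (E₁ ++ (gates L N p ++ E₂)) (base N)) θ (k', x) (k, x) := by
  set lo : ℕ := (k : ℕ) with hlo
  set hi : ℕ := (k' : ℕ) with hhi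
  have hlt : lo < hi := hkk
  have hhiN : hi ≤ N := by have := k'.2; omega
  have hne : (k', x) ≠ (k, x) := fun h => by
    have := congrArg Prod.fst h
    simp only at this
    exact absurd this (ne_of_gt hkk)
  have hl := pr_ext (L := L) h0p h1p hE₁ hE₂
  have hτ' : 0 ≤ (1 - τ) / (1 + τ) := div_nonneg (by linarith) (by linarith)
  set c : ℝ := (1 / 4) * ((1 - τ) / (1 + τ)) ^ (hi - lo) with hc
  have hc0 : 0 ≤ c := by positivity
  have key := EL_ge_of_agr (base N) (win N (fun y => y = x) lo hi) hl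
    (f := fun π => Zf π θ (k', x) (k, x)) (F := fun π => Zp π θ)
    (fun π => (arcStmt _ π θ hθ _ _ hne).1) (dbl_Zp hθ) hc0 (by
      intro π hπ
      have hstep := agr_step (fun y => y = x) lo hi hhiN hπ
      have := arc_use arcStmt π θ hθ ((ringStmt _ π θ hθ).1).le
        (fun j => (fn N (hi - j), x)) (hi - lo - 1) (hi - lo) (by omega)
        (fun j hj => by
          have hs := hstep (hi - (j + 1)) (by omega) (by omega) x rfl
          have e : hi - (j + 1) + 1 = hi - j := by omega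
          rw [e] at hs
          exact hs)
        (fun i hi' j hj' h => by
          have e1 := congrArg Prod.fst h
          simp only at e1
          have e2 := congrArg Fin.val e1
          rw [cast_val (by omega), cast_val (by omega)] at e2
          omega)
        τ h0 h1
        (fun j hj1 hj2 => by
          refine hbd _ ?_ ?_
          · rw [Fin.lt_def, cast_val (by omega)]; omega
          · rw [Fin.lt_def, cast_val (by omega)]; omega)
      have e0 : (fn N (hi - 0), x) = (k', x) := by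
        rw [Nat.sub_zero, hhi, fn_val]
      have e1 : (fn N (hi - (hi - lo - 1 + 1)), x) = (k, x) := by
        have : hi - (hi - lo - 1 + 1) = lo := by omega
        rw [this, hlo, fn_val]
      rw [e0, e1] at this
      exact this)
  have h3 := cc_ge hl (base N) hθ hne key
  refine le_trans ?_ h3
  refine mul_le_mul_of_nonneg_left ?_ (mul_nonneg (hθ _).1 (hθ _).1)
  rw [DD_append, DD_append, DD_out _ lo hi hhiN hE₁, DD_out _ lo hi hhiN hE₂, one_mul, mul_one]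
  have h4 := DD_gates L N h0p h1p (fun y => y = x) lo hi d (hdeg x)
  have h5 := mul_le_mul_of_nonneg_left h4 hc0
  refine le_trans (le_of_eq ?_) h5
  rw [hc]; ring

/-! ### Neighbours -/

/-- Gates between `x` and `y` in the window. -/
def good (N : ℕ) (x y : V) (lo hi : ℕ) (g : (Fin (N + 1) × V) × (Fin (N + 1) × V) × ℝ) : Prop :=
  g.1.1 = g.2.1.1 ∧ (lo ≤ (g.1.1 : ℕ) ∧ (g.1.1 : ℕ) < hi) ∧
    ((g.1.2 = x ∧ g.2.1.2 = y) ∨ (g.1.2 = y ∧ g.2.1.2 = x))

instance (N : ℕ) (x y : V) (lo hi : ℕ) : DecidablePred (good N x y lo hi) := fun g => by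
  unfold good; infer_instance

lemma good_mem {N : ℕ} {x y : V} {lo hi : ℕ} (g : (Fin (N + 1) × V) × (Fin (N + 1) × V) × ℝ)
    (h : good N x y lo hi g) :
    g.1 ∈ win N (fun z => z = x ∨ z = y) lo hi ∧ g.2.1 ∈ win N (fun z => z = x ∨ z = y) lo hi := by
  obtain ⟨h1, ⟨h2, h3⟩, h4⟩ := h
  simp only [win, Finset.mem_filter, Finset.mem_univ, true_and]
  rw [← h1]
  exact ⟨⟨h2, h3, by tauto⟩, ⟨h2, h3, by tauto⟩⟩

lemma sum_ite_mul {X : Type} (l : List (X × X × ℝ)) (S : X × X × ℝ → Prop) [DecidablePred S]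
    (p : ℝ) (hp : ∀ g ∈ l, g.2.2 = p) :
    (l.map fun g => if S g then g.2.2 else 0).sum = p * (l.countP fun g => S g : ℕ) := by
  induction l with
  | nil => simp
  | cons g l ih =>
    rw [List.map_cons, List.sum_cons, ih (fun g hg => hp g (by simp [hg])), List.countP_cons]
    by_cases h : S g
    · simp only [h, if_true, decide_true]
      rw [hp g (by simp)]
      push_cast
      ring
    · simp [h]

lemma countP_good (L : List (V × V)) (N : ℕ) (p : ℝ) (x y : V)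
    (hxy : (x, y) ∈ L ∨ (y, x) ∈ L) (lo hi : ℕ) (hhi : hi ≤ N) :
    hi - lo ≤ ((gates L N p).countP fun g =>
      Bad (win N (fun z => z = x ∨ z = y) lo hi) g ∧ good N x y lo hi g) := by
  unfold gates
  rw [List.countP_flatMap, ← Fin.sum_univ_def]
  have h1 : ∀ k : Fin N, (if lo ≤ (k : ℕ) ∧ (k : ℕ) < hi then 1 else 0) ≤
      (List.countP (fun g => decide (Bad (win N (fun z => z = x ∨ z = y) lo hi) g ∧
        good N x y lo hi g)) ∘ fun k : Fin N =>
      L.map fun e => (((k.castSucc, e.1), (k.castSucc, e.2), p) :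
        (Fin (N + 1) × V) × (Fin (N + 1) × V) × ℝ)) k := by
    intro k
    simp only [Function.comp, List.countP_map]
    split_ifs with hk
    · rw [Nat.one_le_iff_ne_zero, ← Nat.pos_iff_ne_zero, List.countP_pos_iff]
      rcases hxy with h | h
      · refine ⟨_, h, ?_⟩
        simp [Bad, win, good, hk]
      · refine ⟨_, h, ?_⟩
        simp [Bad, win, good, hk]
    · exact Nat.zero_le _
  refine le_trans ?_ (Finset.sum_le_sum fun k _ => h1 k)
  rw [Fin.sum_univ_eq_sum_range (fun k => if lo ≤ k ∧ k < hi then 1 else 0) N,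
    ← Finset.sum_filter, Finset.sum_const, smul_eq_mul, mul_one]
  rw [← Nat.card_Ico]
  refine Finset.card_le_card fun k hk => ?_
  rw [Finset.mem_Ico] at hk
  rw [Finset.mem_filter, Finset.mem_range]
  exact ⟨by omega, hk⟩

lemma GG_append {X : Type} [DecidableEq X] (B : Finset X) (good : X × X × ℝ → Prop)
    [DecidablePred good] (l l' : List (X × X × ℝ)) :
    GG B good (l ++ l') = GG B good l + GG B good l' := by
  unfold GG
  rw [List.map_append, List.sum_append]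

lemma GG_gates (L : List (V × V)) (N : ℕ) {p : ℝ} (h0 : 0 ≤ p) (x y : V)
    (hxy : (x, y) ∈ L ∨ (y, x) ∈ L) (lo hi : ℕ) (hhi : hi ≤ N) :
    p * ((hi - lo : ℕ) : ℝ) ≤
      GG (win N (fun z => z = x ∨ z = y) lo hi) (good N x y lo hi) (gates L N p) := by
  unfold GG
  rw [sum_ite_mul (gates L N p)
    (fun g => Bad (win N (fun z => z = x ∨ z = y) lo hi) g ∧ good N x y lo hi g) p gates_p]
  refine mul_le_mul_of_nonneg_left ?_ h0
  exact_mod_cast countP_good L N p x y hxy lo hi hhi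

lemma arc_nn {N : ℕ} (x y : V) (hxy : x ≠ y) (lo hi : ℕ) (hlt : lo < hi) (hhi : hi ≤ N)
    (θ : Fin (N + 1) × V → ℝ) (hθ : ∀ z, 0 ≤ θ z ∧ θ z ≤ 1) (τ : ℝ) (h0 : 0 ≤ τ) (h1 : τ < 1)
    (hbd : ∀ i : Fin (N + 1), lo < (i : ℕ) → (i : ℕ) < hi → θ (i, x) ≤ τ ∧ θ (i, y) ≤ τ)
    (π : Equiv.Perm (Fin (N + 1) × V))
    (hπ : Agr (base N) (win N (fun z => z = x ∨ z = y) lo hi) π)
    (n : ℕ) (hn1 : lo ≤ n) (hn2 : n < hi) :
    ((1 / 8) * ((1 - τ) / (1 + τ)) ^ (hi - lo)) * Zp π θ ≤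
      Zf (Equiv.swap (fn N n, x) (fn N n, y) * π) θ (fn N hi, x) (fn N lo, y) := by
  set π' : Equiv.Perm (Fin (N + 1) × V) := Equiv.swap (fn N n, x) (fn N n, y) * π with hπ'
  have hstep := agr_step (fun z => z = x ∨ z = y) lo hi hhi hπ
  have hd : Zp π θ ≤ 2 * Zp π' θ := by
    have := (ringStmt _ π' θ hθ).2 (fn N n, x) (fn N n, y)
    rw [hπ', ← mul_assoc, Equiv.swap_mul_self, one_mul] at this
    exact this
  have hτ' : 0 ≤ (1 - τ) / (1 + τ) := div_nonneg (by linarith) (by linarith)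
  have := arc_use arcStmt π' θ hθ ((ringStmt _ π' θ hθ).1).le
    (fun j => (fn N (hi - j), if n < hi - j then x else y)) (hi - lo - 1) (hi - lo) (by omega)
    (fun j hj => by
      have e : hi - (j + 1) + 1 = hi - j := by omega
      have hs := hstep (hi - (j + 1)) (by omega) (by omega) (if n < hi - j then x else y)
        (by split_ifs <;> simp)
      rw [e] at hs
      show π' (fn N (hi - j), if n < hi - j then x else y) =
        (fn N (hi - (j + 1)), if n < hi - (j + 1) then x else y)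
      rw [hπ', Equiv.Perm.mul_apply, hs]
      by_cases hjn : hi - (j + 1) = n
      · have c1 : n < hi - j := by omega
        have c2 : ¬ n < hi - (j + 1) := by omega
        rw [if_pos c1, if_neg c2, hjn, Equiv.swap_apply_left]
      · have hfn : fn N (hi - (j + 1)) ≠ fn N n := fun h => by
          have := congrArg Fin.val h
          rw [cast_val (by omega), cast_val (by omega)] at this
          exact hjn this
        rw [Equiv.swap_apply_of_ne_of_ne (fun h => hfn (congrArg Prod.fst h))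
          (fun h => hfn (congrArg Prod.fst h))]
        by_cases c1 : n < hi - j
        · have c2 : n < hi - (j + 1) := by omega
          rw [if_pos c1, if_pos c2]
        · have c2 : ¬ n < hi - (j + 1) := by omega
          rw [if_neg c1, if_neg c2])
    (fun i hi' j hj' h => by
      have e1 := congrArg Prod.fst h
      simp only at e1
      have e2 := congrArg Fin.val e1
      rw [cast_val (by omega), cast_val (by omega)] at e2
      omega)
    τ h0 h1
    (fun j hj1 hj2 => by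
      have := hbd (fn N (hi - j)) (by rw [cast_val (by omega)]; omega)
        (by rw [cast_val (by omega)]; omega)
      show θ (fn N (hi - j), if n < hi - j then x else y) ≤ τ
      split_ifs
      · exact this.1
      · exact this.2)
  have e0 : ((fn N (hi - 0), if n < hi - 0 then x else y) : Fin (N + 1) × V) = (fn N hi, x) := by
    rw [Nat.sub_zero, if_pos hn2]
  have e1 : ((fn N (hi - (hi - lo - 1 + 1)), if n < hi - (hi - lo - 1 + 1) then x else y) :
      Fin (N + 1) × V) = (fn N lo, y) := by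
    have : hi - (hi - lo - 1 + 1) = lo := by omega
    rw [this, if_neg (by omega)]
  rw [e0, e1] at this
  have hM0 : 0 ≤ ((1 - τ) / (1 + τ)) ^ (hi - lo) := pow_nonneg hτ' _
  calc ((1 / 8) * ((1 - τ) / (1 + τ)) ^ (hi - lo)) * Zp π θ
      ≤ ((1 / 8) * ((1 - τ) / (1 + τ)) ^ (hi - lo)) * (2 * Zp π' θ) :=
        mul_le_mul_of_nonneg_left hd (by positivity)
    _ = ((1 / 4) * ((1 - τ) / (1 + τ)) ^ (hi - lo)) * Zp π' θ := by ring
    _ ≤ _ := this

theorem nn (L : List (V × V)) (d N : ℕ) (p : ℝ) (h0p : 0 ≤ p) (h1p : p ≤ 1)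
    (E₁ E₂ : List ((Fin (N + 1) × V) × (Fin (N + 1) × V) × ℝ)) (hE₁ : OutG N E₁)
    (hE₂ : OutG N E₂) (hdeg : ∀ x : V, (L.countP fun e => e.1 = x ∨ e.2 = x) ≤ d)
    (θ : Fin (N + 1) × V → ℝ) (hθ : ∀ z, 0 ≤ θ z ∧ θ z ≤ 1)
    (x y : V) (k k' : Fin (N + 1)) (τ : ℝ) (hxy : x ≠ y) (hL : (x, y) ∈ L ∨ (y, x) ∈ L)
    (h0 : 0 ≤ τ) (h1 : τ < 1) (hkk : k < k')
    (hbd : ∀ i, k < i → i < k' → θ (i, x) ≤ τ ∧ θ (i, y) ≤ τ) :
    θ (k', x) * θ (k, y) * ((1 / 8) * (p * ((k' : ℕ) - k : ℕ)) *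
        (((1 - p) / (1 + p)) ^ (2 * d * ((k' : ℕ) - k)) * ((1 - τ) / (1 + τ)) ^ ((k' : ℕ) - k))) ≤
      cc (law (E₁ ++ (gates L N p ++ E₂)) (base N)) θ (k', x) (k, y) := by
  set lo : ℕ := (k : ℕ) with hlo
  set hi : ℕ := (k' : ℕ) with hhi
  have hlt : lo < hi := hkk
  have hhiN : hi ≤ N := by have := k'.2; omega
  have hne : (k', x) ≠ (k, y) := fun h => hxy (congrArg Prod.snd h)
  have hl := pr_ext (L := L) h0p h1p hE₁ hE₂
  have hτ' : 0 ≤ (1 - τ) / (1 + τ) := div_nonneg (by linarith) (by linarith)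
  set c : ℝ := (1 / 8) * ((1 - τ) / (1 + τ)) ^ (hi - lo) with hc
  have hc0 : 0 ≤ c := by positivity
  have ek' : fn N hi = k' := by rw [hhi, fn_val]
  have ek : fn N lo = k := by rw [hlo, fn_val]
  have key := EL_ge_of_swap (base N) (win N (fun z => z = x ∨ z = y) lo hi) (good N x y lo hi)
    good_mem hl
    (f := fun π => Zf π θ (k', x) (k, y)) (F := fun π => Zp π θ)
    (fun π => (arcStmt _ π θ hθ _ _ hne).1) (dbl_Zp hθ) hc0 (by
      intro g _ hg π hπ
      obtain ⟨hg1, ⟨hg2, hg3⟩, hg4⟩ := hg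
      have := arc_nn x y hxy lo hi hlt hhiN θ hθ τ h0 h1
        (fun i hi1 hi2 => hbd i hi1 hi2) π hπ (g.1.1 : ℕ) hg2 hg3
      rw [ek', ek, fn_val] at this
      refine le_trans this (le_of_eq ?_)
      congr 2
      rcases hg4 with ⟨ha, hb⟩ | ⟨ha, hb⟩
      · congr 1
        · exact Prod.ext rfl ha.symm
        · exact Prod.ext hg1 hb.symm
      · rw [Equiv.swap_comm]
        congr 1
        · exact Prod.ext rfl ha.symm
        · exact Prod.ext hg1 hb.symm)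
  have h3 := cc_ge hl (base N) hθ hne key
  refine le_trans ?_ h3
  refine mul_le_mul_of_nonneg_left ?_ (mul_nonneg (hθ _).1 (hθ _).1)
  rw [DD_append, DD_append, DD_out _ lo hi hhiN hE₁, DD_out _ lo hi hhiN hE₂, one_mul, mul_one,
    GG_append, GG_append]
  have hcount : (L.countP fun e => (e.1 = x ∨ e.1 = y) ∨ (e.2 = x ∨ e.2 = y)) ≤ 2 * d := by
    have e1 : (L.countP fun e => (e.1 = x ∨ e.1 = y) ∨ (e.2 = x ∨ e.2 = y)) ≤
        (L.countP fun e => e.1 = x ∨ e.2 = x) + (L.countP fun e => e.1 = y ∨ e.2 = y) := by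
      induction L with
      | nil => simp
      | cons e l ih =>
        clear * - e l
        induction (e :: l) with
        | nil => simp
        | cons e l ih =>
          simp only [List.countP_cons]
          by_cases h1 : e.1 = x <;> by_cases h2 : e.1 = y <;> by_cases h3 : e.2 = x <;>
            by_cases h4 : e.2 = y <;> simp_all <;> omega
    have e2 := hdeg x
    have e3 := hdeg y
    omega
  have h4 := DD_gates L N h0p h1p (fun z => z = x ∨ z = y) lo hi (2 * d) hcount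
  have h5 := GG_gates L N h0p x y hL lo hi hhiN
  have h6 : 0 ≤ GG (win N (fun z => z = x ∨ z = y) lo hi) (good N x y lo hi) E₁ :=
    GG_nonneg _ _ fun g hg => (hE₁ g hg).1
  have h7 : 0 ≤ GG (win N (fun z => z = x ∨ z = y) lo hi) (good N x y lo hi) E₂ :=
    GG_nonneg _ _ fun g hg => (hE₂ g hg).1
  have hpp : 0 ≤ (1 - p) / (1 + p) := div_nonneg (by linarith) (by linarith)
  have h8 : p * ((hi - lo : ℕ) : ℝ) * ((1 - p) / (1 + p)) ^ (2 * d * (hi - lo)) ≤
      (GG (win N (fun z => z = x ∨ z = y) lo hi) (good N x y lo hi) E₁ +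
        (GG (win N (fun z => z = x ∨ z = y) lo hi) (good N x y lo hi) (gates L N p) +
        GG (win N (fun z => z = x ∨ z = y) lo hi) (good N x y lo hi) E₂)) *
        DD (win N (fun z => z = x ∨ z = y) lo hi) (gates L N p) :=
    mul_le_mul (by linarith) h4 (pow_nonneg hpp _) (by
      have : 0 ≤ p * ((hi - lo : ℕ) : ℝ) := by positivity
      linarith)
  have h9 := mul_le_mul_of_nonneg_left h8 hc0
  calc _ = c * (p * ((hi - lo : ℕ) : ℝ) * ((1 - p) / (1 + p)) ^ (2 * d * (hi - lo))) := by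
        rw [hc]; ring
    _ ≤ _ := h9
    _ = _ := by ring

end Loc.Ext

end

end Vale.Agent.P361.LRO
end

section

/-!
P361, low-temperature order, block LOC (4): the charge law is an electrical network.
-/

namespace Vale.Agent.P361.LRO.Loc

open Finset Vale.Agent.P361.LRO

noncomputable section

variable {X : Type} [Fintype X] [DecidableEq X]

omit [Fintype X] [DecidableEq X] in
theorem Pr_of_law {l : List (X × X × ℝ)} (hl : ∀ g ∈ l, 0 ≤ g.2.2 ∧ g.2.2 ≤ 1 / 2) : Pr l :=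
  fun g hg => ⟨(hl g hg).1, by linarith [(hl g hg).2]⟩

theorem law_nonneg_of_Pr {l : List (X × X × ℝ)} (hl : Pr l) (σ π : Equiv.Perm X) : 0 ≤ law l σ π := by
  induction l generalizing π with
  | nil =>
    simp only [law, Pi.single_apply]
    split_ifs <;> norm_num
  | cons g l ih =>
    have hp := hl.head
    simp only [law]
    exact add_nonneg (mul_nonneg (by linarith [hp.2]) (ih hl.tail _))
      (mul_nonneg hp.1 (ih hl.tail _))

theorem law_sum_one (l : List (X × X × ℝ)) (σ : Equiv.Perm X) : ∑ π, law l σ π = 1 := by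
  have h := sum_law σ l (fun _ => 1)
  simp only [mul_one] at h
  rw [h]
  induction l with
  | nil => rfl
  | cons g l ih =>
    simp only [EL]
    rw [ih (by rw [← sum_law]; simp)]
    ring

theorem isLaw_nonneg {μ : Equiv.Perm X → ℝ} (h : IsLaw μ) (π : Equiv.Perm X) : 0 ≤ μ π := by
  obtain ⟨l, σ, hl, rfl⟩ := h
  exact law_nonneg_of_Pr (Pr_of_law hl) σ π

theorem isLaw_sum_one {μ : Equiv.Perm X → ℝ} (h : IsLaw μ) : ∑ π, μ π = 1 := by
  obtain ⟨l, σ, hl, rfl⟩ := h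
  exact law_sum_one l σ

theorem ZZ_eq (hF : FourierStmt) (μ : Equiv.Perm X → ℝ) (θ : X → ℝ) :
    ZZ μ θ = ∑ π, μ π * Zp π θ := by
  unfold ZZ
  refine Finset.sum_congr rfl fun π _ => ?_
  rw [← (hF X π θ).1, Finset.mul_sum]

theorem ZZ_pos (hF : FourierStmt) (hR : RingStmt) {μ : Equiv.Perm X → ℝ} (hμ : IsLaw μ)
    {θ : X → ℝ} (hθ : ∀ x, 0 ≤ θ x ∧ θ x ≤ 1) : 0 < ZZ μ θ := by
  rw [ZZ_eq hF]
  have h1 : ∃ π ∈ (Finset.univ : Finset (Equiv.Perm X)), μ π ≠ 0 := by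
    apply Finset.exists_ne_zero_of_sum_ne_zero
    rw [isLaw_sum_one hμ]
    norm_num
  obtain ⟨π, _, hπ⟩ := h1
  exact Finset.sum_pos' (fun π _ => mul_nonneg (isLaw_nonneg hμ π) ((hR X π θ hθ).1).le)
    ⟨π, Finset.mem_univ π,
      mul_pos (lt_of_le_of_ne (isLaw_nonneg hμ π) (Ne.symm hπ)) (hR X π θ hθ).1⟩

theorem cc_eq_Zf (hF : FourierStmt) (μ : Equiv.Perm X → ℝ) (θ : X → ℝ) {u v : X} (huv : u ≠ v) :
    cc μ θ u v = (∑ π, μ π * (θ u * θ v * Zf π θ u v)) / ZZ μ θ := by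
  unfold cc EE
  rw [← neg_div]
  congr 1
  rw [← Finset.sum_neg_distrib]
  refine Finset.sum_congr rfl fun π _ => ?_
  rw [← (hF X π θ).2.1 u v huv, mul_neg, Finset.mul_sum]
  congr 1
  refine Finset.sum_congr rfl fun s _ => ?_
  ring

omit [DecidableEq X] in
theorem jj_sum (π : Equiv.Perm X) (s : X → Fin 2) : ∑ x, jj π s x = 0 := by
  unfold jj
  rw [Finset.sum_sub_distrib, sub_eq_zero]
  exact (Equiv.sum_comp π fun x => ((s x : ℕ) : ℝ)).symm

theorem sq_eq_pairs (a j : X → ℝ) (hj : ∑ x, j x = 0) :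
    (∑ x, a x * j x) ^ 2 =
      -((1 / 2) * ∑ u, ∑ v ∈ Finset.univ.erase u, (j u * j v) * (a u - a v) ^ 2) := by
  have h1 : ∀ u, ∑ v ∈ Finset.univ.erase u, (j u * j v) * (a u - a v) ^ 2 =
      ∑ v, (j u * j v) * (a u - a v) ^ 2 := by
    intro u
    rw [← Finset.add_sum_erase Finset.univ _ (Finset.mem_univ u)]
    simp
  simp_rw [h1]
  have h2 : ∀ u v, (j u * j v) * (a u - a v) ^ 2 =
      (a u ^ 2 * j u) * j v - 2 * ((a u * j u) * (a v * j v)) + j u * (a v ^ 2 * j v) := by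
    intro u v; ring
  simp_rw [h2, Finset.sum_add_distrib, Finset.sum_sub_distrib, ← Finset.mul_sum, hj,
    ← Finset.sum_mul, hj]
  ring

theorem EE_add (μ : Equiv.Perm X → ℝ) (θ : X → ℝ) (f g : Equiv.Perm X → (X → Fin 2) → ℝ) :
    EE μ θ (fun π s => f π s + g π s) = EE μ θ f + EE μ θ g := by
  unfold EE
  rw [← add_div]
  congr 1
  simp only [mul_add, Finset.sum_add_distrib]

theorem EE_mul (μ : Equiv.Perm X → ℝ) (θ : X → ℝ) (c : ℝ)
    (f : Equiv.Perm X → (X → Fin 2) → ℝ) :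
    EE μ θ (fun π s => c * f π s) = c * EE μ θ f := by
  unfold EE
  rw [← mul_div_assoc]
  congr 1
  simp only [Finset.mul_sum]
  refine Finset.sum_congr rfl fun π _ => Finset.sum_congr rfl fun s _ => ?_
  ring

theorem EE_zero (μ : Equiv.Perm X → ℝ) (θ : X → ℝ) :
    EE μ θ (fun _ _ => 0) = 0 := by
  simp [EE]

theorem EE_sum (μ : Equiv.Perm X → ℝ) (θ : X → ℝ) {ι : Type*} (t : Finset ι)
    (f : ι → Equiv.Perm X → (X → Fin 2) → ℝ) :
    EE μ θ (fun π s => ∑ i ∈ t, f i π s) = ∑ i ∈ t, EE μ θ (f i) := by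
  classical
  induction t using Finset.induction_on with
  | empty => simp [EE_zero]
  | insert i t hi ih =>
    simp only [Finset.sum_insert hi]
    rw [EE_add, ih]

theorem cc_symm (μ : Equiv.Perm X → ℝ) (θ : X → ℝ) (u v : X) : cc μ θ u v = cc μ θ v u := by
  unfold cc
  simp only [mul_comm (jj _ _ u)]

theorem cc_sum (μ : Equiv.Perm X → ℝ) (θ : X → ℝ) (u : X) :
    ∑ v ∈ univ.erase u, cc μ θ u v = vv μ θ u := by
  unfold cc vv
  rw [Finset.sum_neg_distrib, ← EE_sum]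
  have h : ∀ (π : Equiv.Perm X) (s : X → Fin 2),
      ∑ v ∈ univ.erase u, jj π s u * jj π s v = (-1) * jj π s u ^ 2 := by
    intro π s
    have h1 := jj_sum π s
    rw [← Finset.add_sum_erase Finset.univ _ (Finset.mem_univ u)] at h1
    rw [← Finset.mul_sum]
    have h2 : ∑ v ∈ univ.erase u, jj π s v = - jj π s u := by linarith
    rw [h2]
    ring
  simp_rw [h]
  rw [EE_mul]
  ring

theorem KK_eq (μ : Equiv.Perm X → ℝ) (θ : X → ℝ) (a : X → ℝ) :
    KK μ θ a = (1 / 2) * ∑ u, ∑ v ∈ univ.erase u, cc μ θ u v * (a u - a v) ^ 2 := by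
  unfold KK
  have h : ∀ (π : Equiv.Perm X) (s : X → Fin 2), (∑ x, a x * jj π s x) ^ 2 =
      (-(1 / 2)) * ∑ u, ∑ v ∈ univ.erase u, ((a u - a v) ^ 2) * (jj π s u * jj π s v) := by
    intro π s
    rw [sq_eq_pairs a _ (jj_sum π s)]
    rw [neg_mul]
    congr 2
    refine Finset.sum_congr rfl fun u _ => Finset.sum_congr rfl fun v _ => ?_
    ring
  simp_rw [h]
  rw [EE_mul, EE_sum]
  simp_rw [EE_sum, EE_mul]
  rw [neg_mul, ← mul_neg, ← Finset.sum_neg_distrib]
  congr 1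
  refine Finset.sum_congr rfl fun u _ => ?_
  rw [← Finset.sum_neg_distrib]
  refine Finset.sum_congr rfl fun v _ => ?_
  unfold cc
  ring

omit [Fintype X] [DecidableEq X] in
theorem jj_sq (π : Equiv.Perm X) (s : X → Fin 2) (u : X) :
    jj π s u ^ 2 = if s u = s (π u) then 0 else 1 := by
  unfold jj
  generalize s u = a
  generalize s (π u) = b
  fin_cases a <;> fin_cases b <;> simp

theorem node_le (π : Equiv.Perm X) {θ : X → ℝ} (hθ : ∀ x, 0 ≤ θ x ∧ θ x ≤ 1) (u : X) :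
    (∑ t : X → Fin 2, if (∀ x, t (π x) = t x) then
        ∏ x, (if x = u then sg (t x) else 1 + θ x * sg (t x)) else 0) ≤ Zp π θ := by
  unfold Zp
  refine Finset.sum_le_sum fun t _ => ?_
  by_cases hq : ∀ x, t (π x) = t x
  · rw [if_pos hq, if_pos hq]
    rw [← Finset.mul_prod_erase Finset.univ _ (Finset.mem_univ u),
      ← Finset.mul_prod_erase Finset.univ (fun x => 1 + θ x * sg (t x)) (Finset.mem_univ u)]
    rw [if_pos rfl]
    have h1 : ∏ x ∈ univ.erase u, (if x = u then sg (t x) else 1 + θ x * sg (t x)) =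
        ∏ x ∈ univ.erase u, (1 + θ x * sg (t x)) := by
      refine Finset.prod_congr rfl fun x hx => ?_
      rw [if_neg (Finset.ne_of_mem_erase hx)]
    rw [h1]
    have hsg : ∀ a : Fin 2, sg a = 1 ∨ sg a = -1 := by
      intro a
      fin_cases a <;> simp [sg]
    refine mul_le_mul_of_nonneg_right ?_ (Finset.prod_nonneg fun x _ => ?_)
    · have := hθ u
      rcases hsg (t u) with h | h <;> rw [h] <;> linarith [this.1, this.2]
    · have := hθ x
      rcases hsg (t x) with h | h <;> rw [h] <;> linarith [this.1, this.2]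
  · rw [if_neg hq, if_neg hq]

theorem vv_le (hF : FourierStmt) (hR : RingStmt) {μ : Equiv.Perm X → ℝ} (hμ : IsLaw μ)
    {θ : X → ℝ} (hθ : ∀ x, 0 ≤ θ x ∧ θ x ≤ 1) (u : X) : vv μ θ u ≤ θ u := by
  have hZ := ZZ_pos hF hR hμ hθ
  unfold vv EE
  rw [div_le_iff₀ hZ, ZZ_eq hF, Finset.mul_sum]
  refine Finset.sum_le_sum fun π _ => ?_
  have h1 : ∑ s, μ π * wt θ π s * jj π s u ^ 2 =
      μ π * ∑ s, (if s u = s (π u) then 0 else wt θ π s) := by
    rw [Finset.mul_sum]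
    refine Finset.sum_congr rfl fun s _ => ?_
    rw [jj_sq]
    split_ifs <;> ring
  rw [h1, (hF X π θ).2.2 u]
  have h2 := node_le π hθ u
  have h3 := mul_le_mul_of_nonneg_left h2 (mul_nonneg (isLaw_nonneg hμ π) (hθ u).1)
  calc μ π * (θ u * ∑ t : X → Fin 2, if (∀ x, t (π x) = t x) then
        ∏ x, (if x = u then sg (t x) else 1 + θ x * sg (t x)) else 0)
      = μ π * θ u * ∑ t : X → Fin 2, (if (∀ x, t (π x) = t x) then
        ∏ x, (if x = u then sg (t x) else 1 + θ x * sg (t x)) else 0) := by ring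
    _ ≤ μ π * θ u * Zp π θ := h3
    _ = θ u * (μ π * Zp π θ) := by ring

theorem netStmt (hF : FourierStmt) (hR : RingStmt) (hA : ArcStmt) : NetStmt := by
  intro X _ _ μ hμ θ hθ
  have hZ := ZZ_pos hF hR hμ hθ
  refine ⟨hZ, ?_, cc_symm μ θ, cc_sum μ θ, KK_eq μ θ, vv_le hF hR hμ hθ⟩
  intro u v huv
  rw [cc_eq_Zf hF μ θ huv]
  refine div_nonneg (Finset.sum_nonneg fun π _ => ?_) hZ.le
  exact mul_nonneg (isLaw_nonneg hμ π)
    (mul_nonneg (mul_nonneg (hθ u).1 (hθ v).1) (hA X π θ hθ u v huv).1)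

end

end Vale.Agent.P361.LRO.Loc
end

section

/-!
P361 LRO, block (4) LOC, done: `locSame`, `locNN`, `net`, `loc` (form of `Skel/Low.lean`) and
`locE` (extra gates between the layers `N` and `0`, any degree bound).
-/

namespace Vale.Agent.P361.LRO

open Finset

noncomputable section

theorem locSame (V : Type) [Fintype V] [DecidableEq V] (L : List (V × V)) (d : ℕ) :
    Loc.LocSame V L d := by
  intro β N hβ hβN hdeg θ hθ x k k' τ h0 h1 hkk hbd
  have hN : (0 : ℝ) < N := lt_of_lt_of_le hβ hβN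
  have hp1 : β / (2 * N) ≤ 1 := by
    rw [div_le_one (by positivity)]; linarith
  have := Loc.Ext.same L d N (β / (2 * N)) (by positivity) hp1 [] []
    (fun g hg => by simp at hg) (fun g hg => by simp at hg) hdeg θ hθ x k k' τ h0 h1 hkk hbd
  simpa only [phys, List.nil_append, List.append_nil] using this

theorem locNN (V : Type) [Fintype V] [DecidableEq V] (L : List (V × V)) (d : ℕ) :
    Loc.LocNN V L d := by
  intro β N hβ hβN hdeg θ hθ x y k k' τ hxy hL h0 h1 hkk hbd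
  have hN : (0 : ℝ) < N := lt_of_lt_of_le hβ hβN
  have hp1 : β / (2 * N) ≤ 1 := by
    rw [div_le_one (by positivity)]; linarith
  have := Loc.Ext.nn L d N (β / (2 * N)) (by positivity) hp1 [] []
    (fun g hg => by simp at hg) (fun g hg => by simp at hg) hdeg θ hθ x y k k' τ hxy hL h0 h1
    hkk hbd
  simpa only [phys, List.nil_append, List.append_nil] using this

/-- positivity of the conductances, network form of `K`, `v ≤ θ` -/
theorem locNet : Loc.NetStmt := Loc.netStmt Loc.fourierStmt Loc.ringStmt Loc.arcStmt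

/-- **Block (4)**, form of `Skel/Low.lean`. -/
theorem loc : ∃ c0 : ℝ, 0 < c0 ∧ ∀ {V : Type} [Fintype V] [DecidableEq V] (L : List (V × V)),
    (∀ x, deg L x ≤ 6) → ∀ (β : ℝ), 1 ≤ β → ∀ N : ℕ, 8 * β ≤ N → ∀ h T : V → ℝ,
    (∀ x, 0 ≤ h x ∧ h x ≤ 1) → (∀ x, 0 ≤ T x ∧ T x ≤ 1) →
    (∀ (k k' : Fin (N + 1)) (x : V), 0 < k → k < k' → ((k' : ℝ) - (k : ℝ)) * β / N ≤ 1 →
      c0 * (β * h x / (2 * N)) ^ 2 ≤ cc (phys L β N) (th β N h T) (k, x) (k', x)) ∧
    (∀ (k k' : Fin (N + 1)) (x y : V), 0 < k → k < k' → 1 / 4 ≤ ((k' : ℝ) - (k : ℝ)) * β / N →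
      ((k' : ℝ) - (k : ℝ)) * β / N ≤ 1 → ((x, y) ∈ L ∨ (y, x) ∈ L) → x ≠ y →
      c0 * (β * h x / (2 * N)) * (β * h y / (2 * N)) ≤
        cc (phys L β N) (th β N h T) (k, x) (k', y)) ∧
    (∀ (k : Fin (N + 1)) (x : V), 0 < k → (k : ℝ) * β / N ≤ 1 →
      c0 * T x * (β * h x / (2 * N)) ≤ cc (phys L β N) (th β N h T) (0, x) (k, x)) :=
  loc_of (fun V _ _ L => locSame V L 6) (fun V _ _ L => locNN V L 6)

namespace Loc.Done

open Vale.Agent.P361.LRO.Loc.Final

variable {V : Type} [Fintype V] [DecidableEq V]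

lemma sameE (D : ℕ) (L : List (V × V)) (hL : ∀ x, deg L x ≤ D) {β : ℝ} (h1 : 1 ≤ β) {N : ℕ}
    (hN : 8 * β ≤ N) {E₁ E₂ : List ((Fin (N + 1) × V) × (Fin (N + 1) × V) × ℝ)}
    (hE₁ : OutG N E₁) (hE₂ : OutG N E₂) {h T : V → ℝ}
    (hh : ∀ x, 0 ≤ h x ∧ h x ≤ 1) (hT : ∀ x, 0 ≤ T x ∧ T x ≤ 1)
    (k k' : Fin (N + 1)) (x : V) (hk : k < k') (ht : ((k' : ℝ) - (k : ℝ)) * β / N ≤ 1) :
    Real.exp (-(4 * D + 2 : ℝ)) / 64 * (th β N h T (k, x) * th β N h T (k', x)) ≤
      cc (physE E₁ E₂ L β) (th β N h T) (k, x) (k', x) := by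
  have hN0 : (0 : ℝ) < N := by linarith
  have hβ0 : (0 : ℝ) < β := by linarith
  set p : ℝ := β / (2 * N) with hp
  have hp0 : 0 ≤ p := by positivity
  have hp1 : p ≤ 1 / 16 := by
    rw [hp, div_le_div_iff₀ (by positivity) (by norm_num)]
    linarith
  have hθ := th_mem h1 hN hh hT
  have key := Loc.Ext.same L D N p hp0 (by linarith) E₁ E₂ hE₁ hE₂
    (fun x => by rw [List.countP_eq_length_filter]; exact hL x) (th β N h T) hθ x k k' p hp0
    (by linarith) hk (fun i hi _ => th_le h1 hN hh hi x)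
  rw [cc_comm']
  refine le_trans ?_ key
  rw [← pow_add]
  have hkk : (k : ℕ) ≤ (k' : ℕ) := le_of_lt hk
  set n : ℕ := (k' : ℕ) - (k : ℕ) with hn
  have hnr : (n : ℝ) = (k' : ℝ) - (k : ℝ) := by rw [hn]; push_cast [hkk]; ring
  have hpn : 2 * p * n ≤ 1 := by
    rw [hnr, hp]
    refine le_trans (le_of_eq ?_) ht
    field_simp
  have hpow := pow_lower hp0 (by linarith) (D * n + n)
  have hD : (0 : ℝ) ≤ D := Nat.cast_nonneg D
  have hexp : Real.exp (-(4 * D + 2 : ℝ)) ≤ Real.exp (-(4 * p * ((D * n + n : ℕ) : ℝ))) := by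
    apply Real.exp_le_exp.2
    push_cast
    have e1 := mul_le_mul_of_nonneg_left hpn (by linarith : (0 : ℝ) ≤ D + 1)
    nlinarith
  have hab : 0 ≤ th β N h T (k', x) * th β N h T (k, x) := mul_nonneg (hθ _).1 (hθ _).1
  have e0 : Real.exp (-(4 * D + 2 : ℝ)) / 64 ≤ 1 / 4 * ((1 - p) / (1 + p)) ^ (D * n + n) := by
    have := Real.exp_pos (-(4 * D + 2 : ℝ))
    linarith [hexp.trans hpow]
  calc Real.exp (-(4 * D + 2 : ℝ)) / 64 * (th β N h T (k, x) * th β N h T (k', x))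
      = (th β N h T (k', x) * th β N h T (k, x)) * (Real.exp (-(4 * D + 2 : ℝ)) / 64) := by ring
    _ ≤ _ := mul_le_mul_of_nonneg_left e0 hab

lemma nnE (D : ℕ) (L : List (V × V)) (hL : ∀ x, deg L x ≤ D) {β : ℝ} (h1 : 1 ≤ β) {N : ℕ}
    (hN : 8 * β ≤ N) {E₁ E₂ : List ((Fin (N + 1) × V) × (Fin (N + 1) × V) × ℝ)}
    (hE₁ : OutG N E₁) (hE₂ : OutG N E₂) {h T : V → ℝ}
    (hh : ∀ x, 0 ≤ h x ∧ h x ≤ 1) (hT : ∀ x, 0 ≤ T x ∧ T x ≤ 1)
    (k k' : Fin (N + 1)) (x y : V) (hk : k < k') (ht : ((k' : ℝ) - (k : ℝ)) * β / N ≤ 1)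
    (ht' : 1 / 4 ≤ ((k' : ℝ) - (k : ℝ)) * β / N) (hxy : (x, y) ∈ L ∨ (y, x) ∈ L) (hne : x ≠ y) :
    Real.exp (-(4 * D + 2 : ℝ)) / 64 * (th β N h T (k, x) * th β N h T (k', y)) ≤
      cc (physE E₁ E₂ L β) (th β N h T) (k, x) (k', y) := by
  have hN0 : (0 : ℝ) < N := by linarith
  have hβ0 : (0 : ℝ) < β := by linarith
  set p : ℝ := β / (2 * N) with hp
  have hp0 : 0 ≤ p := by positivity
  have hp1 : p ≤ 1 / 16 := by
    rw [hp, div_le_div_iff₀ (by positivity) (by norm_num)]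
    linarith
  have hθ := th_mem h1 hN hh hT
  have key := Loc.Ext.nn L D N p hp0 (by linarith) E₁ E₂ hE₁ hE₂
    (fun x => by rw [List.countP_eq_length_filter]; exact hL x) (th β N h T) hθ y x k k' p
    hne.symm (hxy.symm) hp0 (by linarith) hk
    (fun i hi _ => ⟨th_le h1 hN hh hi y, th_le h1 hN hh hi x⟩)
  rw [cc_comm']
  refine le_trans ?_ key
  rw [← pow_add]
  have hkk : (k : ℕ) ≤ (k' : ℕ) := le_of_lt hk
  set n : ℕ := (k' : ℕ) - (k : ℕ) with hn
  have hnr : (n : ℝ) = (k' : ℝ) - (k : ℝ) := by rw [hn]; push_cast [hkk]; ring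
  have e2 : 2 * p * n = ((k' : ℝ) - (k : ℝ)) * β / N := by
    rw [hnr, hp]
    field_simp
  have hpn : 2 * p * n ≤ 1 := by rw [e2]; exact ht
  have hpn' : 1 / 4 ≤ 2 * p * n := by rw [e2]; exact ht'
  have hpow := pow_lower hp0 (by linarith) (2 * D * n + n)
  have hD : (0 : ℝ) ≤ D := Nat.cast_nonneg D
  have hexp : Real.exp (-(4 * D + 2 : ℝ)) ≤
      Real.exp (-(4 * p * ((2 * D * n + n : ℕ) : ℝ))) := by
    apply Real.exp_le_exp.2
    push_cast
    have e1 := mul_le_mul_of_nonneg_left hpn (by linarith : (0 : ℝ) ≤ 2 * D + 1)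
    nlinarith
  have hab : 0 ≤ th β N h T (k', y) * th β N h T (k, x) := mul_nonneg (hθ _).1 (hθ _).1
  have hE := Real.exp_pos (-(4 * D + 2 : ℝ))
  have e0 : Real.exp (-(4 * D + 2 : ℝ)) / 64 ≤
      1 / 8 * (p * (n : ℝ)) * ((1 - p) / (1 + p)) ^ (2 * D * n + n) := by
    have h3 : 1 / 64 ≤ 1 / 8 * (p * (n : ℝ)) := by linarith
    calc Real.exp (-(4 * D + 2 : ℝ)) / 64 = 1 / 64 * Real.exp (-(4 * D + 2 : ℝ)) := by ring
      _ ≤ 1 / 8 * (p * (n : ℝ)) * ((1 - p) / (1 + p)) ^ (2 * D * n + n) :=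
        mul_le_mul h3 (hexp.trans hpow) hE.le (by linarith)
  calc Real.exp (-(4 * D + 2 : ℝ)) / 64 * (th β N h T (k, x) * th β N h T (k', y))
      = (th β N h T (k', y) * th β N h T (k, x)) * (Real.exp (-(4 * D + 2 : ℝ)) / 64) := by ring
    _ ≤ _ := mul_le_mul_of_nonneg_left e0 hab

end Loc.Done

/-- **Block (4)** with extra gates between the layers `N` and `0` and any degree bound. -/
theorem locE (D : ℕ) : ∃ c0 : ℝ, 0 < c0 ∧ ∀ {V : Type} [Fintype V] [DecidableEq V]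
    (L : List (V × V)), (∀ x, deg L x ≤ D) → ∀ (β : ℝ), 1 ≤ β → ∀ N : ℕ, 8 * β ≤ N →
    ∀ E₁ E₂ : List ((Fin (N + 1) × V) × (Fin (N + 1) × V) × ℝ), OutG N E₁ → OutG N E₂ →
    ∀ h T : V → ℝ, (∀ x, 0 ≤ h x ∧ h x ≤ 1) → (∀ x, 0 ≤ T x ∧ T x ≤ 1) →
    (∀ (k k' : Fin (N + 1)) (x : V), 0 < k → k < k' → ((k' : ℝ) - (k : ℝ)) * β / N ≤ 1 →
      c0 * (β * h x / (2 * N)) ^ 2 ≤ cc (physE E₁ E₂ L β) (th β N h T) (k, x) (k', x)) ∧
    (∀ (k k' : Fin (N + 1)) (x y : V), 0 < k → k < k' → 1 / 4 ≤ ((k' : ℝ) - (k : ℝ)) * β / N →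
      ((k' : ℝ) - (k : ℝ)) * β / N ≤ 1 → ((x, y) ∈ L ∨ (y, x) ∈ L) → x ≠ y →
      c0 * (β * h x / (2 * N)) * (β * h y / (2 * N)) ≤
        cc (physE E₁ E₂ L β) (th β N h T) (k, x) (k', y)) ∧
    (∀ (k : Fin (N + 1)) (x : V), 0 < k → (k : ℝ) * β / N ≤ 1 →
      c0 * T x * (β * h x / (2 * N)) ≤ cc (physE E₁ E₂ L β) (th β N h T) (0, x) (k, x)) := by
  refine ⟨Real.exp (-(4 * D + 2 : ℝ)) / 64, by positivity, ?_⟩
  intro V _ _ L hL β h1 N hN E₁ E₂ hE₁ hE₂ h T hh hT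
  refine ⟨?_, ?_, ?_⟩
  · intro k k' x hk hkk ht
    have := Loc.Done.sameE D L hL h1 hN hE₁ hE₂ hh hT k k' x hkk ht
    rw [Loc.Final.th_eq hk, Loc.Final.th_eq hkk] at this
    refine le_trans (le_of_eq ?_) this
    ring
  · intro k k' x y hk hkk ht' ht hxy hne
    have := Loc.Done.nnE D L hL h1 hN hE₁ hE₂ hh hT k k' x y hkk ht ht' hxy hne
    rw [Loc.Final.th_eq hk, Loc.Final.th_eq hkk] at this
    refine le_trans (le_of_eq ?_) this
    ring
  · intro k x hk ht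
    have := Loc.Done.sameE D L hL h1 hN hE₁ hE₂ hh hT 0 k x hk (by
      have e : (((0 : Fin (N + 1)) : ℕ) : ℝ) = 0 := by simp
      rw [e, sub_zero]; exact ht)
    rw [Loc.Final.th_eq hk] at this
    refine le_trans (le_of_eq ?_) this
    simp only [th, if_true]
    ring

end

end Vale.Agent.P361.LRO
end

section

/-!
P361 LRO, stage 3: the physical network in the field `g / β` satisfies `Ind3.Local3`
(long windows: `Bloch/LongCC` + `Bloch/Kernel4` + the defect bound `DeltaStmt`).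
-/

namespace Vale.Agent.P361.LRO.Ind3

open Finset Matrix Vale.Agent.P361.LRO _root_.P361.LRO Vale.Agent.P361.LRO.Ind
  Vale.Agent.P361.LRO.Bloch

noncomputable section

/-- The defect bound (output of `Bloch/Delta.lean`). -/
def DeltaStmt : Prop :=
  ∃ C : ℝ, 0 < C ∧ ∀ (V : Type) [Fintype V] [DecidableEq V] (L : List (V × V)) (β K η : ℝ)
    (b : Finset V), 0 < β → 0 < K → K ≤ b.card → b.Nonempty → 0 < η →
    ∃ N0 : ℕ, ∀ N : ℕ, N0 ≤ N → ∀ h : V → ℝ, (∀ x, 0 ≤ h x ∧ h x ≤ 1) →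
    (∀ x, rho L β h x ≤ η) → ∀ k m : ℕ, k + m + 1 ≤ N → ∀ (x y : V) (w1 w2 : List (Lt V))
      (a c : V) (p : ℝ), mword L β N (th β N h (blk K b)) k m = w1 ++ Lt.gate a c p :: w2 →
      trace (lctx L β N (th β N h (blk K b)) (k + m + 1) x * wd w1 * exM a c * wd w2 *
          rctx L β N (th β N h (blk K b)) k y) ≤
        C * η * Real.exp (C * (K * η)) * trace (lctx L β N (th β N h (blk K b)) (k + m + 1) x *
          wd (mword L β N (th β N h (blk K b)) k m) * rctx L β N (th β N h (blk K b)) k y) ∧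
      trace (lctx L β N (th β N h (blk K b)) (k + m + 1) x * wd w1 * neM a c * wd w2 *
          rctx L β N (th β N h (blk K b)) k y) ≤
        C * η * Real.exp (C * (K * η)) * trace (lctx L β N (th β N h (blk K b)) (k + m + 1) x *
          wd (mword L β N (th β N h (blk K b)) k m) * rctx L β N (th β N h (blk K b)) k y)

theorem tch_edges (n : ℕ) [NeZero n] (x : Tor n) : (tch (edges n) x : ℝ) ≤ 6 := by
  have h := deg_edges n x
  have h2 : tch (edges n) x ≤ 6 := by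
    unfold tch
    rw [List.countP_eq_length_filter]
    refine le_trans (le_of_eq ?_) h
    congr 1
    refine List.filter_congr fun e _ => ?_
    simp only [decide_eq_decide]
    constructor
    · rintro (h | h)
      · exact Or.inl h.symm
      · exact Or.inr h.symm
    · rintro (h | h)
      · exact Or.inl h.symm
      · exact Or.inr h.symm
  exact_mod_cast h2

theorem glr_eq {V : Type} [Fintype V] [DecidableEq V] (L : List (V × V)) (p : ℝ) (m : ℕ) :
    glr L p m = (List.replicate (m + 1) L.reverse).flatten.map fun e => Lt.gate e.1 e.2 p := by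
  induction m with
  | zero => simp [glr, gl]
  | succ m ih =>
    rw [glr, ih, List.replicate_succ (n := m + 1), List.flatten_cons, List.map_append]
    rfl

/-- The loss factor of `m ≤ N` layers with slice parameters `≤ 1 / (2N)`. -/
theorem loss_ge {N m : ℕ} (hN : 1 ≤ N) (hm : m ≤ N) :
    Real.exp (-2) ≤ ((1 - 1 / (2 * (N : ℝ))) / (1 + 1 / (2 * (N : ℝ)))) ^ m := by
  have hNr : (1:ℝ) ≤ N := by exact_mod_cast hN
  have hNp : (0:ℝ) < N := by linarith
  set u : ℝ := 1 / (2 * (N : ℝ)) with hu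
  have hu0 : 0 < u := by positivity
  have hu1 : u ≤ 1 / 2 := by
    rw [hu, div_le_div_iff₀ (by positivity) (by norm_num)]
    linarith
  have h1 : 0 < (1 - u) / (1 + u) := div_pos (by linarith) (by linarith)
  have h2 : (1 - u) / (1 + u) ≤ 1 := by
    rw [div_le_one (by linarith)]; linarith
  have h3 : ((1 - u) / (1 + u)) ^ N ≤ ((1 - u) / (1 + u)) ^ m :=
    pow_le_pow_of_le_one h1.le h2 hm
  refine le_trans ?_ h3
  have h4 : Real.exp (-(4 * u)) ≤ (1 - u) / (1 + u) := by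
    rw [Real.exp_neg, ← one_div, div_le_div_iff₀ (Real.exp_pos _) (by linarith), one_mul]
    have h5 : 1 + 4 * u + (4 * u) ^ 2 / 2 ≤ Real.exp (4 * u) :=
      Real.quadratic_le_exp_of_nonneg (by positivity)
    have h6 : (1 - u) * (1 + 4 * u + (4 * u) ^ 2 / 2) ≤ (1 - u) * Real.exp (4 * u) :=
      mul_le_mul_of_nonneg_left h5 (by linarith)
    refine le_trans ?_ h6
    nlinarith [mul_nonneg hu0.le hu0.le, mul_nonneg (mul_nonneg hu0.le hu0.le) hu0.le]
  calc Real.exp (-2) = (Real.exp (-(4 * u))) ^ N := by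
        rw [← Real.exp_nat_mul]
        congr 1
        rw [hu]
        field_simp
        norm_num
    _ ≤ _ := pow_le_pow_left₀ (Real.exp_pos _).le h4 N

/-- difference of two points of a cube -/
theorem cube_diff {n : ℕ} [NeZero n] {p x y : Tor n} {w : ℕ} (hx : x ∈ cube n p w)
    (hy : y ∈ cube n p w) : ∃ z : Fin 3 → ℤ, (∀ i, |(z i : ℝ)| ≤ w) ∧
      y = x + fun i => (z i : ZMod n) := by
  unfold cube at hx hy
  rw [Finset.mem_image] at hx hy
  obtain ⟨i, _, hi⟩ := hx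
  obtain ⟨j, _, hj⟩ := hy
  refine ⟨fun a => ((j a : ℕ) : ℤ) - ((i a : ℕ) : ℤ), fun a => ?_, ?_⟩
  · have h1 : ((i a : ℕ) : ℝ) < w := by exact_mod_cast (i a).2
    have h2 : ((j a : ℕ) : ℝ) < w := by exact_mod_cast (j a).2
    have h3 : (0:ℝ) ≤ ((i a : ℕ) : ℝ) := Nat.cast_nonneg _
    have h4 : (0:ℝ) ≤ ((j a : ℕ) : ℝ) := Nat.cast_nonneg _
    push_cast
    rw [abs_le]
    constructor <;> linarith
  · rw [← hi, ← hj]
    funext a
    simp only [Pi.add_apply]
    push_cast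
    ring

/-- The weight of the walk through a window of length at least a quarter of the circle. -/
theorem walk_ge {n : ℕ} [NeZero n] (hn : 2 ≤ n) {β : ℝ} (hβ : 8 ≤ β) :
    ∃ N0 : ℕ, 1 ≤ N0 ∧ ∀ N W : ℕ, N0 ≤ N → N = 4 * W → ∀ θ : Fin (N + 1) × Tor n → ℝ,
      (∀ z, 0 ≤ θ z ∧ θ z ≤ 1) → (∀ z, z.1 ≠ 0 → θ z ≤ 1 / (2 * N)) →
      ∀ k m e : ℕ, k + m + 1 ≤ N → W ≤ m + 1 → (3:ℝ) ^ e ≤ 3 * √β → √β ≤ 3 * 3 ^ e →
      ∀ J : ℕ, Ker.cJ 18 * (β / 2) ≤ J → 0 ≤ Ker.cJ 18 →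
      ∀ p x y : Tor n, x ∈ cube n p (2 * 3 ^ e) → y ∈ cube n p (2 * 3 ^ e) →
      Real.exp (-2) * (Ker.cK 18 ^ 3 / (54 * 27 ^ e)) ≤
        ∑ j ∈ range J, qq (mword (edges n) β N θ k m) (q0 x) y j := by
  have hβ0 : 0 < β := by linarith
  obtain ⟨N0, hN0⟩ := Ker.gates_lower (A := 18) (by norm_num) hn hβ0
  refine ⟨max N0 (max 1 ⌈β⌉₊), le_max_of_le_right (le_max_left _ _), ?_⟩
  intro N W hN hNW θ hθ hθ2 k m e hk hWm he1 he2 J hJ hJ0 p x y hx hy
  have hN1 : 1 ≤ N := (le_max_left _ _).trans ((le_max_right _ _).trans hN)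
  have hNβ : β ≤ N := by
    have : ⌈β⌉₊ ≤ N := (le_max_right _ _).trans ((le_max_right _ _).trans hN)
    exact (Nat.le_ceil β).trans (by exact_mod_cast this)
  have hNp : (0:ℝ) < N := by linarith
  obtain ⟨z, hz, hyz⟩ := cube_diff hx hy
  have hp0 : 0 ≤ β / (2 * N) := by positivity
  have hp1 : β / (2 * N) ≤ 1 := by
    rw [div_le_one (by positivity)]; linarith
  set s : ℝ := ((m + 1 : ℕ) : ℝ) * (β / (2 * N)) with hs
  have hm1 : ((m + 1 : ℕ) : ℝ) ≤ N := by exact_mod_cast (by omega : m + 1 ≤ N)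
  have hm2 : (N : ℝ) / 4 ≤ ((m + 1 : ℕ) : ℝ) := by
    have h1 : (N : ℝ) = 4 * W := by rw [hNW]; push_cast; ring
    have h2 : (W : ℝ) ≤ ((m + 1 : ℕ) : ℝ) := by exact_mod_cast hWm
    linarith
  have hs1 : s ≤ β / 2 := by
    calc s ≤ N * (β / (2 * N)) := mul_le_mul_of_nonneg_right hm1 hp0
      _ = β / 2 := by field_simp
  have hs2 : β / 8 ≤ s := by
    calc β / 8 = N / 4 * (β / (2 * N)) := by field_simp; norm_num
      _ ≤ s := mul_le_mul_of_nonneg_right hm2 hp0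
  have hs3 : 1 ≤ s := by linarith
  have hsp : 0 < s := by linarith
  have hsq : 0 < √s := Real.sqrt_pos.2 hsp
  have h3e : (0:ℝ) < 3 ^ e := by positivity
  have hβs : √β ≤ 3 * √s := by
    have h1 : √β ≤ √(9 * s) := Real.sqrt_le_sqrt (by linarith)
    rw [Real.sqrt_mul (by norm_num), show (9:ℝ) = 3 ^ 2 by norm_num,
      Real.sqrt_sq (by norm_num)] at h1
    exact h1
  have hker := hN0 N ((le_max_left _ _).trans hN) (edges n).reverse (List.reverse_perm _)
    (m + 1) (by omega) s rfl hs3 J ((mul_le_mul_of_nonneg_left hs1 hJ0).trans hJ) x z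
    (fun i => by
      refine (hz i).trans ?_
      push_cast
      linarith)
  rw [← hyz, ← glr_eq] at hker
  have hq0 : ∀ (v : Tor n) (j : ℕ), 0 ≤ q0 x v j := fun v j => by
    unfold q0; split_ifs <;> norm_num
  have hτ1 : 1 / (2 * (N:ℝ)) ≤ 1 := by
    rw [div_le_one (by positivity)]
    have : (1:ℝ) ≤ N := by exact_mod_cast hN1
    linarith
  have hnode := fun j => qq_mid_ge (edges n) hp0 hp1
    (t := fun j z => θ (Fin.ofNat (N + 1) (k + j), z)) (fun _ _ => hθ _)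
    (τ := 1 / (2 * N)) hτ1 m (fun j z h1 h2 => hθ2 _ (by
      intro h
      have h3 : (Fin.ofNat (N + 1) (k + j)) = Fin.ofNat (N + 1) 0 := h
      have := ofNat_inj (by omega) (by omega) h3
      omega)) hq0 y j
  have hloss := loss_ge (N := N) (m := m) hN1 (by omega)
  have hcK : 0 < Ker.cK 18 := Ker.cK_pos 18
  have h27 : (27:ℝ) ^ e = (3 ^ e) ^ 3 := by
    rw [← pow_mul, mul_comm, pow_mul]; norm_num
  have hlow : Ker.cK 18 ^ 3 / (54 * 27 ^ e) ≤ (Ker.cK 18 / √s) ^ 3 / 2 := by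
    have h1 : √s ≤ 3 * 3 ^ e := by
      refine le_trans (Real.sqrt_le_sqrt ?_) he2
      linarith
    have h2 : Ker.cK 18 / (3 * 3 ^ e) ≤ Ker.cK 18 / √s :=
      div_le_div_of_nonneg_left hcK.le hsq h1
    have h3 := pow_le_pow_left₀ (by positivity) h2 3
    calc Ker.cK 18 ^ 3 / (54 * 27 ^ e) = (Ker.cK 18 / (3 * 3 ^ e)) ^ 3 / 2 := by
          rw [h27, div_pow, mul_pow]; field_simp; norm_num
      _ ≤ _ := by linarith
  have hmword : ∀ j, ((1 - 1 / (2 * (N:ℝ))) / (1 + 1 / (2 * (N:ℝ)))) ^ m *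
      qq (glr (edges n) (β / (2 * N)) m) (q0 x) y j ≤
      qq (mword (edges n) β N θ k m) (q0 x) y j := hnode
  calc Real.exp (-2) * (Ker.cK 18 ^ 3 / (54 * 27 ^ e))
      ≤ ((1 - 1 / (2 * (N:ℝ))) / (1 + 1 / (2 * (N:ℝ)))) ^ m *
        ∑ j ∈ range J, qq (glr (edges n) (β / (2 * N)) m) (q0 x) y j :=
        mul_le_mul hloss (hlow.trans hker) (by positivity) ((Real.exp_pos _).le.trans hloss)
    _ = ∑ j ∈ range J, ((1 - 1 / (2 * (N:ℝ))) / (1 + 1 / (2 * (N:ℝ)))) ^ m *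
        qq (glr (edges n) (β / (2 * N)) m) (q0 x) y j := by rw [Finset.mul_sum]
    _ ≤ _ := Finset.sum_le_sum fun j _ => hmword j

theorem cJ_nonneg : 0 ≤ Ker.cJ 18 := by
  have hc := Ker.cK_pos 18
  have hc1 : Ker.cK 18 ≤ 1 := by
    unfold Ker.cK
    rw [Real.exp_le_one_iff]
    norm_num
  have h3 : Ker.cK 18 ^ 3 ≤ 1 := pow_le_one₀ hc.le hc1
  have hl : 0 ≤ Real.log (4 / Ker.cK 18 ^ 3) := by
    apply Real.log_nonneg
    rw [le_div_iff₀ (by positivity)]
    linarith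
  have hl2 : 0 < Real.log 2 := Real.log_pos (by norm_num)
  unfold Ker.cJ
  positivity

/-- Conductance between two nodes at distance at least a quarter of the circle. -/
theorem cc_ge {n : ℕ} [NeZero n] (hn : 2 ≤ n) {β : ℝ} (hβ : 8 ≤ β) :
    ∃ N0 : ℕ, 1 ≤ N0 ∧ ∀ N W : ℕ, N0 ≤ N → N = 4 * W → ∀ θ : Fin (N + 1) × Tor n → ℝ,
      (∀ z, 0 ≤ θ z ∧ θ z ≤ 1) → (∀ z, z.1 ≠ 0 → θ z ≤ 1 / (2 * N)) →
      ∀ k m e : ℕ, k + m + 1 ≤ N → W ≤ m + 1 → (3:ℝ) ^ e ≤ 3 * √β → √β ≤ 3 * 3 ^ e →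
      ∀ δ : ℝ, 0 ≤ δ → δ * ((7 + 2 * Ker.cJ 18) * β) ≤ 1 / 2 →
      ∀ p x y : Tor n, x ∈ cube n p (2 * 3 ^ e) → y ∈ cube n p (2 * 3 ^ e) →
      (∀ w1 w2 a b p, mword (edges n) β N θ k m = w1 ++ Lt.gate a b p :: w2 →
        trace (lctx (edges n) β N θ (k + m + 1) x * wd w1 * exM a b * wd w2 *
            rctx (edges n) β N θ k y) ≤
          δ * trace (lctx (edges n) β N θ (k + m + 1) x * wd (mword (edges n) β N θ k m) *
            rctx (edges n) β N θ k y) ∧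
        trace (lctx (edges n) β N θ (k + m + 1) x * wd w1 * neM a b * wd w2 *
            rctx (edges n) β N θ k y) ≤
          δ * trace (lctx (edges n) β N θ (k + m + 1) x * wd (mword (edges n) β N θ k m) *
            rctx (edges n) β N θ k y)) →
      Real.exp (-2) * Ker.cK 18 ^ 3 / 432 / 27 ^ e *
        (θ (Fin.ofNat (N + 1) (k + m + 1), x) * θ (Fin.ofNat (N + 1) k, y)) ≤
      cc (phys (edges n) β N) θ (Fin.ofNat (N + 1) (k + m + 1), x) (Fin.ofNat (N + 1) k, y) := by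
  obtain ⟨N0, hN01, hN0⟩ := walk_ge hn hβ
  refine ⟨max N0 ⌈β⌉₊, le_max_of_le_left hN01, ?_⟩
  intro N W hN hNW θ hθ hθ2 k m e hk hWm he1 he2 δ hδ hδ2 p x y hx hy hX
  have hN1 : 1 ≤ N := hN01.trans ((le_max_left _ _).trans hN)
  have hNβ : β ≤ N := by
    have : ⌈β⌉₊ ≤ N := (le_max_right _ _).trans hN
    exact (Nat.le_ceil β).trans (by exact_mod_cast this)
  have hβ0 : 0 < β := by linarith
  have hNp : (0:ℝ) < N := by linarith
  have hcJ := cJ_nonneg
  have hcK : 0 < Ker.cK 18 := Ker.cK_pos 18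
  set J : ℕ := ⌈Ker.cJ 18 * (β / 2)⌉₊ with hJ
  have hJ1 : Ker.cJ 18 * (β / 2) ≤ J := Nat.le_ceil _
  have hJ2 : (J:ℝ) ≤ Ker.cJ 18 * (β / 2) + 1 := (Nat.ceil_lt_add_one (by positivity)).le
  have hwalk := hN0 N W ((le_max_left _ _).trans hN) hNW θ hθ hθ2 k m e hk hWm he1 he2 J hJ1 hcJ
    p x y hx hy
  have hcc := cc_long (edges n) hβ0.le hNβ (by omega) hθ (tch_edges n) hk x y J hδ hX
  refine le_trans ?_ hcc
  set S := ∑ j ∈ range J, qq (mword (edges n) β N θ k m) (q0 x) y j with hS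
  have hp0 : 0 ≤ β / (2 * N) := by positivity
  have hp1 : β / (2 * N) ≤ 1 := by
    rw [div_le_one (by positivity)]; linarith
  have hqn : ∀ j, 0 ≤ qq (mword (edges n) β N θ k m) (q0 x) y j := fun j =>
    qq_nonneg (ok_mid (edges n) hp0 hp1 (fun _ _ => hθ _) m) (fun v j => by
      unfold q0; split_ifs <;> norm_num) y j
  have hhalf : S / 2 ≤ ∑ j ∈ range J, qq (mword (edges n) β N θ k m) (q0 x) y j *
      (1 - δ * (β / (2 * N) * 6 * (m + 1) + (1 + β / (2 * N) * 6) * j)) := by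
    rw [hS, Finset.sum_div]
    refine Finset.sum_le_sum fun j hj => ?_
    rw [div_eq_mul_inv]
    refine mul_le_mul_of_nonneg_left ?_ (hqn j)
    have hj' : (j:ℝ) ≤ J := by exact_mod_cast (Finset.mem_range.1 hj).le
    have hm1 : ((m:ℝ) + 1) ≤ N := by exact_mod_cast (by omega : m + 1 ≤ N)
    have h1 : β / (2 * N) * 6 * (m + 1) ≤ 3 * β := by
      calc β / (2 * N) * 6 * (m + 1) ≤ β / (2 * N) * 6 * N :=
            mul_le_mul_of_nonneg_left hm1 (by positivity)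
        _ = 3 * β := by field_simp; norm_num
    have h2 : β / (2 * N) * 6 ≤ 3 := by
      rw [div_mul_eq_mul_div, div_le_iff₀ (by positivity)]
      linarith
    have h3 : (1 + β / (2 * N) * 6) * j ≤ 4 * (Ker.cJ 18 * (β / 2) + 1) := by
      refine mul_le_mul (by linarith) (hj'.trans hJ2) (Nat.cast_nonneg _) (by norm_num)
    have h4 : β / (2 * N) * 6 * (m + 1) + (1 + β / (2 * N) * 6) * j ≤
        (7 + 2 * Ker.cJ 18) * β := by
      nlinarith
    have h5 := mul_le_mul_of_nonneg_left h4 hδ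
    norm_num
    linarith
  have hθθ : 0 ≤ θ (Fin.ofNat (N + 1) (k + m + 1), x) * θ (Fin.ofNat (N + 1) k, y) :=
    mul_nonneg (hθ _).1 (hθ _).1
  have h6 : Real.exp (-2) * Ker.cK 18 ^ 3 / 432 / 27 ^ e ≤ (∑ j ∈ range J,
      qq (mword (edges n) β N θ k m) (q0 x) y j *
      (1 - δ * (β / (2 * N) * 6 * (m + 1) + (1 + β / (2 * N) * 6) * j))) / 4 := by
    have e1 : Real.exp (-2) * Ker.cK 18 ^ 3 / 432 / 27 ^ e =
        Real.exp (-2) * (Ker.cK 18 ^ 3 / (54 * 27 ^ e)) / 8 := by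
      field_simp
      norm_num
    rw [e1]
    linarith
  have h7 := mul_le_mul_of_nonneg_right h6 hθθ
  refine h7.trans (le_of_eq ?_)
  ring

/-- **The physical network satisfies `Local3`.** `c1` is absolute. -/
theorem local3_inst (hΔ : DeltaStmt) : ∃ c1 : ℝ, 0 < c1 ∧ ∀ A : ℝ, 0 < A → ∃ β0 : ℝ, 8 ≤ β0 ∧
    ∀ β : ℝ, β0 ≤ β → ∀ (e n : ℕ) [NeZero n] (K η : ℝ) (b : Finset (Tor n)), 2 ≤ n →
    (3:ℝ) ^ e ≤ 3 * √β → √β ≤ 3 * 3 ^ e → 0 < K → K ≤ b.card → b.Nonempty →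
    0 < η → η ≤ A * β ^ (-(3 / 2) : ℝ) → K * η ≤ A →
    ∃ N0 : ℕ, ∀ N W : ℕ, N0 ≤ N → N = 4 * W → ∀ g : Tor n → ℝ, (∀ x, 0 ≤ g x ∧ g x ≤ 1) →
    (∀ x, rho (edges n) β (fun y => g y / β) x ≤ η) →
    Local3 n N W e K c1 b g (physC n N β K b fun y => g y / β) := by
  obtain ⟨C, hC, hΔ⟩ := hΔ
  have hcJ := cJ_nonneg
  have hcK : 0 < Ker.cK 18 := Ker.cK_pos 18
  set c0 : ℝ := Real.exp (-2) * Ker.cK 18 ^ 3 / 432 with hc0
  have hc0p : 0 < c0 := by
    have := Real.exp_pos (-2)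
    positivity
  refine ⟨c0 / 8, by positivity, fun A hA => ?_⟩
  set M : ℝ := 2 * (C * A * Real.exp (C * A) * (7 + 2 * Ker.cJ 18)) with hM
  have hMp : 0 < M := by
    have := Real.exp_pos (C * A)
    positivity
  refine ⟨max 8 (M ^ 2), le_max_left _ _, ?_⟩
  intro β hβ e n _ K η b hn he1 he2 hK hKb hbn hη hη2 hKη
  have hβ8 : 8 ≤ β := (le_max_left _ _).trans hβ
  have hβ0 : 0 < β := by linarith
  have hβM : M ≤ √β := Real.le_sqrt_of_sq_le ((le_max_right _ _).trans hβ)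
  set δ : ℝ := C * η * Real.exp (C * (K * η)) with hδ
  have hδ0 : 0 ≤ δ := by
    have := Real.exp_pos (C * (K * η))
    positivity
  have hsβ : 0 < √β := Real.sqrt_pos.2 hβ0
  have hrp : β ^ (-(3 / 2) : ℝ) = 1 / (β * √β) := by
    rw [Real.rpow_neg hβ0.le, one_div, Real.sqrt_eq_rpow]
    congr 1
    rw [show (3 / 2 : ℝ) = 1 + 1 / 2 by norm_num, Real.rpow_add hβ0, Real.rpow_one]
  have hδ2 : δ * ((7 + 2 * Ker.cJ 18) * β) ≤ 1 / 2 := by
    have h1 : δ ≤ C * (A * (1 / (β * √β))) * Real.exp (C * A) := by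
      rw [hδ]
      refine mul_le_mul (mul_le_mul_of_nonneg_left ?_ hC.le)
        (Real.exp_le_exp.2 (mul_le_mul_of_nonneg_left hKη hC.le)) (Real.exp_pos _).le
        (by positivity)
      rw [← hrp]; exact hη2
    have h2 : 0 ≤ (7 + 2 * Ker.cJ 18) * β := by positivity
    calc δ * ((7 + 2 * Ker.cJ 18) * β)
        ≤ C * (A * (1 / (β * √β))) * Real.exp (C * A) * ((7 + 2 * Ker.cJ 18) * β) :=
          mul_le_mul_of_nonneg_right h1 h2
      _ = M / 2 / √β := by rw [hM]; field_simp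
      _ ≤ 1 / 2 := by
        rw [div_div, div_le_div_iff₀ (by positivity) (by norm_num)]
        linarith
  obtain ⟨N1, hN1⟩ := hΔ (Tor n) (edges n) β K η b hβ0 hK hKb hbn hη
  obtain ⟨N2, hN21, hN2⟩ := cc_ge hn hβ8
  refine ⟨max N1 (max N2 ⌈β⌉₊), ?_⟩
  intro N W hN hNW g hg hrho
  have hNN1 : N1 ≤ N := (le_max_left _ _).trans hN
  have hNN2 : N2 ≤ N := (le_max_left _ _).trans ((le_max_right _ _).trans hN)
  have hNβ : β ≤ N := by
    have : ⌈β⌉₊ ≤ N := (le_max_right _ _).trans ((le_max_right _ _).trans hN)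
    exact (Nat.le_ceil β).trans (by exact_mod_cast this)
  have hNp : (0:ℝ) < N := by linarith
  have hNat : 1 ≤ N := hN21.trans hNN2
  have hW : 1 ≤ W := by omega
  set h : Tor n → ℝ := fun y => g y / β with hh
  have hh01 : ∀ x, 0 ≤ h x ∧ h x ≤ 1 := fun x => by
    rw [hh]
    refine ⟨div_nonneg (hg x).1 hβ0.le, ?_⟩
    simp only
    rw [div_le_one hβ0]
    linarith [(hg x).2]
  have hT : ∀ x, 0 ≤ blk K b x ∧ blk K b x ≤ 1 := Vale.Agent.P361.LRO.Ind.blk_mem hK.le b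
  have hθ := fun z => Loc.th_memL (h := h) (T := blk K b) hβ0.le hNβ hh01 hT z
  have hθg : ∀ (k : Fin (N + 1)) (x : Tor n), k ≠ 0 → th β N h (blk K b) (k, x) = g x / (2 * N) :=
    fun k x hk => by
      unfold th
      rw [if_neg hk, hh]
      field_simp
  have hθ2 : ∀ z : Fin (N + 1) × Tor n, z.1 ≠ 0 → th β N h (blk K b) z ≤ 1 / (2 * N) := by
    rintro ⟨k, x⟩ hk
    rw [hθg k x hk]
    exact div_le_div_of_nonneg_right (hg x).2 (by positivity)
  have hlaw := Vale.Agent.P361.LRO.Ind.isLaw_phys' (edges n) hβ0.le hNβ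
  obtain ⟨hZ, hccn, hccs, hsum, hKK, hvv⟩ := locNet _ _ hlaw _ hθ
  have hmain : ∀ (k m : ℕ), k + m + 1 ≤ N → W ≤ m + 1 → ∀ p x y : Tor n,
      x ∈ cube n p (2 * 3 ^ e) → y ∈ cube n p (2 * 3 ^ e) →
      c0 / 27 ^ e * (th β N h (blk K b) (Fin.ofNat (N + 1) (k + m + 1), x) *
        th β N h (blk K b) (Fin.ofNat (N + 1) k, y)) ≤
      cc (phys (edges n) β N) (th β N h (blk K b)) (Fin.ofNat (N + 1) (k + m + 1), x)
        (Fin.ofNat (N + 1) k, y) := fun k m hkm hWm p x y hx hy =>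
    hN2 N W hNN2 hNW _ hθ hθ2 k m e hkm hWm he1 he2 δ hδ0 hδ2 p x y hx hy
      (fun w1 w2 a c p hw => hN1 N hNN1 h hh01 hrho k m hkm x y w1 w2 a c p hw)
  refine ⟨?_, ?_, ?_, ?_, ?_⟩
  · intro u v
    unfold physC Net.c0
    by_cases huv : u = v
    · rw [if_pos huv, if_pos huv.symm]
    · rw [if_neg huv, if_neg (Ne.symm huv), hccs]
  · intro u v
    unfold physC Net.c0
    by_cases huv : u = v
    · rw [if_pos huv]
    · rw [if_neg huv]; exact hccn u v huv
  · intro k x hk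
    have h1 : ∑ v, physC n N β K b h (k, x) v =
        ∑ v ∈ univ.erase (k, x), cc (phys (edges n) β N) (th β N h (blk K b)) (k, x) v := by
      unfold physC Net.c0
      rw [← Finset.add_sum_erase Finset.univ _ (Finset.mem_univ (k, x))]
      rw [if_pos rfl, zero_add]
      refine Finset.sum_congr rfl fun v hv => ?_
      rw [if_neg (Ne.symm (Finset.ne_of_mem_erase hv))]
    rw [h1, hsum]
    refine (hvv _).trans ?_
    rw [hθg k x hk]
  · intro k l p x y hk hkl hx hy hgx hgy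
    have hk0 : 0 < (k : ℕ) := Fin.pos_of_ne_zero hk
    have hl0 : l ≠ 0 := by
      intro h
      rw [h] at hkl
      simp at hkl
      omega
    have hne : (k, x) ≠ (l, y) := fun h => by
      have : (k:ℕ) = l := congrArg (fun z : Fin (N + 1) × Tor n => (z.1 : ℕ)) h
      omega
    unfold physC Net.c0
    rw [if_neg hne, hccs]
    have hlN : (l : ℕ) ≤ N := Nat.lt_succ_iff.1 l.2
    obtain ⟨m, hm⟩ : ∃ m : ℕ, (l : ℕ) = k + m + 1 := ⟨(l : ℕ) - k - 1, by omega⟩
    have h1 := hmain k m (by omega) (by omega) p y x hy hx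
    have hl : Fin.ofNat (N + 1) ((k : ℕ) + m + 1) = l := by
      rw [← hm]; exact Fin.cast_val_eq_self l
    have hkk : Fin.ofNat (N + 1) (k : ℕ) = k := Fin.cast_val_eq_self k
    rw [hl, hkk, hθg l y hl0, hθg k x hk, hgx, hgy] at h1
    refine le_trans ?_ h1
    have e1 : c0 / 27 ^ e * (1 / (2 * (N:ℝ)) * (1 / (2 * N))) =
        2 * (c0 / 8 / ((N:ℝ) ^ 2 * 27 ^ e)) := by
      field_simp; norm_num
    rw [e1]
    have : 0 ≤ c0 / 8 / ((N:ℝ) ^ 2 * 27 ^ e) := by positivity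
    linarith
  · intro k p x y hWk hxb hx hy hgy
    have hk0 : 0 < (k : ℕ) := by omega
    have hkne : k ≠ 0 := by
      intro h
      rw [h] at hk0
      simp at hk0
    have hne : ((0 : Fin (N + 1)), x) ≠ (k, y) := fun h => hkne (congrArg Prod.fst h).symm
    unfold physC Net.c0
    rw [if_neg hne, hccs]
    have hkN : (k : ℕ) ≤ N := Nat.lt_succ_iff.1 k.2
    obtain ⟨m, hm⟩ : ∃ m : ℕ, (k : ℕ) = 0 + m + 1 := ⟨(k : ℕ) - 1, by omega⟩
    have h1 := hmain 0 m (by omega) (by omega) p y x hy hx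
    have hl : Fin.ofNat (N + 1) (0 + m + 1) = k := by
      rw [← hm]; exact Fin.cast_val_eq_self k
    have hkk : Fin.ofNat (N + 1) 0 = (0 : Fin (N + 1)) := by
      simp
    rw [hl, hkk, hθg k y hkne, hgy] at h1
    refine le_trans ?_ h1
    have hth0 : th β N h (blk K b) ((0 : Fin (N + 1)), x) = blk K b x := by
      unfold th; rw [if_pos rfl]
    rw [hth0]
    have hbp : (0:ℝ) < b.card := by
      have : 0 < b.card := Finset.card_pos.2 ⟨x, hxb⟩
      exact_mod_cast this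
    have ht : K / b.card / 4 ≤ blk K b x := by
      unfold blk; rw [if_pos hxb]
      have h6 : K / (2 * b.card) ≤ 1 := by
        rw [div_le_one (by positivity)]; linarith
      have := tanh_ge (K / (2 * b.card)) (by positivity) h6
      refine le_trans ?_ this
      apply le_of_eq; field_simp; ring
    have h7 : c0 / 27 ^ e * (1 / (2 * (N:ℝ)) * (K / b.card / 4)) ≤
        c0 / 27 ^ e * (1 / (2 * (N:ℝ)) * blk K b x) := by
      refine mul_le_mul_of_nonneg_left (mul_le_mul_of_nonneg_left ht (by positivity))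
        (by positivity)
    refine le_trans (le_of_eq ?_) h7
    field_simp
    norm_num

end

end Vale.Agent.P361.LRO.Ind3
end

section

/-!
# P361, long range order, block SR: the one-node inequality on the common definitions
-/

namespace Vale.Agent.P361.LRO.ONI

open Finset
open scoped BigOperators

noncomputable section

variable {X : Type} [Fintype X] [DecidableEq X]

/-- the exponents `1 + j` of the charge law -/
def nj (ω : Equiv.Perm X × (X → Fin 2)) (x : X) : ℕ :=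
  if ω.2 x = ω.2 (ω.1 x) then 1 else if ω.2 x = 1 then 2 else 0

omit [Fintype X] [DecidableEq X] in
lemma nj_le (ω : Equiv.Perm X × (X → Fin 2)) (x : X) : nj ω x ≤ 2 := by
  unfold nj; split_ifs <;> norm_num

omit [Fintype X] [DecidableEq X] in
lemma nj_eq_one (ω : Equiv.Perm X × (X → Fin 2)) (x : X) :
    nj ω x = 1 ↔ ω.2 x = ω.2 (ω.1 x) := by
  unfold nj; split_ifs <;> simp_all

omit [Fintype X] [DecidableEq X] in
lemma jc_nj (ω : Equiv.Perm X × (X → Fin 2)) (x : X) :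
    SR.jc (nj (X := X)) ω x = jj ω.1 ω.2 x := by
  unfold SR.jc nj jj
  generalize ω.2 x = a
  generalize ω.2 (ω.1 x) = b
  fin_cases a <;> fin_cases b <;> simp <;> norm_num

/-- the weight at `θ = 1` -/
def Wμ (μ : Equiv.Perm X → ℝ) (ω : Equiv.Perm X × (X → Fin 2)) : ℝ := μ ω.1

lemma wθ_nj (μ : Equiv.Perm X → ℝ) (θ : X → ℝ) (ω : Equiv.Perm X × (X → Fin 2)) :
    SR.wθ (Wμ μ) nj θ ω = μ ω.1 * wt θ ω.1 ω.2 := by
  unfold SR.wθ Wμ wt
  congr 1
  refine Finset.prod_congr rfl fun x _ => ?_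
  simp only [nj_eq_one]

lemma sum_nj (μ : Equiv.Perm X → ℝ) (θ : X → ℝ) (f : Equiv.Perm X → (X → Fin 2) → ℝ) :
    ∑ ω, SR.wθ (Wμ μ) nj θ ω * f ω.1 ω.2 = ∑ π, ∑ s, μ π * wt θ π s * f π s := by
  rw [Fintype.sum_prod_type]
  refine Finset.sum_congr rfl fun π _ => Finset.sum_congr rfl fun s _ => ?_
  rw [wθ_nj]

lemma Zθ_nj (μ : Equiv.Perm X → ℝ) (θ : X → ℝ) : SR.Zθ (Wμ μ) nj θ = ZZ μ θ := by
  have := sum_nj μ θ (fun _ _ => 1)
  simp only [mul_one] at this
  exact this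

lemma Eθ_nj (μ : Equiv.Perm X → ℝ) (θ : X → ℝ) (f : Equiv.Perm X → (X → Fin 2) → ℝ) :
    SR.Eθ (Wμ μ) nj θ (fun ω => f ω.1 ω.2) = EE μ θ f := by
  unfold SR.Eθ EE
  rw [sum_nj, Zθ_nj]

lemma vθ_nj (μ : Equiv.Perm X → ℝ) (θ : X → ℝ) (z : X) :
    SR.vθ (Wμ μ) nj θ z = vv μ θ z := by
  unfold SR.vθ vv
  simp only [jc_nj]
  exact Eθ_nj μ θ (fun π s => jj π s z ^ 2)

lemma cθ_nj (μ : Equiv.Perm X → ℝ) (θ : X → ℝ) (u v : X) :
    SR.cθ (Wμ μ) nj θ u v = cc μ θ u v := by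
  unfold SR.cθ cc
  simp only [jc_nj]
  rw [Eθ_nj μ θ (fun π s => jj π s u * jj π s v)]

/-- law of a product of random transpositions: nonnegativity -/
lemma law_nonneg (l : List (X × X × ℝ)) (σ : Equiv.Perm X)
    (hl : ∀ g ∈ l, 0 ≤ g.2.2 ∧ g.2.2 ≤ 1 / 2) (π : Equiv.Perm X) : 0 ≤ law l σ π := by
  induction l generalizing π with
  | nil =>
    unfold law
    by_cases h : π = σ
    · subst h; simp
    · simp [Pi.single_apply, h]
  | cons g l ih =>
    have h1 := hl g (by simp)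
    have h2 := ih (fun g' hg' => hl g' (by simp [hg']))
    unfold law
    have h3 := h2 π
    have h4 := h2 (Equiv.swap g.1 g.2.1 * π)
    have h5 : 0 ≤ 1 - g.2.2 := by linarith [h1.2]
    have := h1.1
    positivity

/-- law of a product of random transpositions: total mass -/
lemma law_sum (l : List (X × X × ℝ)) (σ : Equiv.Perm X) : ∑ π, law l σ π = 1 := by
  induction l with
  | nil =>
    unfold law
    simp
  | cons g l ih =>
    have : ∑ π, law l σ (Equiv.swap g.1 g.2.1 * π) = 1 := by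
      rw [← ih]
      exact Fintype.sum_equiv (Equiv.mulLeft (Equiv.swap g.1 g.2.1)) _ _ (fun π => rfl)
    unfold law
    rw [Finset.sum_add_distrib, ← Finset.mul_sum, ← Finset.mul_sum, ih, this]
    ring

lemma isLaw_nonneg {μ : Equiv.Perm X → ℝ} (h : IsLaw μ) (π : Equiv.Perm X) : 0 ≤ μ π := by
  obtain ⟨l, σ, hl, rfl⟩ := h
  exact law_nonneg l σ hl π

lemma isLaw_sum {μ : Equiv.Perm X → ℝ} (h : IsLaw μ) : ∑ π, μ π = 1 := by
  obtain ⟨l, σ, hl, rfl⟩ := h
  exact law_sum l σ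

lemma wt_nonneg' {θ : X → ℝ} (h : ∀ x, 0 ≤ θ x) (π : Equiv.Perm X) (s : X → Fin 2) :
    0 ≤ wt θ π s := by
  unfold wt
  refine Finset.prod_nonneg fun x _ => ?_
  split_ifs
  · exact zero_le_one
  · exact h x

lemma sum_jj_eq_zero (π : Equiv.Perm X) (s : X → Fin 2) : ∑ x, jj π s x = 0 := by
  unfold jj
  rw [Finset.sum_sub_distrib, sub_eq_zero]
  exact (Equiv.sum_comp π (fun x => ((s x : ℕ) : ℝ))).symm

lemma sum_nj_eq_card (ω : Equiv.Perm X × (X → Fin 2)) : ∑ x, nj ω x = Fintype.card X := by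
  have h := sum_jj_eq_zero ω.1 ω.2
  have h2 : ∑ x, jj ω.1 ω.2 x = ((∑ x, nj ω x : ℕ) : ℝ) - Fintype.card X := by
    rw [Nat.cast_sum, ← Finset.card_univ, Finset.cast_card, ← Finset.sum_sub_distrib]
    refine Finset.sum_congr rfl fun x _ => ?_
    rw [← jc_nj]; rfl
  rw [h2, sub_eq_zero] at h
  exact_mod_cast h

/-- the global flip of the spins -/
def flipPerm : Equiv.Perm (Equiv.Perm X × (X → Fin 2)) where
  toFun ω := (ω.1, fun x => 1 - ω.2 x)
  invFun ω := (ω.1, fun x => 1 - ω.2 x)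
  left_inv ω := by ext <;> simp
  right_inv ω := by ext <;> simp

omit [Fintype X] [DecidableEq X] in
lemma nj_flip (ω : Equiv.Perm X × (X → Fin 2)) (x : X) :
    nj (flipPerm ω) x = 2 - nj ω x := by
  have h : ∀ a b : Fin 2, (if (1 - a : Fin 2) = 1 - b then 1 else if (1 - a : Fin 2) = 1 then 2 else 0)
      = 2 - (if a = b then 1 else if a = 1 then 2 else 0) := by decide
  exact h (ω.2 x) (ω.2 (ω.1 x))

lemma wθ_flip (μ : Equiv.Perm X → ℝ) (θ : X → ℝ) (ω : Equiv.Perm X × (X → Fin 2)) :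
    SR.wθ (Wμ μ) nj θ (flipPerm ω) = SR.wθ (Wμ μ) nj θ ω := by
  unfold SR.wθ
  have h1 : Wμ μ (flipPerm ω) = Wμ μ ω := rfl
  rw [h1]
  congr 1
  refine Finset.prod_congr rfl fun x _ => ?_
  have h2 : nj (flipPerm ω) x = 1 ↔ nj ω x = 1 := by
    rw [nj_flip]
    have := nj_le ω x
    omega
  simp only [h2]

/-- the generating function in Omega-form -/
lemma gen_eq (μ : Equiv.Perm X → ℝ) (θ : X → ℝ) (ζ : X → ℂ) :
    gen μ θ ζ = ∑ ω, ((SR.wθ (Wμ μ) nj θ ω : ℝ) : ℂ) * ∏ x, ζ x ^ nj ω x := by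
  unfold gen
  rw [Fintype.sum_prod_type]
  refine Finset.sum_congr rfl fun π _ => Finset.sum_congr rfl fun s _ => ?_
  rw [wθ_nj]
  congr 1
  refine Finset.prod_congr rfl fun x _ => ?_
  unfold nj
  simp only
  split_ifs <;> simp

lemma QA_one_nj (μ : Equiv.Perm X → ℝ) (θ : X → ℝ) (z : X) :
    SR.QA (Wμ μ) nj θ z (fun _ => 1)
      = ∑ π, ∑ s : X → Fin 2, if s z = s (π z) then 0
          else μ π * wt (Function.update θ z 1) π s := by
  unfold SR.QA
  rw [Fintype.sum_prod_type]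
  refine Finset.sum_congr rfl fun π _ => Finset.sum_congr rfl fun s _ => ?_
  simp only [nj_eq_one, wθ_nj, mul_one]

lemma wt_update_of_eq (θ : X → ℝ) (z : X) (t : ℝ) (π : Equiv.Perm X) (s : X → Fin 2)
    (h : s z = s (π z)) : wt (Function.update θ z t) π s = wt θ π s := by
  unfold wt
  refine Finset.prod_congr rfl fun x _ => ?_
  by_cases hx : x = z
  · subst hx; simp [h]
  · rw [Function.update_of_ne hx]

lemma QB_one_nj (μ : Equiv.Perm X → ℝ) (θ : X → ℝ) (z : X) :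
    SR.QB (Wμ μ) nj θ z (fun _ => 1)
      = ∑ π, ∑ s : X → Fin 2, if s z = s (π z) then μ π * wt θ π s else 0 := by
  unfold SR.QB
  rw [Fintype.sum_prod_type]
  refine Finset.sum_congr rfl fun π _ => Finset.sum_congr rfl fun s _ => ?_
  simp only [nj_eq_one, wθ_nj, mul_one]
  split_ifs with h
  · rw [wt_update_of_eq θ z 1 π s h]
  · rfl

lemma mag_eq (μ : Equiv.Perm X → ℝ) (θ : X → ℝ) (z : X) :
    mag μ θ z = SR.QA (Wμ μ) nj θ z (fun _ => 1) / SR.QB (Wμ μ) nj θ z (fun _ => 1) := by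
  rw [QA_one_nj, QB_one_nj]
  rfl

lemma wθ_nonneg {μ : Equiv.Perm X → ℝ} (hμ : IsLaw μ) {θ : X → ℝ} (hθ : ∀ x, 0 ≤ θ x)
    (ω : Equiv.Perm X × (X → Fin 2)) : 0 ≤ SR.wθ (Wμ μ) nj θ ω := by
  rw [wθ_nj]
  exact mul_nonneg (isLaw_nonneg hμ _) (wt_nonneg' hθ _ _)

lemma update_nonneg {θ : X → ℝ} (hθ : ∀ x, 0 ≤ θ x) (z : X) (x : X) :
    0 ≤ Function.update θ z 1 x := by
  by_cases hx : x = z
  · subst hx; simp
  · rw [Function.update_of_ne hx]; exact hθ x

lemma QB_pos {μ : Equiv.Perm X → ℝ} (hμ : IsLaw μ) {θ : X → ℝ} (hθ : ∀ x, 0 ≤ θ x) (z : X) :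
    0 < SR.QB (Wμ μ) nj θ z (fun _ => 1) := by
  have h1 : (1:ℝ) ≤ SR.QB (Wμ μ) nj θ z (fun _ => 1) := by
    rw [QB_one_nj, ← isLaw_sum hμ]
    refine Finset.sum_le_sum fun π _ => ?_
    have h2 : (fun s : X → Fin 2 => if s z = s (π z) then μ π * wt θ π s else 0)
        (fun _ => 0) = μ π := by
      simp [wt]
    have h3 := Finset.single_le_sum (f := fun s : X → Fin 2 => if s z = s (π z)
      then μ π * wt θ π s else 0) (s := Finset.univ) (fun s _ => by
        split_ifs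
        · exact mul_nonneg (isLaw_nonneg hμ _) (wt_nonneg' hθ _ _)
        · exact le_rfl) (Finset.mem_univ (fun _ => 0))
    exact h2.symm.le.trans h3
  linarith

lemma QA_nonneg {μ : Equiv.Perm X → ℝ} (hμ : IsLaw μ) {θ : X → ℝ} (hθ : ∀ x, 0 ≤ θ x) (z : X) :
    0 ≤ SR.QA (Wμ μ) nj θ z (fun _ => 1) := by
  unfold SR.QA
  refine Finset.sum_nonneg fun ω _ => ?_
  split_ifs
  · exact le_rfl
  · rw [mul_one]; exact wθ_nonneg hμ (update_nonneg hθ z) ω

lemma QA_eq_zero {μ : Equiv.Perm X → ℝ} (hμ : IsLaw μ) {θ : X → ℝ} (hθ : ∀ x, 0 ≤ θ x) (z : X)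
    (h : SR.QA (Wμ μ) nj θ z (fun _ => 1) = 0) (F : Equiv.Perm X × (X → Fin 2) → ℝ) :
    SR.QA (Wμ μ) nj θ z F = 0 := by
  unfold SR.QA at h ⊢
  have h1 := (Finset.sum_eq_zero_iff_of_nonneg (fun ω _ => by
    split_ifs
    · exact le_rfl
    · rw [mul_one]; exact wθ_nonneg hμ (update_nonneg hθ z) ω)).mp h
  refine Finset.sum_eq_zero fun ω hω => ?_
  have h2 := h1 ω hω
  split_ifs at h2 ⊢ with h3
  · rfl
  · rw [mul_one] at h2; rw [h2, zero_mul]

/-- the conclusion of Theorem 1 of note 8371 for the law at `θ z = 1` (Omega-form). -/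
def StarMeshAt (μ : Equiv.Perm X → ℝ) (θ : X → ℝ) (z : X) : Prop :=
  SR.QA (Wμ μ) nj θ z (fun _ => 1) ≤ SR.QB (Wμ μ) nj θ z (fun _ => 1) ∧
  (0 < SR.QA (Wμ μ) nj θ z (fun _ => 1) → ∀ a : X → ℝ, ∀ ε : ℝ,
    ε = Real.sqrt (1 - 2 * SR.QA (Wμ μ) nj θ z (fun _ => 1) /
      (SR.QA (Wμ μ) nj θ z (fun _ => 1) + SR.QB (Wμ μ) nj θ z (fun _ => 1))) →
      SR.QA (Wμ μ) nj θ z (fun ω => (∑ x, a x * SR.jc nj ω x) ^ 2)
          / SR.QA (Wμ μ) nj θ z (fun _ => 1)
        - SR.QB (Wμ μ) nj θ z (fun ω => (∑ x, a x * SR.jc nj ω x) ^ 2)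
          / SR.QB (Wμ μ) nj θ z (fun _ => 1)
      ≤ (∑ x, SR.QA (Wμ μ) nj θ z (fun ω => - (SR.jc nj ω z * SR.jc nj ω x))
            / SR.QA (Wμ μ) nj θ z (fun _ => 1) * (a x - a z)) ^ 2
        + 2 * ε / (1 + ε ^ 2) *
          (∑ x, SR.QA (Wμ μ) nj θ z (fun ω => - (SR.jc nj ω z * SR.jc nj ω x))
            / SR.QA (Wμ μ) nj θ z (fun _ => 1) * (a x - a z) ^ 2
          - (∑ x, SR.QA (Wμ μ) nj θ z (fun ω => - (SR.jc nj ω z * SR.jc nj ω x))
            / SR.QA (Wμ μ) nj θ z (fun _ => 1) * (a x - a z)) ^ 2))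

lemma delta_eq {p q ε : ℝ} (hp : 0 ≤ p) (hq : 0 < q) (hpq : p ≤ q)
    (hε : ε = Real.sqrt (1 - 2 * p / (p + q))) :
    2 * ε / (1 + ε ^ 2) = Real.sqrt (1 - (p / q) ^ 2) := by
  have h0 : 1 - 2 * p / (p + q) = (q - p) / (q + p) := by field_simp; ring
  have h1 : 0 ≤ (q - p) / (q + p) := div_nonneg (by linarith) (by linarith)
  have h2 : ε ^ 2 = (q - p) / (q + p) := by
    rw [hε, h0, Real.sq_sqrt h1]
  have h3 : 0 ≤ ε := by rw [hε]; exact Real.sqrt_nonneg _
  have h4 : 0 ≤ 2 * ε / (1 + ε ^ 2) := by positivity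
  have hpq0 : 0 < q + p := by linarith
  have h5 : 1 - (p / q) ^ 2 = (2 * ε / (1 + ε ^ 2)) ^ 2 := by
    have h6 : (2 * ε / (1 + ε ^ 2)) ^ 2 = 4 * ε ^ 2 / (1 + ε ^ 2) ^ 2 := by
      rw [div_pow, mul_pow]; norm_num
    have h7 : 1 + (q - p) / (q + p) = 2 * q / (q + p) := by field_simp; ring
    rw [h6, h2, h7]
    field_simp
    ring
  rw [h5, Real.sqrt_sq h4]

theorem oneNode_aux {μ : Equiv.Perm X → ℝ} (hμ : IsLaw μ)
    (hcc : ∀ θ : X → ℝ, (∀ x, 0 ≤ θ x ∧ θ x ≤ 1) → ∀ u v, u ≠ v → 0 ≤ cc μ θ u v)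
    (hT : ∀ θ : X → ℝ, (∀ x, 0 ≤ θ x ∧ θ x ≤ 1) → ∀ z, StarMeshAt μ θ z) : OneNode μ := by
  intro θ hθ z hz a
  obtain ⟨hAB, hT1⟩ := hT θ hθ z
  have hθ0 : ∀ x, 0 ≤ θ x := fun x => (hθ x).1
  set wA := SR.QA (Wμ μ) nj θ z (fun _ => 1) with hwA
  set wB := SR.QB (Wμ μ) nj θ z (fun _ => 1) with hwB
  have hA : 0 ≤ wA := QA_nonneg hμ hθ0 z
  have hB : 0 < wB := QB_pos hμ hθ0 z
  have hδ := delta_eq hA hB hAB rfl
  have hM : mag μ θ z = wA / wB := mag_eq μ θ z
  have key := SR.cov_le (Wμ μ) nj nj_le θ z a (Real.sqrt (1 - (wA / wB) ^ 2)) hz.le hA hB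
    (fun h F => QA_eq_zero hμ hθ0 z h F) (fun h => by
      rw [← hδ]
      exact hT1 h a _ rfl)
  simp only [jc_nj, cθ_nj, vθ_nj] at key
  rw [Eθ_nj μ θ (fun π s => jj π s z ^ 2 * (∑ x, a x * jj π s x) ^ 2),
    Eθ_nj μ θ (fun π s => jj π s z ^ 2),
    Eθ_nj μ θ (fun π s => (∑ x, a x * jj π s x) ^ 2)] at key
  rw [hM]
  set δ := Real.sqrt (1 - (wA / wB) ^ 2) with hδdef
  have hS : 0 ≤ ∑ x, cc μ θ z x * (a x - a z) ^ 2 := by
    refine Finset.sum_nonneg fun x _ => ?_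
    by_cases hx : z = x
    · subst hx; simp
    · exact mul_nonneg (hcc θ hθ z x hx) (sq_nonneg _)
  have hδ0 : 0 ≤ δ := Real.sqrt_nonneg _
  have hδ1 : δ ≤ 1 := by
    rw [hδdef]
    apply Real.sqrt_le_one.mpr
    nlinarith [sq_nonneg (wA / wB)]
  have hZ : ZZ μ θ = wB + θ z * wA := by
    rw [← Zθ_nj]; exact SR.Zθ_split (Wμ μ) nj θ z
  have hv : vv μ θ z = θ z * wA / (wB + θ z * wA) := by
    rw [← vθ_nj]
    unfold SR.vθ SR.Eθ
    have := SR.sum_jsq (Wμ μ) nj nj_le θ z (fun _ => 1)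
    simp only [mul_one] at this
    rw [this, SR.Zθ_split (Wμ μ) nj θ z]
  have hv0 : 0 ≤ vv μ θ z := by rw [hv]; positivity
  have hv1 : vv μ θ z ≤ 1 := by
    rw [hv, div_le_one (by positivity)]; linarith
  have hF : 0 ≤ (∑ x, cc μ θ z x * (a x - a z)) ^ 2 / vv μ θ z := div_nonneg (sq_nonneg _) hv0
  refine key.trans ?_
  set F := (∑ x, cc μ θ z x * (a x - a z)) ^ 2 / vv μ θ z
  set S := ∑ x, cc μ θ z x * (a x - a z) ^ 2
  have h1 : (1 - δ) * F + δ * S ≤ F + δ * S := by nlinarith [mul_nonneg hδ0 hF]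
  have h2 : 0 ≤ (1 - δ) * F + δ * S := by
    have := mul_nonneg (sub_nonneg.mpr hδ1) hF
    have := mul_nonneg hδ0 hS
    linarith
  have h3 : (1 - vv μ θ z) * ((1 - δ) * F + δ * S) ≤ 1 * ((1 - δ) * F + δ * S) :=
    mul_le_mul_of_nonneg_right (by linarith) h2
  linarith

/-- Theorem 1 (helper106) for the charge laws. -/
theorem starMeshAt_of_stable {μ : Equiv.Perm X → ℝ} (hμ : IsLaw μ) {θ : X → ℝ}
    (hθ : ∀ x, 0 ≤ θ x) (z : X) (hst : Stable μ (Function.update θ z 1)) :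
    StarMeshAt μ θ z := by
  set W' : Equiv.Perm X × (X → Fin 2) → ℝ :=
    fun ω => SR.wθ (Wμ μ) nj (Function.update θ z 1) ω with hW'
  have hW : ∀ ω, 0 ≤ W' ω := fun ω => wθ_nonneg hμ (update_nonneg hθ z) ω
  have hst' : ∀ y : X → ℂ, (∀ x, 0 < (y x).im) →
      ∑ ω, (W' ω : ℂ) * ∏ x, y x ^ nj ω x ≠ 0 := by
    intro y hy
    rw [← gen_eq]
    exact hst y hy
  have hdeg : ∀ ω, W' ω ≠ 0 → ∑ x, nj ω x = Fintype.card X := fun ω _ => sum_nj_eq_card ω
  have hWι : ∀ ω, W' (flipPerm ω) = W' ω := fun ω => wθ_flip μ _ ω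
  refine ⟨?_, ?_⟩
  · -- `wA ≤ wB`
    set w1 : ℝ := T1.Sk W' nj z 2 (fun _ => 1) with hw1
    have h00 : T1.Sk W' nj z 0 (fun _ => 1) = w1 :=
      T1.Sk_symm nj_le flipPerm hWι nj_flip z (by norm_num) _
    have hw1n : 0 ≤ w1 := Finset.sum_nonneg fun w _ => by
      split_ifs
      · rw [mul_one]; exact hW w
      · exact le_rfl
    have hw0n : 0 ≤ T1.Sk W' nj z 1 (fun _ => 1) := Finset.sum_nonneg fun w _ => by
      split_ifs
      · rw [mul_one]; exact hW w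
      · exact le_rfl
    have hsA1 : SR.QA (Wμ μ) nj θ z (fun _ => 1) = 2 * w1 := by
      change T1.sA W' nj z (fun _ => 1) = 2 * w1
      rw [T1.sA_eq nj_le, h00]
      ring
    have hsB1 : SR.QB (Wμ μ) nj θ z (fun _ => 1) = T1.Sk W' nj z 1 (fun _ => 1) := rfl
    rw [hsA1, hsB1]
    rcases hw1n.eq_or_lt with h | h
    · rw [← h]; simpa using hw0n
    · refine T1.two_mul_le nj_le hdeg ?_ z _ _ h hw0n h00 rfl rfl
      intro y hy
      rw [T1.gen_aeval]
      exact hst' y hy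
  · intro _ a ε hε
    have key := T1.theorem_one hW nj_le hdeg flipPerm hWι nj_flip hst' z a
      (fun x => T1.EA W' nj z fun w => -((nj w z : ℝ) - 1) * ((nj w x : ℝ) - 1)) _ _ ε
      (fun _ => rfl) rfl rfl hε
    have e1 : ∀ x, T1.EA W' nj z (fun w => -((nj w z : ℝ) - 1) * ((nj w x : ℝ) - 1))
        = SR.QA (Wμ μ) nj θ z (fun ω => - (SR.jc nj ω z * SR.jc nj ω x))
            / SR.QA (Wμ μ) nj θ z (fun _ => 1) := by
      intro x
      have : (fun ω : Equiv.Perm X × (X → Fin 2) => -(SR.jc nj ω z * SR.jc nj ω x))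
          = fun w => -((nj w z : ℝ) - 1) * ((nj w x : ℝ) - 1) := by
        funext w; unfold SR.jc; ring
      rw [this]
      rfl
    simp only [e1] at key
    exact key

/-- **The one-node inequality**, from strong Rayleigh stability. -/
theorem oneNode_of_stable {μ : Equiv.Perm X → ℝ} (hμ : IsLaw μ)
    (hst : ∀ θ : X → ℝ, (∀ x, 0 ≤ θ x ∧ θ x ≤ 1) → Stable μ θ)
    (hcc : ∀ θ : X → ℝ, (∀ x, 0 ≤ θ x ∧ θ x ≤ 1) → ∀ u v, u ≠ v → 0 ≤ cc μ θ u v) :
    OneNode μ := by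
  refine oneNode_aux hμ hcc fun θ hθ z => starMeshAt_of_stable hμ (fun x => (hθ x).1) z ?_
  apply hst
  intro x
  by_cases hx : x = z
  · subst hx; simp
  · rw [Function.update_of_ne hx]; exact hθ x

/-- `v_z ≤ θ_z M_z` and `M_z ≤ 1`. -/
theorem mag_le_one {μ : Equiv.Perm X → ℝ} (hμ : IsLaw μ) {θ : X → ℝ}
    (hθ : ∀ x, 0 ≤ θ x) (z : X) (hst : Stable μ (Function.update θ z 1)) :
    mag μ θ z ≤ 1 := by
  rw [mag_eq, div_le_one (QB_pos hμ hθ z)]
  exact (starMeshAt_of_stable hμ hθ z hst).1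

theorem mag_nonneg {μ : Equiv.Perm X → ℝ} (hμ : IsLaw μ) {θ : X → ℝ}
    (hθ : ∀ x, 0 ≤ θ x) (z : X) : 0 ≤ mag μ θ z := by
  rw [mag_eq]
  exact div_nonneg (QA_nonneg hμ hθ z) (QB_pos hμ hθ z).le

/-- `v_z = θ_z M_z / (1 + θ_z M_z)`. -/
theorem vv_eq {μ : Equiv.Perm X → ℝ} (hμ : IsLaw μ) {θ : X → ℝ}
    (hθ : ∀ x, 0 ≤ θ x) (z : X) :
    vv μ θ z = θ z * mag μ θ z / (1 + θ z * mag μ θ z) := by
  have hB := QB_pos hμ hθ z
  have hA := QA_nonneg hμ hθ z
  rw [mag_eq, ← vθ_nj]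
  unfold SR.vθ SR.Eθ
  have := SR.sum_jsq (Wμ μ) nj nj_le θ z (fun _ => 1)
  simp only [mul_one] at this
  rw [this, SR.Zθ_split (Wμ μ) nj θ z]
  have h0 := hθ z
  field_simp

/-- `v_z ≤ θ_z`. -/
theorem vv_le {μ : Equiv.Perm X → ℝ} (hμ : IsLaw μ) {θ : X → ℝ}
    (hθ : ∀ x, 0 ≤ θ x) (z : X) (hst : Stable μ (Function.update θ z 1)) :
    vv μ θ z ≤ θ z := by
  rw [vv_eq hμ hθ z]
  have h0 := mag_nonneg hμ hθ z
  have h1 := mag_le_one hμ hθ z hst
  have h2 := hθ z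
  have h3 : 0 ≤ θ z * mag μ θ z := mul_nonneg h2 h0
  rw [div_le_iff₀ (by linarith)]
  nlinarith [mul_nonneg h2 h3, mul_le_mul_of_nonneg_left h1 h2]

end

end Vale.Agent.P361.LRO.ONI
end

section

/-!
# P361, long range order: every law of random transpositions is good
-/

namespace Vale.Agent.P361.LRO

/-- Block (2)/(3): all the network facts for a charge law. -/
theorem good_of_isLaw {X : Type} [Fintype X] [DecidableEq X] {μ : Equiv.Perm X → ℝ}
    (hμ : IsLaw μ) : Net.Good μ where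
  nn := hμ.nonneg
  pos := by rw [hμ.sum]; exact zero_lt_one
  ccnn := fun θ hθ x y hxy => cc_nonneg hμ.nonneg hθ hxy
  vle := fun θ hθ z => ONI.vv_le hμ (fun x => (hθ x).1) z (SR.stable_of_isLaw hμ (by
    intro x
    by_cases hx : x = z
    · subst hx; simp
    · rw [Function.update_of_ne hx]; exact hθ x))
  one := ONI.oneNode_of_stable hμ (fun θ hθ => SR.stable_of_isLaw hμ hθ)
    (fun θ hθ u v huv => cc_nonneg hμ.nonneg hθ huv)

end Vale.Agent.P361.LRO
end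

section

/-!
P361 LRO, stage 3: the stiffness statement `KappaStmt3` for the family of physical fields `g / β`,
`g ∈ Fam n g0 β⁻⁵`, from the abstract chapter `Block3` (= theorem `block3` of `Ind3/Final.lean`)
and the local instance `LocalStmt3`.
-/

namespace Vale.Agent.P361.LRO.Ind3

open Finset Filter Vale.Agent.P361.LRO _root_.P361.LRO Vale.Agent.P361.LRO.Ind

noncomputable section

/-- The local instance: `Local3` holds for the physical network, with an absolute `c1`. -/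
def LocalStmt3 : Prop :=
  ∃ c1 : ℝ, 0 < c1 ∧ ∀ C7 Lam : ℝ, 0 < C7 → 0 < Lam →
    ∃ β0 : ℝ, ∀ β : ℝ, β0 ≤ β → ∃ n0 : ℕ, ∀ (n : ℕ) [NeZero n], n0 ≤ n →
    ∀ (e : ℕ) (K : ℝ) (b : Finset (Tor n)), β ^ (1 / 2 : ℝ) ≤ (3 : ℝ) ^ e →
    (3 : ℝ) ^ e ≤ 3 * β ^ (1 / 2 : ℝ) → 1 ≤ K → K ≤ Lam * β ^ (3 / 2 : ℝ) → K ≤ b.card →
    ∃ W0 : ℕ, ∀ W : ℕ, W0 ≤ W → ∀ g : Tor n → ℝ, (∀ x, 0 < g x ∧ g x ≤ 1) →
      (∀ x, rho (edges n) β (fun y => g y / β) x ≤ C7 * β ^ (-(3 / 2) : ℝ)) →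
      Local3 n (4 * W) W e K c1 b g (Net.cphys3 n β (4 * W) K b g)

/-- The abstract chapter, exactly the statement of `block3`. -/
def Block3 : Prop :=
  ∀ c1 : ℝ, 0 < c1 → ∃ (e0 : ℕ) (C5 c3 c4 : ℝ), 1 ≤ e0 ∧ 0 < C5 ∧
    0 < c3 ∧ 0 < c4 ∧ ∀ e : ℕ, e0 ≤ e → ∃ n0 : ℕ, ∀ (n N W : ℕ) [NeZero n]
    (K h0 lam ε : ℝ) (o : Tor n) (a : ℕ) (h : Tor n → ℝ)
    (c : (Tor n → ℝ) → Nd n N → Nd n N → ℝ),
    n0 ≤ n → 0 < W → N = 4 * W → e ≤ a → a ≤ 2 * e →
    1 ≤ K → K ≤ 27 ^ (2 * e) → C5 * K ≤ 27 ^ a → C5 * K ≤ 9 ^ e * 3 ^ a →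
    (n : ℝ) ^ (-(1 / 4 : ℝ)) ≤ h0 → h0 ≤ 1 → 1 / 3 ^ (10 * e) ≤ lam → 0 ≤ ε → ε * e ≤ c4 →
    (∀ g, Fam n h0 lam g → Local3 n N W e K c1 (cube n o (3 ^ a)) g (c g)) →
    Low n N 1 h0 lam ε c →
    Fam n h0 lam h →
    c3 * K ≤ netK (c h) (fun z => if z ∈ hatb N (cube n o (3 ^ a)) then 1 else 0)

/-- The scale `e` of the cells: `3 ^ e ∈ [√β, 3 √β]`. -/
theorem cell_exists {β : ℝ} (hβ : 1 ≤ β) : ∃ e : ℕ, β ^ (1 / 2 : ℝ) ≤ (3 : ℝ) ^ e ∧
    (3 : ℝ) ^ e ≤ 3 * β ^ (1 / 2 : ℝ) ∧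
    ∀ a : ℕ, β ^ (1 / 2 : ℝ) ≤ (3 : ℝ) ^ a → e ≤ a := by
  have hex : ∃ e : ℕ, β ^ (1 / 2 : ℝ) ≤ (3 : ℝ) ^ e := by
    obtain ⟨e, he⟩ := pow_unbounded_of_one_lt (β ^ (1 / 2 : ℝ)) (by norm_num : (1:ℝ) < 3)
    exact ⟨e, he.le⟩
  classical
  refine ⟨Nat.find hex, Nat.find_spec hex, ?_, fun a ha => Nat.find_min' hex ha⟩
  rcases Nat.eq_zero_or_pos (Nat.find hex) with h0 | h0
  · rw [h0, pow_zero]
    have : (1:ℝ) ≤ β ^ (1 / 2 : ℝ) := Real.one_le_rpow hβ (by norm_num)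
    linarith
  · have h1 : ¬ β ^ (1 / 2 : ℝ) ≤ (3 : ℝ) ^ (Nat.find hex - 1) :=
      Nat.find_min hex (by omega)
    push Not at h1
    obtain ⟨k, hk⟩ : ∃ k, Nat.find hex = k + 1 := ⟨Nat.find hex - 1, by omega⟩
    rw [hk] at h1 ⊢
    rw [Nat.add_sub_cancel] at h1
    rw [pow_succ]
    linarith

theorem scales {β K C5 Lam : ℝ} {e a : ℕ} (b2 : 1 ≤ β) (b4 : Lam ≤ β ^ (3 / 2 : ℝ))
    (he1 : β ^ (1 / 2 : ℝ) ≤ (3 : ℝ) ^ e) (ha1 : β ^ (1 / 2 : ℝ) ≤ (3 : ℝ) ^ a)
    (ha2 : (3 : ℝ) ^ a ≤ β) (hC5 : 0 < C5) (hKL : K ≤ Lam * β ^ (3 / 2 : ℝ))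
    (hKc : K ≤ min 1 (1 / C5) * β * 3 ^ a) :
    a ≤ 2 * e ∧ K ≤ 27 ^ (2 * e) ∧ C5 * K ≤ 27 ^ a ∧ C5 * K ≤ 9 ^ e * 3 ^ a ∧
      K ≤ ((3 : ℝ) ^ a) ^ 3 ∧ 1 / (3:ℝ) ^ (10 * e) ≤ β ^ (-(9 / 2) : ℝ) := by
  have hβp : 0 < β := by linarith
  have hmul : ∀ s t : ℝ, β ^ s * β ^ t = β ^ (s + t) := fun s t => (Real.rpow_add hβp s t).symm
  have hp : ∀ s : ℝ, 0 < β ^ s := fun s => Real.rpow_pos_of_pos hβp s
  have hhalf : β ^ (1 / 2 : ℝ) * β ^ (1 / 2 : ℝ) = β := by
    rw [hmul]; norm_num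
  have hβe : β ≤ (3:ℝ) ^ e * 3 ^ e := by
    rw [← hhalf]
    exact mul_le_mul he1 he1 (hp _).le (by positivity)
  have hβa : β ≤ (3:ℝ) ^ a * 3 ^ a := by
    rw [← hhalf]
    exact mul_le_mul ha1 ha1 (hp _).le (by positivity)
  have h32 : β ^ (3 / 2 : ℝ) * β ^ (3 / 2 : ℝ) = β ^ 3 := by
    rw [hmul, ← Real.rpow_natCast]; norm_num
  have h27 : (27:ℝ) ^ a = (3:ℝ) ^ a * 3 ^ a * 3 ^ a := by
    rw [← mul_pow, ← mul_pow]; norm_num
  have h9 : (9:ℝ) ^ e = (3:ℝ) ^ e * 3 ^ e := by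
    rw [← mul_pow]; norm_num
  have hKc1 : K ≤ β * 3 ^ a := by
    have h1 : min 1 (1 / C5) * (β * 3 ^ a) ≤ 1 * (β * 3 ^ a) :=
      mul_le_mul_of_nonneg_right (min_le_left _ _) (by positivity)
    linarith
  have hKc5 : C5 * K ≤ β * 3 ^ a := by
    have h1 : min 1 (1 / C5) * (β * 3 ^ a) ≤ 1 / C5 * (β * 3 ^ a) :=
      mul_le_mul_of_nonneg_right (min_le_right _ _) (by positivity)
    have h2 : K ≤ 1 / C5 * (β * 3 ^ a) := by linarith
    have h3 := mul_le_mul_of_nonneg_left h2 hC5.le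
    have h4 : C5 * (1 / C5 * (β * 3 ^ a)) = β * 3 ^ a := by
      field_simp
    linarith
  have hb27 : β * 3 ^ a ≤ (27:ℝ) ^ a := by
    rw [h27]; exact mul_le_mul_of_nonneg_right hβa (by positivity)
  refine ⟨?_, ?_, hKc5.trans hb27, ?_, ?_, ?_⟩
  · have h1 : (3:ℝ) ^ a ≤ 3 ^ (2 * e) := by
      rw [two_mul, pow_add]; exact ha2.trans hβe
    exact (pow_le_pow_iff_right₀ (by norm_num : (1:ℝ) < 3)).1 h1
  · have h1 : K ≤ β ^ 3 := by
      rw [← h32]
      exact hKL.trans (mul_le_mul_of_nonneg_right b4 (hp _).le)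
    have h2 : (27:ℝ) ^ (2 * e) = ((3:ℝ) ^ e * 3 ^ e) ^ 3 := by
      have : (27:ℝ) = 3 ^ 3 := by norm_num
      rw [this, ← pow_add, ← pow_mul, ← pow_mul]; congr 1; ring
    rw [h2]
    exact h1.trans (pow_le_pow_left₀ hβp.le hβe 3)
  · rw [h9]
    exact hKc5.trans (mul_le_mul_of_nonneg_right hβe (by positivity))
  · have h1 : ((3:ℝ) ^ a) ^ 3 = 27 ^ a := by rw [h27]; ring
    rw [h1]
    exact hKc1.trans hb27
  · refine le_trans ?_ (Real.rpow_le_rpow_of_exponent_le b2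
      (by norm_num : (-5 : ℝ) ≤ -(9 / 2)))
    have h1 : β ^ 5 ≤ (3:ℝ) ^ (10 * e) := by
      have h2 : (3:ℝ) ^ (10 * e) = ((3:ℝ) ^ e * 3 ^ e) ^ 5 := by
        rw [← pow_add, ← pow_mul]; congr 1; ring
      rw [h2]
      exact pow_le_pow_left₀ hβp.le hβe 5
    have h3 : β ^ (-5 : ℝ) = (β ^ 5)⁻¹ := by
      rw [Real.rpow_neg hβp.le]
      congr 1
      rw [← Real.rpow_natCast]; norm_num
    rw [h3, one_div]
    exact inv_anti₀ (by positivity) h1

theorem epsilons {β K C7 Lam c4 M : ℝ} {e : ℕ} (hβp : 0 < β) (hC7 : 0 < C7)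
    (hM : M = 2 * Real.exp (Lam * C7 / 2) * Real.sqrt C7)
    (hc4 : 0 < c4) (b5 : 2 * M ≤ β ^ (3 / 4 : ℝ)) (b6 : 3 * M / c4 ≤ β ^ (1 / 4 : ℝ))
    (he2 : (3 : ℝ) ^ e ≤ 3 * β ^ (1 / 2 : ℝ)) (hKL : K ≤ Lam * β ^ (3 / 2 : ℝ)) :
    0 ≤ M * β ^ (-(3 / 4) : ℝ) ∧ (M * β ^ (-(3 / 4) : ℝ)) ^ 2 ≤ 1 / 2 ∧
      M * β ^ (-(3 / 4) : ℝ) * e ≤ c4 ∧
      4 * Real.exp (K * (C7 * β ^ (-(3 / 2) : ℝ))) * (C7 * β ^ (-(3 / 2) : ℝ)) ≤
        (M * β ^ (-(3 / 4) : ℝ)) ^ 2 := by
  have hsq : 0 < Real.sqrt C7 := Real.sqrt_pos.2 hC7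
  have hMp : 0 < M := by rw [hM]; positivity
  have hmul : ∀ s t : ℝ, β ^ s * β ^ t = β ^ (s + t) := fun s t => (Real.rpow_add hβp s t).symm
  have hp : ∀ s : ℝ, 0 < β ^ s := fun s => Real.rpow_pos_of_pos hβp s
  have hη : 0 < C7 * β ^ (-(3 / 2) : ℝ) := mul_pos hC7 (hp _)
  have hKη : K * (C7 * β ^ (-(3 / 2) : ℝ)) ≤ Lam * C7 := by
    have h1 := mul_le_mul_of_nonneg_right hKL hη.le
    have h2 : β ^ (3 / 2 : ℝ) * β ^ (-(3 / 2) : ℝ) = 1 := by
      rw [hmul]; norm_num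
    have h3 : Lam * β ^ (3 / 2 : ℝ) * (C7 * β ^ (-(3 / 2) : ℝ)) =
        Lam * C7 * (β ^ (3 / 2 : ℝ) * β ^ (-(3 / 2) : ℝ)) := by ring
    rw [h3, h2, mul_one] at h1
    exact h1
  have hεp : 0 ≤ M * β ^ (-(3 / 4) : ℝ) := (mul_pos hMp (hp _)).le
  refine ⟨hεp, ?_, ?_, ?_⟩
  · have h2 : β ^ (3 / 4 : ℝ) * β ^ (-(3 / 4) : ℝ) = 1 := by
      rw [hmul]; norm_num
    have h3 : 2 * M * β ^ (-(3 / 4) : ℝ) ≤ β ^ (3 / 4 : ℝ) * β ^ (-(3 / 4) : ℝ) :=
      mul_le_mul_of_nonneg_right b5 (hp _).le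
    rw [h2] at h3
    nlinarith
  · have h1 : (e:ℝ) ≤ 3 * β ^ (1 / 2 : ℝ) := by
      have h2 : (e:ℝ) ≤ (3:ℝ) ^ e := by
        have : e < 3 ^ e := Nat.lt_pow_self (by norm_num)
        exact_mod_cast this.le
      exact h2.trans he2
    have h4 := mul_le_mul_of_nonneg_left h1 hεp
    have h5 : β ^ (-(3 / 4) : ℝ) * β ^ (1 / 2 : ℝ) = β ^ (-(1 / 4) : ℝ) := by
      rw [hmul]; norm_num
    have h6 : M * β ^ (-(3 / 4) : ℝ) * (3 * β ^ (1 / 2 : ℝ)) = 3 * M * β ^ (-(1 / 4) : ℝ) := by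
      rw [← h5]; ring
    have h7 : 3 * M ≤ c4 * β ^ (1 / 4 : ℝ) := by
      rw [div_le_iff₀ hc4] at b6; linarith
    have h8 : β ^ (1 / 4 : ℝ) * β ^ (-(1 / 4) : ℝ) = 1 := by
      rw [hmul]; norm_num
    have h9 : 3 * M * β ^ (-(1 / 4) : ℝ) ≤ c4 * β ^ (1 / 4 : ℝ) * β ^ (-(1 / 4) : ℝ) :=
      mul_le_mul_of_nonneg_right h7 (hp _).le
    rw [mul_assoc c4, h8, mul_one] at h9
    linarith
  · have h1 : (M * β ^ (-(3 / 4) : ℝ)) ^ 2 =
        4 * Real.exp (Lam * C7) * (C7 * β ^ (-(3 / 2) : ℝ)) := by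
      have e1 : (Real.exp (Lam * C7 / 2)) ^ 2 = Real.exp (Lam * C7) := by
        rw [← Real.exp_nat_mul]; congr 1; push_cast; ring
      have e2 : (β ^ (-(3 / 4) : ℝ)) ^ 2 = β ^ (-(3 / 2) : ℝ) := by
        rw [← Real.rpow_natCast, ← Real.rpow_mul hβp.le]; norm_num
      rw [hM, mul_pow, mul_pow, mul_pow, e1, e2, Real.sq_sqrt hC7.le]; ring
    rw [h1]
    have h2 : Real.exp (K * (C7 * β ^ (-(3 / 2) : ℝ))) ≤ Real.exp (Lam * C7) :=
      Real.exp_le_exp.2 hKη
    have h3 := mul_le_mul_of_nonneg_right h2 hη.le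
    linarith

theorem kappaStmt3_of (h3 : Block3) (hL : LocalStmt3) : S3.KappaStmt3 := by
  obtain ⟨c1, hc1, HL⟩ := hL
  obtain ⟨e0, C5, c3, c4, he0, hC5, hc3, hc4, H3⟩ := h3 c1 hc1
  refine ⟨min 1 (1 / C5), c3, lt_min one_pos (by positivity), hc3, fun C7 Lam hC7 hLam => ?_⟩
  obtain ⟨βL, HL⟩ := HL C7 Lam hC7 hLam
  have hlim : ∀ (a : ℝ), 0 < a → ∀ B : ℝ, ∀ᶠ β : ℝ in atTop, B ≤ β ^ a := fun a ha B =>
    (tendsto_rpow_atTop ha).eventually_ge_atTop B
  obtain ⟨M, hM⟩ : ∃ M : ℝ, M = 2 * Real.exp (Lam * C7 / 2) * Real.sqrt C7 := ⟨_, rfl⟩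
  have hall : ∀ᶠ β : ℝ in atTop, βL ≤ β ∧ 1 ≤ β ∧ (3:ℝ) ^ e0 ≤ β ^ (1 / 2 : ℝ) ∧
      Lam ≤ β ^ (3 / 2 : ℝ) ∧ 2 * M ≤ β ^ (3 / 4 : ℝ) ∧ 3 * M / c4 ≤ β ^ (1 / 4 : ℝ) := by
    filter_upwards [eventually_ge_atTop βL, eventually_ge_atTop (1:ℝ),
      hlim (1 / 2) (by norm_num) ((3:ℝ) ^ e0), hlim (3 / 2) (by norm_num) Lam,
      hlim (3 / 4) (by norm_num) (2 * M), hlim (1 / 4) (by norm_num) (3 * M / c4)]
      with β a1 a2 a3 a4 a5 a6
    exact ⟨a1, a2, a3, a4, a5, a6⟩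
  obtain ⟨β0, hβ0⟩ := eventually_atTop.1 hall
  refine ⟨β0, fun β hβ => ?_⟩
  obtain ⟨b1, b2, b3, b4, b5, b6⟩ := hβ0 β hβ
  have hβp : 0 < β := by linarith
  obtain ⟨e, he1, he2, hemin⟩ := cell_exists b2
  have hp : ∀ s : ℝ, 0 < β ^ s := fun s => Real.rpow_pos_of_pos hβp s
  have hee : e0 ≤ e := by
    have h1 : (3:ℝ) ^ e0 ≤ 3 ^ e := b3.trans he1
    exact (pow_le_pow_iff_right₀ (by norm_num : (1:ℝ) < 3)).1 h1
  obtain ⟨n3, H3⟩ := H3 e hee
  obtain ⟨nL, HL⟩ := HL β b1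
  refine ⟨max n3 (max nL (max 2 ⌈β⌉₊)), ?_⟩
  intro n _ hn _ a ha1' ha2' K hK1 hKL hKc g0 hg0 hg01 hBH g hg x
  have ha1 : β ^ (1 / 2 : ℝ) ≤ (3 : ℝ) ^ a := by rw [← Real.sqrt_eq_rpow]; exact ha1'
  have ha2 : (3 : ℝ) ^ a ≤ β := by
    refine ha2'.trans ?_
    have h1 : β ^ (3 / 4 : ℝ) ≤ β ^ (1 : ℝ) := Real.rpow_le_rpow_of_exponent_le b2 (by norm_num)
    rwa [Real.rpow_one] at h1
  have hn3 : n3 ≤ n := (le_max_left _ _).trans hn
  have hnL : nL ≤ n := (le_max_left _ _).trans ((le_max_right _ _).trans hn)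
  have hn2 : 2 ≤ n := (le_max_left _ _).trans ((le_max_right _ _).trans
    ((le_max_right _ _).trans hn))
  have hnβ : β ≤ n := by
    have : ⌈β⌉₊ ≤ n := (le_max_right _ _).trans ((le_max_right _ _).trans
      ((le_max_right _ _).trans hn))
    exact (Nat.le_ceil β).trans (by exact_mod_cast this)
  have hn0 : (0 : ℝ) < n := by linarith
  have hg0p : 0 < g0 := (Real.rpow_pos_of_pos hn0 _).trans_le hg0
  have hKp : 0 < K := by linarith
  -- scales
  have hea : e ≤ a := hemin a ha1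
  obtain ⟨ha2e, hK27, hK27a, hK9, hK3a, hlam⟩ := scales b2 b4 he1 ha1 ha2 hC5 hKL hKc
  have hcard : (cube n x (3 ^ a)).card = (3 ^ a) ^ 3 := by
    refine Vale.Agent.P361.LRO.Ind.card_cube x (3 ^ a) ?_
    have : ((3 ^ a : ℕ) : ℝ) ≤ n := by push_cast; linarith
    exact_mod_cast this
  have hKcard : K ≤ (cube n x (3 ^ a)).card := by
    rw [hcard]; push_cast
    exact hK3a
  have hne : (cube n x (3 ^ a)).Nonempty := by
    rw [← Finset.card_pos, hcard]; positivity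
  obtain ⟨hεp, hε2, hεe, hεsq⟩ := epsilons hβp hC7 hM hc4 b5 b6 he2 hKL
  obtain ⟨lam, hlamdef⟩ : ∃ lam : ℝ, lam = β ^ (-(9 / 2) : ℝ) := ⟨_, rfl⟩
  obtain ⟨η, hηdef⟩ : ∃ η : ℝ, η = C7 * β ^ (-(3 / 2) : ℝ) := ⟨_, rfl⟩
  obtain ⟨ε, hεdef⟩ : ∃ ε : ℝ, ε = M * β ^ (-(3 / 4) : ℝ) := ⟨_, rfl⟩
  unfold S3.BH3 at hBH
  have hηp : 0 < η := by rw [hηdef]; exact mul_pos hC7 (hp _)
  have HL' := HL n hnL e K (cube n x (3 ^ a)) he1 he2 hK1 hKL hKcard
  rw [← hlamdef] at hlam hBH hg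
  rw [← hηdef] at hBH hεsq HL'
  rw [← hεdef] at hεp hε2 hεe hεsq
  obtain ⟨N0, hN0⟩ := trMag_of (K := K) (b := cube n x (3 ^ a)) (Dict.magLim (edges n) hβp) hβp hne
    hKp.le hηp
  obtain ⟨W0, hW0⟩ := HL'
  rw [Filter.frequently_atTop]
  intro N1
  obtain ⟨W, hW⟩ : ∃ W : ℕ, W = N1 + N0 + W0 + ⌈β⌉₊ + 1 := ⟨_, rfl⟩
  have hWp : 0 < W := by omega
  refine ⟨4 * W, by omega, ?_⟩
  have hβN : β ≤ ((4 * W : ℕ) : ℝ) := by
    have h1 : β ≤ (⌈β⌉₊ : ℝ) := Nat.le_ceil _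
    have h2 : (⌈β⌉₊ : ℝ) ≤ ((4 * W : ℕ) : ℝ) := by
      exact_mod_cast (by omega : ⌈β⌉₊ ≤ 4 * W)
    linarith
  have hmem : ∀ g : Tor n → ℝ, Fam n g0 lam g → ∀ y, 0 < g y ∧ g y ≤ 1 :=
    fun g hg y => ⟨hg0p.trans_le (hg.1 y).1, (hg.1 y).2⟩
  have hmagb : ∀ g : Tor n → ℝ, Fam n g0 lam g → ∀ z : Nd n (4 * W), z.1 ≠ 0 →
      1 - ε ^ 2 ≤ mag (phys (edges n) β (4 * W))
        (th 1 (4 * W) g (blk K (cube n x (3 ^ a)))) z := by
    intro g hg z hz
    rw [← Net.th_scaled hβp]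
    refine le_trans (by linarith) (hN0 (4 * W) (by omega) (fun y => g y / β) (fun y => ?_)
      (fun y => hBH g hg y) z hz)
    have h1 := hmem g hg y
    exact ⟨div_nonneg h1.1.le hβp.le, by rw [div_le_one hβp]; linarith [h1.2]⟩
  have hlow : Low n (4 * W) 1 g0 lam ε (Net.cphys3 n β (4 * W) K (cube n x (3 ^ a))) :=
    Net.low_scaled (by omega) hKp.le _ hg0p hεp hε2
      (good_of_isLaw (Vale.Agent.P361.LRO.Ind.isLaw_phys' _ hβp.le hβN)) hmagb
  have key := H3 n (4 * W) W K g0 lam ε x a g (Net.cphys3 n β (4 * W) K (cube n x (3 ^ a)))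
    hn3 hWp rfl hea ha2e hK1 hK27 hK27a hK9 hg0 hg01 hlam hεp hεe
    (fun g hg => hW0 W (by omega) g (hmem g hg) (fun y => hBH g hg y)) hlow hg
  rw [Net.kap_scaled hβp]
  exact key

end

end Vale.Agent.P361.LRO.Ind3
end

section

/-!
P361 LRO, stage 3: `LocalStmt3` (input of `Ind3/Kappa.lean`) from `local3_inst`.
-/

namespace Vale.Agent.P361.LRO.Ind3

open Finset Vale.Agent.P361.LRO _root_.P361.LRO Vale.Agent.P361.LRO.Ind

noncomputable section

theorem localStmt3_of (hΔ : DeltaStmt) : LocalStmt3 := by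
  obtain ⟨c1, hc1, H⟩ := local3_inst hΔ
  refine ⟨c1, hc1, fun C7 Lam hC7 hLam => ?_⟩
  have hA : 0 < max C7 (C7 * Lam) := lt_max_of_lt_left hC7
  obtain ⟨β0, hβ0, H⟩ := H (max C7 (C7 * Lam)) hA
  refine ⟨β0, fun β hβ => ⟨2, ?_⟩⟩
  intro n _ hn e K b he1 he2 hK1 hK2 hKb
  have hβ8 : 8 ≤ β := hβ0.trans hβ
  have hβp : 0 < β := by linarith
  have hK : 0 < K := by linarith
  have hbn : b.Nonempty := by
    rw [← Finset.card_pos]
    have : (0:ℝ) < b.card := by linarith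
    exact_mod_cast this
  rw [← Real.sqrt_eq_rpow] at he1 he2
  have hη : 0 < C7 * β ^ (-(3 / 2) : ℝ) := mul_pos hC7 (Real.rpow_pos_of_pos hβp _)
  have hKη : K * (C7 * β ^ (-(3 / 2) : ℝ)) ≤ max C7 (C7 * Lam) := by
    refine le_trans ?_ (le_max_right _ _)
    calc K * (C7 * β ^ (-(3 / 2) : ℝ)) ≤ Lam * β ^ (3 / 2 : ℝ) * (C7 * β ^ (-(3 / 2) : ℝ)) :=
          mul_le_mul_of_nonneg_right hK2 hη.le
      _ = C7 * Lam * (β ^ (3 / 2 : ℝ) * β ^ (-(3 / 2) : ℝ)) := by ring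
      _ = C7 * Lam := by rw [← Real.rpow_add hβp]; norm_num
  have h3 : √β ≤ 3 * 3 ^ e := by
    have : (0:ℝ) < 3 ^ e := by positivity
    linarith
  obtain ⟨N0, hN0⟩ := H β hβ e n K (C7 * β ^ (-(3 / 2) : ℝ)) b hn he2 h3 hK hKb hbn hη
    (mul_le_mul_of_nonneg_right (le_max_left _ _) (Real.rpow_pos_of_pos hβp _).le) hKη
  refine ⟨N0, fun W hW g hg hrho => ?_⟩
  have h4 := hN0 (4 * W) W (by omega) rfl g (fun x => ⟨(hg x).1.le, (hg x).2⟩) hrho
  have e1 : physC n (4 * W) β K b (fun y => g y / β) = Net.cphys3 n β (4 * W) K b g := by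
    unfold physC Net.cphys3
    rw [Net.th_scaled hβp]
  rw [← e1]
  exact h4

end

end Vale.Agent.P361.LRO.Ind3
end
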