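import Mathlib
import Vale.Agent.P361.Bdl.B1
import Vale.Agent.P361.Bdl.B3
import Vale.Agent.P361.Bdl.B7
import Vale.Agent.P361.Bdl.B5

set_option linter.all false

section

/-!
P361, stage 3: upper bounds for the tilting factor `sA k N / sA k Nb`.
-/

namespace Vale.Agent.P361.LRO.S3

open Finset

theorem sA_up_mul (k : ℝ) (N m : ℕ) :
    ((N : ℝ) + 1) * sA k N ≤ Real.exp (-(k * m)) * (((N : ℝ) + 2 * m + 1) * sA k (N + 2 * m)) := by
  unfold sA
  have hN : ((N : ℝ) + 1) ≠ 0 := by positivity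
  have hN' : (((N + 2 * m : ℕ) : ℝ) + 1) ≠ 0 := by positivity
  have e1 : ((N : ℝ) + 1) * ((∑ j ∈ range (N + 1), Real.exp (k * ((N : ℝ) / 2 - j))) / ((N : ℝ) + 1))
      = ∑ j ∈ range (N + 1), Real.exp (k * ((N : ℝ) / 2 - j)) := by field_simp
  have e2 : ((N : ℝ) + 2 * m + 1) *
      ((∑ j ∈ range (N + 2 * m + 1), Real.exp (k * (((N + 2 * m : ℕ) : ℝ) / 2 - j)))
        / (((N + 2 * m : ℕ) : ℝ) + 1))
      = ∑ j ∈ range (N + 2 * m + 1), Real.exp (k * (((N + 2 * m : ℕ) : ℝ) / 2 - j)) := by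
    have : ((N : ℝ) + 2 * m + 1) = (((N + 2 * m : ℕ) : ℝ) + 1) := by push_cast; ring
    rw [this]
    field_simp
  rw [e1, e2, mul_sum]
  have hsub : range (N + 1) ⊆ range (N + 2 * m + 1) := by
    intro j hj; rw [mem_range] at hj ⊢; omega
  calc ∑ j ∈ range (N + 1), Real.exp (k * ((N : ℝ) / 2 - j))
      = ∑ j ∈ range (N + 1), Real.exp (-(k * m))
          * Real.exp (k * (((N + 2 * m : ℕ) : ℝ) / 2 - j)) := by
        refine sum_congr rfl fun j _ => ?_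
        rw [← Real.exp_add]
        congr 1
        push_cast
        ring
    _ ≤ ∑ j ∈ range (N + 2 * m + 1), Real.exp (-(k * m))
          * Real.exp (k * (((N + 2 * m : ℕ) : ℝ) / 2 - j)) :=
        sum_le_sum_of_subset_of_nonneg hsub fun _ _ _ => by positivity

/-- `r ≤ 4 exp (- K min(D, 1/4))`, `K = k Nb`, `D = m / Nb`. -/
theorem sA_up {k : ℝ} (hk : 0 ≤ k) (hk1 : k ≤ 1 / 2) {N m Nb : ℕ} (hNb : 0 < Nb)
    (h : N + 2 * m = Nb) :
    sA k N ≤ 4 * Real.exp (-(k * Nb * min ((m : ℝ) / Nb) (1 / 4))) * sA k Nb := by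
  have hNb' : (0 : ℝ) < Nb := by exact_mod_cast hNb
  have hpos : 0 < sA k Nb := sA_pos k Nb
  by_cases hm : 4 * m ≤ Nb
  · -- D ≤ 1/4
    have h1 := sA_up_mul k N m
    rw [h] at h1
    have hmr : (4 : ℝ) * m ≤ Nb := by exact_mod_cast hm
    have hN : (N : ℝ) + 2 * m = Nb := by exact_mod_cast h
    have hD : (m : ℝ) / Nb ≤ 1 / 4 := by
      rw [div_le_iff₀ hNb']; linarith
    rw [min_eq_left hD]
    have e : k * Nb * ((m : ℝ) / Nb) = k * m := by field_simp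
    rw [e]
    have hN1 : (0 : ℝ) < (N : ℝ) + 1 := by positivity
    rw [hN] at h1
    have h2 : ((Nb : ℝ) + 1) ≤ 2 * ((N : ℝ) + 1) := by linarith
    have h3 : ((N : ℝ) + 1) * sA k N
        ≤ ((N : ℝ) + 1) * (2 * Real.exp (-(k * m)) * sA k Nb) := by
      refine h1.trans ?_
      have : Real.exp (-(k * m)) * (((Nb : ℝ) + 1) * sA k Nb)
          ≤ Real.exp (-(k * m)) * ((2 * ((N : ℝ) + 1)) * sA k Nb) :=
        mul_le_mul_of_nonneg_left (mul_le_mul_of_nonneg_right h2 hpos.le) (Real.exp_pos _).le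
      refine this.trans (le_of_eq ?_)
      ring
    have h4 := le_of_mul_le_mul_left h3 hN1
    have h5 : 0 ≤ Real.exp (-(k * m)) * sA k Nb := by positivity
    linarith
  · -- D > 1/4
    push Not at hm
    have hD : 1 / 4 ≤ (m : ℝ) / Nb := by
      rw [le_div_iff₀ hNb']
      have : (Nb : ℝ) < 4 * m := by exact_mod_cast hm
      linarith
    rw [min_eq_right hD]
    set m' := Nb / 4 with hm'
    have hm'le : m' ≤ m := by omega
    have hm'4 : 4 * m' ≤ Nb := by omega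
    have hm'5 : Nb < 4 * m' + 4 := by omega
    set N' := Nb - 2 * m' with hN'
    have hN'eq : N' + 2 * m' = Nb := by omega
    have hNN' : N + 2 * (m - m') = N' := by omega
    have hmono : sA k N ≤ sA k N' := by
      have := sA_mono k N (m - m')
      rwa [hNN'] at this
    have h1 := sA_up_mul k N' m'
    rw [hN'eq] at h1
    have hmr : (4 : ℝ) * m' ≤ Nb := by exact_mod_cast hm'4
    have hmr5 : (Nb : ℝ) ≤ 4 * m' + 4 := by exact_mod_cast hm'5.le
    have hN : (N' : ℝ) + 2 * m' = Nb := by exact_mod_cast hN'eq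
    have hN1 : (0 : ℝ) < (N' : ℝ) + 1 := by positivity
    rw [hN] at h1
    have h2 : ((Nb : ℝ) + 1) ≤ 2 * ((N' : ℝ) + 1) := by linarith
    have h3 : ((N' : ℝ) + 1) * sA k N'
        ≤ ((N' : ℝ) + 1) * (2 * Real.exp (-(k * m')) * sA k Nb) := by
      refine h1.trans ?_
      have : Real.exp (-(k * m')) * (((Nb : ℝ) + 1) * sA k Nb)
          ≤ Real.exp (-(k * m')) * ((2 * ((N' : ℝ) + 1)) * sA k Nb) :=
        mul_le_mul_of_nonneg_left (mul_le_mul_of_nonneg_right h2 hpos.le) (Real.exp_pos _).le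
      refine this.trans (le_of_eq ?_)
      ring
    have h4 := le_of_mul_le_mul_left h3 hN1
    have h5 : Real.exp (-(k * m')) ≤ 2 * Real.exp (-(k * Nb * (1 / 4))) := by
      have h6 : Real.exp (-(k * m')) ≤ Real.exp (1 / 2 + -(k * Nb * (1 / 4))) := by
        apply Real.exp_le_exp.2
        have := mul_le_mul_of_nonneg_left hmr5 hk
        nlinarith
      rw [Real.exp_add] at h6
      have h7 : Real.exp (1 / 2) ≤ 2 := by
        have h8 : Real.exp (1 / 2) * Real.exp (1 / 2) = Real.exp 1 := by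
          rw [← Real.exp_add]; norm_num
        have h9 := Real.exp_one_lt_d9
        have h10 := Real.exp_pos (1 / 2 : ℝ)
        nlinarith
      have := mul_le_mul_of_nonneg_right h7 (Real.exp_pos (-(k * Nb * (1 / 4)))).le
      linarith
    have h6 := mul_le_mul_of_nonneg_right h5 hpos.le
    linarith

/-- `<r_K> ≤ 4 (P(D < q) + e^{-Kq})`. -/
theorem rK_mean_le {ι : Type*} [Fintype ι] (w : ι → ℝ) (hw : ∀ i, 0 ≤ w i) (hw1 : ∑ i, w i = 1)
    (N m : ι → ℕ) {Nb : ℕ} (hNb : 0 < Nb) (hN : ∀ i, N i + 2 * m i = Nb) {k q : ℝ} (hk : 0 ≤ k)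
    (hk1 : k ≤ 1 / 2) (hq0 : 0 ≤ q) (hq : q ≤ 1 / 4) :
    ∑ i, w i * (sA k (N i) / sA k Nb) ≤
      4 * ((∑ i, if (m i : ℝ) / Nb < q then w i else 0) + Real.exp (-(k * Nb * q))) := by
  have hpos : 0 < sA k Nb := sA_pos k Nb
  have hNb' : (0 : ℝ) < Nb := by exact_mod_cast hNb
  have hle : ∀ i, w i * (sA k (N i) / sA k Nb) ≤
      4 * (if (m i : ℝ) / Nb < q then w i else 0) + w i * (4 * Real.exp (-(k * Nb * q))) := by
    intro i
    have h1 : sA k (N i) / sA k Nb ≤ 4 * Real.exp (-(k * Nb * min ((m i : ℝ) / Nb) (1 / 4))) := by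
      rw [div_le_iff₀ hpos]
      exact sA_up hk hk1 hNb (hN i)
    by_cases h : (m i : ℝ) / Nb < q
    · rw [if_pos h]
      have h2 : Real.exp (-(k * Nb * min ((m i : ℝ) / Nb) (1 / 4))) ≤ 1 := by
        rw [Real.exp_le_one_iff]
        have : 0 ≤ k * Nb * min ((m i : ℝ) / Nb) (1 / 4) :=
          mul_nonneg (by positivity) (le_min (by positivity) (by norm_num))
        linarith
      have h3 : w i * (sA k (N i) / sA k Nb) ≤ w i * 4 :=
        mul_le_mul_of_nonneg_left (by linarith) (hw i)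
      have h4 : 0 ≤ w i * (4 * Real.exp (-(k * Nb * q))) := mul_nonneg (hw i) (by positivity)
      linarith
    · rw [if_neg h, mul_zero, zero_add]
      push Not at h
      refine mul_le_mul_of_nonneg_left (h1.trans ?_) (hw i)
      have : Real.exp (-(k * Nb * min ((m i : ℝ) / Nb) (1 / 4))) ≤ Real.exp (-(k * Nb * q)) := by
        apply Real.exp_le_exp.2
        have := mul_le_mul_of_nonneg_left (le_min h hq) (by positivity : 0 ≤ k * Nb)
        linarith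
      linarith
  refine (sum_le_sum fun i _ => hle i).trans ?_
  rw [sum_add_distrib, ← mul_sum, ← sum_mul, hw1]
  linarith

end Vale.Agent.P361.LRO.S3
end

section

/-!
P361, stage 3, final assembly (F1): scalar core. `μ` is the joint law of `(J, M)` of a block,
`D = r / |b| = (J_max - J) / |b|`, `Y = p / N = (1 - M / J) / 2`.
-/

namespace Vale.Agent.P361.LRO.S3F

open Finset

/-- The mean of `D` from the mean of `D (1 - D)` and the lower tail. -/
theorem mean_D {ι : Type*} [Fintype ι] (μ D : ι → ℝ) (h0 : ∀ i, 0 ≤ μ i) (h1 : ∑ i, μ i = 1)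
    (hD0 : ∀ i, 0 ≤ D i) (hD1 : ∀ i, D i ≤ 1 / 2) {m q s ε : ℝ} (hq0 : 0 ≤ q) (hq1 : q ≤ 1 / 2)
    (hs0 : 0 < s) (hs1 : s ≤ 1 / 2) (hs : 4 * q ≤ s)
    (hm : ∑ i, μ i * (D i * (1 - D i)) ≤ m)
    (ht : ∑ i, (if D i < q then μ i else 0) ≤ ε) :
    ∑ i, μ i * D i ≤ m / (1 - s) + 4 * (m - q * (1 - q) + q * ε) := by
  set C : ι → ℝ := fun i => D i * (1 - D i) with hC
  set q' := q * (1 - q) with hq'
  have hq'0 : 0 ≤ q' := mul_nonneg hq0 (by linarith)
  have hC0 : ∀ i, 0 ≤ C i := fun i => mul_nonneg (hD0 i) (by linarith [hD1 i])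
  have hs' : (0 : ℝ) < 1 - s := by linarith
  -- pointwise
  have key : ∀ i, μ i * D i ≤ (1 / (1 - s)) * (μ i * C i) +
      4 * (μ i * (C i - q') + q * (if D i < q then μ i else 0)) := by
    intro i
    have hi := h0 i
    have hneg : 0 ≤ μ i * (C i - q') + q * (if D i < q then μ i else 0) := by
      split_ifs with h
      · have e1 : 0 ≤ μ i * (C i - q' + q) :=
          mul_nonneg hi (by have := hC0 i; nlinarith)
        nlinarith
      · have h2 : q ≤ D i := not_lt.1 h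
        have h3 : 0 ≤ (D i - q) * (1 - D i - q) :=
          mul_nonneg (by linarith) (by linarith [hD1 i])
        have h4 : C i - q' = (D i - q) * (1 - D i - q) := by rw [hC, hq']; ring
        rw [h4, mul_zero, add_zero]
        exact mul_nonneg hi h3
    by_cases h : D i ≤ s
    · have e1 : D i ≤ (1 / (1 - s)) * C i := by
        rw [hC]
        simp only
        rw [one_div, inv_mul_eq_div, le_div_iff₀ hs']
        exact mul_le_mul_of_nonneg_left (by linarith) (hD0 i)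
      have e2 := mul_le_mul_of_nonneg_left e1 hi
      have e3 : μ i * (1 / (1 - s) * C i) = 1 / (1 - s) * (μ i * C i) := by ring
      rw [e3] at e2
      linarith
    · push Not at h
      have e0 : 0 ≤ (1 / (1 - s)) * (μ i * C i) := by
        have := hC0 i
        positivity
      have e1 : D i ≤ 4 * (C i - q') := by
        have h2 : C i = D i * (1 - D i) := rfl
        have h3 : D i / 2 ≤ C i := by
          rw [h2]; nlinarith [hD0 i, hD1 i]
        have h4 : q' ≤ q := by rw [hq']; nlinarith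
        nlinarith
      have e2 := mul_le_mul_of_nonneg_left e1 hi
      have e3 : 0 ≤ q * (if D i < q then μ i else 0) := by
        refine mul_nonneg hq0 ?_
        split_ifs
        · exact hi
        · exact le_rfl
      nlinarith
  refine (sum_le_sum fun i _ => key i).trans ?_
  rw [sum_add_distrib, ← mul_sum, ← mul_sum, sum_add_distrib, ← mul_sum]
  have e1 : ∑ i, μ i * (C i - q') = ∑ i, μ i * C i - q' := by
    simp only [mul_sub, sum_sub_distrib, ← sum_mul, h1, one_mul]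
  rw [e1]
  have e2 : 1 / (1 - s) * ∑ i, μ i * C i ≤ m / (1 - s) := by
    rw [one_div, inv_mul_eq_div]
    exact div_le_div_of_nonneg_right hm hs'.le
  have e3 : q * ∑ i, (if D i < q then μ i else 0) ≤ q * ε := mul_le_mul_of_nonneg_left ht hq0
  have hm' : ∑ i, μ i * C i ≤ m := hm
  linarith

/-- **(F1)** The density of down spins of a block from (J), (M) and (T). -/
theorem core {ι : Type*} [Fintype ι] (μ : ι → ℝ) (N r p : ι → ℕ) {nb : ℕ} (hnb : 0 < nb)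
    (h0 : ∀ i, 0 ≤ μ i) (h1 : ∑ i, μ i = 1) (hN : ∀ i, N i + 2 * r i = nb) (hp : ∀ i, p i ≤ N i)
    {K c δ d : ℝ} (hK : 0 < K) (hc : 0 < c) (hKnb : K ≤ nb / 2) (hδ0 : 0 < δ) (hδ1 : δ ≤ 1 / 4)
    (hd0 : 0 ≤ d) (hd : 4 * d ≤ δ)
    (hE : ∑ i, μ i * (sA (K / nb) (N i) / sA (K / nb) nb *
        Real.exp (c * K * ((p i : ℝ) / N i))) ≤
      2 * ∑ i, μ i * (sA (K / nb) (N i) / sA (K / nb) nb))
    (hM : ∑ i, μ i * ((r i : ℝ) * ((nb : ℝ) - r i + 1)) ≤ (1 + δ) * d * (nb : ℝ) ^ 2)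
    (hT : ∑ i, (if (r i : ℝ) / nb < (1 - δ) * d then μ i else 0) ≤
      min δ (Real.exp (-(K * d)))) :
    (∑ i, μ i * ((r i : ℝ) + p i)) / nb ≤
      (1 + 20 * δ) * d + (1 / c) * (21 * δ * d + 9 / K) := by
  have hnb' : (0 : ℝ) < nb := by exact_mod_cast hnb
  set D : ι → ℝ := fun i => (r i : ℝ) / nb with hD
  set X : ι → ℝ := fun i => (p i : ℝ) / N i with hX
  set q : ℝ := (1 - δ) * d with hq
  have hq0 : 0 ≤ q := mul_nonneg (by linarith) hd0
  have hqd : q ≤ d := by rw [hq]; nlinarith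
  have hq1 : q ≤ 1 / 16 := by linarith
  have hD0 : ∀ i, 0 ≤ D i := fun i => by rw [hD]; positivity
  have hNr : ∀ i, (N i : ℝ) + 2 * r i = nb := fun i => by exact_mod_cast hN i
  have hD1 : ∀ i, D i ≤ 1 / 2 := by
    intro i
    rw [hD]
    simp only
    rw [div_le_iff₀ hnb']
    have : (0 : ℝ) ≤ N i := by positivity
    linarith [hNr i]
  -- (M): mean of D
  have hmean : ∑ i, μ i * (D i * (1 - D i)) ≤ (1 + δ) * d := by
    have e1 : ∀ i, μ i * (D i * (1 - D i)) * (nb : ℝ) ^ 2 ≤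
        μ i * ((r i : ℝ) * ((nb : ℝ) - r i + 1)) := by
      intro i
      have : D i * (1 - D i) * (nb : ℝ) ^ 2 = (r i : ℝ) * ((nb : ℝ) - r i) := by
        rw [hD]
        field_simp
      have h2 : μ i * (D i * (1 - D i)) * (nb : ℝ) ^ 2 = μ i * ((r i : ℝ) * ((nb : ℝ) - r i)) := by
        rw [← this]; ring
      rw [h2]
      refine mul_le_mul_of_nonneg_left ?_ (h0 i)
      have : (0 : ℝ) ≤ r i := by positivity
      nlinarith
    have e2 : (∑ i, μ i * (D i * (1 - D i))) * (nb : ℝ) ^ 2 ≤ (1 + δ) * d * (nb : ℝ) ^ 2 := by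
      rw [sum_mul]
      exact (sum_le_sum fun i _ => e1 i).trans hM
    exact le_of_mul_le_mul_right e2 (by positivity)
  have hmD := mean_D μ D h0 h1 hD0 hD1 (m := (1 + δ) * d) (q := q) (s := δ) (ε := δ) hq0
    (by linarith) hδ0 (by linarith) (by linarith) hmean (hT.trans (min_le_left _ _))
  have hDle : ∑ i, μ i * D i ≤ (1 + 20 * δ) * d := by
    refine hmD.trans ?_
    have e1 : (1 + δ) * d / (1 - δ) ≤ (1 + 3 * δ) * d := by
      rw [div_le_iff₀ (by linarith)]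
      have : (1 + δ) ≤ (1 + 3 * δ) * (1 - δ) := by nlinarith
      nlinarith
    have e2 : (1 + δ) * d - q * (1 - q) + q * δ ≤ 4 * δ * d := by
      have h3 : q * (1 - q) = q - q * q := by ring
      have h4 : q * q ≤ d * (δ / 4) := mul_le_mul hqd (by linarith) hq0 hd0
      have h5 : q * δ ≤ d * δ := mul_le_mul_of_nonneg_right hqd hδ0.le
      rw [h3]
      have h6 : q = d - δ * d := by rw [hq]; ring
      nlinarith
    linarith
  -- (J)
  have hk0 : 0 ≤ K / nb := by positivity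
  have hk1 : K / nb ≤ 1 / 2 := by rw [div_le_iff₀ hnb']; linarith
  have hKk : K / nb * nb = K := by field_simp
  set R : ι → ℝ := fun i => sA (K / nb) (N i) / sA (K / nb) nb with hR
  have hpos : 0 < sA (K / nb) nb := sA_pos _ _
  have hRlow : ∀ i ∈ (univ : Finset ι), Real.exp (-(K * D i)) ≤ R i := by
    intro i _
    rw [hR]
    simp only
    rw [le_div_iff₀ hpos]
    have h2 := sA_lower hk0 (N i) (r i)
    rw [hN i] at h2
    have h3 : K / nb * r i = K * D i := by rw [hD]; field_simp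
    rwa [h3] at h2
  have hR1 : ∀ i ∈ (univ : Finset ι), R i ≤ 1 := by
    intro i _
    rw [hR]
    simp only
    rw [div_le_one hpos, ← hN i]
    exact sA_mono _ _ _
  have hR4 : ∀ i ∈ (univ : Finset ι), q ≤ D i → R i ≤ 4 * Real.exp (-(K * q)) := by
    intro i _ hqi
    rw [hR]
    simp only
    rw [div_le_iff₀ hpos]
    refine (S3.sA_up hk0 hk1 hnb (hN i)).trans ?_
    refine mul_le_mul_of_nonneg_right ?_ hpos.le
    refine mul_le_mul_of_nonneg_left ?_ (by norm_num)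
    apply Real.exp_le_exp.2
    rw [hKk]
    have : q ≤ min ((r i : ℝ) / nb) (1 / 4) := le_min hqi (by linarith)
    have := mul_le_mul_of_nonneg_left this hK.le
    linarith
  have htail : ∑ i ∈ (univ : Finset ι), (if D i < q then μ i else 0) ≤ Real.exp (-(K * q)) := by
    refine (hT.trans (min_le_right _ _)).trans ?_
    apply Real.exp_le_exp.2
    have := mul_le_mul_of_nonneg_left hqd hK.le
    linarith
  have hJ := S3.dir_sharp univ μ D X R (fun i _ => h0 i) h1 (K := K) (c := c) (q := q) hK hRlow hR1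
    hR4 hE htail
  -- conclusion
  have hXle : ∑ i, μ i * X i ≤ (1 / c) * (21 * δ * d + 9 / K) := by
    rw [one_div, inv_mul_eq_div, le_div_iff₀ hc, mul_comm]
    refine hJ.trans ?_
    have : q = d - δ * d := by rw [hq]; ring
    rw [this]
    linarith
  have hfin : (∑ i, μ i * ((r i : ℝ) + p i)) / nb ≤ ∑ i, μ i * D i + ∑ i, μ i * X i := by
    rw [div_le_iff₀ hnb', ← sum_add_distrib, sum_mul]
    refine sum_le_sum fun i _ => ?_
    have e1 : (p i : ℝ) ≤ nb * X i := by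
      rcases Nat.eq_zero_or_pos (N i) with h | h
      · have : p i = 0 := by have := hp i; omega
        rw [this]
        have : 0 ≤ X i := by rw [hX]; positivity
        push_cast
        positivity
      · have hN' : (0 : ℝ) < N i := by exact_mod_cast h
        have : (p i : ℝ) = N i * X i := by rw [hX]; field_simp
        rw [this]
        refine mul_le_mul_of_nonneg_right ?_ (by rw [hX]; positivity)
        have : (0 : ℝ) ≤ r i := by positivity
        linarith [hNr i]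
    have e2 : (r i : ℝ) = nb * D i := by rw [hD]; field_simp
    have e3 : μ i * ((r i : ℝ) + p i) ≤ μ i * (nb * D i + nb * X i) := by
      refine mul_le_mul_of_nonneg_left ?_ (h0 i)
      linarith
    refine e3.trans (le_of_eq ?_)
    ring
  linarith

end Vale.Agent.P361.LRO.S3F
end

section

/-!
P361, stage 3, block (F): the sharp bound on the torus from the blocks (K), (D), (B), (M), (T).
-/

namespace Vale.Agent.P361.LRO.S3F

open Finset Filter Topology S3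

/-- Every function of `r` is a polynomial of `r (n - r + 1)`. -/
theorem exists_poly' (n : ℕ) (g : ℕ → ℝ) :
    ∃ P : Polynomial ℝ, ∀ r : ℕ, 2 * r ≤ n → P.eval ((r : ℝ) * ((n : ℝ) - r + 1)) = g r := by
  classical
  have hinj : Set.InjOn (fun r : ℕ => (r : ℝ) * ((n : ℝ) - r + 1))
      ((Finset.range (n / 2 + 1) : Finset ℕ) : Set ℕ) := by
    intro r hr s hs h
    have hr' : r < n / 2 + 1 := Finset.mem_range.1 hr
    have hs' : s < n / 2 + 1 := Finset.mem_range.1 hs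
    have h1 : (r : ℝ) + s ≤ n := by
      have : r + s ≤ n := by omega
      exact_mod_cast this
    simp only at h
    have h2 : ((r : ℝ) - s) * ((n : ℝ) + 1 - r - s) = 0 := by linear_combination h
    rcases mul_eq_zero.1 h2 with h3 | h3
    · exact_mod_cast sub_eq_zero.1 h3
    · exfalso; linarith
  refine ⟨Lagrange.interpolate (Finset.range (n / 2 + 1))
    (fun r : ℕ => (r : ℝ) * ((n : ℝ) - r + 1)) g, fun r hr => ?_⟩
  exact Lagrange.eval_interpolate_at_node g hinj (Finset.mem_range.2 (by omega))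

/-- The scalar conclusion from the sharp direction inequality. -/
theorem sharp_scalar {ι : Type*} [Fintype ι] (μ : ι → ℝ) (r : ι → ℕ) {nb : ℕ} (hnb : 0 < nb)
    (h0 : ∀ i, 0 ≤ μ i) (h1 : ∑ i, μ i = 1) (hr : ∀ i, 2 * r i ≤ nb)
    {K δ d q C c R : ℝ} (hK : 0 < K) (hC : 0 < C) (hc : 0 < c) (hδ0 : 0 < δ) (hδ1 : δ ≤ 1 / 4)
    (hd0 : 0 < d) (hd : 4 * d ≤ δ) (hq1 : (1 - δ) * d ≤ q) (hq2 : q ≤ d)
    (hM : ∑ i, μ i * ((r i : ℝ) * ((nb : ℝ) - r i + 1)) ≤ (1 + δ) * d * (nb : ℝ) ^ 2)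
    (hT1 : ∑ i, (if (r i : ℝ) < q * nb then μ i else 0) ≤ δ)
    (hT2 : ∑ i, (if (r i : ℝ) < q * nb then μ i else 0) ≤ Real.exp (-(K * d)))
    (hR : R ≤ (∑ i, μ i * (r i : ℝ)) / nb + c * ((∑ i, μ i * (r i : ℝ)) / nb +
      (1 / K) * Real.log (C * ((∑ i, if (r i : ℝ) < q * nb then μ i else 0) +
        Real.exp (-(K * q)))))) :
    R ≤ d * (1 + 20 * δ + c * (21 * δ)) + c * (2 * C / K) := by
  have hnb' : (0 : ℝ) < nb := by exact_mod_cast hnb
  set D : ι → ℝ := fun i => (r i : ℝ) / nb with hD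
  have hD0 : ∀ i, 0 ≤ D i := fun i => by rw [hD]; positivity
  have hq0 : 0 ≤ q := le_trans (mul_nonneg (by linarith) hd0.le) hq1
  have hD1 : ∀ i, D i ≤ 1 / 2 := by
    intro i
    rw [hD]
    simp only
    rw [div_le_iff₀ hnb']
    have : (2 : ℝ) * r i ≤ nb := by exact_mod_cast hr i
    linarith
  have hmean : ∑ i, μ i * (D i * (1 - D i)) ≤ (1 + δ) * d := by
    have e1 : ∀ i, μ i * (D i * (1 - D i)) * (nb : ℝ) ^ 2 ≤
        μ i * ((r i : ℝ) * ((nb : ℝ) - r i + 1)) := by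
      intro i
      have : D i * (1 - D i) * (nb : ℝ) ^ 2 = (r i : ℝ) * ((nb : ℝ) - r i) := by
        rw [hD]
        field_simp
      have h2 : μ i * (D i * (1 - D i)) * (nb : ℝ) ^ 2 = μ i * ((r i : ℝ) * ((nb : ℝ) - r i)) := by
        rw [← this]; ring
      rw [h2]
      refine mul_le_mul_of_nonneg_left ?_ (h0 i)
      have : (0 : ℝ) ≤ r i := by positivity
      nlinarith
    have e2 : (∑ i, μ i * (D i * (1 - D i))) * (nb : ℝ) ^ 2 ≤ (1 + δ) * d * (nb : ℝ) ^ 2 := by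
      rw [sum_mul]
      exact (sum_le_sum fun i _ => e1 i).trans hM
    exact le_of_mul_le_mul_right e2 (by positivity)
  have hconv : ∀ i, (D i < q ↔ (r i : ℝ) < q * nb) := fun i => by
    rw [hD]; exact div_lt_iff₀ hnb'
  have htail : ∑ i, (if D i < q then μ i else 0) ≤ δ := by
    simp only [hconv]
    exact hT1
  have hmD := mean_D μ D h0 h1 hD0 hD1 (m := (1 + δ) * d) (q := q) (s := δ) (ε := δ) hq0
    (by linarith) hδ0 (by linarith) (by linarith) hmean htail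
  have hDle : ∑ i, μ i * D i ≤ (1 + 20 * δ) * d := by
    refine hmD.trans ?_
    have e1 : (1 + δ) * d / (1 - δ) ≤ (1 + 3 * δ) * d := by
      rw [div_le_iff₀ (by linarith)]
      have : (1 + δ) ≤ (1 + 3 * δ) * (1 - δ) := by nlinarith
      nlinarith
    have e2 : (1 + δ) * d - q * (1 - q) + q * δ ≤ 4 * δ * d := by
      have h3 : q * (1 - q) = q - q * q := by ring
      have h4 : q * q ≤ d * (δ / 4) := mul_le_mul hq2 (by linarith) hq0 hd0.le
      have h5 : q * δ ≤ d * δ := mul_le_mul_of_nonneg_right hq2 hδ0.le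
      rw [h3]
      nlinarith
    linarith
  have hDr : ∑ i, μ i * D i = (∑ i, μ i * (r i : ℝ)) / nb := by
    rw [sum_div]
    exact sum_congr rfl fun i _ => by rw [hD]; ring
  rw [hDr] at hDle
  set m := (∑ i, μ i * (r i : ℝ)) / nb with hm
  set P := ∑ i, (if (r i : ℝ) < q * nb then μ i else 0) with hP
  have hP0 : 0 ≤ P := sum_nonneg fun i _ => by split_ifs; exacts [h0 i, le_rfl]
  have hPq : P ≤ Real.exp (-(K * q)) := by
    refine hT2.trans (Real.exp_le_exp.2 ?_)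
    have := mul_le_mul_of_nonneg_left hq2 hK.le
    linarith
  have hlog : Real.log (C * (P + Real.exp (-(K * q)))) ≤ 2 * C - K * q := by
    have he := Real.exp_pos (-(K * q))
    have h2 : Real.log (C * (P + Real.exp (-(K * q)))) ≤
        Real.log (2 * C * Real.exp (-(K * q))) := by
      refine Real.log_le_log (mul_pos hC (by linarith)) ?_
      have := mul_le_mul_of_nonneg_left hPq hC.le
      nlinarith
    rw [Real.log_mul (by positivity) he.ne', Real.log_exp] at h2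
    have h3 := Real.log_le_sub_one_of_pos (show 0 < 2 * C by positivity)
    linarith
  have hlog2 : (1 / K) * Real.log (C * (P + Real.exp (-(K * q)))) ≤ 2 * C / K - q := by
    have h2 := mul_le_mul_of_nonneg_left hlog (show 0 ≤ 1 / K by positivity)
    have h3 : (1 / K) * (2 * C - K * q) = 2 * C / K - q := by field_simp
    linarith
  have hfin : c * (m + (1 / K) * Real.log (C * (P + Real.exp (-(K * q))))) ≤
      c * (21 * δ * d + 2 * C / K) := by
    refine mul_le_mul_of_nonneg_left ?_ hc.le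
    nlinarith
  have : R ≤ m + c * (21 * δ * d + 2 * C / K) := by linarith
  nlinarith

/-- `3 ^ a` in `[x, 3 x]`. -/
theorem exists_pow3 {x : ℝ} (hx : 1 ≤ x) : ∃ a : ℕ, x ≤ (3 : ℝ) ^ a ∧ (3 : ℝ) ^ a ≤ 3 * x := by
  obtain ⟨m, hm1, hm2⟩ := exists_nat_pow_near hx (by norm_num : (1 : ℝ) < 3)
  exact ⟨m + 1, hm2.le, by rw [pow_succ]; linarith⟩

theorem BC_pos : 0 < BC := by
  have hz : 0 < (riemannZeta (3 / 2)).re := by
    have h1 : riemannZeta (3 / 2) = ((∑' n : ℕ, 1 / ((n : ℝ) + 1) ^ (3 / 2 : ℝ) : ℝ) : ℂ) := by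
      have h2 := zeta_eq_tsum_one_div_nat_add_one_cpow (s := 3 / 2) (by norm_num)
      rw [h2, Complex.ofReal_tsum]
      refine tsum_congr fun n => ?_
      have h3 : ((((n : ℝ) + 1) ^ (3 / 2 : ℝ) : ℝ) : ℂ) = ((n : ℂ) + 1) ^ (3 / 2 : ℂ) := by
        rw [Complex.ofReal_cpow (by positivity)]
        push_cast
        norm_num
      rw [Complex.ofReal_div, h3, Complex.ofReal_one]
    rw [h1, Complex.ofReal_re]
    have hs : Summable fun n : ℕ => 1 / ((n : ℝ) + 1) ^ (3 / 2 : ℝ) := by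
      have := (summable_nat_add_iff 1).2 (Real.summable_one_div_nat_rpow.2
        (by norm_num : (1 : ℝ) < 3 / 2))
      simpa using this
    exact hs.tsum_pos (fun n => by positivity) 0 (by positivity)
  unfold BC
  positivity

theorem rho_const {n : ℕ} [NeZero n] {β h : ℝ} (x y : Tor n) :
    rho (edges n) β (fun _ => h) x = rho (edges n) β (fun _ => h) y := by
  have h1 := transStmt n β (fun _ => h) x (y - x)
  simpa using h1

theorem cube_nonempty {n : ℕ} [NeZero n] (x : Tor n) {w : ℕ} (hw : 0 < w) :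
    (cube n x w).Nonempty := by
  have : NeZero w := ⟨hw.ne'⟩
  unfold cube
  exact (Finset.univ_nonempty).image _

/-- The body of `DirSharpStmt3` for one state. -/
def DirAt (C : ℝ) {V : Type} [Fintype V] [DecidableEq V] (L : List (V × V)) (β : ℝ) (h : V → ℝ)
    (b : Finset V) : Prop :=
  ∃ (ι : Type) (_ : Fintype ι) (μ : ι → ℝ) (r : ι → ℕ), (∀ i, 0 ≤ μ i) ∧
      (∀ i, 2 * r i ≤ b.card) ∧ ∑ i, μ i = 1 ∧
      (∀ P : Polynomial ℝ, ∑ i, μ i * P.eval ((r i : ℝ) * ((b.card : ℝ) - r i + 1)) =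
        gib L β h (Polynomial.aeval (CM b) P)) ∧
      ∀ K κ q : ℝ, 1 ≤ K → 0 < κ → 0 ≤ q → q ≤ 1 / 4 →
        (∃ᶠ N : ℕ in atTop, κ ≤ kap L β N h K b) →
        (∑ x ∈ b, rho L β h x) / b.card ≤ (∑ i, μ i * (r i : ℝ)) / b.card +
          C * (K / κ) * ((∑ i, μ i * (r i : ℝ)) / b.card +
            (1 / K) * Real.log (C * ((∑ i, if (r i : ℝ) < q * b.card then μ i else 0) +
              Real.exp (-(K * q)))))

/-- The step for one state. -/
theorem one_state {V : Type} [Fintype V] [DecidableEq V] {L : List (V × V)} {β : ℝ} {h : V → ℝ}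
    {b : Finset V} (hbne : b.Nonempty) {C c3 K δ δ' q dd : ℝ} (hD : DirAt C L β h b) (hC : 0 < C)
    (hc3 : 0 < c3) (hK1 : 1 ≤ K) (hδ0 : 0 < δ) (hδ1 : δ ≤ 1 / 4) (hdd0 : 0 < dd)
    (hb6 : 4 * dd ≤ δ) (hq1 : (1 - δ) * dd ≤ q) (hq2 : q ≤ dd) (hδ'1 : δ' ≤ δ)
    (hδ'2 : δ' ≤ Real.exp (-(K * dd)))
    (hkap : ∃ᶠ N : ℕ in atTop, c3 * K ≤ kap L β N h K b)
    (hM : yb L β h b ≤ (1 + δ) * dd)
    (hT : ∀ P : Polynomial ℝ, (∀ r : ℕ, 2 * r ≤ b.card →
        P.eval ((r : ℝ) * ((b.card : ℝ) - r + 1)) ≤ if (r : ℝ) < q * b.card then 1 else 0) →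
      gib L β h (Polynomial.aeval (CM b) P) ≤ δ') :
    (∑ y ∈ b, rho L β h y) / b.card ≤
      dd * (1 + 20 * δ + C * (1 / c3) * (21 * δ)) + C * (1 / c3) * (2 * C / K) := by
  have hbc : 0 < b.card := Finset.card_pos.2 hbne
  have hbc' : (0 : ℝ) < b.card := by exact_mod_cast hbc
  have hq0 : 0 ≤ q := le_trans (mul_nonneg (by linarith) hdd0.le) hq1
  obtain ⟨ι, hι, μ, r, hμ0, hr, hμ1, hpoly, hsharp⟩ := hD
  have hR := hsharp K (c3 * K) q hK1 (by positivity) hq0 (by linarith) hkap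
  have hKκ : C * (K / (c3 * K)) = C * (1 / c3) := by
    have : K ≠ 0 := by linarith
    field_simp
  rw [hKκ] at hR
  have hMm : ∑ i, μ i * ((r i : ℝ) * ((b.card : ℝ) - r i + 1)) ≤
      (1 + δ) * dd * (b.card : ℝ) ^ 2 := by
    have h1 := hpoly Polynomial.X
    simp only [Polynomial.eval_X, Polynomial.aeval_X] at h1
    rw [h1]
    unfold yb at hM
    rwa [div_le_iff₀ (by positivity)] at hM
  have hTt : ∑ i, (if (r i : ℝ) < q * b.card then μ i else 0) ≤ δ' := by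
    obtain ⟨P, hP⟩ := exists_poly' b.card fun s => if (s : ℝ) < q * b.card then 1 else 0
    have h1 := hT P (fun s hs => (hP s hs).le)
    rw [← hpoly P] at h1
    refine le_trans (le_of_eq ?_) h1
    refine sum_congr rfl fun i _ => ?_
    rw [hP (r i) (hr i)]
    split_ifs <;> simp
  exact sharp_scalar μ r hbc hμ0 hμ1 hr (K := K) (δ := δ) (d := dd) (q := q) (C := C)
    (c := C * (1 / c3)) (by linarith) hC (by positivity) hδ0 hδ1 hdd0 hb6 hq1 hq2 hMm
    (hTt.trans hδ'1) (hTt.trans hδ'2) hR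

theorem fam_const {n : ℕ} [NeZero n] {g0 lam : ℝ} (hg0 : 0 ≤ g0) (hg1 : g0 ≤ 1) (hlam : 0 ≤ lam) :
    Fam n g0 lam (fun _ => g0) := by
  refine ⟨fun y => ⟨le_rfl, hg1⟩, fun y i => ?_⟩
  have h1 : 1 ≤ Real.exp lam := Real.one_le_exp hlam
  constructor <;> nlinarith

/-- The choice of the parameters. -/
theorem params {d c2 Lam δ : ℝ} (hd0 : 0 < d) (hd1 : d ≤ 1 / 100) (hc2 : 0 < c2) (hLam : 0 < Lam)
    (hδ0 : 0 < δ) : ∀ᶠ β : ℝ in atTop, 1 ≤ β ∧ 4 * (BC * β ^ (-(3 / 2) : ℝ)) ≤ δ ∧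
      1 ≤ Lam * β ^ (3 / 2 : ℝ) ∧ ∃ a : ℕ, β ^ (1 / 2 + d) ≤ (3 : ℝ) ^ a ∧
      (3 : ℝ) ^ a ≤ 3 * β ^ (1 / 2 + d) ∧ Real.sqrt β ≤ (3 : ℝ) ^ a ∧
      (3 : ℝ) ^ a ≤ β ^ (3 / 4 : ℝ) ∧ Lam * β ^ (3 / 2 : ℝ) ≤ c2 * β * 3 ^ a := by
  have hlim1 : Tendsto (fun β : ℝ => β ^ (-(3 / 2) : ℝ)) atTop (𝓝 0) :=
    tendsto_rpow_neg_atTop (by norm_num)
  have hlim2 : Tendsto (fun β : ℝ => β ^ d) atTop atTop := tendsto_rpow_atTop hd0
  have hlim3 : Tendsto (fun β : ℝ => β ^ (1 / 4 - d)) atTop atTop :=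
    tendsto_rpow_atTop (by linarith)
  have hlim4 : Tendsto (fun β : ℝ => β ^ (3 / 2 : ℝ)) atTop atTop :=
    tendsto_rpow_atTop (by norm_num)
  have h1 : ∀ᶠ β : ℝ in atTop, 4 * (BC * β ^ (-(3 / 2) : ℝ)) ≤ δ := by
    have h2 : Tendsto (fun β : ℝ => 4 * (BC * β ^ (-(3 / 2) : ℝ))) atTop (𝓝 (4 * (BC * 0))) :=
      (hlim1.const_mul BC).const_mul 4
    rw [mul_zero, mul_zero] at h2
    exact h2.eventually_le_const hδ0
  filter_upwards [eventually_ge_atTop 1, h1, hlim2.eventually_ge_atTop (Lam / c2),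
    hlim3.eventually_ge_atTop 3, hlim4.eventually_ge_atTop (1 / Lam)] with β hb1 hb6 hb7 hb8 hb9
  have hβ' : 0 < β := by linarith
  obtain ⟨a, ha1, ha2⟩ := exists_pow3 (x := β ^ (1 / 2 + d)) (Real.one_le_rpow hb1 (by linarith))
  refine ⟨hb1, hb6, ?_, a, ha1, ha2, ?_, ?_, ?_⟩
  · have := mul_le_mul_of_nonneg_left hb9 hLam.le
    rwa [mul_one_div_cancel hLam.ne'] at this
  · refine le_trans ?_ ha1
    rw [Real.sqrt_eq_rpow]
    exact Real.rpow_le_rpow_of_exponent_le hb1 (by linarith)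
  · refine ha2.trans ?_
    have h1 : β ^ (3 / 4 : ℝ) = β ^ (1 / 4 - d) * β ^ (1 / 2 + d) := by
      rw [← Real.rpow_add hβ']
      congr 1
      ring
    rw [h1]
    exact mul_le_mul_of_nonneg_right hb8 (Real.rpow_nonneg hβ'.le _)
  · have h1 : β ^ (3 / 2 : ℝ) * β ^ d = β * β ^ (1 / 2 + d) := by
      rw [← Real.rpow_add hβ']
      nth_rewrite 2 [← Real.rpow_one β]
      rw [← Real.rpow_add hβ']
      congr 1
      ring
    have h2 : Lam ≤ c2 * β ^ d := by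
      rwa [div_le_iff₀' hc2] at hb7
    calc Lam * β ^ (3 / 2 : ℝ)
      _ ≤ c2 * β ^ d * β ^ (3 / 2 : ℝ) := mul_le_mul_of_nonneg_right h2 (Real.rpow_nonneg hβ'.le _)
      _ = c2 * (β ^ (3 / 2 : ℝ) * β ^ d) := by ring
      _ = c2 * β * β ^ (1 / 2 + d) := by rw [h1]; ring
      _ ≤ c2 * β * 3 ^ a := mul_le_mul_of_nonneg_left ha1 (by positivity)

/-- The bound on one torus. -/
theorem one_torus {n : ℕ} [NeZero n] {β h : ℝ} (hβ : 0 < β) {a : ℕ} (x : Tor n)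
    {C c3 Lam δ δ' ε : ℝ}
    (hD : DirAt C (edges n) β (fun _ => h) (cube n x (3 ^ a))) (hC : 0 < C) (hc3 : 0 < c3)
    (hLam : 0 < Lam) (hK1 : 1 ≤ Lam * β ^ (3 / 2 : ℝ)) (hδ1 : δ ≤ 1 / 4)
    (hb6 : 4 * (BC * β ^ (-(3 / 2) : ℝ)) ≤ δ) (hδ'0 : 0 < δ') (hδ'1 : δ' ≤ δ)
    (hδ'2 : δ' ≤ Real.exp (-(Lam * BC)))
    (hε1 : 20 * δ + C * (1 / c3) * (21 * δ) ≤ ε / 2)
    (hε2 : C * (1 / c3) * (2 * C / Lam) = ε / 2 * BC)
    (hkap : ∃ᶠ N : ℕ in atTop, c3 * (Lam * β ^ (3 / 2 : ℝ)) ≤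
      kap (edges n) β N (fun _ => h) (Lam * β ^ (3 / 2 : ℝ)) (cube n x (3 ^ a)))
    (hM : yb (edges n) β (fun _ => h) (cube n x (3 ^ a)) ≤ (1 + δ') * BC * β ^ (-(3 / 2) : ℝ))
    (hT : ∀ P : Polynomial ℝ, (∀ r : ℕ, 2 * r ≤ (cube n x (3 ^ a)).card →
        P.eval ((r : ℝ) * (((cube n x (3 ^ a)).card : ℝ) - r + 1)) ≤
          if (r : ℝ) < (1 - δ') * BC * β ^ (-(3 / 2) : ℝ) * (cube n x (3 ^ a)).card
            then 1 else 0) →
      gib (edges n) β (fun _ => h) (Polynomial.aeval (CM (cube n x (3 ^ a))) P) ≤ δ') :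
    rho (edges n) β (fun _ => h) x ≤ (1 + ε) * BC * β ^ (-(3 / 2) : ℝ) := by
  have hBC := BC_pos
  set K : ℝ := Lam * β ^ (3 / 2 : ℝ) with hKdef
  set dd : ℝ := BC * β ^ (-(3 / 2) : ℝ) with hdd
  have hdd0 : 0 < dd := mul_pos hBC (Real.rpow_pos_of_pos hβ _)
  have hKd : K * dd = Lam * BC := by
    rw [hKdef, hdd]
    have : β ^ (3 / 2 : ℝ) * β ^ (-(3 / 2) : ℝ) = 1 := by
      rw [← Real.rpow_add hβ]
      norm_num
    calc Lam * β ^ (3 / 2 : ℝ) * (BC * β ^ (-(3 / 2) : ℝ)) =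
          Lam * BC * (β ^ (3 / 2 : ℝ) * β ^ (-(3 / 2) : ℝ)) := by ring
      _ = Lam * BC := by rw [this, mul_one]
  set q : ℝ := (1 - δ') * BC * β ^ (-(3 / 2) : ℝ) with hq
  have hq' : q = (1 - δ') * dd := by rw [hq, hdd]; ring
  have hq1 : (1 - δ) * dd ≤ q := by
    rw [hq']
    exact mul_le_mul_of_nonneg_right (by linarith) hdd0.le
  have hq2 : q ≤ dd := by
    rw [hq']
    nlinarith
  have hbne : (cube n x (3 ^ a)).Nonempty := cube_nonempty x (by positivity)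
  have hbc' : (0 : ℝ) < (cube n x (3 ^ a)).card := by exact_mod_cast Finset.card_pos.2 hbne
  have hM' : yb (edges n) β (fun _ => h) (cube n x (3 ^ a)) ≤ (1 + δ) * dd := by
    refine hM.trans ?_
    rw [mul_assoc, ← hdd]
    exact mul_le_mul_of_nonneg_right (by linarith) hdd0.le
  have hfin := one_state hbne hD hC hc3 hK1 (lt_of_lt_of_le hδ'0 hδ'1) hδ1 hdd0 hb6 hq1 hq2 hδ'1
    (by rw [hKd]; exact hδ'2) hkap hM' hT
  have havg : (∑ y ∈ cube n x (3 ^ a), rho (edges n) β (fun _ => h) y) / (cube n x (3 ^ a)).card =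
      rho (edges n) β (fun _ => h) x := by
    rw [Finset.sum_congr rfl fun y _ => rho_const (h := h) (β := β) y x, Finset.sum_const,
      nsmul_eq_mul]
    field_simp
  rw [havg] at hfin
  refine hfin.trans ?_
  have h5 : C * (1 / c3) * (2 * C / K) = ε / 2 * dd := by
    have h6 : 1 / K = β ^ (-(3 / 2) : ℝ) / Lam := by
      rw [hKdef, Real.rpow_neg hβ.le]
      field_simp
    calc C * (1 / c3) * (2 * C / K) = C * (1 / c3) * (2 * C) * (1 / K) := by ring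
      _ = C * (1 / c3) * (2 * C / Lam) * β ^ (-(3 / 2) : ℝ) := by rw [h6]; ring
      _ = ε / 2 * dd := by rw [hε2, hdd]; ring
  rw [h5]
  have h6 : (1 + ε) * BC * β ^ (-(3 / 2) : ℝ) = (1 + ε) * dd := by rw [hdd]; ring
  rw [h6]
  have h7 := mul_le_mul_of_nonneg_left hε1 hdd0.le
  nlinarith

/-- **Block (F).** -/
theorem finalStmt3_of (hK : KappaStmt3) (hD : DirSharpStmt3) (hB : BootStmt3) (hM : MeanStmt3)
    (hT : TailStmt3) : FinalStmt3 := by
  obtain ⟨c2, c3, hc2, hc3, hK⟩ := hK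
  obtain ⟨C, hC, hD⟩ := hD
  obtain ⟨C7, β1, hC7, hB⟩ := hB
  obtain ⟨d, hd0, hd1, hM⟩ := hM
  have hBC := BC_pos
  intro ε hε
  have hc0 : 0 < C * (1 / c3) := by positivity
  obtain ⟨δ, hδ0, hδ1, hδ2⟩ : ∃ δ : ℝ, 0 < δ ∧ δ ≤ 1 / 4 ∧
      20 * δ + C * (1 / c3) * (21 * δ) ≤ ε / 2 := by
    refine ⟨min (1 / 4) (ε / (2 * (20 + 21 * (C * (1 / c3))))), lt_min (by norm_num)
      (by positivity), min_le_left _ _, ?_⟩
    have h1 : min (1 / 4) (ε / (2 * (20 + 21 * (C * (1 / c3))))) ≤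
      ε / (2 * (20 + 21 * (C * (1 / c3)))) := min_le_right _ _
    rw [le_div_iff₀ (by positivity)] at h1
    linarith
  obtain ⟨Lam, hLam0, hLam1⟩ : ∃ Lam : ℝ, 0 < Lam ∧
      C * (1 / c3) * (2 * C / Lam) = ε / 2 * BC :=
    ⟨4 * (C * (1 / c3)) * C / (ε * BC), by positivity, by field_simp; ring⟩
  obtain ⟨δ', hδ'0, hδ'1, hδ'2⟩ : ∃ δ' : ℝ, 0 < δ' ∧ δ' ≤ δ ∧ δ' ≤ Real.exp (-(Lam * BC)) :=
    ⟨min δ (Real.exp (-(Lam * BC))), lt_min hδ0 (Real.exp_pos _), min_le_left _ _,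
      min_le_right _ _⟩
  obtain ⟨β2, hM⟩ := hM δ' hδ'0
  obtain ⟨β3, hT⟩ := hT d hd0 hd1 δ' hδ'0
  obtain ⟨β4, hK⟩ := hK C7 Lam hC7 hLam0
  obtain ⟨β0, hβ0⟩ := eventually_atTop.1 ((params hd0 hd1 hc2 hLam0 hδ0).and
    ((eventually_ge_atTop β1).and ((eventually_ge_atTop β2).and ((eventually_ge_atTop β3).and
      (eventually_ge_atTop β4)))))
  refine ⟨β0, fun β hβ h hh0 hh1 => ?_⟩
  obtain ⟨⟨hb1, hb6, hK1, a, ha1, ha2, ha3, ha4, hK2⟩, hb2, hb3, hb4, hb5⟩ := hβ0 β hβ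
  have hβ' : 0 < β := by linarith
  obtain ⟨n1, hB⟩ := hB β hb2
  obtain ⟨n2, hM⟩ := hM β hb3 a ha1 ha2 h hh0 hh1
  obtain ⟨n3, hT⟩ := hT β hb4 a ha1 ha2 h hh0 hh1
  obtain ⟨n4, hK⟩ := hK β hb5
  have hg0 : 0 < β * h := mul_pos hβ' hh0
  have hg1 : β * h ≤ 1 := by
    have h1 : β * h ≤ β * β ^ (-(10 : ℝ)) := mul_le_mul_of_nonneg_left hh1 hβ'.le
    have h2 : β * β ^ (-(10 : ℝ)) = β ^ (-(9 : ℝ)) := by
      nth_rewrite 1 [← Real.rpow_one β]
      rw [← Real.rpow_add hβ']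
      norm_num
    rw [h2] at h1
    exact h1.trans (Real.rpow_le_one_of_one_le_of_nonpos hb1 (by norm_num))
  obtain ⟨n5, hn5⟩ : ∃ n5 : ℕ, ∀ n : ℕ, n5 ≤ n → (n : ℝ) ^ (-(1 / 4) : ℝ) ≤ β * h := by
    have h1 : Tendsto (fun n : ℕ => (n : ℝ) ^ (-(1 / 4) : ℝ)) atTop (𝓝 0) :=
      (tendsto_rpow_neg_atTop (by norm_num : (0 : ℝ) < 1 / 4)).comp tendsto_natCast_atTop_atTop
    exact eventually_atTop.1 (h1.eventually_le_const hg0)
  refine ⟨max n1 (max n2 (max n3 (max n4 n5))), fun n _ hn hodd x => ?_⟩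
  simp only [max_le_iff] at hn
  obtain ⟨hn1, hn2, hn3, hn4, hn5'⟩ := hn
  have hgn := hn5 n hn5'
  have hfield : (fun y : Tor n => (fun _ : Tor n => β * h) y / β) = fun _ => h := by
    funext y
    field_simp
  have hFam : Fam n (β * h) (β ^ (-(9 / 2) : ℝ)) (fun _ => β * h) :=
    fam_const hg0.le hg1 (Real.rpow_nonneg hβ'.le _)
  have hkap := hK n hn4 hodd a ha3 ha4 _ hK1 le_rfl hK2 (β * h) hgn hg1
    (hB n hn1 hodd (β * h) hgn hg1) (fun _ => β * h) hFam x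
  rw [hfield] at hkap
  exact one_torus hβ' x
    (hD (Tor n) (edges n) β (fun _ => h) _ hβ' (fun _ => hh0.le) (cube_nonempty x (by positivity)))
    hC hc3 hLam0 hK1 hδ1 hb6 hδ'0 hδ'1 hδ'2 hδ2 hLam1 hkap (hM n hn2 hodd x) (hT n hn3 hodd x)

end Vale.Agent.P361.LRO.S3F
end

section

/-!
# P361 LRO, block (6), V1: the number of nodes with `a < 1/2` over a cube (helper655)
-/

namespace Vale.Agent.P361.LRO.Ind

open Finset Vale.Agent.P361.LRO _root_.P361.LRO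

/-- every physical node over the cube is a window node -/
theorem va655_node {n N W m : ℕ} [NeZero n] (hW : 0 < W) (hN : N = m * W) (o : Tor n) (S : ℕ)
    {z : Nd n N} (hz : z ∈ ((univ.filter fun k => k ≠ 0) ×ˢ cube n o S : Finset (Nd n N))) :
    ∃ x < S, ∃ y < S, ∃ c < S, ∃ w < m, ∃ j < W, z = (lay N W w j, pt n o x y c) := by
  obtain ⟨k, p⟩ := z
  rw [Finset.mem_product] at hz
  obtain ⟨hk, hp⟩ := hz
  have hk0 : k ≠ 0 := by simpa using hk
  have hk1 : 1 ≤ (k : ℕ) := Nat.one_le_iff_ne_zero.2 fun h => hk0 (Fin.ext h)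
  have hkN : (k : ℕ) ≤ m * W := by
    have := k.isLt
    omega
  have hp' : p ∈ cube n o S := hp
  unfold cube at hp'
  rw [Finset.mem_image] at hp'
  obtain ⟨y, -, hy⟩ := hp'
  have hmod := Nat.div_add_mod ((k : ℕ) - 1) W
  have hlt : ((k : ℕ) - 1) / W < m := by
    rw [Nat.div_lt_iff_lt_mul hW]
    omega
  have hj : ((k : ℕ) - 1) % W < W := Nat.mod_lt _ hW
  have he : 1 + ((k : ℕ) - 1) / W * W + ((k : ℕ) - 1) % W = k := by
    rw [mul_comm (((k : ℕ) - 1) / W) W]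
    omega
  refine ⟨y 0, (y 0).isLt, y 1, (y 1).isLt, y 2, (y 2).isLt, ((k : ℕ) - 1) / W, hlt, ((k : ℕ) - 1) % W, hj, ?_⟩
  refine Prod.ext ?_ ?_
  · unfold lay
    rw [dif_pos (by rw [he]; exact k.isLt)]
    exact Fin.ext he.symm
  · change p = pt n o (y 0) (y 1) (y 2)
    rw [← hy]
    unfold pt
    congr 1
    funext i
    fin_cases i <;> rfl

theorem va655_pt {α U : ℝ} : (if α < 1 / 2 then (1 : ℝ) else 0) ≤ 64 * (α - U) ^ 2 + if U < 5 / 8 then 1 else 0 := by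
  by_cases h1 : α < 1 / 2
  · rw [if_pos h1]
    by_cases h2 : U < 5 / 8
    · rw [if_pos h2]
      have := sq_nonneg (α - U)
      linarith
    · rw [if_neg h2]
      push Not at h2
      nlinarith
  · rw [if_neg h1]
    have := sq_nonneg (α - U)
    split_ifs <;> positivity

/-- The number of nodes with `a < 1/2` over a cube. -/
theorem card_low_le {n N W m : ℕ} [NeZero n] (hW : 0 < W) (hm : 0 < m) (hN : N = m * W)
    (o : Tor n) (S : ℕ) (hS : S ≤ n) (a : Nd n N → ℝ) :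
    ((((univ.filter fun k => k ≠ 0) ×ˢ cube n o S : Finset (Nd n N)).filter
      fun z => a z < 1 / 2).card : ℝ) ≤
    64 * (∑ x ∈ range S, ∑ y ∈ range S, ∑ z ∈ range S, ∑ w ∈ range m,
      ∑ j ∈ range W, (a (lay N W w j, pt n o x y z) - UU n N W o a x y z w) ^ 2) +
    W * cnt S m (5 / 8) (UU n N W o a) := by
  classical
  set I : Finset (ℕ × ℕ × ℕ × ℕ × ℕ) := range S ×ˢ range S ×ˢ range S ×ˢ range m ×ˢ range W with hI
  set F : ℕ × ℕ × ℕ × ℕ × ℕ → Nd n N := fun p => (lay N W p.2.2.2.1 p.2.2.2.2, pt n o p.1 p.2.1 p.2.2.1) with hF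
  have hsub : (((univ.filter fun k => k ≠ 0) ×ˢ cube n o S : Finset (Nd n N)).filter fun z => a z < 1 / 2) ⊆
      (I.filter fun p => a (F p) < 1 / 2).image F := by
    intro z hz
    rw [Finset.mem_filter] at hz
    obtain ⟨x, hx, y, hy, c, hc, w, hw, j, hj, rfl⟩ := va655_node hW hN o S hz.1
    rw [Finset.mem_image]
    refine ⟨(x, y, c, w, j), ?_, rfl⟩
    rw [Finset.mem_filter]
    refine ⟨?_, hz.2⟩
    simp only [hI, Finset.mem_product, Finset.mem_range]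
    exact ⟨hx, hy, hc, hw, hj⟩
  have hcard : ((((univ.filter fun k => k ≠ 0) ×ˢ cube n o S : Finset (Nd n N)).filter
      fun z => a z < 1 / 2).card : ℝ) ≤ ∑ p ∈ I, if a (F p) < 1 / 2 then (1 : ℝ) else 0 := by
    have h1 := (Finset.card_le_card hsub).trans Finset.card_image_le
    rw [Finset.sum_boole]
    exact_mod_cast h1
  refine hcard.trans ?_
  have hle : ∑ p ∈ I, (if a (F p) < 1 / 2 then (1 : ℝ) else 0) ≤
      ∑ p ∈ I, (64 * (a (F p) - UU n N W o a p.1 p.2.1 p.2.2.1 p.2.2.2.1) ^ 2 +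
        if UU n N W o a p.1 p.2.1 p.2.2.1 p.2.2.2.1 < 5 / 8 then 1 else 0) :=
    Finset.sum_le_sum fun p _ => va655_pt
  refine hle.trans (le_of_eq ?_)
  rw [hI, Finset.sum_product]
  simp only [Finset.sum_product]
  unfold cnt
  rw [Finset.mul_sum, Finset.mul_sum, ← Finset.sum_add_distrib]
  refine Finset.sum_congr rfl fun x _ => ?_
  rw [Finset.mul_sum, Finset.mul_sum, ← Finset.sum_add_distrib]
  refine Finset.sum_congr rfl fun y _ => ?_
  rw [Finset.mul_sum, Finset.mul_sum, ← Finset.sum_add_distrib]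
  refine Finset.sum_congr rfl fun z _ => ?_
  rw [Finset.mul_sum, Finset.mul_sum, ← Finset.sum_add_distrib]
  refine Finset.sum_congr rfl fun w _ => ?_
  rw [Finset.sum_add_distrib, Finset.mul_sum]
  congr 1
  by_cases h : UU n N W o a x y z w < 5 / 8
  · simp [h]
  · simp [h]

end Vale.Agent.P361.LRO.Ind
end

section

/-!
# P361, block GEO, part 1: block averages in one direction

Everything here is finite combinatorics: `pav s g a` is the average of `g` over the block of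
length `s` containing `a`, and tripling the block length costs at most `9 s ^ 2` times the
Dirichlet energy of the line.
-/

namespace Vale.Agent.P361.LRO.Geo

open Finset

/-- average of `g` over the block of length `s` containing `a` -/
noncomputable def pav (s : ℕ) (g : ℕ → ℝ) (a : ℕ) : ℝ :=
  (∑ j ∈ range s, g (s * (a / s) + j)) / s

/-- energy of the line `0, .., n - 1` -/
noncomputable def len (n : ℕ) (g : ℕ → ℝ) : ℝ :=
  ∑ a ∈ range n, if a + 1 < n then (g (a + 1) - g a) ^ 2 else 0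

/-- oscillation on a segment is controlled by its energy -/
lemma osc_le (g : ℕ → ℝ) (c m i j : ℕ) (hij : i ≤ j) (hj : j < m) :
    (g (c + j) - g (c + i)) ^ 2 ≤
      m * ∑ r ∈ range m, if r + 1 < m then (g (c + r + 1) - g (c + r)) ^ 2 else 0 := by
  have h1 : g (c + j) - g (c + i) = ∑ r ∈ Ico i j, (g (c + r + 1) - g (c + r)) := by
    have := Finset.sum_Ico_consecutive (fun r => (g (c + r + 1) - g (c + r)))
      (Nat.zero_le i) hij
    have h2 : ∀ k, ∑ r ∈ Ico 0 k, (g (c + r + 1) - g (c + r)) = g (c + k) - g c := by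
      intro k
      rw [← Finset.range_eq_Ico]
      have := Finset.sum_range_sub (fun r => g (c + r)) k
      simpa [add_assoc] using this
    rw [h2, h2] at this
    linarith
  rw [h1]
  have hcard : ((Ico i j).card : ℝ) ≤ m := by
    rw [Nat.card_Ico]
    exact_mod_cast (Nat.sub_le j i).trans hj.le
  calc (∑ r ∈ Ico i j, (g (c + r + 1) - g (c + r))) ^ 2
      ≤ (Ico i j).card * ∑ r ∈ Ico i j, (g (c + r + 1) - g (c + r)) ^ 2 :=
        sq_sum_le_card_mul_sum_sq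
    _ ≤ m * ∑ r ∈ range m, if r + 1 < m then (g (c + r + 1) - g (c + r)) ^ 2 else 0 := by
        refine mul_le_mul hcard ?_ (Finset.sum_nonneg fun _ _ => sq_nonneg _) (Nat.cast_nonneg _)
        have h3 : ∑ r ∈ Ico i j, (g (c + r + 1) - g (c + r)) ^ 2
            = ∑ r ∈ Ico i j, if r + 1 < m then (g (c + r + 1) - g (c + r)) ^ 2 else 0 := by
          refine Finset.sum_congr rfl fun r hr => ?_
          rw [Finset.mem_Ico] at hr
          rw [if_pos (by omega)]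
        rw [h3]
        refine Finset.sum_le_sum_of_subset_of_nonneg ?_ fun r _ _ => ?_
        · intro r hr
          rw [Finset.mem_Ico] at hr
          rw [Finset.mem_range]
          omega
        · split_ifs
          · exact sq_nonneg _
          · exact le_rfl

lemma avg_sub_sq_le {m n : ℕ} (hm : 0 < m) (hn : 0 < n) (u v : ℕ → ℝ) (B : ℝ)
    (h : ∀ i < m, ∀ j < n, (u i - v j) ^ 2 ≤ B) :
    ((∑ i ∈ range m, u i) / m - (∑ j ∈ range n, v j) / n) ^ 2 ≤ B := by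
  have hB : 0 ≤ B := le_trans (sq_nonneg _) (h 0 hm 0 hn)
  have hm' : (0 : ℝ) < m := by exact_mod_cast hm
  have hn' : (0 : ℝ) < n := by exact_mod_cast hn
  have key : (∑ i ∈ range m, u i) / m - (∑ j ∈ range n, v j) / n
      = (∑ i ∈ range m, ∑ j ∈ range n, (u i - v j)) / (m * n) := by
    have : ∑ i ∈ range m, ∑ j ∈ range n, (u i - v j)
        = n * ∑ i ∈ range m, u i - m * ∑ j ∈ range n, v j := by
      simp only [Finset.sum_sub_distrib, Finset.sum_const, card_range, nsmul_eq_mul,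
        Finset.mul_sum]
    rw [this]
    field_simp
  rw [key]
  have habs : |(∑ i ∈ range m, ∑ j ∈ range n, (u i - v j)) / ((m : ℝ) * n)| ≤ √B := by
    rw [abs_div, abs_of_pos (mul_pos hm' hn'), div_le_iff₀ (mul_pos hm' hn')]
    calc |∑ i ∈ range m, ∑ j ∈ range n, (u i - v j)|
        ≤ ∑ i ∈ range m, |∑ j ∈ range n, (u i - v j)| := Finset.abs_sum_le_sum_abs _ _
      _ ≤ ∑ i ∈ range m, ∑ j ∈ range n, |u i - v j| :=
          Finset.sum_le_sum fun i _ => Finset.abs_sum_le_sum_abs _ _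
      _ ≤ ∑ i ∈ range m, ∑ j ∈ range n, √B := by
          refine Finset.sum_le_sum fun i hi => Finset.sum_le_sum fun j hj => ?_
          rw [Finset.mem_range] at hi hj
          exact Real.abs_le_sqrt (h i hi j hj)
      _ = √B * (m * n) := by
          simp only [Finset.sum_const, card_range, nsmul_eq_mul]
          ring
  calc ((∑ i ∈ range m, ∑ j ∈ range n, (u i - v j)) / ((m : ℝ) * n)) ^ 2
      = |(∑ i ∈ range m, ∑ j ∈ range n, (u i - v j)) / ((m : ℝ) * n)| ^ 2 := (sq_abs _).symm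
    _ ≤ (√B) ^ 2 := pow_le_pow_left₀ (abs_nonneg _) habs 2
    _ = B := Real.sq_sqrt hB

/-- pointwise bound for tripling a block -/
lemma pav_step_pt {s : ℕ} (hs : 0 < s) (g : ℕ → ℝ) (a : ℕ) :
    (pav (3 * s) g a - pav s g a) ^ 2 ≤
      (3 * s : ℕ) * ∑ r ∈ range (3 * s), if r + 1 < 3 * s then
        (g (3 * s * (a / (3 * s)) + r + 1) - g (3 * s * (a / (3 * s)) + r)) ^ 2 else 0 := by
  unfold pav
  set c := 3 * s * (a / (3 * s)) with hc
  have h3s : 0 < 3 * s := by omega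
  -- the small block starts at `c + k`
  obtain ⟨k, hk, hk2⟩ : ∃ k, s * (a / s) = c + k ∧ k + s ≤ 3 * s := by
    have h1 : a / (3 * s) = a / s / 3 := by
      rw [mul_comm, Nat.div_div_eq_div_mul]
    have h2 : a / s = 3 * (a / s / 3) + (a / s) % 3 := (Nat.div_add_mod _ _).symm
    have h4 : (a / s) % 3 < 3 := Nat.mod_lt _ (by norm_num)
    refine ⟨s * ((a / s) % 3), ?_, ?_⟩
    · rw [hc, h1]
      conv_lhs => rw [h2]
      ring
    · have : s * (a / s % 3) ≤ s * 2 := Nat.mul_le_mul_left _ (by omega)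
      omega
  rw [hk]
  refine avg_sub_sq_le h3s hs (fun i => g (c + i)) (fun j => g (c + k + j)) _ ?_
  intro i hi j hj
  rw [add_assoc c k j]
  rcases le_total i (k + j) with h | h
  · have := osc_le g c (3 * s) i (k + j) h (by omega)
    rw [← neg_sq, neg_sub]
    exact this
  · exact osc_le g c (3 * s) (k + j) i h hi

/-- sum over a range of a block function -/
lemma sum_range_blocks (m q : ℕ) (F : ℕ → ℝ) :
    ∑ a ∈ range (m * q), F a = ∑ t ∈ range q, ∑ r ∈ range m, F (m * t + r) := by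
  induction q with
  | zero => simp
  | succ q ih =>
      rw [Nat.mul_succ, Finset.sum_range_succ, ← ih, Finset.sum_range_add]

lemma sum_pav {s : ℕ} (hs : 0 < s) (q : ℕ) (g : ℕ → ℝ) :
    ∑ a ∈ range (s * q), pav s g a = ∑ a ∈ range (s * q), g a := by
  rw [sum_range_blocks, sum_range_blocks]
  refine Finset.sum_congr rfl fun t _ => ?_
  have hs' : (0 : ℝ) < s := by exact_mod_cast hs
  have : ∀ r ∈ range s, pav s g (s * t + r) = (∑ j ∈ range s, g (s * t + j)) / s := by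
    intro r hr
    rw [Finset.mem_range] at hr
    unfold pav
    have : (s * t + r) / s = t := by
      rw [Nat.mul_add_div hs, Nat.div_eq_of_lt hr, add_zero]
    rw [this]
  rw [Finset.sum_congr rfl this, Finset.sum_const, card_range, nsmul_eq_mul]
  field_simp

lemma pav_sq_le {s : ℕ} (hs : 0 < s) (g : ℕ → ℝ) (a : ℕ) :
    (pav s g a) ^ 2 ≤ pav s (fun x => g x ^ 2) a := by
  unfold pav
  have hs' : (0 : ℝ) < s := by exact_mod_cast hs
  rw [div_pow, div_le_div_iff₀ (by positivity) hs']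
  have := sq_sum_le_card_mul_sum_sq (s := range s) (f := fun j => g (s * (a / s) + j))
  rw [card_range] at this
  nlinarith [this, hs']

/-- tripling the block length: the one dimensional estimate -/
lemma pav_step_sum {s : ℕ} (hs : 0 < s) (q : ℕ) (g : ℕ → ℝ) :
    ∑ a ∈ range (3 * s * q), (pav (3 * s) g a - pav s g a) ^ 2 ≤
      9 * (s : ℝ) ^ 2 * len (3 * s * q) g := by
  set m := 3 * s with hm
  have hm0 : 0 < m := by omega
  have h1 : ∑ a ∈ range (m * q), (pav m g a - pav s g a) ^ 2 ≤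
      ∑ a ∈ range (m * q), (m : ℝ) * ∑ r ∈ range m, (if r + 1 < m then
        (g (m * (a / m) + r + 1) - g (m * (a / m) + r)) ^ 2 else 0) := by
    refine Finset.sum_le_sum fun a _ => ?_
    have := pav_step_pt hs g a
    simpa [hm] using this
  refine h1.trans ?_
  rw [sum_range_blocks]
  have h2 : ∀ t ∈ range q, ∑ r' ∈ range m, (m : ℝ) * ∑ r ∈ range m, (if r + 1 < m then
        (g (m * ((m * t + r') / m) + r + 1) - g (m * ((m * t + r') / m) + r)) ^ 2 else 0)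
      = (m : ℝ) * m * ∑ r ∈ range m, (if r + 1 < m then
        (g (m * t + r + 1) - g (m * t + r)) ^ 2 else 0) := by
    intro t _
    have : ∀ r' ∈ range m, (m : ℝ) * ∑ r ∈ range m, (if r + 1 < m then
        (g (m * ((m * t + r') / m) + r + 1) - g (m * ((m * t + r') / m) + r)) ^ 2 else 0)
        = (m : ℝ) * ∑ r ∈ range m, (if r + 1 < m then
        (g (m * t + r + 1) - g (m * t + r)) ^ 2 else 0) := by
      intro r' hr'
      rw [Finset.mem_range] at hr'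
      have : (m * t + r') / m = t := by
        rw [Nat.mul_add_div hm0, Nat.div_eq_of_lt hr', add_zero]
      rw [this]
    rw [Finset.sum_congr rfl this, Finset.sum_const, card_range, nsmul_eq_mul]
    ring
  rw [Finset.sum_congr rfl h2, ← Finset.mul_sum]
  have h3 : ∑ t ∈ range q, ∑ r ∈ range m, (if r + 1 < m then
        (g (m * t + r + 1) - g (m * t + r)) ^ 2 else 0) ≤ len (m * q) g := by
    unfold len
    rw [sum_range_blocks]
    refine Finset.sum_le_sum fun t ht => Finset.sum_le_sum fun r hr => ?_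
    rw [Finset.mem_range] at ht hr
    by_cases h : r + 1 < m
    · rw [if_pos h]
      have : m * t + r + 1 < m * q := by
        have : m * (t + 1) ≤ m * q := Nat.mul_le_mul_left _ ht
        rw [Nat.mul_succ] at this
        omega
      rw [if_pos this]
    · rw [if_neg h]
      split_ifs
      · exact sq_nonneg _
      · exact le_rfl
  have h4 : (m : ℝ) * m = 9 * (s : ℝ) ^ 2 := by
    rw [hm]; push_cast; ring
  rw [h4]
  exact mul_le_mul_of_nonneg_left h3 (by positivity)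

end Vale.Agent.P361.LRO.Geo
end

section

/-!
# P361, block GEO, part 2: block averages in four directions
-/

namespace Vale.Agent.P361.LRO.Geo

open Finset Function

/-- space-time points: coordinates `0, 1, 2` space, `3` the number of the time window -/
abbrev Pt := Fin 4 → ℕ

/-- the box with side vector `N` -/
def box (N : Fin 4 → ℕ) : Finset Pt := Fintype.piFinset fun i => range (N i)

lemma mem_box {N : Fin 4 → ℕ} {x : Pt} : x ∈ box N ↔ ∀ i, x i < N i := by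
  simp [box, Fintype.mem_piFinset]

lemma update_mem_box {N : Fin 4 → ℕ} {x : Pt} (hx : x ∈ box N) {i : Fin 4} {a : ℕ}
    (ha : a < N i) : update x i a ∈ box N := by
  rw [mem_box] at hx ⊢
  intro j
  by_cases h : j = i
  · subst h; simpa using ha
  · simpa [update_of_ne h] using hx j

/-- block average in direction `i` -/
noncomputable def P (i : Fin 4) (s : ℕ) (f : Pt → ℝ) : Pt → ℝ :=
  fun x => pav s (fun a => f (update x i a)) (x i)

/-- Dirichlet energy in direction `i` -/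
noncomputable def en (i : Fin 4) (N : Fin 4 → ℕ) (f : Pt → ℝ) : ℝ :=
  ∑ x ∈ box N, if x i + 1 < N i then (f (update x i (x i + 1)) - f x) ^ 2 else 0

lemma en_nonneg (i : Fin 4) (N : Fin 4 → ℕ) (f : Pt → ℝ) : 0 ≤ en i N f := by
  refine Finset.sum_nonneg fun x _ => ?_
  split_ifs
  · exact sq_nonneg _
  · exact le_rfl

lemma sum_lines (N : Fin 4 → ℕ) (i : Fin 4) (F : Pt → ℝ) :
    (N i : ℝ) * ∑ x ∈ box N, F x = ∑ x ∈ box N, ∑ a ∈ range (N i), F (update x i a) := by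
  rw [← Finset.sum_product']
  have h1 : (N i : ℝ) * ∑ x ∈ box N, F x = ∑ p ∈ box N ×ˢ range (N i), F p.1 := by
    rw [Finset.sum_product]
    simp only [Finset.sum_const, card_range, nsmul_eq_mul, Finset.mul_sum]
  rw [h1]
  refine Finset.sum_bij' (fun p _ => (update p.1 i p.2, p.1 i))
    (fun p _ => (update p.1 i p.2, p.1 i)) ?_ ?_ ?_ ?_ ?_
  · intro p hp
    rw [Finset.mem_product, Finset.mem_range] at hp ⊢
    exact ⟨update_mem_box hp.1 hp.2, (mem_box.1 hp.1) i⟩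
  · intro p hp
    rw [Finset.mem_product, Finset.mem_range] at hp ⊢
    exact ⟨update_mem_box hp.1 hp.2, (mem_box.1 hp.1) i⟩
  · intro p hp
    simp
  · intro p hp
    simp
  · intro p hp
    simp

lemma sum_le_of_lines (N : Fin 4 → ℕ) (i : Fin 4) (F G : Pt → ℝ)
    (h : ∀ x ∈ box N, ∑ a ∈ range (N i), F (update x i a) ≤
      ∑ a ∈ range (N i), G (update x i a)) :
    ∑ x ∈ box N, F x ≤ ∑ x ∈ box N, G x := by
  rcases Nat.eq_zero_or_pos (N i) with h0 | h0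
  · have : box N = ∅ := by
      rw [Finset.eq_empty_iff_forall_notMem]
      intro x hx
      have := (mem_box.1 hx) i
      omega
    rw [this]; simp
  · have h1 : (0 : ℝ) < N i := by exact_mod_cast h0
    have h2 := Finset.sum_le_sum h
    rw [← sum_lines, ← sum_lines] at h2
    exact le_of_mul_le_mul_left h2 h1

lemma P_update (i : Fin 4) (s : ℕ) (f : Pt → ℝ) (x : Pt) (a : ℕ) :
    P i s f (update x i a) = pav s (fun b => f (update x i b)) a := by
  simp [P]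

lemma P_step_sum (N : Fin 4 → ℕ) (i : Fin 4) {s : ℕ} (hs : 0 < s) (hN : 3 * s ∣ N i)
    (g : Pt → ℝ) :
    ∑ x ∈ box N, (P i (3 * s) g x - P i s g x) ^ 2 ≤ 9 * (s : ℝ) ^ 2 * en i N g := by
  unfold en
  rw [Finset.mul_sum]
  refine sum_le_of_lines N i _ _ fun x _ => ?_
  simp only [P_update, update_self, update_idem]
  obtain ⟨q, hq⟩ := hN
  have := pav_step_sum hs q (fun b => g (update x i b))
  rw [hq, ← Finset.mul_sum]
  unfold len at this
  exact this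

lemma P_diff (i j : Fin 4) (hij : i ≠ j) (s : ℕ) (f : Pt → ℝ) (x : Pt) :
    P j s f (update x i (x i + 1)) - P j s f x =
      P j s (fun y => f (update y i (y i + 1)) - f y) x := by
  unfold P pav
  simp only [update_of_ne hij, update_of_ne hij.symm, ← sub_div, ← Finset.sum_sub_distrib]
  congr 1
  refine Finset.sum_congr rfl fun a _ => ?_
  rw [update_comm hij]

lemma P_sq_le (j : Fin 4) {s : ℕ} (hs : 0 < s) (g : Pt → ℝ) (x : Pt) :
    (P j s g x) ^ 2 ≤ P j s (fun y => g y ^ 2) x :=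
  pav_sq_le hs _ _

/-- averaging in another direction does not increase the energy -/
lemma en_P_le (N : Fin 4 → ℕ) (i j : Fin 4) (hij : i ≠ j) {s : ℕ} (hs : 0 < s)
    (hN : s ∣ N j) (f : Pt → ℝ) : en i N (P j s f) ≤ en i N f := by
  unfold en
  have h1 : ∀ x ∈ box N, (if x i + 1 < N i then
        (P j s f (update x i (x i + 1)) - P j s f x) ^ 2 else 0) ≤
      if x i + 1 < N i then P j s (fun y => (f (update y i (y i + 1)) - f y) ^ 2) x else 0 := by
    intro x _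
    split_ifs
    · rw [P_diff i j hij]
      exact P_sq_le j hs _ x
    · exact le_rfl
  refine (Finset.sum_le_sum h1).trans ?_
  refine sum_le_of_lines N j _ _ fun x _ => ?_
  simp only [P_update, update_of_ne hij]
  obtain ⟨q, hq⟩ := hN
  by_cases h : x i + 1 < N i
  · simp only [if_pos h]
    rw [hq, sum_pav hs q (fun b => (f (update (update x j b) i (x i + 1))
      - f (update x j b)) ^ 2)]
  · simp only [if_neg h]
    exact le_rfl

lemma P_comm (i j : Fin 4) (hij : i ≠ j) (s t : ℕ) (f : Pt → ℝ) :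
    P i s (P j t f) = P j t (P i s f) := by
  funext x
  unfold P pav
  simp only [update_of_ne hij, update_of_ne hij.symm, Finset.sum_div]
  rw [Finset.sum_comm]
  refine Finset.sum_congr rfl fun a _ => Finset.sum_congr rfl fun b _ => ?_
  rw [update_comm hij, div_right_comm]

/-- invariance of `f` under changes of coordinate `i` inside blocks of length `s` -/
def Inv (i : Fin 4) (s : ℕ) (f : Pt → ℝ) : Prop :=
  ∀ x c, c / s = x i / s → f (update x i c) = f x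

lemma Inv_P (i : Fin 4) (s : ℕ) (f : Pt → ℝ) : Inv i s (P i s f) := by
  intro x c h
  unfold P pav
  simp only [update_self, update_idem, h]

lemma Inv_P_other {i j : Fin 4} (hij : i ≠ j) {s : ℕ} (t : ℕ) {f : Pt → ℝ} (h : Inv i s f) :
    Inv i s (P j t f) := by
  intro x c hc
  unfold P pav
  simp only [update_of_ne hij.symm]
  congr 1
  refine Finset.sum_congr rfl fun a _ => ?_
  rw [update_comm hij]
  exact h _ _ (by rw [update_of_ne hij]; exact hc)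

lemma Inv_sub {i : Fin 4} {s : ℕ} {f g : Pt → ℝ} (hf : Inv i s f) (hg : Inv i s g) :
    Inv i s (fun x => f x - g x) := by
  intro x c hc
  simp only
  rw [hf x c hc, hg x c hc]

lemma Inv_mono {i : Fin 4} {s t : ℕ} {f : Pt → ℝ} (hf : Inv i (t * s) f) :
    Inv i s f := by
  intro x c hc
  refine hf x c ?_
  rw [mul_comm, ← Nat.div_div_eq_div_mul, ← Nat.div_div_eq_div_mul, hc]

lemma Inv_all {κ : Fin 4 → ℕ} {f : Pt → ℝ} (h : ∀ i, Inv i (κ i) f) {x y : Pt}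
    (hxy : ∀ i, y i / κ i = x i / κ i) : f y = f x := by
  have h1 : y = update (update (update (update x 0 (y 0)) 1 (y 1)) 2 (y 2)) 3 (y 3) := by
    funext j
    fin_cases j <;> simp [update]
  rw [h1, h 3 _ _ (by simpa [update] using hxy 3), h 2 _ _ (by simpa [update] using hxy 2),
    h 1 _ _ (by simpa [update] using hxy 1), h 0 _ _ (by simpa [update] using hxy 0)]

/-- sup bound for a function which is constant on the blocks -/
lemma sq_le_of_Inv {N κ : Fin 4 → ℕ} (hκ : ∀ i, 0 < κ i) (hN : ∀ i, κ i ∣ N i) {D : Pt → ℝ}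
    (h : ∀ i, Inv i (κ i) D) {x : Pt} (hx : x ∈ box N) :
    (D x) ^ 2 * (∏ i, (κ i : ℝ)) ≤ ∑ y ∈ box N, (D y) ^ 2 := by
  set B : Finset Pt := Fintype.piFinset fun i => Ico (κ i * (x i / κ i)) (κ i * (x i / κ i) + κ i)
    with hB
  have hcard : (B.card : ℝ) = ∏ i, (κ i : ℝ) := by
    rw [hB, Fintype.card_piFinset]
    simp
  have hsub : B ⊆ box N := by
    intro y hy
    rw [hB, Fintype.mem_piFinset] at hy
    rw [mem_box]
    intro i
    have h1 := hy i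
    rw [Finset.mem_Ico] at h1
    obtain ⟨q, hq⟩ := hN i
    have h2 := (mem_box.1 hx) i
    have h3 : x i / κ i < q := by
      rw [Nat.div_lt_iff_lt_mul (hκ i), mul_comm, ← hq]
      exact h2
    have h4 : κ i * (x i / κ i) + κ i ≤ N i := by
      rw [hq, ← Nat.mul_succ]
      exact Nat.mul_le_mul_left _ h3
    omega
  have hval : ∀ y ∈ B, (D y) ^ 2 = (D x) ^ 2 := by
    intro y hy
    rw [hB, Fintype.mem_piFinset] at hy
    rw [Inv_all h (x := x) (y := y)]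
    intro i
    have h1 := hy i
    rw [Finset.mem_Ico] at h1
    rw [Nat.div_eq_iff (hκ i)]
    have := hκ i
    constructor
    · rw [mul_comm]; exact h1.1
    · rw [mul_comm (x i / κ i)]; omega
  calc (D x) ^ 2 * (∏ i, (κ i : ℝ)) = ∑ y ∈ B, (D y) ^ 2 := by
        rw [Finset.sum_congr rfl hval, Finset.sum_const, nsmul_eq_mul, hcard, mul_comm]
    _ ≤ ∑ y ∈ box N, (D y) ^ 2 :=
        Finset.sum_le_sum_of_subset_of_nonneg hsub fun _ _ _ => sq_nonneg _

/-- block average with side vector `κ` -/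
noncomputable def A (κ : Fin 4 → ℕ) (f : Pt → ℝ) : Pt → ℝ :=
  P 0 (κ 0) (P 1 (κ 1) (P 2 (κ 2) (P 3 (κ 3) f)))

lemma A_split (κ : Fin 4 → ℕ) (f : Pt → ℝ) (i : Fin 4) :
    ∃ g : Pt → ℝ, (∀ t, A (update κ i t) f = P i t g) ∧
      (∀ N : Fin 4 → ℕ, (∀ j, 0 < κ j) → (∀ j, j ≠ i → κ j ∣ N j) → en i N g ≤ en i N f) := by
  fin_cases i
  · refine ⟨P 1 (κ 1) (P 2 (κ 2) (P 3 (κ 3) f)), fun t => ?_, fun N h0 h => ?_⟩
    · simp [A, update]
    · refine (en_P_le N 0 1 (by decide) (h0 1) (h 1 (by decide)) _).trans ?_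
      refine (en_P_le N 0 2 (by decide) (h0 2) (h 2 (by decide)) _).trans ?_
      exact en_P_le N 0 3 (by decide) (h0 3) (h 3 (by decide)) _
  · refine ⟨P 0 (κ 0) (P 2 (κ 2) (P 3 (κ 3) f)), fun t => ?_, fun N h0 h => ?_⟩
    · simp only [A]
      simp only [update, Fin.reduceEq, Fin.isValue, Fin.mk_one, dite_true, dite_false,
        eq_rec_constant]
      rw [P_comm 0 1 (by decide)]
    · refine (en_P_le N 1 0 (by decide) (h0 0) (h 0 (by decide)) _).trans ?_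
      refine (en_P_le N 1 2 (by decide) (h0 2) (h 2 (by decide)) _).trans ?_
      exact en_P_le N 1 3 (by decide) (h0 3) (h 3 (by decide)) _
  · refine ⟨P 0 (κ 0) (P 1 (κ 1) (P 3 (κ 3) f)), fun t => ?_, fun N h0 h => ?_⟩
    · simp only [A]
      simp only [update, Fin.reduceEq, Fin.isValue, Fin.reduceFinMk, dite_true, dite_false,
        eq_rec_constant]
      rw [P_comm 1 2 (by decide), P_comm 0 2 (by decide)]
    · refine (en_P_le N 2 0 (by decide) (h0 0) (h 0 (by decide)) _).trans ?_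
      refine (en_P_le N 2 1 (by decide) (h0 1) (h 1 (by decide)) _).trans ?_
      exact en_P_le N 2 3 (by decide) (h0 3) (h 3 (by decide)) _
  · refine ⟨P 0 (κ 0) (P 1 (κ 1) (P 2 (κ 2) f)), fun t => ?_, fun N h0 h => ?_⟩
    · simp only [A]
      simp only [update, Fin.reduceEq, Fin.isValue, Fin.reduceFinMk, dite_true, dite_false,
        eq_rec_constant]
      rw [P_comm 2 3 (by decide), P_comm 1 3 (by decide), P_comm 0 3 (by decide)]
    · refine (en_P_le N 3 0 (by decide) (h0 0) (h 0 (by decide)) _).trans ?_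
      refine (en_P_le N 3 1 (by decide) (h0 1) (h 1 (by decide)) _).trans ?_
      exact en_P_le N 3 2 (by decide) (h0 2) (h 2 (by decide)) _

lemma A_Inv (κ : Fin 4 → ℕ) (f : Pt → ℝ) (i : Fin 4) : Inv i (κ i) (A κ f) := by
  obtain ⟨g, hg, -⟩ := A_split κ f i
  have := hg (κ i)
  rw [update_eq_self] at this
  rw [this]
  exact Inv_P i (κ i) g

/-- one tripling step, `L²` bound -/
lemma A_step_sum (N κ : Fin 4 → ℕ) (i : Fin 4) (h0 : ∀ j, 0 < κ j)
    (hN : ∀ j, j ≠ i → κ j ∣ N j) (hi : 3 * κ i ∣ N i) (f : Pt → ℝ) :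
    ∑ x ∈ box N, (A (update κ i (3 * κ i)) f x - A κ f x) ^ 2 ≤
      9 * (κ i : ℝ) ^ 2 * en i N f := by
  obtain ⟨g, hg, hen⟩ := A_split κ f i
  have h1 := hg (3 * κ i)
  have h2 := hg (κ i)
  rw [update_eq_self] at h2
  rw [h1, h2]
  refine (P_step_sum N i (h0 i) hi g).trans ?_
  exact mul_le_mul_of_nonneg_left (hen N h0 hN) (by positivity)

/-- one tripling step, pointwise bound -/
lemma A_step_pt (N κ : Fin 4 → ℕ) (i : Fin 4) (h0 : ∀ j, 0 < κ j)
    (hN : ∀ j, j ≠ i → κ j ∣ N j) (hi : 3 * κ i ∣ N i) (f : Pt → ℝ) {x : Pt} (hx : x ∈ box N) :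
    (A (update κ i (3 * κ i)) f x - A κ f x) ^ 2 * (∏ j, (κ j : ℝ)) ≤
      9 * (κ i : ℝ) ^ 2 * en i N f := by
  have h1 : ∀ j, Inv j (κ j) (fun x => A (update κ i (3 * κ i)) f x - A κ f x) := by
    intro j
    refine Inv_sub ?_ (A_Inv κ f j)
    have := A_Inv (update κ i (3 * κ i)) f j
    by_cases h : j = i
    · subst h
      rw [update_self] at this
      exact Inv_mono this
    · rwa [update_of_ne h] at this
  have h2 : ∀ j, κ j ∣ N j := by
    intro j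
    by_cases h : j = i
    · subst h
      exact (Dvd.intro_left 3 rfl).trans hi
    · exact hN j h
  exact (sq_le_of_Inv h0 h2 h1 hx).trans (A_step_sum N κ i h0 hN hi f)

end Vale.Agent.P361.LRO.Geo
end

section

/-!
# P361, block GEO, part 3: Poincaré inequality on boxes, chaining of block averages, and the
count of points where a function of small energy exceeds its mean.
-/

namespace Vale.Agent.P361.LRO.Geo

open Finset Function

/-! ## One dimensional Poincaré inequality -/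

lemma pav_sub_pt {s : ℕ} (hs : 0 < s) (g : ℕ → ℝ) (a : ℕ) :
    (pav s g a - g a) ^ 2 ≤ s * ∑ r ∈ range s, if r + 1 < s then
        (g (s * (a / s) + r + 1) - g (s * (a / s) + r)) ^ 2 else 0 := by
  unfold pav
  set c := s * (a / s) with hc
  have ha : a = c + a % s := (Nat.div_add_mod a s).symm
  have hmod := Nat.mod_lt a hs
  have key : ∀ i < s, ∀ j < 1, (g (c + i) - (fun _ : ℕ => g a) j) ^ 2 ≤
      s * ∑ r ∈ range s, if r + 1 < s then (g (c + r + 1) - g (c + r)) ^ 2 else 0 := by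
    intro i hi j _
    rcases le_total i (a % s) with h | h
    · have := osc_le g c s i (a % s) h hmod
      rw [← ha] at this
      rw [← neg_sq, neg_sub]
      exact this
    · have := osc_le g c s (a % s) i h hi
      rw [← ha] at this
      exact this
  have := avg_sub_sq_le hs (n := 1) one_pos (fun i => g (c + i)) (fun _ => g a) _ key
  simpa using this

lemma sum_block_energy {m : ℕ} (hm0 : 0 < m) (q : ℕ) (g : ℕ → ℝ) :
    ∑ a ∈ range (m * q), ((m : ℝ) * ∑ r ∈ range m, if r + 1 < m then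
        (g (m * (a / m) + r + 1) - g (m * (a / m) + r)) ^ 2 else 0) ≤
      (m : ℝ) ^ 2 * len (m * q) g := by
  rw [sum_range_blocks]
  have h2 : ∀ t ∈ range q, ∑ r' ∈ range m, ((m : ℝ) * ∑ r ∈ range m, if r + 1 < m then
        (g (m * ((m * t + r') / m) + r + 1) - g (m * ((m * t + r') / m) + r)) ^ 2 else 0)
      = (m : ℝ) ^ 2 * ∑ r ∈ range m, (if r + 1 < m then
        (g (m * t + r + 1) - g (m * t + r)) ^ 2 else 0) := by
    intro t _
    have : ∀ r' ∈ range m, ((m : ℝ) * ∑ r ∈ range m, if r + 1 < m then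
        (g (m * ((m * t + r') / m) + r + 1) - g (m * ((m * t + r') / m) + r)) ^ 2 else 0)
        = (m : ℝ) * ∑ r ∈ range m, (if r + 1 < m then
        (g (m * t + r + 1) - g (m * t + r)) ^ 2 else 0) := by
      intro r' hr'
      rw [Finset.mem_range] at hr'
      have : (m * t + r') / m = t := by
        rw [Nat.mul_add_div hm0, Nat.div_eq_of_lt hr', add_zero]
      rw [this]
    rw [Finset.sum_congr rfl this, Finset.sum_const, card_range, nsmul_eq_mul]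
    ring
  rw [Finset.sum_congr rfl h2, ← Finset.mul_sum]
  refine mul_le_mul_of_nonneg_left ?_ (by positivity)
  unfold len
  rw [sum_range_blocks]
  refine Finset.sum_le_sum fun t ht => Finset.sum_le_sum fun r hr => ?_
  rw [Finset.mem_range] at ht hr
  by_cases h : r + 1 < m
  · rw [if_pos h]
    have : m * t + r + 1 < m * q := by
      have : m * (t + 1) ≤ m * q := Nat.mul_le_mul_left _ ht
      rw [Nat.mul_succ] at this
      omega
    rw [if_pos this]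
  · rw [if_neg h]
    split_ifs
    · exact sq_nonneg _
    · exact le_rfl

lemma pav_sub_sum {s : ℕ} (hs : 0 < s) (q : ℕ) (g : ℕ → ℝ) :
    ∑ a ∈ range (s * q), (pav s g a - g a) ^ 2 ≤ (s : ℝ) ^ 2 * len (s * q) g :=
  (Finset.sum_le_sum fun a _ => pav_sub_pt hs g a).trans (sum_block_energy hs q g)

/-! ## Four directions -/

lemma P_sub_sum (N : Fin 4 → ℕ) (i : Fin 4) {s : ℕ} (hs : 0 < s) (hN : s ∣ N i)
    (g : Pt → ℝ) :
    ∑ x ∈ box N, (P i s g x - g x) ^ 2 ≤ (s : ℝ) ^ 2 * en i N g := by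
  unfold en
  rw [Finset.mul_sum]
  refine sum_le_of_lines N i _ _ fun x _ => ?_
  simp only [P_update, update_self, update_idem]
  obtain ⟨q, hq⟩ := hN
  have := pav_sub_sum hs q (fun b => g (update x i b))
  rw [hq, ← Finset.mul_sum]
  unfold len at this
  exact this

/-- total Dirichlet energy of `f` on the box with side vector `N` -/
noncomputable def En (N : Fin 4 → ℕ) (f : Pt → ℝ) : ℝ := ∑ i, en i N f

lemma En_nonneg (N : Fin 4 → ℕ) (f : Pt → ℝ) : 0 ≤ En N f :=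
  Finset.sum_nonneg fun i _ => en_nonneg i N f

lemma four_sq (a b c d : ℝ) :
    (a + b + c + d) ^ 2 ≤ 4 * (a ^ 2 + b ^ 2 + c ^ 2 + d ^ 2) := by
  nlinarith [sq_nonneg (a - b), sq_nonneg (a - c), sq_nonneg (a - d), sq_nonneg (b - c),
    sq_nonneg (b - d), sq_nonneg (c - d)]

/-- Poincaré inequality: replacing `f` by its block averages -/
lemma A_sub_sum (N κ : Fin 4 → ℕ) (s : ℕ) (h0 : ∀ j, 0 < κ j) (hN : ∀ j, κ j ∣ N j)
    (hs : ∀ j, κ j ≤ s) (f : Pt → ℝ) :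
    ∑ x ∈ box N, (A κ f x - f x) ^ 2 ≤ 4 * (s : ℝ) ^ 2 * En N f := by
  set g3 := P 3 (κ 3) f with hg3
  set g2 := P 2 (κ 2) g3 with hg2
  set g1 := P 1 (κ 1) g2 with hg1
  have hA : A κ f = P 0 (κ 0) g1 := rfl
  have e3 : ∑ x ∈ box N, (g3 x - f x) ^ 2 ≤ (s : ℝ) ^ 2 * en 3 N f := by
    refine (P_sub_sum N 3 (h0 3) (hN 3) f).trans ?_
    have := en_nonneg 3 N f
    have := hs 3
    gcongr
  have e2 : ∑ x ∈ box N, (g2 x - g3 x) ^ 2 ≤ (s : ℝ) ^ 2 * en 2 N f := by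
    refine (P_sub_sum N 2 (h0 2) (hN 2) g3).trans ?_
    have h1 : en 2 N g3 ≤ en 2 N f := en_P_le N 2 3 (by decide) (h0 3) (hN 3) f
    have := en_nonneg 2 N g3
    have := hs 2
    gcongr
  have e1 : ∑ x ∈ box N, (g1 x - g2 x) ^ 2 ≤ (s : ℝ) ^ 2 * en 1 N f := by
    refine (P_sub_sum N 1 (h0 1) (hN 1) g2).trans ?_
    have h1 : en 1 N g2 ≤ en 1 N f :=
      (en_P_le N 1 2 (by decide) (h0 2) (hN 2) g3).trans
        (en_P_le N 1 3 (by decide) (h0 3) (hN 3) f)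
    have := en_nonneg 1 N g2
    have := hs 1
    gcongr
  have e0 : ∑ x ∈ box N, (A κ f x - g1 x) ^ 2 ≤ (s : ℝ) ^ 2 * en 0 N f := by
    rw [hA]
    refine (P_sub_sum N 0 (h0 0) (hN 0) g1).trans ?_
    have h1 : en 0 N g1 ≤ en 0 N f :=
      (en_P_le N 0 1 (by decide) (h0 1) (hN 1) g2).trans
        ((en_P_le N 0 2 (by decide) (h0 2) (hN 2) g3).trans
          (en_P_le N 0 3 (by decide) (h0 3) (hN 3) f))
    have := en_nonneg 0 N g1
    have := hs 0
    gcongr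
  have hpt : ∀ x ∈ box N, (A κ f x - f x) ^ 2 ≤
      4 * ((A κ f x - g1 x) ^ 2 + (g1 x - g2 x) ^ 2 + (g2 x - g3 x) ^ 2 + (g3 x - f x) ^ 2) := by
    intro x _
    have := four_sq (A κ f x - g1 x) (g1 x - g2 x) (g2 x - g3 x) (g3 x - f x)
    have e : A κ f x - f x = (A κ f x - g1 x) + (g1 x - g2 x) + (g2 x - g3 x) + (g3 x - f x) := by
      ring
    rw [e]
    exact this
  refine (Finset.sum_le_sum hpt).trans ?_
  rw [← Finset.mul_sum, Finset.sum_add_distrib, Finset.sum_add_distrib, Finset.sum_add_distrib]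
  unfold En
  rw [Fin.sum_univ_four]
  nlinarith

lemma A_step_one (N κ : Fin 4 → ℕ) (i : Fin 4) (s t : ℕ) (h0 : ∀ j, 0 < κ j)
    (hN : ∀ j, κ j ∣ N j) (ht : t = κ i ∨ (t = 3 * κ i ∧ κ i ≤ s)) (htN : t ∣ N i)
    (f : Pt → ℝ) :
    ∑ x ∈ box N, (A (update κ i t) f x - A κ f x) ^ 2 ≤ 9 * (s : ℝ) ^ 2 * en i N f := by
  have hen := en_nonneg i N f
  rcases ht with ht | ⟨ht, hs⟩
  · rw [ht, update_eq_self]
    simp only [sub_self]
    simp only [ne_eq, OfNat.ofNat_ne_zero, not_false_eq_true, zero_pow, sum_const_zero]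
    positivity
  · subst ht
    refine (A_step_sum N κ i h0 (fun j _ => hN j) htN f).trans ?_
    gcongr

/-- one step of the chain: some sides are tripled -/
lemma A_quad (N κ κ' : Fin 4 → ℕ) (s : ℕ) (h0 : ∀ j, 0 < κ j) (hN : ∀ j, κ j ∣ N j)
    (h : ∀ j, κ' j = κ j ∨ (κ' j = 3 * κ j ∧ κ j ≤ s)) (hN' : ∀ j, κ' j ∣ N j)
    (f : Pt → ℝ) :
    ∑ x ∈ box N, (A κ' f x - A κ f x) ^ 2 ≤ 36 * (s : ℝ) ^ 2 * En N f := by
  have h0' : ∀ j, 0 < κ' j := by
    intro j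
    have := h0 j
    rcases h j with h1 | ⟨h1, -⟩ <;> omega
  set κ1 := update κ 0 (κ' 0) with hκ1
  set κ2 := update κ1 1 (κ' 1) with hκ2
  set κ3 := update κ2 2 (κ' 2) with hκ3
  have hκ4 : κ' = update κ3 3 (κ' 3) := by
    funext j
    fin_cases j <;> simp [hκ1, hκ2, hκ3, update]
  have u1 : ∀ (g : Fin 4 → ℕ) (i : Fin 4), (∀ j, 0 < g j) → ∀ j, 0 < update g i (κ' i) j := by
    intro g i hg j
    by_cases hj : j = i
    · subst hj; simpa using h0' j
    · rw [update_of_ne hj]; exact hg j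
  have u2 : ∀ (g : Fin 4 → ℕ) (i : Fin 4), (∀ j, g j ∣ N j) → ∀ j, update g i (κ' i) j ∣ N j := by
    intro g i hg j
    by_cases hj : j = i
    · subst hj; simpa using hN' j
    · rw [update_of_ne hj]; exact hg j
  have s1 := A_step_one N κ 0 s (κ' 0) h0 hN (h 0) (hN' 0) f
  have s2 := A_step_one N κ1 1 s (κ' 1) (u1 κ 0 h0) (u2 κ 0 hN)
    (by have := h 1; simpa [hκ1, update] using this) (hN' 1) f
  have s3 := A_step_one N κ2 2 s (κ' 2) (u1 κ1 1 (u1 κ 0 h0)) (u2 κ1 1 (u2 κ 0 hN))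
    (by have := h 2; simpa [hκ1, hκ2, update] using this) (hN' 2) f
  have s4 := A_step_one N κ3 3 s (κ' 3) (u1 κ2 2 (u1 κ1 1 (u1 κ 0 h0)))
    (u2 κ2 2 (u2 κ1 1 (u2 κ 0 hN)))
    (by have := h 3; simpa [hκ1, hκ2, hκ3, update] using this) (hN' 3) f
  rw [← hκ1] at s1
  rw [← hκ2] at s2
  rw [← hκ3] at s3
  rw [← hκ4] at s4
  have hpt : ∀ x ∈ box N, (A κ' f x - A κ f x) ^ 2 ≤
      4 * ((A κ' f x - A κ3 f x) ^ 2 + (A κ3 f x - A κ2 f x) ^ 2 + (A κ2 f x - A κ1 f x) ^ 2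
        + (A κ1 f x - A κ f x) ^ 2) := by
    intro x _
    have := four_sq (A κ' f x - A κ3 f x) (A κ3 f x - A κ2 f x) (A κ2 f x - A κ1 f x)
      (A κ1 f x - A κ f x)
    have e : A κ' f x - A κ f x = (A κ' f x - A κ3 f x) + (A κ3 f x - A κ2 f x)
        + (A κ2 f x - A κ1 f x) + (A κ1 f x - A κ f x) := by
      ring
    rw [e]
    exact this
  refine (Finset.sum_le_sum hpt).trans ?_
  rw [← Finset.mul_sum, Finset.sum_add_distrib, Finset.sum_add_distrib, Finset.sum_add_distrib]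
  unfold En
  rw [Fin.sum_univ_four]
  nlinarith

/-- one step of the chain, pointwise bound -/
lemma A_pt (N κ κ' : Fin 4 → ℕ) (s : ℕ) (h0 : ∀ j, 0 < κ j) (hN : ∀ j, κ j ∣ N j)
    (h : ∀ j, κ' j = κ j ∨ (κ' j = 3 * κ j ∧ κ j ≤ s)) (hN' : ∀ j, κ' j ∣ N j)
    (f : Pt → ℝ) {x : Pt} (hx : x ∈ box N) :
    (A κ' f x - A κ f x) ^ 2 * (∏ j, (κ j : ℝ)) ≤ 36 * (s : ℝ) ^ 2 * En N f := by
  have h1 : ∀ j, Inv j (κ j) (fun x => A κ' f x - A κ f x) := by
    intro j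
    refine Inv_sub ?_ (A_Inv κ f j)
    have := A_Inv κ' f j
    rcases h j with h2 | ⟨h2, -⟩
    · rwa [h2] at this
    · rw [h2] at this
      exact Inv_mono this
  exact (sq_le_of_Inv h0 hN h1 hx).trans (A_quad N κ κ' s h0 hN h hN' f)

/-! ## Telescoping -/

lemma abs_tele (F φ : ℕ → ℝ) (m n : ℕ) (hmn : m ≤ n)
    (h : ∀ k, m ≤ k → k < n → |F (k + 1) - F k| ≤ φ k - φ (k + 1)) :
    |F n - F m| ≤ φ m - φ n := by
  induction n, hmn using Nat.le_induction with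
  | base => simp
  | succ n hmn ih =>
      have h1 := ih fun k hk hkn => h k hk (by omega)
      have h2 := h n hmn (by omega)
      have h3 : F (n + 1) - F m = (F (n + 1) - F n) + (F n - F m) := by ring
      rw [h3]
      refine (abs_add_le _ _).trans ?_
      linarith

/-- chaining over space cubes, time side `T` fixed -/
lemma chain3 (N : Fin 4 → ℕ) (f : Pt → ℝ) (m n T : ℕ) (hmn : m ≤ n) (hT : 0 < T)
    (hn : ∀ i, i ≠ 3 → 3 ^ n ∣ N i) (hTN : T ∣ N 3) {x : Pt} (hx : x ∈ box N) :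
    |A ![3 ^ n, 3 ^ n, 3 ^ n, T] f x - A ![3 ^ m, 3 ^ m, 3 ^ m, T] f x| ≤
      15 * √(En N f / (3 ^ m * T)) := by
  set S := √(En N f / T) with hS
  have hS0 : 0 ≤ S := Real.sqrt_nonneg _
  set q := √(1 / 3 : ℝ) with hq
  have hq0 : 0 ≤ q := Real.sqrt_nonneg _
  have hq2 : q ^ 2 = 1 / 3 := Real.sq_sqrt (by norm_num)
  have hq1 : q ≤ 3 / 5 := by nlinarith
  have hTr : (0 : ℝ) < T := by exact_mod_cast hT
  have hE := En_nonneg N f
  have hS2 : S ^ 2 = En N f / T := Real.sq_sqrt (by positivity)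
  have key := abs_tele (fun k => A ![3 ^ k, 3 ^ k, 3 ^ k, T] f x) (fun k => 15 * S * q ^ k) m n
    hmn ?_
  · refine key.trans ?_
    have h1 : √(En N f / (3 ^ m * T)) = S * q ^ m := by
      have h2 : En N f / (3 ^ m * T) = (S * q ^ m) ^ 2 := by
        rw [mul_pow, hS2, ← pow_mul, mul_comm m 2, pow_mul, hq2, div_pow, one_pow]
        field_simp
      rw [h2]
      exact Real.sqrt_sq (by positivity)
    rw [h1]
    have : 0 ≤ 15 * S * q ^ n := by positivity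
    linarith
  · intro k hk hkn
    have hdiv : ∀ i, i ≠ 3 → 3 ^ (k + 1) ∣ N i := fun i hi =>
      (pow_dvd_pow 3 hkn).trans (hn i hi)
    have hdiv' : ∀ i, i ≠ 3 → 3 ^ k ∣ N i := fun i hi =>
      (pow_dvd_pow 3 hkn.le).trans (hn i hi)
    have h1 := A_pt N ![3 ^ k, 3 ^ k, 3 ^ k, T] ![3 ^ (k + 1), 3 ^ (k + 1), 3 ^ (k + 1), T] (3 ^ k)
      (by intro j; fin_cases j <;> simp [hT])
      (by
        intro j
        fin_cases j
        · exact hdiv' 0 (by decide)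
        · exact hdiv' 1 (by decide)
        · exact hdiv' 2 (by decide)
        · exact hTN)
      (by
        intro j
        fin_cases j
        · right; simp [pow_succ, mul_comm]
        · right; simp [pow_succ, mul_comm]
        · right; simp [pow_succ, mul_comm]
        · left; simp)
      (by
        intro j
        fin_cases j
        · exact hdiv 0 (by decide)
        · exact hdiv 1 (by decide)
        · exact hdiv 2 (by decide)
        · exact hTN) f hx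
    set D := A ![3 ^ (k + 1), 3 ^ (k + 1), 3 ^ (k + 1), T] f x
      - A ![3 ^ k, 3 ^ k, 3 ^ k, T] f x with hD
    have h2 : (∏ j, (((![3 ^ k, 3 ^ k, 3 ^ k, T] : Fin 4 → ℕ) j : ℕ) : ℝ))
        = (3 ^ k) ^ 3 * T := by
      rw [Fin.prod_univ_four]
      change ((3 ^ k : ℕ) : ℝ) * ((3 ^ k : ℕ) : ℝ) * ((3 ^ k : ℕ) : ℝ) * (T : ℝ) = _
      push_cast
      ring
    rw [h2] at h1
    have h3 : D ^ 2 ≤ (6 * S * q ^ k) ^ 2 := by
      have h4 : (6 * S * q ^ k) ^ 2 = 36 * (En N f / T) / 3 ^ k := by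
        rw [mul_pow, mul_pow, hS2, ← pow_mul, mul_comm k 2, pow_mul, hq2, div_pow, one_pow]
        ring
      rw [h4, le_div_iff₀ (by positivity)]
      have h5 : (0 : ℝ) < (3 ^ k) ^ 2 * T := by positivity
      have h6 : D ^ 2 * 3 ^ k * ((3 ^ k) ^ 2 * T) ≤ 36 * (En N f / T) * ((3 ^ k) ^ 2 * T) := by
        have : 36 * (En N f / T) * ((3 ^ k) ^ 2 * T) = 36 * (3 ^ k) ^ 2 * En N f := by
          field_simp
        rw [this]
        push_cast at h1
        calc D ^ 2 * 3 ^ k * ((3 ^ k) ^ 2 * T) = D ^ 2 * ((3 ^ k) ^ 3 * T) := by ring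
          _ ≤ _ := h1
      exact le_of_mul_le_mul_right h6 h5
    have h7 : |D| ≤ 6 * S * q ^ k := abs_le_of_sq_le_sq h3 (by positivity)
    refine h7.trans ?_
    have h8 : 15 * S * q ^ k - 15 * S * q ^ (k + 1) = 15 * (S * q ^ k) * (1 - q) := by ring
    rw [h8]
    have h9 : 0 ≤ S * q ^ k := by positivity
    nlinarith

/-- chaining over space-time cubes -/
lemma chain4 (N : Fin 4 → ℕ) (f : Pt → ℝ) (m n : ℕ) (hmn : m ≤ n)
    (hn : ∀ i, 3 ^ n ∣ N i) {x : Pt} (hx : x ∈ box N) :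
    |A ![3 ^ n, 3 ^ n, 3 ^ n, 3 ^ n] f x - A ![3 ^ m, 3 ^ m, 3 ^ m, 3 ^ m] f x| ≤
      9 * √(En N f) / 3 ^ m := by
  set S := √(En N f) with hS
  have hS0 : 0 ≤ S := Real.sqrt_nonneg _
  have hE := En_nonneg N f
  have hS2 : S ^ 2 = En N f := Real.sq_sqrt hE
  have key := abs_tele (fun k => A ![3 ^ k, 3 ^ k, 3 ^ k, 3 ^ k] f x) (fun k => 9 * S / 3 ^ k) m n
    hmn ?_
  · refine key.trans ?_
    have : 0 ≤ 9 * S / 3 ^ n := by positivity
    linarith
  · intro k hk hkn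
    have hdiv : ∀ i, 3 ^ (k + 1) ∣ N i := fun i => (pow_dvd_pow 3 hkn).trans (hn i)
    have hdiv' : ∀ i, 3 ^ k ∣ N i := fun i => (pow_dvd_pow 3 hkn.le).trans (hn i)
    have h1 := A_pt N ![3 ^ k, 3 ^ k, 3 ^ k, 3 ^ k]
      ![3 ^ (k + 1), 3 ^ (k + 1), 3 ^ (k + 1), 3 ^ (k + 1)] (3 ^ k)
      (by intro j; fin_cases j <;> simp)
      (by
        intro j
        fin_cases j
        · exact hdiv' 0
        · exact hdiv' 1
        · exact hdiv' 2
        · exact hdiv' 3)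
      (by
        intro j
        fin_cases j
        · right; simp [pow_succ, mul_comm]
        · right; simp [pow_succ, mul_comm]
        · right; simp [pow_succ, mul_comm]
        · right; simp [pow_succ, mul_comm])
      (by
        intro j
        fin_cases j
        · exact hdiv 0
        · exact hdiv 1
        · exact hdiv 2
        · exact hdiv 3) f hx
    set D := A ![3 ^ (k + 1), 3 ^ (k + 1), 3 ^ (k + 1), 3 ^ (k + 1)] f x
      - A ![3 ^ k, 3 ^ k, 3 ^ k, 3 ^ k] f x with hD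
    have h2 : (∏ j, (((![3 ^ k, 3 ^ k, 3 ^ k, 3 ^ k] : Fin 4 → ℕ) j : ℕ) : ℝ))
        = (3 ^ k) ^ 4 := by
      rw [Fin.prod_univ_four]
      simp
      ring
    rw [h2] at h1
    have h3 : D ^ 2 ≤ (6 * S / 3 ^ k) ^ 2 := by
      rw [div_pow, mul_pow, hS2, le_div_iff₀ (by positivity)]
      have h5 : (0 : ℝ) < (3 ^ k) ^ 2 := by positivity
      have h6 : D ^ 2 * (3 ^ k) ^ 2 * (3 ^ k) ^ 2 ≤ 6 ^ 2 * En N f * (3 ^ k) ^ 2 := by
        push_cast at h1
        calc D ^ 2 * (3 ^ k) ^ 2 * (3 ^ k) ^ 2 = D ^ 2 * (3 ^ k) ^ 4 := by ring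
          _ ≤ 36 * (3 ^ k) ^ 2 * En N f := h1
          _ = 6 ^ 2 * En N f * (3 ^ k) ^ 2 := by ring
      exact le_of_mul_le_mul_right h6 h5
    have h7 : |D| ≤ 6 * S / 3 ^ k := abs_le_of_sq_le_sq h3 (by positivity)
    refine h7.trans (le_of_eq ?_)
    rw [pow_succ]
    field_simp
    ring

/-- chaining in time only, space side `3 ^ a` fixed -/
lemma chainT (N : Fin 4 → ℕ) (f : Pt → ℝ) (a n : ℕ)
    (ha : ∀ i, i ≠ 3 → 3 ^ a ∣ N i) (hn : 3 ^ n ∣ N 3) {x : Pt} (hx : x ∈ box N) :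
    |A ![3 ^ a, 3 ^ a, 3 ^ a, 3 ^ n] f x - A ![3 ^ a, 3 ^ a, 3 ^ a, 1] f x| ≤
      9 * √(3 ^ n * En N f / 27 ^ a) := by
  set S := √(En N f / 27 ^ a) with hS
  have hS0 : 0 ≤ S := Real.sqrt_nonneg _
  set q := √(3 : ℝ) with hq
  have hq0 : 0 ≤ q := Real.sqrt_nonneg _
  have hq2 : q ^ 2 = 3 := Real.sq_sqrt (by norm_num)
  have hq1 : 5 / 3 ≤ q := by nlinarith
  have hE := En_nonneg N f
  have hS2 : S ^ 2 = En N f / 27 ^ a := Real.sq_sqrt (by positivity)
  have key := abs_tele (fun k => A ![3 ^ a, 3 ^ a, 3 ^ a, 3 ^ k] f x)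
    (fun k => - (9 * S * q ^ k)) 0 n (Nat.zero_le n) ?_
  · simp only [pow_zero] at key
    refine key.trans ?_
    have h1 : √(3 ^ n * En N f / 27 ^ a) = S * q ^ n := by
      have h2 : 3 ^ n * En N f / 27 ^ a = (S * q ^ n) ^ 2 := by
        rw [mul_pow, hS2, ← pow_mul, mul_comm n 2, pow_mul, hq2]
        ring
      rw [h2]
      exact Real.sqrt_sq (by positivity)
    rw [h1]
    linarith
  · intro k _ hkn
    have hdiv : 3 ^ (k + 1) ∣ N 3 := (pow_dvd_pow 3 hkn).trans hn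
    have hdiv' : 3 ^ k ∣ N 3 := (pow_dvd_pow 3 hkn.le).trans hn
    have h1 := A_pt N ![3 ^ a, 3 ^ a, 3 ^ a, 3 ^ k]
      ![3 ^ a, 3 ^ a, 3 ^ a, 3 ^ (k + 1)] (3 ^ k)
      (by intro j; fin_cases j <;> simp)
      (by
        intro j
        fin_cases j
        · exact ha 0 (by decide)
        · exact ha 1 (by decide)
        · exact ha 2 (by decide)
        · exact hdiv')
      (by
        intro j
        fin_cases j
        · left; simp
        · left; simp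
        · left; simp
        · right; simp [pow_succ, mul_comm])
      (by
        intro j
        fin_cases j
        · exact ha 0 (by decide)
        · exact ha 1 (by decide)
        · exact ha 2 (by decide)
        · exact hdiv) f hx
    set D := A ![3 ^ a, 3 ^ a, 3 ^ a, 3 ^ (k + 1)] f x
      - A ![3 ^ a, 3 ^ a, 3 ^ a, 3 ^ k] f x with hD
    have h27 : ((27 : ℝ) ^ a) = (3 ^ a) ^ 3 := by
      rw [← pow_mul, mul_comm, pow_mul]; norm_num
    have h2 : (∏ j, (((![3 ^ a, 3 ^ a, 3 ^ a, 3 ^ k] : Fin 4 → ℕ) j : ℕ) : ℝ))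
        = 27 ^ a * 3 ^ k := by
      rw [Fin.prod_univ_four, h27]
      simp
      ring
    rw [h2] at h1
    have h3 : D ^ 2 ≤ (6 * S * q ^ k) ^ 2 := by
      have h4 : (6 * S * q ^ k) ^ 2 = 36 * 3 ^ k * En N f / 27 ^ a := by
        rw [mul_pow, mul_pow, hS2, ← pow_mul, mul_comm k 2, pow_mul, hq2]
        ring
      rw [h4, le_div_iff₀ (by positivity)]
      have h5 : (0 : ℝ) < 3 ^ k := by positivity
      have h6 : D ^ 2 * 27 ^ a * 3 ^ k ≤ 36 * 3 ^ k * En N f * 3 ^ k := by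
        push_cast at h1
        calc D ^ 2 * 27 ^ a * 3 ^ k = D ^ 2 * (27 ^ a * 3 ^ k) := by ring
          _ ≤ 36 * (3 ^ k) ^ 2 * En N f := h1
          _ = 36 * 3 ^ k * En N f * 3 ^ k := by ring
      exact le_of_mul_le_mul_right h6 h5
    have h7 : |D| ≤ 6 * S * q ^ k := abs_le_of_sq_le_sq h3 (by positivity)
    refine h7.trans ?_
    have h8 : -(9 * S * q ^ k) - -(9 * S * q ^ (k + 1)) = 9 * (S * q ^ k) * (q - 1) := by ring
    rw [h8]
    have h9 : 0 ≤ S * q ^ k := by positivity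
    nlinarith

end Vale.Agent.P361.LRO.Geo
end

section

/-!
# P361, block GEO, part 4: the block average as a sum over a box, and the count of points where a
function exceeds its mean by `1 / 8`.
-/

namespace Vale.Agent.P361.LRO.Geo

open Finset Function

/-- the block average, written out -/
lemma A_eq (κ : Fin 4 → ℕ) (f : Pt → ℝ) (x : Pt) :
    A κ f x = (∑ a ∈ range (κ 0), ∑ b ∈ range (κ 1), ∑ c ∈ range (κ 2), ∑ d ∈ range (κ 3),
      f ![κ 0 * (x 0 / κ 0) + a, κ 1 * (x 1 / κ 1) + b, κ 2 * (x 2 / κ 2) + c,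
        κ 3 * (x 3 / κ 3) + d]) / (κ 0 * κ 1 * κ 2 * κ 3) := by
  have hup : ∀ a b c d : ℕ, update (update (update (update x 0 a) 1 b) 2 c) 3 d
      = ![a, b, c, d] := by
    intro a b c d
    funext j
    fin_cases j <;> simp [update]
  have h1 : ∀ y : Pt, ∀ a, update y 0 a 1 = y 1 := fun y a => by simp [update]
  have h2 : ∀ y : Pt, ∀ a, update y 0 a 2 = y 2 := fun y a => by simp [update]
  have h3 : ∀ y : Pt, ∀ a, update y 0 a 3 = y 3 := fun y a => by simp [update]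
  have h4 : ∀ y : Pt, ∀ a, update y 1 a 2 = y 2 := fun y a => by simp [update]
  have h5 : ∀ y : Pt, ∀ a, update y 1 a 3 = y 3 := fun y a => by simp [update]
  have h6 : ∀ y : Pt, ∀ a, update y 2 a 3 = y 3 := fun y a => by simp [update]
  unfold A P pav
  simp only [h1, h2, h3, h4, h5, h6, hup, Finset.sum_div]
  refine Finset.sum_congr rfl fun a _ => Finset.sum_congr rfl fun b _ =>
    Finset.sum_congr rfl fun c _ => Finset.sum_congr rfl fun d _ => ?_
  simp only [div_div]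
  congr 1
  ring

lemma A_congr (κ : Fin 4 → ℕ) (f : Pt → ℝ) {x y : Pt} (h : ∀ i, y i / κ i = x i / κ i) :
    A κ f y = A κ f x := Inv_all (A_Inv κ f) h

/-- count of the points where `f` exceeds a number close to its averages on blocks of side
at most `s` -/
lemma count_block (N κ : Fin 4 → ℕ) (s : ℕ) (h0 : ∀ j, 0 < κ j) (hN : ∀ j, κ j ∣ N j)
    (hs : ∀ j, κ j ≤ s) (f : Pt → ℝ) (v : ℝ)
    (hv : ∀ x ∈ box N, |A κ f x - v| ≤ 1 / 16) :
    (((box N).filter fun x => v + 1 / 8 ≤ f x).card : ℝ) ≤ 1024 * (s : ℝ) ^ 2 * En N f := by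
  have h1 := A_sub_sum N κ s h0 hN hs f
  have h2 : ∑ x ∈ (box N).filter (fun x => v + 1 / 8 ≤ f x), (1 / 256 : ℝ) ≤
      ∑ x ∈ box N, (A κ f x - f x) ^ 2 := by
    refine (Finset.sum_le_sum fun x hx => ?_).trans
      (Finset.sum_le_sum_of_subset_of_nonneg (Finset.filter_subset _ _)
        fun _ _ _ => sq_nonneg _)
    rw [Finset.mem_filter] at hx
    have h3 := (abs_le.1 (hv x hx.1)).2
    nlinarith [hx.2]
  rw [Finset.sum_const, nsmul_eq_mul] at h2
  nlinarith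

end Vale.Agent.P361.LRO.Geo
end

section

/-!
# P361, block GEO, part 5: the two chaining lemmas in three dimensions

* `vol3`: if the mean of `f` over one `3`-adic subcube of side `3 ^ m` is at most `1 / 16` and the
  Dirichlet energy `E` of `f` on the cube of side `3 ^ M` is at most `3 ^ m / 57600`, then `f` is at
  least `1 / 4` on at most `1024 * E * (1 + 9 * (57600 * E) ^ 2)` points.
* `mean3_sub`: the means over two `3`-adic subcubes of side `3 ^ m` differ by at most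
  `30 * √(E / 3 ^ m)`.
-/

namespace Vale.Agent.P361.LRO.Geo

open Finset Function

/-- Dirichlet energy on the cube `{0, .., n - 1} ^ 3` -/
noncomputable def E3 (n : ℕ) (f : ℕ → ℕ → ℕ → ℝ) : ℝ :=
  ∑ x ∈ range n, ∑ y ∈ range n, ∑ z ∈ range n,
    ((if x + 1 < n then (f (x + 1) y z - f x y z) ^ 2 else 0) +
      (if y + 1 < n then (f x (y + 1) z - f x y z) ^ 2 else 0) +
      (if z + 1 < n then (f x y (z + 1) - f x y z) ^ 2 else 0))

/-- mean over the `3`-adic cube of side `3 ^ m` with corner `3 ^ m * (a, b, c)` -/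
noncomputable def mean3 (m : ℕ) (f : ℕ → ℕ → ℕ → ℝ) (a b c : ℕ) : ℝ :=
  (∑ x ∈ range (3 ^ m), ∑ y ∈ range (3 ^ m), ∑ z ∈ range (3 ^ m),
    f (3 ^ m * a + x) (3 ^ m * b + y) (3 ^ m * c + z)) / 27 ^ m

/-- `f` as a function on space-time points -/
def lift3 (f : ℕ → ℕ → ℕ → ℝ) : Pt → ℝ := fun p => f (p 0) (p 1) (p 2)

lemma sum_box (N : Fin 4 → ℕ) (G : Pt → ℝ) :
    ∑ p ∈ box N, G p = ∑ a ∈ range (N 0), ∑ b ∈ range (N 1), ∑ c ∈ range (N 2),
      ∑ d ∈ range (N 3), G ![a, b, c, d] := by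
  have h1 : ∑ p ∈ box N, G p = ∑ q ∈ range (N 0) ×ˢ range (N 1) ×ˢ range (N 2) ×ˢ range (N 3),
      G ![q.1, q.2.1, q.2.2.1, q.2.2.2] := by
    refine Finset.sum_bij' (fun p _ => (p 0, p 1, p 2, p 3))
      (fun q _ => ![q.1, q.2.1, q.2.2.1, q.2.2.2]) ?_ ?_ ?_ ?_ ?_
    · intro p hp
      rw [mem_box] at hp
      simp only [Finset.mem_product, Finset.mem_range]
      exact ⟨hp 0, hp 1, hp 2, hp 3⟩
    · intro q hq
      simp only [Finset.mem_product, Finset.mem_range] at hq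
      rw [mem_box]
      intro i
      fin_cases i
      · exact hq.1
      · exact hq.2.1
      · exact hq.2.2.1
      · exact hq.2.2.2
    · intro p _
      funext i
      fin_cases i <;> rfl
    · intro q _
      rfl
    · intro p _
      congr 1
      funext i
      fin_cases i <;> rfl
  rw [h1, Finset.sum_product]
  refine Finset.sum_congr rfl fun a _ => ?_
  rw [Finset.sum_product]
  refine Finset.sum_congr rfl fun b _ => ?_
  rw [Finset.sum_product]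

lemma En_lift3 (n : ℕ) (f : ℕ → ℕ → ℕ → ℝ) : En ![n, n, n, 1] (lift3 f) = E3 n f := by
  unfold En en
  rw [Fin.sum_univ_four, ← Finset.sum_add_distrib, ← Finset.sum_add_distrib,
    ← Finset.sum_add_distrib, sum_box]
  unfold E3
  refine Finset.sum_congr rfl fun a _ => Finset.sum_congr rfl fun b _ =>
    Finset.sum_congr rfl fun c _ => ?_
  have hr : range ((![n, n, n, 1] : Fin 4 → ℕ) 3) = {0} := rfl
  rw [hr, Finset.sum_singleton]
  simp [lift3, update]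

lemma A_mean3 (m : ℕ) (f : ℕ → ℕ → ℕ → ℝ) (x : Pt) (a b c : ℕ)
    (ha : x 0 / 3 ^ m = a) (hb : x 1 / 3 ^ m = b) (hc : x 2 / 3 ^ m = c) :
    A ![3 ^ m, 3 ^ m, 3 ^ m, 1] (lift3 f) x = mean3 m f a b c := by
  rw [A_eq]
  unfold mean3
  have e0 : (![3 ^ m, 3 ^ m, 3 ^ m, 1] : Fin 4 → ℕ) 0 = 3 ^ m := rfl
  have e1 : (![3 ^ m, 3 ^ m, 3 ^ m, 1] : Fin 4 → ℕ) 1 = 3 ^ m := rfl
  have e2 : (![3 ^ m, 3 ^ m, 3 ^ m, 1] : Fin 4 → ℕ) 2 = 3 ^ m := rfl
  have e3 : (![3 ^ m, 3 ^ m, 3 ^ m, 1] : Fin 4 → ℕ) 3 = 1 := rfl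
  rw [e0, e1, e2, e3, ha, hb, hc]
  have h27 : ((27 : ℝ) ^ m) = (3 ^ m) ^ 3 := by
    rw [← pow_mul, mul_comm, pow_mul]; norm_num
  rw [h27]
  push_cast
  congr 1
  · refine Finset.sum_congr rfl fun i _ => Finset.sum_congr rfl fun j _ =>
      Finset.sum_congr rfl fun k _ => ?_
    rw [Finset.range_one, Finset.sum_singleton]
    rfl
  · ring

lemma E3_nonneg (n : ℕ) (f : ℕ → ℕ → ℕ → ℝ) : 0 ≤ E3 n f := by
  rw [← En_lift3]
  exact En_nonneg _ _

lemma cube_dvd (M k : ℕ) (hk : k ≤ M) :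
    ∀ i : Fin 4, i ≠ 3 → 3 ^ k ∣ (![3 ^ M, 3 ^ M, 3 ^ M, 1] : Fin 4 → ℕ) i := by
  intro i hi
  fin_cases i
  · exact pow_dvd_pow 3 hk
  · exact pow_dvd_pow 3 hk
  · exact pow_dvd_pow 3 hk
  · exact absurd rfl hi

/-- chaining in three dimensions: from a subcube to the whole cube -/
lemma mean3_sub_top (M m : ℕ) (hm : m ≤ M) (f : ℕ → ℕ → ℕ → ℝ) (a b c : ℕ)
    (ha : 3 ^ m * a < 3 ^ M) (hb : 3 ^ m * b < 3 ^ M) (hc : 3 ^ m * c < 3 ^ M) :
    |mean3 M f 0 0 0 - mean3 m f a b c| ≤ 15 * √(E3 (3 ^ M) f / 3 ^ m) := by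
  set x : Pt := ![3 ^ m * a, 3 ^ m * b, 3 ^ m * c, 0] with hx
  have h3 : 0 < 3 ^ m := by positivity
  have hxb : x ∈ box ![3 ^ M, 3 ^ M, 3 ^ M, 1] := by
    rw [mem_box]
    intro i
    fin_cases i
    · exact ha
    · exact hb
    · exact hc
    · exact one_pos
  have h1 := chain3 ![3 ^ M, 3 ^ M, 3 ^ M, 1] (lift3 f) m M 1 hm one_pos
    (cube_dvd M M le_rfl) (one_dvd _) hxb
  rw [A_mean3 m f x a b c (Nat.mul_div_cancel_left a h3) (Nat.mul_div_cancel_left b h3)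
    (Nat.mul_div_cancel_left c h3),
    A_mean3 M f x 0 0 0 (Nat.div_eq_of_lt ha) (Nat.div_eq_of_lt hb) (Nat.div_eq_of_lt hc),
    En_lift3] at h1
  simpa using h1

/-- means over two `3`-adic subcubes of the same side -/
theorem mean3_sub (M m : ℕ) (hm : m ≤ M) (f : ℕ → ℕ → ℕ → ℝ) (a b c a' b' c' : ℕ)
    (ha : 3 ^ m * a < 3 ^ M) (hb : 3 ^ m * b < 3 ^ M) (hc : 3 ^ m * c < 3 ^ M)
    (ha' : 3 ^ m * a' < 3 ^ M) (hb' : 3 ^ m * b' < 3 ^ M) (hc' : 3 ^ m * c' < 3 ^ M) :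
    |mean3 m f a b c - mean3 m f a' b' c'| ≤ 30 * √(E3 (3 ^ M) f / 3 ^ m) := by
  have h1 := mean3_sub_top M m hm f a b c ha hb hc
  have h2 := mean3_sub_top M m hm f a' b' c' ha' hb' hc'
  rw [abs_le] at *
  constructor <;> linarith [h1.1, h1.2, h2.1, h2.2]

/-- there is a good scale -/
lemma exists_scale (M : ℕ) (t : ℝ) :
    ∃ k ≤ M, (t ≤ 3 ^ k ∨ k = M) ∧ (k = 0 ∨ (3 : ℝ) ^ k ≤ 3 * t) := by
  classical
  have hex : ∃ k, t ≤ 3 ^ k ∨ k = M := ⟨M, Or.inr rfl⟩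
  refine ⟨Nat.find hex, Nat.find_min' hex (Or.inr rfl), Nat.find_spec hex, ?_⟩
  rcases Nat.eq_zero_or_pos (Nat.find hex) with h | h
  · exact Or.inl h
  · right
    have h1 := Nat.find_min hex (m := Nat.find hex - 1) (by omega)
    rw [not_or, not_le] at h1
    have h2 : (3 : ℝ) ^ Nat.find hex = 3 * 3 ^ (Nat.find hex - 1) := by
      conv_lhs => rw [show Nat.find hex = (Nat.find hex - 1) + 1 by omega]
      rw [pow_succ]
      ring
    rw [h2]
    linarith [h1.1]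

/-- the volume lemma, relative to the mean over the whole cube -/
theorem vol3_mean (M : ℕ) (f : ℕ → ℕ → ℕ → ℝ) :
    (((range (3 ^ M) ×ˢ range (3 ^ M) ×ˢ range (3 ^ M)).filter
        fun p => mean3 M f 0 0 0 + 1 / 8 ≤ f p.1 p.2.1 p.2.2).card : ℝ) ≤
      1024 * E3 (3 ^ M) f * (1 + 9 * (57600 * E3 (3 ^ M) f) ^ 2) := by
  set E := E3 (3 ^ M) f with hE
  have hE0 : 0 ≤ E := E3_nonneg _ _
  set v := mean3 M f 0 0 0 with hv
  obtain ⟨k, hkM, hk1, hk2⟩ := exists_scale M (57600 * E)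
  have hN : ∀ j, (![3 ^ k, 3 ^ k, 3 ^ k, 1] : Fin 4 → ℕ) j ∣
      (![3 ^ M, 3 ^ M, 3 ^ M, 1] : Fin 4 → ℕ) j := by
    intro j
    fin_cases j
    · exact pow_dvd_pow 3 hkM
    · exact pow_dvd_pow 3 hkM
    · exact pow_dvd_pow 3 hkM
    · exact one_dvd _
  have h3k : 0 < 3 ^ k := by positivity
  have hs : ∀ j, (![3 ^ k, 3 ^ k, 3 ^ k, 1] : Fin 4 → ℕ) j ≤ 3 ^ k := by
    intro j
    fin_cases j
    · exact le_rfl
    · exact le_rfl
    · exact le_rfl
    · exact h3k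
  have hpos : ∀ j, 0 < (![3 ^ k, 3 ^ k, 3 ^ k, 1] : Fin 4 → ℕ) j := by
    intro j
    fin_cases j
    · exact h3k
    · exact h3k
    · exact h3k
    · exact one_pos
  have hdist : ∀ x ∈ box ![3 ^ M, 3 ^ M, 3 ^ M, 1],
      |A ![3 ^ k, 3 ^ k, 3 ^ k, 1] (lift3 f) x - v| ≤ 1 / 16 := by
    intro x hx
    have h0 := (mem_box.1 hx) 0
    have h1 := (mem_box.1 hx) 1
    have h2 := (mem_box.1 hx) 2
    have hvx : A ![3 ^ M, 3 ^ M, 3 ^ M, 1] (lift3 f) x = v :=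
      A_mean3 M f x 0 0 0 (Nat.div_eq_of_lt h0) (Nat.div_eq_of_lt h1) (Nat.div_eq_of_lt h2)
    rcases hk1 with hk1 | hk1
    · have hc := chain3 ![3 ^ M, 3 ^ M, 3 ^ M, 1] (lift3 f) k M 1 hkM one_pos
        (cube_dvd M M le_rfl) (one_dvd _) hx
      rw [hvx, En_lift3, ← hE, abs_sub_comm] at hc
      refine hc.trans ?_
      have h4 : √(E / (3 ^ k * ((1 : ℕ) : ℝ))) ≤ 1 / 240 := by
        rw [Real.sqrt_le_left (by norm_num)]
        rw [div_le_iff₀ (by positivity)]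
        push_cast
        linarith
      linarith
    · rw [hk1, hvx]
      norm_num
  have hcount := count_block ![3 ^ M, 3 ^ M, 3 ^ M, 1] ![3 ^ k, 3 ^ k, 3 ^ k, 1] (3 ^ k)
    hpos hN hs (lift3 f) v hdist
  rw [En_lift3, ← hE] at hcount
  have hcard : ((range (3 ^ M) ×ˢ range (3 ^ M) ×ˢ range (3 ^ M)).filter
        fun p => v + 1 / 8 ≤ f p.1 p.2.1 p.2.2).card ≤
      ((box ![3 ^ M, 3 ^ M, 3 ^ M, 1]).filter fun x => v + 1 / 8 ≤ lift3 f x).card := by
    refine Finset.card_le_card_of_injOn (fun p => ![p.1, p.2.1, p.2.2, 0]) ?_ ?_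
    · intro p hp
      rw [Finset.mem_coe, Finset.mem_filter] at hp ⊢
      simp only [Finset.mem_product, Finset.mem_range] at hp
      refine ⟨?_, hp.2⟩
      rw [mem_box]
      intro i
      fin_cases i
      · exact hp.1.1
      · exact hp.1.2.1
      · exact hp.1.2.2
      · exact one_pos
    · intro p _ q _ hpq
      have e0 := congrFun hpq 0
      have e1 := congrFun hpq 1
      have e2 := congrFun hpq 2
      exact Prod.ext e0 (Prod.ext e1 e2)
  have hcard' : (((range (3 ^ M) ×ˢ range (3 ^ M) ×ˢ range (3 ^ M)).filter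
        fun p => v + 1 / 8 ≤ f p.1 p.2.1 p.2.2).card : ℝ) ≤
      (((box ![3 ^ M, 3 ^ M, 3 ^ M, 1]).filter fun x => v + 1 / 8 ≤ lift3 f x).card : ℝ) := by
    exact_mod_cast hcard
  refine hcard'.trans (hcount.trans ?_)
  have hsq : (((3 ^ k : ℕ) : ℝ)) ^ 2 ≤ 1 + 9 * (57600 * E) ^ 2 := by
    push_cast
    rcases hk2 with hk2 | hk2
    · rw [hk2]
      have : 0 ≤ (57600 * E) ^ 2 := sq_nonneg _
      norm_num
      positivity
    · have h5 : (0 : ℝ) < 3 ^ k := by positivity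
      have h6 : ((3 : ℝ) ^ k) ^ 2 ≤ (3 * (57600 * E)) ^ 2 := pow_le_pow_left₀ h5.le hk2 2
      nlinarith
  calc 1024 * (((3 ^ k : ℕ) : ℝ)) ^ 2 * E = 1024 * E * (((3 ^ k : ℕ) : ℝ)) ^ 2 := by ring
    _ ≤ 1024 * E * (1 + 9 * (57600 * E) ^ 2) :=
      mul_le_mul_of_nonneg_left hsq (by positivity)

/-- the volume lemma -/
theorem vol3 (M m : ℕ) (hm : m ≤ M) (f : ℕ → ℕ → ℕ → ℝ) (a b c : ℕ)
    (ha : 3 ^ m * a < 3 ^ M) (hb : 3 ^ m * b < 3 ^ M) (hc : 3 ^ m * c < 3 ^ M)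
    (hmean : mean3 m f a b c ≤ 1 / 16) (hE : 57600 * E3 (3 ^ M) f ≤ 3 ^ m) :
    (((range (3 ^ M) ×ˢ range (3 ^ M) ×ˢ range (3 ^ M)).filter
        fun p => 1 / 4 ≤ f p.1 p.2.1 p.2.2).card : ℝ) ≤
      1024 * E3 (3 ^ M) f * (1 + 9 * (57600 * E3 (3 ^ M) f) ^ 2) := by
  have h1 := mean3_sub_top M m hm f a b c ha hb hc
  have h2 : √(E3 (3 ^ M) f / 3 ^ m) ≤ 1 / 240 := by
    rw [Real.sqrt_le_left (by norm_num), div_le_iff₀ (by positivity)]
    linarith
  have h3 : mean3 M f 0 0 0 ≤ 1 / 8 := by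
    have := (abs_le.1 h1).2
    linarith
  refine le_trans ?_ (vol3_mean M f)
  have h4 : ((range (3 ^ M) ×ˢ range (3 ^ M) ×ˢ range (3 ^ M)).filter
        fun p => 1 / 4 ≤ f p.1 p.2.1 p.2.2) ⊆
      ((range (3 ^ M) ×ˢ range (3 ^ M) ×ˢ range (3 ^ M)).filter
        fun p => mean3 M f 0 0 0 + 1 / 8 ≤ f p.1 p.2.1 p.2.2) := by
    intro p hp
    rw [Finset.mem_filter] at hp ⊢
    exact ⟨hp.1, by linarith [hp.2]⟩
  exact_mod_cast Finset.card_le_card h4

/-- Cauchy-Schwarz for the mean -/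
lemma mean3_sq_le (m : ℕ) (f : ℕ → ℕ → ℕ → ℝ) (a b c : ℕ) :
    (mean3 m f a b c) ^ 2 ≤ mean3 m (fun x y z => f x y z ^ 2) a b c := by
  unfold mean3
  have h27 : (0 : ℝ) < 27 ^ m := by positivity
  have h3 : ((27 : ℝ) ^ m) = (3 ^ m) * (3 ^ m) * (3 ^ m) := by
    rw [show (27 : ℝ) = 3 * 3 * 3 by norm_num, mul_pow, mul_pow]
  have hcs : (∑ x ∈ range (3 ^ m), ∑ y ∈ range (3 ^ m), ∑ z ∈ range (3 ^ m),
      f (3 ^ m * a + x) (3 ^ m * b + y) (3 ^ m * c + z)) ^ 2 ≤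
      27 ^ m * ∑ x ∈ range (3 ^ m), ∑ y ∈ range (3 ^ m), ∑ z ∈ range (3 ^ m),
      f (3 ^ m * a + x) (3 ^ m * b + y) (3 ^ m * c + z) ^ 2 := by
    have h4 := sq_sum_le_card_mul_sum_sq
      (s := range (3 ^ m) ×ˢ range (3 ^ m) ×ˢ range (3 ^ m))
      (f := fun p => f (3 ^ m * a + p.1) (3 ^ m * b + p.2.1) (3 ^ m * c + p.2.2))
    rw [Finset.sum_product, Finset.sum_product] at h4
    simp only [Finset.sum_product] at h4
    rw [Finset.card_product, Finset.card_product, Finset.card_range] at h4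
    push_cast at h4
    rw [h3, mul_assoc (3 ^ m : ℝ)]
    exact h4
  rw [div_pow, div_le_div_iff₀ (by positivity) h27]
  nlinarith

end Vale.Agent.P361.LRO.Geo
end

section

/-!
# P361 LRO, block (6): time means and the volume lemma on window averages

`U x y z w` = window averages, `ub` = mean over the `T` windows.
-/

namespace Vale.Agent.P361.LRO.Ind

open Finset Vale.Agent.P361.LRO Vale.Agent.P361.LRO.Geo

/-- time mean over `T` windows -/
noncomputable def ub (T : ℕ) (U : ℕ → ℕ → ℕ → ℕ → ℝ) (x y z : ℕ) : ℝ :=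
  (1 / T : ℝ) * ∑ w ∈ range T, U x y z w

lemma sum_if_lt (S : ℕ) (g : ℕ → ℝ) :
    ∑ x ∈ range S, (if x + 1 < S then g x else 0) = ∑ x ∈ range (S - 1), g x := by
  rcases S with _ | S
  · simp
  · rw [Finset.sum_range_succ]
    simp only [Nat.add_lt_add_iff_right, lt_self_iff_false, if_false, add_zero,
      Nat.add_sub_cancel]
    refine Finset.sum_congr rfl fun x hx => ?_
    rw [Finset.mem_range] at hx
    rw [if_pos hx]

lemma E3_eq (S : ℕ) (f : ℕ → ℕ → ℕ → ℝ) :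
    E3 S f =
      (∑ x ∈ range (S - 1), ∑ y ∈ range S, ∑ z ∈ range S, (f (x + 1) y z - f x y z) ^ 2) +
      (∑ x ∈ range S, ∑ y ∈ range (S - 1), ∑ z ∈ range S, (f x (y + 1) z - f x y z) ^ 2) +
      (∑ x ∈ range S, ∑ y ∈ range S, ∑ z ∈ range (S - 1), (f x y (z + 1) - f x y z) ^ 2) := by
  unfold E3
  simp only [Finset.sum_add_distrib]
  congr 1
  · congr 1
    · rw [← sum_if_lt S fun x => ∑ y ∈ range S, ∑ z ∈ range S, (f (x + 1) y z - f x y z) ^ 2]
      refine Finset.sum_congr rfl fun x _ => ?_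
      by_cases h : x + 1 < S
      · simp only [if_pos h]
      · simp only [if_neg h, Finset.sum_const_zero]
    · refine Finset.sum_congr rfl fun x _ => ?_
      rw [← sum_if_lt S fun y => ∑ z ∈ range S, (f x (y + 1) z - f x y z) ^ 2]
      refine Finset.sum_congr rfl fun y _ => ?_
      by_cases h : y + 1 < S
      · simp only [if_pos h]
      · simp only [if_neg h, Finset.sum_const_zero]
  · refine Finset.sum_congr rfl fun x _ => Finset.sum_congr rfl fun y _ => ?_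
    rw [← sum_if_lt S fun z => (f x y (z + 1) - f x y z) ^ 2]

lemma avg_sq (T : ℕ) (g : ℕ → ℝ) :
    ((1 / T : ℝ) * ∑ w ∈ range T, g w) ^ 2 ≤ (1 / T : ℝ) * ∑ w ∈ range T, g w ^ 2 := by
  rcases Nat.eq_zero_or_pos T with h | h
  · subst h; simp
  · have hT : (0 : ℝ) < T := by exact_mod_cast h
    have h1 := sq_sum_le_card_mul_sum_sq (s := range T) (f := g)
    rw [Finset.card_range] at h1
    rw [mul_pow, one_div, inv_pow, ← one_div, ← one_div, div_mul_eq_mul_div, one_mul,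
      div_mul_eq_mul_div, one_mul, div_le_div_iff₀ (by positivity) hT]
    nlinarith

lemma ub_sub_sq (T : ℕ) (U : ℕ → ℕ → ℕ → ℕ → ℝ) (x y z x' y' z' : ℕ) :
    (ub T U x y z - ub T U x' y' z') ^ 2 ≤
      (1 / T : ℝ) * ∑ w ∈ range T, (U x y z w - U x' y' z' w) ^ 2 := by
  unfold ub
  rw [← mul_sub, ← Finset.sum_sub_distrib]
  exact avg_sq T _

/-- (T1) -/
theorem E3_ub_le (S T : ℕ) (U : ℕ → ℕ → ℕ → ℕ → ℝ) : E3 S (ub T U) ≤ Esp S T U / T := by
  rw [E3_eq, div_eq_mul_one_div, mul_comm]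
  unfold Esp
  rw [mul_add, mul_add]
  simp only [Finset.mul_sum (a := (1 / T : ℝ))]
  refine add_le_add (add_le_add ?_ ?_) ?_
  · refine Finset.sum_le_sum fun x _ => Finset.sum_le_sum fun y _ => Finset.sum_le_sum fun z _ => ?_
    rw [← Finset.mul_sum]
    exact ub_sub_sq T U _ _ _ _ _ _
  · refine Finset.sum_le_sum fun x _ => Finset.sum_le_sum fun y _ => Finset.sum_le_sum fun z _ => ?_
    rw [← Finset.mul_sum]
    exact ub_sub_sq T U _ _ _ _ _ _
  · refine Finset.sum_le_sum fun x _ => Finset.sum_le_sum fun y _ => Finset.sum_le_sum fun z _ => ?_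
    rw [← Finset.mul_sum]
    exact ub_sub_sq T U _ _ _ _ _ _

lemma pav_full (T : ℕ) (g : ℕ → ℝ) {a : ℕ} (ha : a < T) :
    pav T g a = (1 / T : ℝ) * ∑ w ∈ range T, g w := by
  unfold pav
  rw [Nat.div_eq_of_lt ha]
  simp only [mul_zero, zero_add]
  ring

lemma len_eq (T : ℕ) (g : ℕ → ℝ) : len T g = ∑ w ∈ range (T - 1), (g (w + 1) - g w) ^ 2 := by
  unfold len
  exact sum_if_lt T fun w => (g (w + 1) - g w) ^ 2

lemma time_poincare (T : ℕ) (g : ℕ → ℝ) :
    ∑ w ∈ range T, (g w - (1 / T : ℝ) * ∑ v ∈ range T, g v) ^ 2 ≤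
      (T : ℝ) ^ 2 * ∑ w ∈ range (T - 1), (g (w + 1) - g w) ^ 2 := by
  rcases Nat.eq_zero_or_pos T with h | h
  · subst h; simp
  · have h1 := pav_sub_sum h 1 g
    rw [mul_one, len_eq] at h1
    refine le_trans (le_of_eq ?_) h1
    refine Finset.sum_congr rfl fun w hw => ?_
    rw [Finset.mem_range] at hw
    rw [pav_full T g hw, ← neg_sq, neg_sub]

lemma time_poincare_zero {T : ℕ} (hT : 0 < T) (g : ℕ → ℝ) :
    (g 0 - (1 / T : ℝ) * ∑ v ∈ range T, g v) ^ 2 ≤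
      (T : ℝ) * ∑ w ∈ range (T - 1), (g (w + 1) - g w) ^ 2 := by
  have h1 := pav_sub_pt hT g 0
  rw [pav_full T g hT, Nat.zero_div, mul_zero] at h1
  simp only [zero_add] at h1
  rw [sum_if_lt T fun w => (g (w + 1) - g w) ^ 2] at h1
  rw [← neg_sq, neg_sub]
  exact h1

/-- (T2) -/
theorem sum_sub_ub_sq (S T : ℕ) (U : ℕ → ℕ → ℕ → ℕ → ℝ) :
    ∑ x ∈ range S, ∑ y ∈ range S, ∑ z ∈ range S, ∑ w ∈ range T,
      (U x y z w - ub T U x y z) ^ 2 ≤ (T : ℝ) ^ 2 * Eti S T U := by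
  unfold Eti
  simp only [Finset.mul_sum (a := (T : ℝ) ^ 2)]
  refine Finset.sum_le_sum fun x _ => Finset.sum_le_sum fun y _ => Finset.sum_le_sum fun z _ => ?_
  rw [← Finset.mul_sum]
  exact time_poincare T (U x y z)

/-- (T3) -/
theorem sum_zero_sub_ub_sq (S : ℕ) {T : ℕ} (hT : 0 < T) (U : ℕ → ℕ → ℕ → ℕ → ℝ) :
    ∑ x ∈ range S, ∑ y ∈ range S, ∑ z ∈ range S,
      (U x y z 0 - ub T U x y z) ^ 2 ≤ (T : ℝ) * Eti S T U := by
  unfold Eti
  simp only [Finset.mul_sum (a := (T : ℝ))]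
  refine Finset.sum_le_sum fun x _ => Finset.sum_le_sum fun y _ => Finset.sum_le_sum fun z _ => ?_
  rw [← Finset.mul_sum]
  exact time_poincare_zero hT (U x y z)

lemma Esp_nonneg (S T : ℕ) (U : ℕ → ℕ → ℕ → ℕ → ℝ) : 0 ≤ Esp S T U := by
  unfold Esp
  positivity

lemma Eti_nonneg (S T : ℕ) (U : ℕ → ℕ → ℕ → ℕ → ℝ) : 0 ≤ Eti S T U := by
  unfold Eti
  positivity

lemma Eti_mono {S S' : ℕ} (h : S ≤ S') (T : ℕ) (U : ℕ → ℕ → ℕ → ℕ → ℝ) :
    Eti S T U ≤ Eti S' T U := by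
  unfold Eti
  have hs : range S ⊆ range S' := Finset.range_mono h
  refine (Finset.sum_le_sum_of_subset_of_nonneg hs fun _ _ _ => by positivity).trans ?_
  refine Finset.sum_le_sum fun x _ => ?_
  refine (Finset.sum_le_sum_of_subset_of_nonneg hs fun _ _ _ => by positivity).trans ?_
  refine Finset.sum_le_sum fun y _ => ?_
  exact Finset.sum_le_sum_of_subset_of_nonneg hs fun _ _ _ => by positivity

lemma E3_one_sub (S : ℕ) (f : ℕ → ℕ → ℕ → ℝ) :
    E3 S (fun x y z => 1 - f x y z) = E3 S f := by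
  unfold E3
  refine Finset.sum_congr rfl fun x _ => Finset.sum_congr rfl fun y _ =>
    Finset.sum_congr rfl fun z _ => ?_
  have e : ∀ a b : ℝ, (1 - a - (1 - b)) ^ 2 = (a - b) ^ 2 := fun a b => by ring
  rw [e, e, e]

lemma sum_ite_card (S : ℕ) (p : ℕ → ℕ → ℕ → Prop) [∀ x y z, Decidable (p x y z)] :
    ∑ x ∈ range S, ∑ y ∈ range S, ∑ z ∈ range S, (if p x y z then (1 : ℝ) else 0) =
      (((range S ×ˢ range S ×ˢ range S).filter fun q => p q.1 q.2.1 q.2.2).card : ℝ) := by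
  rw [Finset.card_filter]
  push_cast
  rw [Finset.sum_product]
  refine Finset.sum_congr rfl fun x _ => ?_
  rw [Finset.sum_product]

/-- (T4) the volume lemma on window averages -/
theorem cnt_le (M m : ℕ) (hm : m ≤ M) {T : ℕ} (hT : 0 < T) (U : ℕ → ℕ → ℕ → ℕ → ℝ)
    (a b c : ℕ) (ha : 3 ^ m * a < 3 ^ M) (hb : 3 ^ m * b < 3 ^ M) (hc : 3 ^ m * c < 3 ^ M)
    (hmean : mean3 m (fun x y z => 1 - ub T U x y z) a b c ≤ 1 / 16)
    (hE : 57600 * (Esp (3 ^ M) T U / T) ≤ 3 ^ m) :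
    cnt (3 ^ M) T (5 / 8) U ≤
      1024 * Esp (3 ^ M) T U * (1 + 9 * (57600 * (Esp (3 ^ M) T U / T)) ^ 2) +
        64 * ((T : ℝ) ^ 2 * Eti (3 ^ M) T U) := by
  have hT' : (0 : ℝ) < T := by exact_mod_cast hT
  set e := Esp (3 ^ M) T U / T with he
  have he0 : 0 ≤ e := div_nonneg (Esp_nonneg _ _ _) hT'.le
  have hE3 : E3 (3 ^ M) (fun x y z => 1 - ub T U x y z) ≤ e := by
    rw [E3_one_sub]
    exact E3_ub_le _ _ _
  have hE30 : 0 ≤ E3 (3 ^ M) (fun x y z => 1 - ub T U x y z) := E3_nonneg _ _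
  have hvol := vol3 M m hm (fun x y z => 1 - ub T U x y z) a b c ha hb hc hmean
    ((mul_le_mul_of_nonneg_left hE3 (by norm_num)).trans hE)
  set F := E3 (3 ^ M) (fun x y z => 1 - ub T U x y z) with hF
  have hvol' : (((range (3 ^ M) ×ˢ range (3 ^ M) ×ˢ range (3 ^ M)).filter
        fun p => 1 / 4 ≤ 1 - ub T U p.1 p.2.1 p.2.2).card : ℝ) ≤
      1024 * e * (1 + 9 * (57600 * e) ^ 2) := by
    refine hvol.trans ?_
    gcongr
  have hpt : ∀ x y z w : ℕ, (if U x y z w < 5 / 8 then (1 : ℝ) else 0) ≤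
      (if 1 / 4 ≤ 1 - ub T U x y z then (1 : ℝ) else 0) + 64 * (U x y z w - ub T U x y z) ^ 2 := by
    intro x y z w
    by_cases h1 : U x y z w < 5 / 8
    · rw [if_pos h1]
      by_cases h2 : 1 / 4 ≤ 1 - ub T U x y z
      · rw [if_pos h2]
        nlinarith [sq_nonneg (U x y z w - ub T U x y z)]
      · rw [if_neg h2]
        have h3 : 1 / 8 ≤ ub T U x y z - U x y z w := by linarith
        nlinarith
    · rw [if_neg h1]
      have : 0 ≤ (if 1 / 4 ≤ 1 - ub T U x y z then (1 : ℝ) else 0) := by split_ifs <;> norm_num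
      positivity
  unfold cnt
  calc ∑ x ∈ range (3 ^ M), ∑ y ∈ range (3 ^ M), ∑ z ∈ range (3 ^ M), ∑ w ∈ range T,
        (if U x y z w < 5 / 8 then (1 : ℝ) else 0)
      ≤ ∑ x ∈ range (3 ^ M), ∑ y ∈ range (3 ^ M), ∑ z ∈ range (3 ^ M), ∑ w ∈ range T,
        ((if 1 / 4 ≤ 1 - ub T U x y z then (1 : ℝ) else 0)
          + 64 * (U x y z w - ub T U x y z) ^ 2) :=
        Finset.sum_le_sum fun x _ => Finset.sum_le_sum fun y _ => Finset.sum_le_sum fun z _ =>
          Finset.sum_le_sum fun w _ => hpt x y z w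
    _ = (T : ℝ) * (∑ x ∈ range (3 ^ M), ∑ y ∈ range (3 ^ M), ∑ z ∈ range (3 ^ M),
          (if 1 / 4 ≤ 1 - ub T U x y z then (1 : ℝ) else 0)) +
        64 * ∑ x ∈ range (3 ^ M), ∑ y ∈ range (3 ^ M), ∑ z ∈ range (3 ^ M), ∑ w ∈ range T,
          (U x y z w - ub T U x y z) ^ 2 := by
        simp only [Finset.sum_add_distrib, Finset.sum_const, Finset.card_range, nsmul_eq_mul,
          Finset.mul_sum]
    _ ≤ (T : ℝ) * (1024 * e * (1 + 9 * (57600 * e) ^ 2)) +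
        64 * ((T : ℝ) ^ 2 * Eti (3 ^ M) T U) := by
        refine add_le_add (mul_le_mul_of_nonneg_left ?_ hT'.le)
          (mul_le_mul_of_nonneg_left (sum_sub_ub_sq _ _ _) (by norm_num))
        rw [sum_ite_card (3 ^ M) fun x y z => 1 / 4 ≤ 1 - ub T U x y z]
        exact hvol'
    _ = 1024 * Esp (3 ^ M) T U * (1 + 9 * (57600 * e) ^ 2) +
        64 * ((T : ℝ) ^ 2 * Eti (3 ^ M) T U) := by
        have : (T : ℝ) * e = Esp (3 ^ M) T U := by
          rw [he]; field_simp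
        rw [← this]; ring

/-- the mean of `1 - ub` over a cube is small if the time mean is close to `U` in window `0` and
`U` is close to `1` there -/
lemma mean3_one_sub_ub (m : ℕ) {T : ℕ} (hT : 0 < T) (U : ℕ → ℕ → ℕ → ℕ → ℝ)
    (h0 : ∑ x ∈ range (3 ^ m), ∑ y ∈ range (3 ^ m), ∑ z ∈ range (3 ^ m),
      (1 - U x y z 0) ^ 2 ≤ 27 ^ m / 1024)
    (h1 : (T : ℝ) * Eti (3 ^ m) T U ≤ 27 ^ m / 1024) :
    mean3 m (fun x y z => 1 - ub T U x y z) 0 0 0 ≤ 1 / 16 := by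
  have h27 : (0 : ℝ) < 27 ^ m := by positivity
  have h2 := mean3_sq_le m (fun x y z => 1 - ub T U x y z) 0 0 0
  have h3 : mean3 m (fun x y z => (1 - ub T U x y z) ^ 2) 0 0 0 ≤ 1 / 256 := by
    unfold mean3
    simp only [mul_zero, zero_add]
    rw [div_le_iff₀ h27]
    have h4 := sum_zero_sub_ub_sq (3 ^ m) hT U
    calc ∑ x ∈ range (3 ^ m), ∑ y ∈ range (3 ^ m), ∑ z ∈ range (3 ^ m),
          (1 - ub T U x y z) ^ 2
        ≤ ∑ x ∈ range (3 ^ m), ∑ y ∈ range (3 ^ m), ∑ z ∈ range (3 ^ m),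
          (2 * (1 - U x y z 0) ^ 2 + 2 * (U x y z 0 - ub T U x y z) ^ 2) := by
          refine Finset.sum_le_sum fun x _ => Finset.sum_le_sum fun y _ =>
            Finset.sum_le_sum fun z _ => ?_
          nlinarith [sq_nonneg ((1 - U x y z 0) - (U x y z 0 - ub T U x y z))]
      _ = 2 * (∑ x ∈ range (3 ^ m), ∑ y ∈ range (3 ^ m), ∑ z ∈ range (3 ^ m),
            (1 - U x y z 0) ^ 2) +
          2 * ∑ x ∈ range (3 ^ m), ∑ y ∈ range (3 ^ m), ∑ z ∈ range (3 ^ m),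
            (U x y z 0 - ub T U x y z) ^ 2 := by
          simp only [Finset.sum_add_distrib, Finset.mul_sum]
      _ ≤ 1 / 256 * 27 ^ m := by linarith
  have h5 : (mean3 m (fun x y z => 1 - ub T U x y z) 0 0 0) ^ 2 ≤ (1 / 16) ^ 2 := by
    refine h2.trans (h3.trans (by norm_num))
  exact le_trans (le_abs_self _) (abs_le_of_sq_le_sq h5 (by norm_num))

/-- (T5) volume lemma, start from the window `0` on a cube -/
theorem cnt_le_start (M m : ℕ) (hm : m ≤ M) {T : ℕ} (hT : 0 < T) (U : ℕ → ℕ → ℕ → ℕ → ℝ)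
    (h0 : ∑ x ∈ range (3 ^ m), ∑ y ∈ range (3 ^ m), ∑ z ∈ range (3 ^ m),
      (1 - U x y z 0) ^ 2 ≤ 27 ^ m / 1024)
    (h1 : (T : ℝ) * Eti (3 ^ M) T U ≤ 27 ^ m / 1024)
    (hE : 57600 * (Esp (3 ^ M) T U / T) ≤ 3 ^ m) :
    cnt (3 ^ M) T (5 / 8) U ≤
      1024 * Esp (3 ^ M) T U * (1 + 9 * (57600 * (Esp (3 ^ M) T U / T)) ^ 2) +
        64 * ((T : ℝ) ^ 2 * Eti (3 ^ M) T U) := by
  have hS : 3 ^ m ≤ 3 ^ M := Nat.pow_le_pow_right (by norm_num) hm
  have h3 : 3 ^ m * 0 < 3 ^ M := by rw [mul_zero]; positivity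
  refine cnt_le M m hm hT U 0 0 0 h3 h3 h3 (mean3_one_sub_ub m hT U h0 ?_) hE
  refine le_trans (mul_le_mul_of_nonneg_left (Eti_mono hS T U) (Nat.cast_nonneg _)) h1

/-- (T4') volume lemma, start from a cube where `U = 1` in all windows -/
theorem cnt_le_one (M m : ℕ) (hm : m ≤ M) {T : ℕ} (hT : 0 < T) (U : ℕ → ℕ → ℕ → ℕ → ℝ)
    (h0 : ∀ x < 3 ^ m, ∀ y < 3 ^ m, ∀ z < 3 ^ m, ∀ w < T, U x y z w = 1)
    (hE : 57600 * (Esp (3 ^ M) T U / T) ≤ 3 ^ m) :
    cnt (3 ^ M) T (5 / 8) U ≤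
      1024 * Esp (3 ^ M) T U * (1 + 9 * (57600 * (Esp (3 ^ M) T U / T)) ^ 2) +
        64 * ((T : ℝ) ^ 2 * Eti (3 ^ M) T U) := by
  have h3 : 3 ^ m * 0 < 3 ^ M := by rw [mul_zero]; positivity
  have hT' : (T : ℝ) ≠ 0 := by exact_mod_cast hT.ne'
  refine cnt_le M m hm hT U 0 0 0 h3 h3 h3 (le_of_eq_of_le ?_ (by norm_num : (0 : ℝ) ≤ 1 / 16)) hE
  unfold mean3
  simp only [mul_zero, zero_add]
  rw [div_eq_zero_iff]
  left
  refine Finset.sum_eq_zero fun x hx => Finset.sum_eq_zero fun y hy =>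
    Finset.sum_eq_zero fun z hz => ?_
  rw [Finset.mem_range] at hx hy hz
  unfold ub
  rw [Finset.sum_congr rfl fun w hw => h0 x hx y hy z hz w (Finset.mem_range.1 hw)]
  simp [hT']

/-- (T6) time means over two subcubes of side `3 ^ m` -/
theorem mean3_ub_sub (M m : ℕ) (hm : m ≤ M) {T : ℕ} (hT : 0 < T) (U : ℕ → ℕ → ℕ → ℕ → ℝ)
    (a b c a' b' c' : ℕ)
    (ha : 3 ^ m * a < 3 ^ M) (hb : 3 ^ m * b < 3 ^ M) (hc : 3 ^ m * c < 3 ^ M)
    (ha' : 3 ^ m * a' < 3 ^ M) (hb' : 3 ^ m * b' < 3 ^ M) (hc' : 3 ^ m * c' < 3 ^ M) :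
    |mean3 m (ub T U) a b c - mean3 m (ub T U) a' b' c'| ≤
      30 * √(Esp (3 ^ M) T U / (T * 3 ^ m)) := by
  refine (mean3_sub M m hm (ub T U) a b c a' b' c' ha hb hc ha' hb' hc').trans ?_
  have h3 : (0 : ℝ) < 3 ^ m := by positivity
  refine mul_le_mul_of_nonneg_left (Real.sqrt_le_sqrt ?_) (by norm_num)
  rw [← div_div]
  exact div_le_div_of_nonneg_right (E3_ub_le _ _ _) h3.le

end Vale.Agent.P361.LRO.Ind
end

section

/-!
# P361 LRO, block (6), package C2 (helper494): `chain3`, `start3`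

Wrappers of the volume lemma of `TimeMean.lean` (helper358) in the form of PLAN.txt.
-/

namespace Vale.Agent.P361.LRO.Ind

open Finset Vale.Agent.P361.LRO Vale.Agent.P361.LRO.Geo

private lemma mean3_ub_le (r T : ℕ) (U : ℕ → ℕ → ℕ → ℕ → ℝ)
    (h : (∑ x ∈ range (3 ^ r), ∑ y ∈ range (3 ^ r), ∑ z ∈ range (3 ^ r),
      (1 - (1 / (T : ℝ)) * ∑ w ∈ range T, U x y z w) ≤ 27 ^ r / 16)) :
    mean3 r (fun x y z => 1 - ub T U x y z) 0 0 0 ≤ 1 / 16 := by
  have h27 : (0 : ℝ) < 27 ^ r := by positivity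
  unfold mean3 ub
  simp only [mul_zero, zero_add]
  rw [div_le_iff₀ h27]
  linarith

/-- time average + Poincaré in time: `U < 5/8` forces `|U - Ubar| > 1/8` or `1 - Ubar ≥ 1/4`. -/
theorem chain3 : ∃ C : ℝ, 0 < C ∧ ∀ (r s T : ℕ), 0 < T → r ≤ s → ∀ U : ℕ → ℕ → ℕ → ℕ → ℝ,
    (∑ x ∈ range (3 ^ r), ∑ y ∈ range (3 ^ r), ∑ z ∈ range (3 ^ r),
      (1 - (1 / (T : ℝ)) * ∑ w ∈ range T, U x y z w) ≤ 27 ^ r / 16) →
    C * E4 (3 ^ s) T U ≤ T * 3 ^ r →
    cnt (3 ^ s) T (5 / 8) U ≤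
      C * (T ^ 2 * E4 (3 ^ s) T U + (E4 (3 ^ s) T U) ^ 3 / T ^ 2) := by
  refine ⟨40000000000000, by norm_num, fun r s T hT hrs U hmean hE => ?_⟩
  have hT' : (0 : ℝ) < T := by exact_mod_cast hT
  have hT1 : (1 : ℝ) ≤ T := by exact_mod_cast hT
  have h3 : 3 ^ r * 0 < 3 ^ s := by rw [mul_zero]; positivity
  have hsp := Esp_nonneg (3 ^ s) T U
  have hti := Eti_nonneg (3 ^ s) T U
  have hE4 : E4 (3 ^ s) T U = Esp (3 ^ s) T U + Eti (3 ^ s) T U := rfl
  set A := Esp (3 ^ s) T U with hA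
  set B := Eti (3 ^ s) T U with hB
  rw [hE4] at hE ⊢
  have hcond : 57600 * (A / T) ≤ 3 ^ r := by
    rw [← mul_div_assoc, div_le_iff₀ hT']
    nlinarith
  have hmain := cnt_le s r hrs hT U 0 0 0 h3 h3 h3 (mean3_ub_le r T U hmean) hcond
  rw [← hA, ← hB] at hmain
  refine hmain.trans ?_
  have hT2 : (1 : ℝ) ≤ T ^ 2 := one_le_pow₀ hT1
  have e1 : 1024 * A * (1 + 9 * (57600 * (A / T)) ^ 2) + 64 * ((T : ℝ) ^ 2 * B) =
      1024 * A + 64 * ((T : ℝ) ^ 2 * B) + 30576476160000 * (A ^ 3 / T ^ 2) := by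
    field_simp
    ring
  rw [e1]
  have h4 : A ^ 3 / T ^ 2 ≤ (A + B) ^ 3 / T ^ 2 := by gcongr; linarith
  have h5 : A ≤ T ^ 2 * A := le_mul_of_one_le_left hsp hT2
  have h6 : 0 ≤ (A + B) ^ 3 / (T : ℝ) ^ 2 := by positivity
  have h7 : 0 ≤ (T : ℝ) ^ 2 * B := by positivity
  have h8 : 0 ≤ (T : ℝ) ^ 2 * A := by positivity
  have h9 : (T : ℝ) ^ 2 * (A + B) = T ^ 2 * A + T ^ 2 * B := by ring
  rw [h9]
  linarith

/-- start from the time window `0` (used with `3 ^ r = w`). -/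
theorem start3 : ∃ C : ℝ, 0 < C ∧ ∀ (r s T : ℕ), 0 < T → r ≤ s → ∀ U : ℕ → ℕ → ℕ → ℕ → ℝ,
    C * (∑ x ∈ range (3 ^ r), ∑ y ∈ range (3 ^ r), ∑ z ∈ range (3 ^ r), (1 - U x y z 0) ^ 2)
      ≤ 27 ^ r →
    C * T * E4 (3 ^ s) T U ≤ 27 ^ r →
    (∑ x ∈ range (3 ^ r), ∑ y ∈ range (3 ^ r), ∑ z ∈ range (3 ^ r),
      (1 - (1 / (T : ℝ)) * ∑ w ∈ range T, U x y z w) ≤ 27 ^ r / 16) := by
  refine ⟨1024, by norm_num, fun r s T hT hrs U h0 hE => ?_⟩
  have h27 : (0 : ℝ) < 27 ^ r := by positivity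
  have hsp := Esp_nonneg (3 ^ s) T U
  have hS : 3 ^ r ≤ 3 ^ s := Nat.pow_le_pow_right (by norm_num) hrs
  have hti : Eti (3 ^ r) T U ≤ E4 (3 ^ s) T U :=
    (Eti_mono hS T U).trans (by unfold E4; linarith)
  have h1 : (T : ℝ) * Eti (3 ^ r) T U ≤ 27 ^ r / 1024 := by
    have : (T : ℝ) * Eti (3 ^ r) T U ≤ T * E4 (3 ^ s) T U :=
      mul_le_mul_of_nonneg_left hti (Nat.cast_nonneg _)
    linarith
  have h := mean3_one_sub_ub r hT U (by linarith) h1
  unfold mean3 ub at h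
  simp only [mul_zero, zero_add] at h
  rw [div_le_iff₀ h27] at h
  linarith

end Vale.Agent.P361.LRO.Ind
end

section

/-!
P361 LRO, block (6), leaf S2: one step of the induction over scales, before lowering.
-/

namespace Vale.Agent.P361.LRO.Ind

open Finset Vale.Agent.P361.LRO _root_.P361.LRO

theorem sm_lay_ne_zero {N W m w j : ℕ} (hN : N = m * W) (hw : w < m) (hj : j < W) :
    lay N W w j ≠ 0 := by
  have h : 1 + w * W + j < N + 1 := by
    have h1 : (w + 1) * W ≤ m * W := Nat.mul_le_mul_right W hw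
    have h2 : (w + 1) * W = w * W + W := by ring
    omega
  unfold lay
  rw [dif_pos h]
  intro h0
  have h1 := congrArg Fin.val h0
  simp only [Fin.val_zero] at h1
  omega

theorem sm_mem_EE6 {n N : ℕ} [NeZero n] {o : Tor n} {b : Finset (Tor n)} {r : ℕ}
    {k : Fin (N + 1)} {x : Tor n} (hk : k ≠ 0) (hx : x ∈ cube n o r) :
    (k, x) ∈ EE6 n N o b r := by
  unfold EE6
  refine Finset.mem_union_right _ ?_
  simp [hk, hx]

theorem sm_UU_one {n N W m : ℕ} [NeZero n] (hW : 0 < W) (hN : N = m * W) {o : Tor n}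
    {b : Finset (Tor n)} {r : ℕ} {a : Nd n N → ℝ} (ha : ∀ z ∈ EE6 n N o b r, a z = 1)
    {x y z w : ℕ} (hx : x < r) (hy : y < r) (hz : z < r) (hw : w < m) :
    UU n N W o a x y z w = 1 := by
  unfold UU
  have h1 : ∀ j ∈ range W, a (lay N W w j, pt n o x y z) = 1 := by
    intro j hj
    refine ha _ (sm_mem_EE6 (sm_lay_ne_zero hN hw (mem_range.1 hj)) ?_)
    exact (mem_cube_iff o _ r).2 ⟨x, hx, y, hy, z, hz, rfl⟩
  rw [Finset.sum_congr rfl h1]
  simp only [Finset.sum_const, Finset.card_range, nsmul_eq_mul, mul_one]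
  have : (W : ℝ) ≠ 0 := by exact_mod_cast hW.ne'
  field_simp

theorem sm_E4_nonneg (S T : ℕ) (U : ℕ → ℕ → ℕ → ℕ → ℝ) : 0 ≤ E4 S T U := by
  unfold E4 Esp Eti
  have h : ∀ (A B C D : Finset ℕ) (f : ℕ → ℕ → ℕ → ℕ → ℝ),
      0 ≤ ∑ x ∈ A, ∑ y ∈ B, ∑ z ∈ C, ∑ w ∈ D, (f x y z w) ^ 2 := fun A B C D f =>
    Finset.sum_nonneg fun _ _ => Finset.sum_nonneg fun _ _ => Finset.sum_nonneg fun _ _ =>
      Finset.sum_nonneg fun _ _ => sq_nonneg _
  exact add_nonneg (add_nonneg (add_nonneg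
    (h _ _ _ _ fun x y z w => U (x + 1) y z w - U x y z w)
    (h _ _ _ _ fun x y z w => U x (y + 1) z w - U x y z w))
    (h _ _ _ _ fun x y z w => U x y (z + 1) w - U x y z w))
    (h _ _ _ _ fun x y z w => U x y z (w + 1) - U x y z w)

theorem sm_energy {c1 D β m k E : ℝ} (hc1 : 0 < c1)
    (hD : D = 1600 / c1) (hlo : 1 / 4 ≤ β / m) (hE0 : 0 ≤ E)
    (h1 : c1 * (β / m) ^ 2 * E ≤ 100 * k) : E ≤ D * k := by
  have h7 : (1 / 4 : ℝ) ^ 2 ≤ (β / m) ^ 2 := pow_le_pow_left₀ (by norm_num) hlo 2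
  have h8 : c1 * (1 / 4 : ℝ) ^ 2 * E ≤ 100 * k :=
    le_trans (mul_le_mul_of_nonneg_right (mul_le_mul_of_nonneg_left h7 hc1.le) hE0) h1
  rw [hD, div_mul_eq_mul_div, le_div_iff₀ hc1]
  linarith

theorem sm_dev {c1 D β m N k dev : ℝ} (hc1 : 0 < c1)
    (hD : D = 1600 / c1) (hβ : 0 < β) (hN : 0 < N) (hlo : 1 / 4 ≤ β / m) (hdev0 : 0 ≤ dev)
    (h2 : c1 * (β / m) * (β / N) * dev ≤ k) : (β / N) * dev ≤ D * k / 400 := by
  have hX0 : 0 ≤ (β / N) * dev := by positivity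
  have h8 : c1 * (1 / 4) ≤ c1 * (β / m) := mul_le_mul_of_nonneg_left hlo hc1.le
  have h7 : c1 * (1 / 4) * ((β / N) * dev) ≤ k := by
    have h9 := mul_le_mul_of_nonneg_right h8 hX0
    have h10 : c1 * (β / m) * ((β / N) * dev) = c1 * (β / m) * (β / N) * dev := by ring
    linarith
  have h11 : D * k / 400 = 4 * k / c1 := by rw [hD]; ring
  rw [h11, le_div_iff₀ hc1]
  linarith

theorem sm_count {C' D β m k E cn : ℝ} (hC' : 0 < C') (hD0 : 0 < D)
    (hβ : 0 < β) (hm : 0 < m) (hm1 : 3 * β ≤ m) (hm2 : m ≤ 4 * β) (hE0 : 0 ≤ E) (hk0 : 0 ≤ k)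
    (hE : E ≤ D * k) (h3 : cn ≤ C' * (m ^ 2 * E + E ^ 3 / m ^ 2)) :
    cn ≤ C' * (16 * β ^ 2 * (D * k) + (D * k) ^ 3 / (9 * β ^ 2)) := by
  refine h3.trans (mul_le_mul_of_nonneg_left ?_ hC'.le)
  refine add_le_add ?_ ?_
  · have h7 : m ^ 2 ≤ (4 * β) ^ 2 := pow_le_pow_left₀ hm.le hm2 2
    have h7' : m ^ 2 ≤ 16 * β ^ 2 := by
      have e : (4 * β) ^ 2 = 16 * β ^ 2 := by ring
      rw [← e]; exact h7
    exact mul_le_mul h7' hE hE0 (by positivity)
  · have h7 : (3 * β) ^ 2 ≤ m ^ 2 := pow_le_pow_left₀ (by positivity) hm1 2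
    have h7' : 9 * β ^ 2 ≤ m ^ 2 := by
      have e : (3 * β) ^ 2 = 9 * β ^ 2 := by ring
      rw [← e]; exact h7
    have h8 : E ^ 3 ≤ (D * k) ^ 3 := pow_le_pow_left₀ hE0 hE 3
    exact div_le_div₀ (by positivity) h8 (by positivity) h7'

theorem sm_sum {D β m N W k dev cn crd S Y : ℝ}
    (hβ : 0 < β) (hm : 0 < m) (hhi : β / m ≤ 1 / 3)
    (hW : 0 < W) (hN : N = m * W)
    (h4 : crd ≤ 64 * dev + W * cn) (h6 : S ≤ crd * (β / (2 * N))) (hY0 : 0 ≤ Y)
    (hX2 : (β / N) * dev ≤ D * k / 400) (hcn0 : cn ≤ Y) :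
    S ≤ 32 * (D * k / 400) + Y / 6 := by
  have hN0 : 0 < N := by rw [hN]; positivity
  have h7 : crd * (β / (2 * N)) ≤ (64 * dev + W * cn) * (β / (2 * N)) :=
    mul_le_mul_of_nonneg_right h4 (by positivity)
  have h8 : (64 * dev + W * cn) * (β / (2 * N)) = 32 * ((β / N) * dev) + (β / m) / 2 * cn := by
    rw [hN]; field_simp; ring
  have h9 : (β / m) / 2 * cn ≤ (β / m) / 2 * Y := mul_le_mul_of_nonneg_left hcn0 (by positivity)
  have h10 : (β / m) / 2 * Y ≤ (1 / 6) * Y := mul_le_mul_of_nonneg_right (by linarith) hY0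
  linarith

theorem sm_collect {C' D β k A S : ℝ} (hC' : 0 < C') (hD0 : 0 < D) (hβ : 10 ≤ β) (hk0 : 0 ≤ k)
    (h5 : A ≤ 4 * k + S)
    (hS : S ≤ 32 * (D * k / 400) + C' * (16 * β ^ 2 * (D * k) + (D * k) ^ 3 / (9 * β ^ 2)) / 6) :
    A ≤ (4 + D + 3 * C' * D) * β ^ 2 * k + C' * D ^ 3 * (k ^ 3 / β ^ 2) := by
  have hβ0 : 0 < β := by linarith
  have hβ2 : 1 ≤ β ^ 2 := one_le_pow₀ (by linarith)
  have e1 : (D * k) ^ 3 / (9 * β ^ 2) = D ^ 3 * (k ^ 3 / β ^ 2) / 9 := by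
    field_simp
  rw [e1] at hS
  have e3 : 0 ≤ C' * (D ^ 3 * (k ^ 3 / β ^ 2)) := by positivity
  have e4 : (4 + D) * k * 1 ≤ (4 + D) * k * β ^ 2 :=
    mul_le_mul_of_nonneg_left hβ2 (by positivity)
  have e5 : 0 ≤ C' * D * β ^ 2 * k := by positivity
  have e6 : 0 ≤ D * k := by positivity
  have e7 : (4 + D + 3 * C' * D) * β ^ 2 * k + C' * D ^ 3 * (k ^ 3 / β ^ 2) =
      (4 + D) * k * β ^ 2 + 3 * (C' * D * β ^ 2 * k) + C' * (D ^ 3 * (k ^ 3 / β ^ 2)) := by ring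
  have e8 : C' * (16 * β ^ 2 * (D * k) + D ^ 3 * (k ^ 3 / β ^ 2) / 9) / 6 =
      (16 / 6) * (C' * D * β ^ 2 * k) + (1 / 54) * (C' * (D ^ 3 * (k ^ 3 / β ^ 2))) := by ring
  rw [e7]
  rw [e8] at hS
  linarith

theorem sm_last {C' D β k A B : ℝ} (hC' : 0 < C') (hD0 : 0 < D) (hβ : 10 ≤ β) (hk0 : 0 ≤ k)
    (hfin : A ≤ (4 + D + 3 * C' * D) * β ^ 2 * k + C' * D ^ 3 * (k ^ 3 / β ^ 2))
    (hA1 : 2 * (4 + D + 3 * C' * D) * β ^ 2 * B ≤ A)
    (hA2 : 2 * (C' * D ^ 3) * B ^ 3 ≤ A * β ^ 2) : B ≤ k := by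
  by_contra hlt
  have hlt' : k < B := not_le.1 hlt
  have hβ0 : 0 < β := by linarith
  have hβ2' : 0 < β ^ 2 := by positivity
  have e1 : 0 < (4 + D + 3 * C' * D) * β ^ 2 := by positivity
  have e2 : k ^ 3 / β ^ 2 ≤ B ^ 3 / β ^ 2 :=
    div_le_div_of_nonneg_right (pow_le_pow_left₀ hk0 hlt'.le 3) hβ2'.le
  have e3 := mul_lt_mul_of_pos_left hlt' e1
  have e4 := mul_le_mul_of_nonneg_left e2 (show 0 ≤ C' * D ^ 3 by positivity)
  have hA2' : 2 * (C' * D ^ 3) * (B ^ 3 / β ^ 2) ≤ A := by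
    rw [← mul_div_assoc, div_le_iff₀ hβ2']
    exact hA2
  linarith

/-- The numerical part of the step. -/
theorem sm_arith {c1 C' D β m N W k A B E dev cn crd S : ℝ} (hc1 : 0 < c1) (hC' : 0 < C')
    (hD : D = 1600 / c1) (hβ : 10 ≤ β) (hm : 0 < m) (hlo : 1 / 4 ≤ β / m) (hhi : β / m ≤ 1 / 3)
    (hW : 0 < W) (hN : N = m * W) (hE0 : 0 ≤ E) (hdev0 : 0 ≤ dev) (hk0 : 0 ≤ k)
    (h1 : c1 * (β / m) ^ 2 * E ≤ 100 * k) (h2 : c1 * (β / m) * (β / N) * dev ≤ k)
    (h3 : cn ≤ C' * (m ^ 2 * E + E ^ 3 / m ^ 2)) (h4 : crd ≤ 64 * dev + W * cn)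
    (h5 : A ≤ 4 * k + S) (h6 : S ≤ crd * (β / (2 * N)))
    (hA1 : 2 * (4 + D + 3 * C' * D) * β ^ 2 * B ≤ A)
    (hA2 : 2 * (C' * D ^ 3) * B ^ 3 ≤ A * β ^ 2) : B ≤ k := by
  have hβ0 : 0 < β := by linarith
  have hD0 : 0 < D := by rw [hD]; positivity
  have hN0 : 0 < N := by rw [hN]; positivity
  have hm1 : 3 * β ≤ m := by
    have h := (div_le_iff₀ hm).1 hhi
    linarith
  have hm2 : m ≤ 4 * β := by
    have h := (le_div_iff₀ hm).1 hlo
    linarith
  have hE := sm_energy hc1 hD hlo hE0 h1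
  have hX := sm_dev hc1 hD hβ0 hN0 hlo hdev0 h2
  have hcn := sm_count hC' hD0 hβ0 hm hm1 hm2 hE0 hk0 hE h3
  have hS := sm_sum hβ0 hm hhi hW hN h4 h6 (by positivity) hX hcn
  exact sm_last hC' hD0 hβ hk0 (sm_collect hC' hD0 hβ hk0 h5 hS) hA1 hA2

theorem sm_total {n N W : ℕ} [NeZero n] {β K c1 : ℝ} {o : Tor n} {b : Finset (Tor n)}
    {h : Tor n → ℝ} {c : Nd n N → Nd n N → ℝ} {s : ℕ} (hloc : Local n N W β K c1 b h c)
    (hh1 : ∀ x ∈ cube n o s, h x = 1) (a : Nd n N → ℝ) (F : Finset (Nd n N))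
    (hF : hatb N b ⊆ F) :
    (∑ z ∈ (EE6 n N o b s \ F).filter (fun z => a z < 1 / 2), ∑ v, c z v) ≤
      ((((univ.filter fun k => k ≠ 0) ×ˢ cube n o s : Finset (Nd n N)).filter
        fun z => a z < 1 / 2).card : ℝ) * (β / (2 * N)) := by
  have hsub : (EE6 n N o b s \ F).filter (fun z => a z < 1 / 2) ⊆
      (((univ.filter fun k => k ≠ 0) ×ˢ cube n o s : Finset (Nd n N)).filter
      fun z => a z < 1 / 2) := by
    intro z hz
    rw [Finset.mem_filter, Finset.mem_sdiff] at hz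
    rw [Finset.mem_filter]
    refine ⟨?_, hz.2⟩
    obtain ⟨⟨hz1, hz2⟩, _⟩ := hz
    unfold EE6 at hz1
    rw [Finset.mem_union] at hz1
    rcases hz1 with hz1 | hz1
    · exact absurd (hF hz1) hz2
    · exact hz1
  have hterm : ∀ z ∈ (((univ.filter fun k => k ≠ 0) ×ˢ cube n o s :
      Finset (Nd n N)).filter fun z => a z < 1 / 2), ∑ v, c z v ≤ β / (2 * N) := by
    intro z hz
    rw [Finset.mem_filter, Finset.mem_product, Finset.mem_filter] at hz
    have h1 := hloc.tot z.1 z.2 hz.1.1.2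
    rw [hh1 z.2 hz.1.2, mul_one] at h1
    exact h1
  refine (Finset.sum_le_sum_of_subset_of_nonneg hsub
    (fun z _ _ => Finset.sum_nonneg fun v _ => hloc.nonneg _ _)).trans ?_
  refine (Finset.sum_le_sum hterm).trans (le_of_eq ?_)
  rw [Finset.sum_const, nsmul_eq_mul]

theorem sm_netK_nonneg {X : Type} [Fintype X] {c : X → X → ℝ} (hc : ∀ u v, 0 ≤ c u v)
    (a : X → ℝ) : 0 ≤ netK c a := by
  unfold netK
  refine mul_nonneg (by norm_num) (Finset.sum_nonneg fun x _ => Finset.sum_nonneg fun y _ => ?_)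
  exact mul_nonneg (hc _ _) (sq_nonneg _)

theorem sm_start {n N W m r : ℕ} [NeZero n] (hm : 0 < m) (hW : 0 < W) (hN : N = m * W)
    {o : Tor n} {b : Finset (Tor n)} {a : Nd n N → ℝ}
    (haE : ∀ z ∈ EE6 n N o b (3 ^ r), a z = 1) :
    (∑ x ∈ range (3 ^ r), ∑ y ∈ range (3 ^ r), ∑ z ∈ range (3 ^ r),
      (1 - (1 / (m : ℝ)) * ∑ w ∈ range m, UU n N W o a x y z w)) ≤ (27 : ℝ) ^ r / 16 := by
  have hm0 : (m : ℝ) ≠ 0 := by exact_mod_cast hm.ne'
  have hz : ∀ x ∈ range (3 ^ r), ∀ y ∈ range (3 ^ r), ∀ z ∈ range (3 ^ r),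
      (1 - (1 / (m : ℝ)) * ∑ w ∈ range m, UU n N W o a x y z w) = 0 := by
    intro x hx y hy z hz
    have h1 : ∀ w ∈ range m, UU n N W o a x y z w = 1 := fun w hw =>
      sm_UU_one hW hN haE (mem_range.1 hx) (mem_range.1 hy) (mem_range.1 hz) (mem_range.1 hw)
    rw [Finset.sum_congr rfl h1]
    simp only [Finset.sum_const, Finset.card_range, nsmul_eq_mul, mul_one]
    rw [one_div, inv_mul_cancel₀ hm0, sub_self]
  rw [Finset.sum_eq_zero fun x hx => Finset.sum_eq_zero fun y hy =>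
    Finset.sum_eq_zero fun z hz' => hz x hx y hy z hz']
  positivity

/-- (6b), before lowering: small radius `3 ^ r`, large radius `3 ^ s`. -/
theorem step_mid (c1 : ℝ) (hc1 : 0 < c1) : ∃ C : ℝ, 0 < C ∧ ∀ (n N W m : ℕ) [NeZero n]
    (β K : ℝ) (o : Tor n) (b : Finset (Tor n)) (h : Tor n → ℝ) (c : Nd n N → Nd n N → ℝ)
    (r s : ℕ) (G : Finset (Nd n N)) (A B : ℝ),
    10 ≤ β → 0 < W → N = m * W → Win β m → r ≤ s → 3 ^ s < n →
    (∀ x, h x ≤ 1) → (∀ x ∈ cube n o (3 ^ s), h x = 1) →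
    Local n N W β K c1 b h c → Disjoint (EE6 n N o b (3 ^ s)) G →
    LBn c (EE6 n N o b (3 ^ s)) G A →
    0 ≤ B → C * B ≤ β * 3 ^ r → C * β ^ 2 * B ≤ A → C * B ^ 3 ≤ A * β ^ 2 →
    LBn c (EE6 n N o b (3 ^ r)) G B := by
  obtain ⟨C', hC'0, hC'⟩ := chain3
  set D : ℝ := 1600 / c1 with hD
  have hD0 : 0 < D := by positivity
  refine ⟨2 * (4 + D + 3 * C' * D) + 2 * (C' * D ^ 3) + C' * D, by positivity, ?_⟩
  intro n N W m _ β K o b h c r s G A B hβ hW hN hwin hrs hsn hh hh1 hloc hdisj hA hB0 hB1 hB2 hB3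
  have hβ0 : 0 < β := by linarith
  have hm0 : 0 < (m : ℝ) := by exact_mod_cast hwin.pos
  have hm3 : 3 * β ≤ m := by
    have h := (div_le_iff₀ hm0).1 hwin.hi
    linarith
  have hm4 : 4 ≤ m := by
    have : (4 : ℝ) ≤ m := by linarith
    exact_mod_cast this
  have hW0 : (0 : ℝ) < W := by exact_mod_cast hW
  have hNR : (N : ℝ) = m * W := by rw [hN]; push_cast; ring
  refine LBn_of_trunc hloc.nonneg ?_
  intro a ha01 haE haG
  by_contra hlt
  have hlt' : netK c a < B := not_le.1 hlt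
  apply hlt
  have hk0 : 0 ≤ netK c a := sm_netK_nonneg hloc.nonneg a
  have hE := E4_le hW hm4 hN hβ0 hc1 hloc o (3 ^ s) hsn hh1 a
  have hdev := dev_le hW hm4 hN hβ0 hc1 hloc o (3 ^ s) hsn hh1 a
  have hcard := card_low_le hW hwin.pos hN o (3 ^ s) hsn.le a
  have hE0 : 0 ≤ E4 (3 ^ s) m (UU n N W o a) := sm_E4_nonneg _ _ _
  have hdev0 : 0 ≤ ∑ x ∈ range (3 ^ s), ∑ y ∈ range (3 ^ s), ∑ z ∈ range (3 ^ s),
      ∑ w ∈ range m, ∑ j ∈ range W,
        (a (lay N W w j, pt n o x y z) - UU n N W o a x y z w) ^ 2 :=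
    Finset.sum_nonneg fun _ _ => Finset.sum_nonneg fun _ _ => Finset.sum_nonneg fun _ _ =>
      Finset.sum_nonneg fun _ _ => Finset.sum_nonneg fun _ _ => sq_nonneg _
  have hED := sm_energy hc1 hD hwin.lo hE0 hE
  -- the chaining hypothesis
  have hch := hC' r s m hwin.pos hrs (UU n N W o a) (sm_start hwin.pos hW hN haE) ?_
  · have htest := test_le (E := EE6 n N o b (3 ^ r)) hloc.symm hloc.nonneg hA hdisj
      (fun x => (ha01 x).1) haE haG
    have hS := sm_total hloc hh1 a (EE6 n N o b (3 ^ r)) Finset.subset_union_left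
    refine sm_arith hc1 hC'0 hD hβ hm0 hwin.lo hwin.hi hW0 hNR hE0
      hdev0 hk0 hE hdev hch hcard htest hS ?_ ?_
    · refine le_trans ?_ hB2
      have h1 : 2 * (4 + D + 3 * C' * D) ≤
          2 * (4 + D + 3 * C' * D) + 2 * (C' * D ^ 3) + C' * D := by
        have : 0 ≤ 2 * (C' * D ^ 3) + C' * D := by positivity
        linarith
      exact mul_le_mul_of_nonneg_right (mul_le_mul_of_nonneg_right h1 (by positivity)) hB0
    · refine le_trans ?_ hB3
      have h1 : 2 * (C' * D ^ 3) ≤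
          2 * (4 + D + 3 * C' * D) + 2 * (C' * D ^ 3) + C' * D := by
        have : 0 ≤ 2 * (4 + D + 3 * C' * D) + C' * D := by positivity
        linarith
      exact mul_le_mul_of_nonneg_right h1 (by positivity)
  · have h1 : C' * E4 (3 ^ s) m (UU n N W o a) ≤ C' * (D * netK c a) :=
      mul_le_mul_of_nonneg_left hED hC'0.le
    have h2 := mul_le_mul_of_nonneg_left hlt'.le (show 0 ≤ C' * D by positivity)
    have h3 : C' * D * B ≤ (2 * (4 + D + 3 * C' * D) + 2 * (C' * D ^ 3) + C' * D) * B := by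
      refine mul_le_mul_of_nonneg_right ?_ hB0
      have : 0 ≤ 2 * (4 + D + 3 * C' * D) + 2 * (C' * D ^ 3) := by positivity
      linarith
    have h4 : β * 3 ^ r ≤ m * 3 ^ r := by
      refine mul_le_mul_of_nonneg_right (by linarith) (by positivity)
    linarith

end Vale.Agent.P361.LRO.Ind
end

section

/-!
# P361 LRO, stage 3, V1: the number of nodes with `a < 1/2` over a cube of cells (helper104)
-/

namespace Vale.Agent.P361.LRO.Ind3

open Finset Vale.Agent.P361.LRO _root_.P361.LRO Vale.Agent.P361.LRO.Ind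

/-- The number of nodes with `a < 1/2` over a cube of `S³` cells. -/
theorem card_low_le3 {n N W e : ℕ} [NeZero n] (hW : 0 < W) (hN : N = 4 * W)
    (o : Tor n) (S : ℕ) (hS : 3 ^ e * S ≤ n) (a : Nd n N → ℝ) :
    ((((univ.filter fun k => k ≠ 0) ×ˢ cube n o (3 ^ e * S) : Finset (Nd n N)).filter
      fun z => a z < 1 / 2).card : ℝ) ≤
    64 * DevC n N e o a S + N * 27 ^ e * cnt S 1 (5 / 8) (UT n N e o a) := by
  classical
  have hE : 0 < 3 ^ e := by positivity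
  have hNpos : 0 < N := by omega
  set I : Finset ((ℕ × ℕ × ℕ) × (ℕ × ℕ × ℕ × ℕ)) :=
    (range S ×ˢ range S ×ˢ range S) ×ˢ
      (range (3 ^ e) ×ˢ range (3 ^ e) ×ˢ range (3 ^ e) ×ˢ range N) with hI
  set F : (ℕ × ℕ × ℕ) × (ℕ × ℕ × ℕ × ℕ) → Nd n N := fun p =>
    (lay N N 0 p.2.2.2.2, pt n o (3 ^ e * p.1.1 + p.2.1) (3 ^ e * p.1.2.1 + p.2.2.1)
      (3 ^ e * p.1.2.2 + p.2.2.2.1)) with hF
  have hsub : (((univ.filter fun k => k ≠ 0) ×ˢ cube n o (3 ^ e * S) : Finset (Nd n N)).filter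
      fun z => a z < 1 / 2) ⊆ (I.filter fun p => a (F p) < 1 / 2).image F := by
    intro z hz
    rw [Finset.mem_filter] at hz
    obtain ⟨x, hx, y, hy, c, hc, w, hw, j, hj, rfl⟩ :=
      va655_node hNpos (one_mul N).symm o (3 ^ e * S) hz.1
    obtain rfl : w = 0 := by omega
    have hFz : F ((x / 3 ^ e, y / 3 ^ e, c / 3 ^ e), (x % 3 ^ e, y % 3 ^ e, c % 3 ^ e, j)) =
        (lay N N 0 j, pt n o x y c) := by
      simp only [hF, Nat.div_add_mod]
    rw [Finset.mem_image]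
    refine ⟨((x / 3 ^ e, y / 3 ^ e, c / 3 ^ e), (x % 3 ^ e, y % 3 ^ e, c % 3 ^ e, j)), ?_, hFz⟩
    rw [Finset.mem_filter, hFz]
    refine ⟨?_, hz.2⟩
    have hd : ∀ v, v < 3 ^ e * S → v / 3 ^ e < S := fun v hv =>
      Nat.div_lt_of_lt_mul hv
    simp only [hI, Finset.mem_product, Finset.mem_range]
    exact ⟨⟨hd x hx, hd y hy, hd c hc⟩, Nat.mod_lt _ hE, Nat.mod_lt _ hE, Nat.mod_lt _ hE, hj⟩
  have hcard : ((((univ.filter fun k => k ≠ 0) ×ˢ cube n o (3 ^ e * S) : Finset (Nd n N)).filter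
      fun z => a z < 1 / 2).card : ℝ) ≤ ∑ p ∈ I, if a (F p) < 1 / 2 then (1 : ℝ) else 0 := by
    have h1 := (Finset.card_le_card hsub).trans Finset.card_image_le
    rw [Finset.sum_boole]
    exact_mod_cast h1
  refine hcard.trans ?_
  have hle : ∑ p ∈ I, (if a (F p) < 1 / 2 then (1 : ℝ) else 0) ≤
      ∑ p ∈ I, (64 * (a (F p) - UC n N e o a p.1.1 p.1.2.1 p.1.2.2) ^ 2 +
        if UC n N e o a p.1.1 p.1.2.1 p.1.2.2 < 5 / 8 then 1 else 0) :=
    Finset.sum_le_sum fun p _ => va655_pt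
  refine hle.trans (le_of_eq ?_)
  rw [Finset.sum_add_distrib, ← Finset.mul_sum]
  congr 1
  · congr 1
    unfold DevC
    simp only [hI, Finset.sum_product]
    rfl
  · rw [hI, Finset.sum_product]
    have h27 : (27 : ℝ) ^ e = (3 : ℝ) ^ e * ((3 : ℝ) ^ e * (3 : ℝ) ^ e) := by
      rw [← mul_pow, ← mul_pow]; norm_num
    have hin : ∀ q : ℕ × ℕ × ℕ,
        ∑ _p ∈ range (3 ^ e) ×ˢ range (3 ^ e) ×ˢ range (3 ^ e) ×ˢ range N,
          (if UC n N e o a q.1 q.2.1 q.2.2 < 5 / 8 then (1 : ℝ) else 0) =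
        N * 27 ^ e * (if UC n N e o a q.1 q.2.1 q.2.2 < 5 / 8 then (1 : ℝ) else 0) := by
      intro q
      rw [Finset.sum_const, Finset.card_product, Finset.card_product, Finset.card_product,
        Finset.card_range, Finset.card_range, nsmul_eq_mul, h27]
      push_cast
      ring
    rw [Finset.sum_congr rfl fun q _ => hin q, ← Finset.mul_sum]
    congr 1
    unfold cnt UT
    simp only [Finset.sum_product, Finset.sum_range_one]

end Vale.Agent.P361.LRO.Ind3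
end

section

/-!
P361 LRO, stage 3, network chapter on cells, leaf S2: one step of the induction over scales.
-/

namespace Vale.Agent.P361.LRO.Ind3

open Finset Vale.Agent.P361.LRO _root_.P361.LRO Vale.Agent.P361.LRO.Ind

/-- cell averages are `1` over the electrode. -/
theorem sm3_UC_one {n N e : ℕ} [NeZero n] (hN : 0 < N) {o : Tor n}
    {b : Finset (Tor n)} {r : ℕ} (her : e ≤ r) {a : Nd n N → ℝ}
    (ha : ∀ z ∈ EE6 n N o b (3 ^ r), a z = 1)
    {x y z : ℕ} (hx : x < 3 ^ (r - e)) (hy : y < 3 ^ (r - e)) (hz : z < 3 ^ (r - e)) :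
    UC n N e o a x y z = 1 := by
  have hcell : ∀ (u i : ℕ), u < 3 ^ (r - e) → i < 3 ^ e → 3 ^ e * u + i < 3 ^ r := by
    intro u i hu hi
    have h1 : 3 ^ e * (u + 1) ≤ 3 ^ e * 3 ^ (r - e) := Nat.mul_le_mul_left _ hu
    have h2 : (3 : ℕ) ^ e * 3 ^ (r - e) = 3 ^ r := by
      rw [← pow_add, Nat.add_sub_cancel' her]
    have h3 : 3 ^ e * (u + 1) = 3 ^ e * u + 3 ^ e := by ring
    omega
  unfold UC
  have h1 : ∀ i ∈ range (3 ^ e), ∀ j ∈ range (3 ^ e), ∀ k ∈ range (3 ^ e), ∀ t ∈ range N,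
      a (lay N N 0 t, pt n o (3 ^ e * x + i) (3 ^ e * y + j) (3 ^ e * z + k)) = 1 := by
    intro i hi j hj k hk t ht
    refine ha _ (sm_mem_EE6 (sm_lay_ne_zero (m := 1) (one_mul N).symm one_pos
      (mem_range.1 ht)) ?_)
    exact (mem_cube_iff o _ _).2 ⟨_, hcell x i hx (mem_range.1 hi), _,
      hcell y j hy (mem_range.1 hj), _, hcell z k hz (mem_range.1 hk), rfl⟩
  rw [Finset.sum_congr rfl fun i hi => Finset.sum_congr rfl fun j hj =>
    Finset.sum_congr rfl fun k hk => Finset.sum_congr rfl fun t ht => h1 i hi j hj k hk t ht]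
  simp only [Finset.sum_const, Finset.card_range, nsmul_eq_mul, mul_one]
  have hN0 : (N : ℝ) ≠ 0 := by exact_mod_cast hN.ne'
  have h27 : (27 : ℝ) ^ e = (3 : ℝ) ^ e * ((3 : ℝ) ^ e * (3 : ℝ) ^ e) := by
    rw [← mul_pow, ← mul_pow]; norm_num
  rw [h27]
  push_cast
  have h3 : (3 : ℝ) ^ e ≠ 0 := by positivity
  field_simp

theorem sm3_start {n N e r : ℕ} [NeZero n] (hN : 0 < N) (her : e ≤ r)
    {o : Tor n} {b : Finset (Tor n)} {a : Nd n N → ℝ}
    (haE : ∀ z ∈ EE6 n N o b (3 ^ r), a z = 1) :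
    (∑ x ∈ range (3 ^ (r - e)), ∑ y ∈ range (3 ^ (r - e)), ∑ z ∈ range (3 ^ (r - e)),
      (1 - (1 / ((1 : ℕ) : ℝ)) * ∑ w ∈ range 1, UT n N e o a x y z w)) ≤
      (27 : ℝ) ^ (r - e) / 16 := by
  have hz : ∀ x ∈ range (3 ^ (r - e)), ∀ y ∈ range (3 ^ (r - e)), ∀ z ∈ range (3 ^ (r - e)),
      (1 - (1 / ((1 : ℕ) : ℝ)) * ∑ w ∈ range 1, UT n N e o a x y z w) = 0 := by
    intro x hx y hy z hz
    have h1 : ∀ w ∈ range 1, UT n N e o a x y z w = 1 := fun w _ =>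
      sm3_UC_one hN her haE (mem_range.1 hx) (mem_range.1 hy) (mem_range.1 hz)
    rw [Finset.sum_congr rfl h1]
    simp
  rw [Finset.sum_eq_zero fun x hx => Finset.sum_eq_zero fun y hy =>
    Finset.sum_eq_zero fun z hz' => hz x hx y hy z hz']
  positivity

theorem sm3_total {n N W e : ℕ} [NeZero n] {K c1 : ℝ} {o : Tor n} {b b' : Finset (Tor n)}
    {h : Tor n → ℝ} {c : Nd n N → Nd n N → ℝ} {s : ℕ} (hloc : Local3 n N W e K c1 b' h c)
    (hh1 : ∀ x ∈ cube n o s, h x = 1) (a : Nd n N → ℝ) (F : Finset (Nd n N))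
    (hF : hatb N b ⊆ F) :
    (∑ z ∈ (EE6 n N o b s \ F).filter (fun z => a z < 1 / 2), ∑ v, c z v) ≤
      ((((univ.filter fun k => k ≠ 0) ×ˢ cube n o s : Finset (Nd n N)).filter
        fun z => a z < 1 / 2).card : ℝ) * (1 / (2 * N)) := by
  have hsub : (EE6 n N o b s \ F).filter (fun z => a z < 1 / 2) ⊆
      (((univ.filter fun k => k ≠ 0) ×ˢ cube n o s : Finset (Nd n N)).filter
      fun z => a z < 1 / 2) := by
    intro z hz
    rw [Finset.mem_filter, Finset.mem_sdiff] at hz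
    rw [Finset.mem_filter]
    refine ⟨?_, hz.2⟩
    obtain ⟨⟨hz1, hz2⟩, _⟩ := hz
    unfold EE6 at hz1
    rw [Finset.mem_union] at hz1
    rcases hz1 with hz1 | hz1
    · exact absurd (hF hz1) hz2
    · exact hz1
  have hterm : ∀ z ∈ (((univ.filter fun k => k ≠ 0) ×ˢ cube n o s :
      Finset (Nd n N)).filter fun z => a z < 1 / 2), ∑ v, c z v ≤ 1 / (2 * N) := by
    intro z hz
    rw [Finset.mem_filter, Finset.mem_product, Finset.mem_filter] at hz
    have h1 := hloc.tot z.1 z.2 hz.1.1.2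
    rw [hh1 z.2 hz.1.2] at h1
    exact h1
  refine (Finset.sum_le_sum_of_subset_of_nonneg hsub
    (fun z _ _ => Finset.sum_nonneg fun v _ => hloc.nonneg _ _)).trans ?_
  refine (Finset.sum_le_sum hterm).trans (le_of_eq ?_)
  rw [Finset.sum_const, nsmul_eq_mul]

/-- energy bound. -/
theorem sm3_energy {c1 D Y k E : ℝ} (hc1 : 0 < c1) (hD : D = 1000 / c1) (hY : 0 < Y)
    (hk : 0 ≤ k) (h1 : c1 * Y * E ≤ 16 * k) : E ≤ D * (k / Y) := by
  rw [hD, div_mul_eq_mul_div, le_div_iff₀ hc1, mul_div_assoc', le_div_iff₀ hY]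
  linarith

theorem sm3_collect {c1 C' D Y N k E dev cn crd A S : ℝ} (hc1 : 0 < c1) (hC' : 0 < C')
    (hD : D = 1000 / c1) (hY : 0 < Y) (hN0 : 0 < N) (hE0 : 0 ≤ E) (hk0 : 0 ≤ k)
    (hE : E ≤ D * (k / Y)) (h2 : c1 / N * dev ≤ 1000 * k)
    (h3 : cn ≤ C' * (1 ^ 2 * E + E ^ 3 / 1 ^ 2)) (h4 : crd ≤ 64 * dev + N * Y * cn)
    (h5 : A ≤ 4 * k + S) (h6 : S ≤ crd * (1 / (2 * N))) :
    A ≤ (4 + 32 * D + C' * D) * k + C' * D ^ 3 * (k ^ 3 / Y ^ 2) := by
  have hD0 : 0 < D := by rw [hD]; positivity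
  -- deviation
  have hX : dev / N ≤ D * k := by
    have e1 : c1 / N * dev = c1 * (dev / N) := by ring
    rw [e1] at h2
    have e2 : D * k = 1000 * k / c1 := by rw [hD]; ring
    rw [e2, le_div_iff₀ hc1]
    linarith
  -- count
  have hcn : cn ≤ C' * (D * (k / Y) + (D * (k / Y)) ^ 3) := by
    refine h3.trans (mul_le_mul_of_nonneg_left ?_ hC'.le)
    have h7 : E ^ 3 ≤ (D * (k / Y)) ^ 3 := pow_le_pow_left₀ hE0 hE 3
    norm_num
    linarith
  -- sum
  have h7 : crd * (1 / (2 * N)) ≤ (64 * dev + N * Y * cn) * (1 / (2 * N)) :=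
    mul_le_mul_of_nonneg_right h4 (by positivity)
  have h8 : (64 * dev + N * Y * cn) * (1 / (2 * N)) = 32 * (dev / N) + Y / 2 * cn := by
    field_simp
    ring
  have h9 : Y / 2 * cn ≤ Y / 2 * (C' * (D * (k / Y) + (D * (k / Y)) ^ 3)) :=
    mul_le_mul_of_nonneg_left hcn (by positivity)
  have h10 : Y / 2 * (C' * (D * (k / Y) + (D * (k / Y)) ^ 3)) =
      C' * D * k / 2 + C' * D ^ 3 * (k ^ 3 / Y ^ 2) / 2 := by
    field_simp
  have h11 : 0 ≤ C' * D ^ 3 * (k ^ 3 / Y ^ 2) := by positivity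
  have h12 : 0 ≤ C' * D * k := by positivity
  have h13 : (4 + 32 * D + C' * D) * k = 4 * k + 32 * (D * k) + C' * D * k := by ring
  rw [h13]
  linarith

theorem sm3_last {P Q Y k A B : ℝ} (hP : 0 < P) (hQ : 0 < Q) (hY : 0 < Y) (hk0 : 0 ≤ k)
    (hfin : A ≤ P * k + Q * (k ^ 3 / Y ^ 2)) (hA1 : 2 * P * B ≤ A)
    (hA2 : 2 * Q * B ^ 3 ≤ A * Y ^ 2) : B ≤ k := by
  by_contra hlt
  have hlt' : k < B := not_le.1 hlt
  have hY2 : 0 < Y ^ 2 := by positivity
  have e2 : k ^ 3 / Y ^ 2 ≤ B ^ 3 / Y ^ 2 :=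
    div_le_div_of_nonneg_right (pow_le_pow_left₀ hk0 hlt'.le 3) hY2.le
  have e3 := mul_lt_mul_of_pos_left hlt' hP
  have e4 := mul_le_mul_of_nonneg_left e2 hQ.le
  have hA2' : 2 * Q * (B ^ 3 / Y ^ 2) ≤ A := by
    rw [← mul_div_assoc, div_le_iff₀ hY2]
    exact hA2
  linarith

/-- One step of the induction over scales, before lowering: small radius `3 ^ r`, large radius
`3 ^ s`. -/
theorem step_mid3 (c1 : ℝ) (hc1 : 0 < c1) : ∃ C : ℝ, 0 < C ∧ ∀ (n N W e : ℕ) [NeZero n]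
    (K : ℝ) (o : Tor n) (b : Finset (Tor n)) (h : Tor n → ℝ) (c : Nd n N → Nd n N → ℝ)
    (r s : ℕ) (G : Finset (Nd n N)) (A B : ℝ),
    0 < W → N = 4 * W → e ≤ r → r ≤ s → 3 ^ s < n →
    (∀ x, h x ≤ 1) → (∀ x ∈ cube n o (3 ^ s), h x = 1) →
    Local3 n N W e K c1 b h c → Disjoint (EE6 n N o b (3 ^ s)) G →
    LBn c (EE6 n N o b (3 ^ s)) G A →
    0 ≤ B → C * B ≤ 9 ^ e * 3 ^ r → C * B ≤ A → C * B ^ 3 ≤ A * (27 ^ e) ^ 2 →
    LBn c (EE6 n N o b (3 ^ r)) G B := by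
  obtain ⟨C', hC'0, hC'⟩ := chain3
  set D : ℝ := 1000 / c1 with hD
  have hD0 : 0 < D := by positivity
  obtain ⟨P, hPe⟩ : ∃ P : ℝ, P = 4 + 32 * D + C' * D := ⟨_, rfl⟩
  obtain ⟨Q, hQe⟩ : ∃ Q : ℝ, Q = C' * D ^ 3 := ⟨_, rfl⟩
  have hP : 0 < P := by rw [hPe]; positivity
  have hQ : 0 < Q := by rw [hQe]; positivity
  refine ⟨2 * P + 2 * Q + C' * D, by positivity, ?_⟩
  intro n N W e _ K o b h c r s G A B hW hN her hrs hsn _hh hh1 hloc hdisj hA hB0 hB1 hB2 hB3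
  have hes : e ≤ s := her.trans hrs
  have hcube : 3 ^ e * 3 ^ (s - e) = 3 ^ s := by rw [← pow_add, Nat.add_sub_cancel' hes]
  have hNp : 0 < N := by omega
  have hNR : (0 : ℝ) < N := by exact_mod_cast hNp
  have hY : (0 : ℝ) < 27 ^ e := by positivity
  refine LBn_of_trunc hloc.nonneg ?_
  intro a ha01 haE haG
  by_contra hlt
  have hlt' : netK c a < B := not_le.1 hlt
  apply hlt
  have hk0 : 0 ≤ netK c a := sm_netK_nonneg hloc.nonneg a
  have hE := E4_le3 hW hN hc1 hloc o (3 ^ (s - e)) (by rw [hcube]; exact hsn)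
    (by rw [hcube]; exact hh1) a
  have hdev := dev_le3 hW hN hc1 hloc o (3 ^ (s - e)) (by rw [hcube]; exact hsn)
    (by rw [hcube]; exact hh1) a
  have hcard := card_low_le3 (e := e) hW hN o (3 ^ (s - e)) (by rw [hcube]; exact hsn.le) a
  rw [hcube] at hcard
  have hE0 : 0 ≤ E4 (3 ^ (s - e)) 1 (UT n N e o a) := sm_E4_nonneg _ _ _
  have hED := sm3_energy hc1 hD hY hk0 hE
  have hch := hC' (r - e) (s - e) 1 one_pos (Nat.sub_le_sub_right hrs e) (UT n N e o a)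
    (sm3_start hNp her haE) ?_
  · have htest := test_le (E := EE6 n N o b (3 ^ r)) hloc.symm hloc.nonneg hA hdisj
      (fun x => (ha01 x).1) haE haG
    have hS := sm3_total hloc hh1 a (EE6 n N o b (3 ^ r)) Finset.subset_union_left
    have hch' : cnt (3 ^ (s - e)) 1 (5 / 8) (UT n N e o a) ≤
        C' * (1 ^ 2 * E4 (3 ^ (s - e)) 1 (UT n N e o a) +
          E4 (3 ^ (s - e)) 1 (UT n N e o a) ^ 3 / 1 ^ 2) := by
      refine hch.trans (le_of_eq ?_)
      norm_num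
    have hcol := sm3_collect hc1 hC'0 hD hY hNR hE0 hk0 hED hdev hch' hcard htest hS
    rw [← hPe, ← hQe] at hcol
    have hCD : 0 < C' * D := mul_pos hC'0 hD0
    refine sm3_last hP hQ hY hk0 hcol ?_ ?_
    · refine le_trans ?_ hB2
      exact mul_le_mul_of_nonneg_right (by linarith) hB0
    · refine le_trans ?_ hB3
      exact mul_le_mul_of_nonneg_right (by linarith) (by positivity)
  · have h0 : C' * E4 (3 ^ (s - e)) 1 (UT n N e o a) ≤ C' * (D * (netK c a / 27 ^ e)) :=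
      mul_le_mul_of_nonneg_left hED hC'0.le
    refine h0.trans ?_
    have h2 : C' * D * netK c a ≤ C' * D * B :=
      mul_le_mul_of_nonneg_left hlt'.le (by positivity)
    have h3 : C' * D * B ≤ (2 * P + 2 * Q + C' * D) * B := by
      refine mul_le_mul_of_nonneg_right ?_ hB0
      linarith
    have h4 : (9 : ℝ) ^ e * 3 ^ r = 27 ^ e * 3 ^ (r - e) := by
      have h5 : (3 : ℝ) ^ r = 3 ^ e * 3 ^ (r - e) := by
        rw [← pow_add, Nat.add_sub_cancel' her]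
      rw [h5, ← mul_assoc, ← mul_pow]; norm_num
    have h6 : C' * (D * (netK c a / 27 ^ e)) = (C' * D * netK c a) / 27 ^ e := by ring
    rw [h6, div_le_iff₀ hY]
    push_cast
    linarith

end Vale.Agent.P361.LRO.Ind3
end

section

/-!
# P361 LRO, block (6): the last step (6c), before lowering (helper535)
-/

namespace Vale.Agent.P361.LRO.Ind

open Finset Vale.Agent.P361.LRO _root_.P361.LRO

lemma sl_E4_nonneg (S T : ℕ) (U : ℕ → ℕ → ℕ → ℕ → ℝ) : 0 ≤ E4 S T U := by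
  unfold E4 Esp Eti
  have h : ∀ (s : Finset ℕ) (f : ℕ → ℝ), (∀ i, 0 ≤ f i) → 0 ≤ ∑ i ∈ s, f i := fun s f hf =>
    Finset.sum_nonneg fun i _ => hf i
  have h4 : ∀ (s1 s2 s3 s4 : Finset ℕ) (f : ℕ → ℕ → ℕ → ℕ → ℝ), (∀ x y z w, 0 ≤ f x y z w) →
      0 ≤ ∑ x ∈ s1, ∑ y ∈ s2, ∑ z ∈ s3, ∑ w ∈ s4, f x y z w := fun s1 s2 s3 s4 f hf =>
    h _ _ fun x => h _ _ fun y => h _ _ fun z => h _ _ fun w => hf x y z w
  refine add_nonneg (add_nonneg (add_nonneg ?_ ?_) ?_) ?_ <;>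
    exact h4 _ _ _ _ _ fun _ _ _ _ => sq_nonneg _

lemma sl_jensen (W : ℕ) (hW : 0 < W) (f : ℕ → ℝ) :
    (1 - (1 / (W : ℝ)) * ∑ j ∈ range W, f j) ^ 2 ≤ (1 / (W : ℝ)) * ∑ j ∈ range W, (1 - f j) ^ 2 := by
  have hW' : (0 : ℝ) < W := Nat.cast_pos.2 hW
  have h1 : 1 - (1 / (W : ℝ)) * ∑ j ∈ range W, f j = (1 / (W : ℝ)) * ∑ j ∈ range W, (1 - f j) := by
    rw [Finset.sum_sub_distrib, Finset.sum_const, Finset.card_range, nsmul_eq_mul, mul_one]
    field_simp
  have h2 := sq_sum_le_card_mul_sum_sq (s := range W) (f := fun j => 1 - f j)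
  rw [Finset.card_range] at h2
  rw [h1, mul_pow]
  calc (1 / (W : ℝ)) ^ 2 * (∑ j ∈ range W, (1 - f j)) ^ 2
      ≤ (1 / (W : ℝ)) ^ 2 * (W * ∑ j ∈ range W, (1 - f j) ^ 2) :=
        mul_le_mul_of_nonneg_left h2 (by positivity)
    _ = (1 / (W : ℝ)) * ∑ j ∈ range W, (1 - f j) ^ 2 := by
        field_simp

lemma sl_num {β K κ A P Q C : ℝ} (hβ : 0 < β) (hK : 0 < K) (hκ0 : 0 ≤ κ) (hκ : κ ≤ K)
    (hP : 0 ≤ P) (hQ : 0 ≤ Q) (hC : 2 * P < C) (hC' : 2 * Q ≤ C) (h1 : C * β ^ 2 * K ≤ A)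
    (h2 : C * K ^ 3 ≤ A * β ^ 2) (h3 : A ≤ P * (β ^ 2 * κ) + Q * (κ ^ 3 / β ^ 2)) : False := by
  have hb2 : 0 < β ^ 2 := by positivity
  have e1 : β ^ 2 * κ ≤ β ^ 2 * K := mul_le_mul_of_nonneg_left hκ hb2.le
  have e2 : κ ^ 3 / β ^ 2 ≤ K ^ 3 / β ^ 2 :=
    div_le_div_of_nonneg_right (pow_le_pow_left₀ hκ0 hκ 3) hb2.le
  have e3 : C * (K ^ 3 / β ^ 2) ≤ A := by
    rw [← mul_div_assoc, div_le_iff₀ hb2]
    exact h2
  have e4 : 0 < β ^ 2 * K := by positivity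
  have e5 : 0 ≤ K ^ 3 / β ^ 2 := by positivity
  have e6 : P * (β ^ 2 * κ) ≤ P * (β ^ 2 * K) := mul_le_mul_of_nonneg_left e1 hP
  have e7 : Q * (κ ^ 3 / β ^ 2) ≤ Q * (K ^ 3 / β ^ 2) := mul_le_mul_of_nonneg_left e2 hQ
  have e8 : 2 * P * (β ^ 2 * K) < C * (β ^ 2 * K) := mul_lt_mul_of_pos_right hC e4
  have e9 : 2 * Q * (K ^ 3 / β ^ 2) ≤ C * (K ^ 3 / β ^ 2) := mul_le_mul_of_nonneg_right hC' e5
  have e10 : C * (β ^ 2 * K) ≤ A := by rw [← mul_assoc]; exact h1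
  linarith

/-- the volume bound in numbers -/
lemma sl_vol {β κ A E D cn c1 Cc mR : ℝ} (hβ : 1 ≤ β) (hκ0 : 0 ≤ κ) (hc1 : 0 < c1) (hCc : 0 < Cc)
    (hm1 : 3 * β ≤ mR) (hm2 : mR ≤ 4 * β) (hE0 : 0 ≤ E) (hE : c1 * E ≤ 1600 * κ)
    (hD : c1 * D ≤ 4 * κ) (hcn : cn ≤ Cc * (mR ^ 2 * E + E ^ 3 / mR ^ 2))
    (hA : A ≤ 4 * κ + (32 * D + β / (2 * mR) * cn)) (hcn0 : 0 ≤ cn) :
    A ≤ (4 + 128 / c1 + 5000 * Cc / c1) * (β ^ 2 * κ) + Cc * (1600 / c1) ^ 3 * (κ ^ 3 / β ^ 2) := by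
  have hβ0 : 0 < β := by linarith
  have hm0 : 0 < mR := by linarith
  have hb2 : 1 ≤ β ^ 2 := one_le_pow₀ hβ
  have hE' : E ≤ 1600 / c1 * κ := by
    rw [div_mul_eq_mul_div, le_div_iff₀ hc1]
    linarith
  have hD' : D ≤ 4 / c1 * κ := by
    rw [div_mul_eq_mul_div, le_div_iff₀ hc1]
    linarith
  have hκb : κ ≤ β ^ 2 * κ := le_mul_of_one_le_left hκ0 hb2
  have h1 : β / (2 * mR) ≤ 1 / 6 := by
    rw [div_le_iff₀ (by positivity)]
    linarith
  have h2 : β / (2 * mR) * cn ≤ 1 / 6 * cn := mul_le_mul_of_nonneg_right h1 hcn0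
  have h3 : mR ^ 2 * E ≤ 16 * β ^ 2 * (1600 / c1 * κ) := by
    refine mul_le_mul ?_ hE' hE0 (by positivity)
    nlinarith
  have h4 : E ^ 3 / mR ^ 2 ≤ (1600 / c1 * κ) ^ 3 / β ^ 2 := by
    refine div_le_div₀ (by positivity) (pow_le_pow_left₀ hE0 hE' 3) (by positivity) ?_
    nlinarith
  have h5 : cn ≤ Cc * (16 * β ^ 2 * (1600 / c1 * κ) + (1600 / c1 * κ) ^ 3 / β ^ 2) :=
    hcn.trans (mul_le_mul_of_nonneg_left (add_le_add h3 h4) hCc.le)
  have h6 : (1600 / c1 * κ) ^ 3 / β ^ 2 = (1600 / c1) ^ 3 * (κ ^ 3 / β ^ 2) := by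
    rw [mul_pow, mul_div_assoc]
  rw [h6] at h5
  have h7 : 0 ≤ Cc * (1600 / c1) ^ 3 * (κ ^ 3 / β ^ 2) := by positivity
  have h8 : 0 ≤ Cc / c1 * (β ^ 2 * κ) := by positivity
  have h9 : 128 / c1 * κ ≤ 128 / c1 * (β ^ 2 * κ) := mul_le_mul_of_nonneg_left hκb (by positivity)
  have h10 : 32 * D ≤ 128 / c1 * κ := by
    have : 128 / c1 * κ = 32 * (4 / c1 * κ) := by ring
    rw [this]
    linarith
  have h11 : Cc * (16 * β ^ 2 * (1600 / c1 * κ) + (1600 / c1) ^ 3 * (κ ^ 3 / β ^ 2)) =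
      25600 * (Cc / c1 * (β ^ 2 * κ)) + Cc * (1600 / c1) ^ 3 * (κ ^ 3 / β ^ 2) := by ring
  rw [h11] at h5
  have h12 : (4 + 128 / c1 + 5000 * Cc / c1) * (β ^ 2 * κ) =
      4 * (β ^ 2 * κ) + 128 / c1 * (β ^ 2 * κ) + 5000 * (Cc / c1 * (β ^ 2 * κ)) := by ring
  rw [h12]
  linarith


lemma sl_eq1 {c1 K β Dc t : ℝ} {N m W : ℝ} (hN : N = m * W) (hm : 0 < m) (hW : 0 < W) (ht : 0 < t) :
    c1 * K * (β / N) * (1 / t) * Dc = c1 * K * (Dc / W) * (β / m) / t := by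
  rw [hN]
  field_simp

lemma sl_eq2 {β Dv cn : ℝ} {N m W : ℝ} (hN : N = m * W) (hm : 0 < m) (hW : 0 < W) :
    (64 * Dv + W * cn) * (β / (2 * N)) = 32 * (β / N * Dv) + β / (2 * m) * cn := by
  rw [hN]
  field_simp
  ring

lemma sl_st1 {Cs X Y c1 K κ C t : ℝ} (hCs : 0 < Cs) (hc1 : 0 < c1) (hK : 0 < K) (hκ0 : 0 ≤ κ) (ht : 0 < t)
    (hκC : κ * C < K) (hX : X ≤ Y) (hY : c1 * K * Y ≤ 4 * κ * t) (hC : 6400 * Cs ≤ c1 * C) :
    Cs * X ≤ t := by
  have h1 : Cs * X ≤ Cs * Y := mul_le_mul_of_nonneg_left hX hCs.le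
  have h2 : c1 * K * (Cs * Y) ≤ c1 * K * t := by
    have e1 : c1 * K * (Cs * Y) = Cs * (c1 * K * Y) := by ring
    have e2 : Cs * (c1 * K * Y) ≤ Cs * (4 * κ * t) := mul_le_mul_of_nonneg_left hY hCs.le
    have e3 : Cs * (4 * κ * t) = 4 * Cs * κ * t := by ring
    have e4 : 4 * Cs * κ ≤ c1 * K := by
      have e5 : 4 * Cs * κ ≤ c1 * C * κ := mul_le_mul_of_nonneg_right (by linarith) hκ0
      have e6 : c1 * C * κ = c1 * (κ * C) := by ring
      have e7 : c1 * (κ * C) ≤ c1 * K := mul_le_mul_of_nonneg_left hκC.le hc1.le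
      linarith
    have e5 : 4 * Cs * κ * t ≤ c1 * K * t := mul_le_mul_of_nonneg_right e4 ht.le
    linarith
  exact h1.trans (le_of_mul_le_mul_left h2 (by positivity))

lemma sl_st2 {Cs c1 K κ C t β m E : ℝ} (hCs : 0 < Cs) (hc1 : 0 < c1) (hκ0 : 0 ≤ κ) (hβ : 0 < β)
    (hκC : κ * C < K) (hC : 6400 * Cs ≤ c1 * C) (hm : m ≤ 4 * β) (hm0 : 0 < m) (hE : c1 * E ≤ 1600 * κ)
    (hKβ : K * β ≤ t) : Cs * m * E ≤ t := by
  have e1 : c1 * (Cs * m * E) ≤ c1 * t := by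
    have e2 : c1 * (Cs * m * E) = Cs * m * (c1 * E) := by ring
    have e3 : Cs * m * (c1 * E) ≤ Cs * m * (1600 * κ) := mul_le_mul_of_nonneg_left hE (by positivity)
    have e4 : Cs * m * (1600 * κ) ≤ Cs * (4 * β) * (1600 * κ) :=
      mul_le_mul_of_nonneg_right (mul_le_mul_of_nonneg_left hm hCs.le) (by positivity)
    have e5 : Cs * (4 * β) * (1600 * κ) = 6400 * Cs * (β * κ) := by ring
    have e6 : 6400 * Cs * (β * κ) ≤ c1 * C * (β * κ) := mul_le_mul_of_nonneg_right hC (by positivity)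
    have e7 : c1 * C * (β * κ) = c1 * β * (κ * C) := by ring
    have e8 : c1 * β * (κ * C) ≤ c1 * β * K := mul_le_mul_of_nonneg_left hκC.le (by positivity)
    have e9 : c1 * β * K = c1 * (K * β) := by ring
    have e10 : c1 * (K * β) ≤ c1 * t := mul_le_mul_of_nonneg_left hKβ hc1.le
    linarith
  exact le_of_mul_le_mul_left e1 hc1

lemma sl_Km {K β m : ℝ} (a : ℕ) (hβ : 0 < β) (h3a : (3 : ℝ) ^ a ≤ β) (hKβ : K * β ≤ 27 ^ a)
    (hm : β ≤ m) : K ≤ m * 3 ^ a := by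
  have e1 : (27 : ℝ) ^ a = (3 ^ a) ^ 3 := by
    rw [← pow_mul, mul_comm a 3, pow_mul]
    norm_num
  have e2 : (0 : ℝ) < 3 ^ a := by positivity
  have e3 : ((3 : ℝ) ^ a) ^ 3 ≤ 3 ^ a * β * β := by
    have e4 : (3 : ℝ) ^ a * 3 ^ a ≤ β * β := mul_le_mul h3a h3a e2.le hβ.le
    calc ((3 : ℝ) ^ a) ^ 3 = 3 ^ a * (3 ^ a * 3 ^ a) := by ring
      _ ≤ 3 ^ a * (β * β) := mul_le_mul_of_nonneg_left e4 e2.le
      _ = 3 ^ a * β * β := by ring
  have e5 : K * β ≤ 3 ^ a * β * β := by rw [e1] at hKβ; exact hKβ.trans e3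
  have e6 : K ≤ 3 ^ a * β := le_of_mul_le_mul_right e5 hβ
  have e7 : (3 : ℝ) ^ a * β ≤ m * 3 ^ a := by
    rw [mul_comm m]
    exact mul_le_mul_of_nonneg_left hm e2.le
  exact e6.trans e7

lemma sl_ch {Cc c1 K κ C E : ℝ} (hCc : 0 < Cc) (hc1 : 0 < c1) (hκ0 : 0 ≤ κ)
    (hκC : κ * C < K) (hC : 1600 * Cc ≤ c1 * C) (hE : c1 * E ≤ 1600 * κ) : Cc * E ≤ K := by
  have e1 : c1 * (Cc * E) ≤ c1 * K := by
    have e2 : c1 * (Cc * E) = Cc * (c1 * E) := by ring
    have e3 : Cc * (c1 * E) ≤ Cc * (1600 * κ) := mul_le_mul_of_nonneg_left hE hCc.le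
    have e4 : Cc * (1600 * κ) = 1600 * Cc * κ := by ring
    have e5 : 1600 * Cc * κ ≤ c1 * C * κ := mul_le_mul_of_nonneg_right hC hκ0
    have e6 : c1 * C * κ = c1 * (κ * C) := by ring
    have e7 : c1 * (κ * C) ≤ c1 * K := mul_le_mul_of_nonneg_left hκC.le hc1.le
    linarith
  exact le_of_mul_le_mul_left e1 hc1

/-- the cost of the modified nodes -/
lemma sl_cost {n N W : ℕ} [NeZero n] {β K c1 : ℝ} {b' b : Finset (Tor n)} {h : Tor n → ℝ}
    {c : Nd n N → Nd n N → ℝ} (hloc : Local n N W β K c1 b' h c) (o : Tor n) (S : ℕ)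
    (hh : ∀ x ∈ cube n o S, h x = 1) (u : Nd n N → ℝ) :
    ∑ z ∈ ((EE6 n N o b S) \ (hatb N b)).filter (fun z => u z < 1 / 2), ∑ v, c z v ≤
      ((((univ.filter fun k => k ≠ 0) ×ˢ cube n o S : Finset (Nd n N)).filter
        fun z => u z < 1 / 2).card : ℝ) * (β / (2 * N)) := by
  have hsub : ((EE6 n N o b S) \ (hatb N b)).filter (fun z => u z < 1 / 2) ⊆
      (((univ.filter fun k => k ≠ 0) ×ˢ cube n o S : Finset (Nd n N)).filter
        fun z => u z < 1 / 2) := by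
    intro z hz
    rw [Finset.mem_filter, Finset.mem_sdiff, EE6, Finset.mem_union] at hz
    rw [Finset.mem_filter]
    exact ⟨hz.1.1.resolve_left hz.1.2, hz.2⟩
  have hnn : ∀ z : Nd n N, 0 ≤ ∑ v, c z v := fun z => Finset.sum_nonneg fun v _ => hloc.nonneg z v
  refine (Finset.sum_le_sum_of_subset_of_nonneg hsub fun z _ _ => hnn z).trans ?_
  rw [← nsmul_eq_mul]
  refine Finset.sum_le_card_nsmul _ _ _ fun z hz => ?_
  rw [Finset.mem_filter, Finset.mem_product, Finset.mem_filter] at hz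
  have h1 := hloc.tot z.1 z.2 hz.1.1.2
  refine h1.trans ?_
  rw [hh z.2 hz.1.2, mul_one]

lemma sl_cube_mono {n : ℕ} (o : Tor n) {r s : ℕ} (hrs : r ≤ s) : cube n o r ⊆ cube n o s := by
  intro x hx
  rw [cube, Finset.mem_image] at hx ⊢
  obtain ⟨y, -, rfl⟩ := hx
  exact ⟨fun i => ⟨(y i : ℕ), lt_of_lt_of_le (y i).2 hrs⟩, Finset.mem_univ _, rfl⟩

/-- mean square on the window 0 -/
lemma sl_win {n N W : ℕ} [NeZero n] (hW : 0 < W) (o : Tor n) (r : ℕ) (hr : r ≤ n) (u : Nd n N → ℝ) :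
    ∑ x ∈ range r, ∑ y ∈ range r, ∑ z ∈ range r, (1 - UU n N W o u x y z 0) ^ 2 ≤
      (∑ x ∈ cube n o r, ∑ j ∈ range W, (1 - u (lay N W 0 j, x)) ^ 2) / (W : ℝ) := by
  have h1 : (∑ x ∈ cube n o r, ∑ j ∈ range W, (1 - u (lay N W 0 j, x)) ^ 2) / (W : ℝ) =
      ∑ x ∈ range r, ∑ y ∈ range r, ∑ z ∈ range r,
      (1 / (W : ℝ)) * ∑ j ∈ range W, (1 - u (lay N W 0 j, pt n o x y z)) ^ 2 := by
    rw [sum_cube o r hr fun x => ∑ j ∈ range W, (1 - u (lay N W 0 j, x)) ^ 2,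
      div_eq_inv_mul, Finset.mul_sum]
    refine Finset.sum_congr rfl fun x _ => ?_
    rw [Finset.mul_sum]
    refine Finset.sum_congr rfl fun y _ => ?_
    rw [Finset.mul_sum]
    refine Finset.sum_congr rfl fun z _ => ?_
    rw [one_div]
  rw [h1]
  refine Finset.sum_le_sum fun x _ => Finset.sum_le_sum fun y _ => Finset.sum_le_sum fun z _ => ?_
  exact sl_jensen W hW fun j => u (lay N W 0 j, pt n o x y z)

/-- (6c), before lowering. -/
theorem step_last (c1 : ℝ) (hc1 : 0 < c1) : ∃ C : ℝ, 0 < C ∧ ∀ (n N W m : ℕ) [NeZero n]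
    (β K : ℝ) (o : Tor n) (a : ℕ) (h : Tor n → ℝ) (c : Nd n N → Nd n N → ℝ)
    (s : ℕ) (G : Finset (Nd n N)) (A : ℝ),
    10 ≤ β → 0 < W → N = m * W → Win β m → a ≤ s → 3 ^ s < n → (3 : ℝ) ^ a ≤ β →
    0 < K → K * β ≤ 27 ^ a →
    (∀ x, h x ≤ 1) → (∀ x ∈ cube n o (3 ^ s), h x = 1) →
    Local n N W β K c1 (cube n o (3 ^ a)) h c →
    Disjoint (EE6 n N o (cube n o (3 ^ a)) (3 ^ s)) G →
    LBn c (EE6 n N o (cube n o (3 ^ a)) (3 ^ s)) G A →
    C * β ^ 2 * K ≤ A → C * K ^ 3 ≤ A * β ^ 2 →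
    LBn c (hatb N (cube n o (3 ^ a))) G (K / C) := by
  obtain ⟨Cs, hCs, hstart⟩ := start3
  obtain ⟨Cc, hCc, hchain⟩ := chain3
  obtain ⟨P, hP⟩ : ∃ P : ℝ, P = 4 + 128 / c1 + 5000 * Cc / c1 := ⟨_, rfl⟩
  obtain ⟨Q, hQ⟩ : ∃ Q : ℝ, Q = Cc * (1600 / c1) ^ 3 := ⟨_, rfl⟩
  have hP0 : 0 < P := by rw [hP]; positivity
  have hQ0 : 0 < Q := by rw [hQ]; positivity
  obtain ⟨C, hC⟩ : ∃ C : ℝ, C = 1 + 2 * P + 2 * Q + 6400 * Cs / c1 + 1600 * Cc / c1 := ⟨_, rfl⟩
  have q1 : 0 < 6400 * Cs / c1 := by positivity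
  have q2 : 0 < 1600 * Cc / c1 := by positivity
  have hC1 : 1 ≤ C := by rw [hC]; linarith
  have hCP : 2 * P < C := by rw [hC]; linarith
  have hCQ : 2 * Q ≤ C := by rw [hC]; linarith
  have hCs' : 6400 * Cs ≤ c1 * C := by
    have : 6400 * Cs / c1 ≤ C := by rw [hC]; linarith
    rw [div_le_iff₀ hc1] at this
    linarith
  have hCc' : 1600 * Cc ≤ c1 * C := by
    have : 1600 * Cc / c1 ≤ C := by rw [hC]; linarith
    rw [div_le_iff₀ hc1] at this
    linarith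
  have hC0 : 0 < C := by linarith
  refine ⟨C, hC0, ?_⟩
  intro n N W m _ β K o a h c s G A hβ hW hN hwin has hsn h3a hK hKβ hh1 hh hloc hdis hLB hA1 hA2
  refine LBn_of_trunc hloc.nonneg fun u hu huE huG => ?_
  by_contra hcon
  rw [not_le] at hcon
  obtain ⟨κ, hκ⟩ : ∃ κ : ℝ, κ = netK c u := ⟨_, rfl⟩
  rw [← hκ] at hcon
  have hκ0 : 0 ≤ κ := by rw [hκ]; exact netK_nonneg hloc.nonneg u
  have hκC : κ * C < K := by rwa [lt_div_iff₀ hC0] at hcon
  have hκK : κ ≤ K := (le_mul_of_one_le_right hκ0 hC1).trans hκC.le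
  have hβ0 : 0 < β := by linarith
  have hm0 : (0 : ℝ) < m := Nat.cast_pos.2 hwin.pos
  have hm1 : 3 * β ≤ m := by
    have := hwin.hi
    rw [div_le_iff₀ hm0] at this
    linarith
  have hm2 : (m : ℝ) ≤ 4 * β := by
    have := hwin.lo
    rw [le_div_iff₀ hm0] at this
    linarith
  have hm4 : 4 ≤ m := by
    have : (4 : ℝ) ≤ m := by linarith
    exact_mod_cast this
  have hW0 : (0 : ℝ) < W := Nat.cast_pos.2 hW
  have hNR : (N : ℝ) = m * W := by rw [hN]; push_cast; ring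
  have hN0 : (0 : ℝ) < N := by rw [hNR]; positivity
  have h3sn : 3 ^ a ≤ n := (Nat.pow_le_pow_right (by norm_num) has).trans hsn.le
  -- the cube `b`
  have hbs : ∀ x ∈ cube n o (3 ^ a), h x = 1 := fun x hx =>
    hh x (sl_cube_mono o (Nat.pow_le_pow_right (by norm_num) has) hx)
  have hcb : (cube n o (3 ^ a)).card = 27 ^ a := by
    rw [card_cube o _ h3sn, ← pow_mul, mul_comm a 3, pow_mul]
    norm_num
  have hcbR : ((cube n o (3 ^ a)).card : ℝ) = 27 ^ a := by rw [hcb]; push_cast; ring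
  have h27 : (0 : ℝ) < 27 ^ a := by positivity
  have hbne : (cube n o (3 ^ a)).Nonempty := by
    rw [← Finset.card_pos, hcb]
    positivity
  -- energy
  obtain ⟨E, hEdef⟩ : ∃ E : ℝ, E = E4 (3 ^ s) m (UU n N W o u) := ⟨_, rfl⟩
  have hE0 : 0 ≤ E := by rw [hEdef]; exact sl_E4_nonneg _ _ _
  have hE : c1 * E ≤ 1600 * κ := by
    have h1 := E4_le hW hm4 hN hβ0 hc1 hloc o (3 ^ s) hsn hh u
    rw [← hEdef, ← hκ] at h1
    have h2 : (1 / 16 : ℝ) ≤ (β / m) ^ 2 := by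
      have := hwin.lo
      nlinarith
    have h3 : c1 * (1 / 16) * E ≤ c1 * (β / m) ^ 2 * E :=
      mul_le_mul_of_nonneg_right (mul_le_mul_of_nonneg_left h2 hc1.le) hE0
    linarith
  -- contact
  have huE' : ∀ x ∈ cube n o (3 ^ a), u (0, x) = 1 := by
    intro x hx
    refine huE _ ?_
    rw [hatb, Finset.mem_product]
    exact ⟨Finset.mem_singleton_self _, hx⟩
  have hcont := contact_le hW hm4 hN hβ0 hK hc1 hloc hbne hbs u huE'
  rw [← hκ, hcbR] at hcont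
  obtain ⟨Dc, hDc⟩ : ∃ Dc : ℝ, Dc = ∑ x ∈ cube n o (3 ^ a), ∑ j ∈ range W,
    (1 - u (lay N W 0 j, x)) ^ 2 := ⟨_, rfl⟩
  have hsg := sl_win (N := N) hW o (3 ^ a) h3sn u
  rw [← hDc] at hcont hsg
  have hDc0 : 0 ≤ Dc := by
    rw [hDc]
    exact Finset.sum_nonneg fun x _ => Finset.sum_nonneg fun j _ => sq_nonneg _
  have hcont2 : c1 * K * (Dc / W) ≤ 4 * κ * 27 ^ a := by
    rw [sl_eq1 hNR hm0 hW0 h27, div_le_iff₀ h27] at hcont
    have h2 : c1 * K * (Dc / W) * (1 / 4) ≤ c1 * K * (Dc / W) * (β / m) :=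
      mul_le_mul_of_nonneg_left hwin.lo (by positivity)
    linarith
  have hst1 := sl_st1 hCs hc1 hK hκ0 h27 hκC hsg hcont2 hCs'
  have hst2 := sl_st2 hCs hc1 hκ0 hβ0 hκC hCs' hm2 hm0 hE hKβ
  rw [hEdef] at hst2
  have hmean := hstart a s m hwin.pos has _ hst1 hst2
  have hch1 := (sl_ch hCc hc1 hκ0 hκC hCc' hE).trans (sl_Km a hβ0 h3a hKβ (by linarith : β ≤ m))
  rw [hEdef] at hch1
  have hcnt := hchain a s m hwin.pos has _ hmean hch1
  rw [← hEdef] at hcnt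
  -- deviation
  obtain ⟨Dv, hDv⟩ : ∃ Dv : ℝ, Dv = ∑ x ∈ range (3 ^ s), ∑ y ∈ range (3 ^ s), ∑ z ∈ range (3 ^ s),
      ∑ w ∈ range m, ∑ j ∈ range W, (u (lay N W w j, pt n o x y z) - UU n N W o u x y z w) ^ 2 :=
    ⟨_, rfl⟩
  have hDv0 : 0 ≤ Dv := by
    rw [hDv]
    exact Finset.sum_nonneg fun x _ => Finset.sum_nonneg fun y _ => Finset.sum_nonneg fun z _ =>
      Finset.sum_nonneg fun w _ => Finset.sum_nonneg fun j _ => sq_nonneg _
  have hdev := dev_le hW hm4 hN hβ0 hc1 hloc o (3 ^ s) hsn hh u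
  have hlow := card_low_le hW hwin.pos hN o (3 ^ s) hsn.le u
  rw [← hDv] at hdev hlow
  rw [← hκ] at hdev
  have hdev2 : c1 * (β / N * Dv) ≤ 4 * κ := by
    have h1 : c1 * (1 / 4) * (β / N) * Dv ≤ c1 * (β / m) * (β / N) * Dv := by
      refine mul_le_mul_of_nonneg_right ?_ hDv0
      refine mul_le_mul_of_nonneg_right ?_ (by positivity)
      exact mul_le_mul_of_nonneg_left hwin.lo hc1.le
    linarith
  obtain ⟨cn, hcn⟩ : ∃ cn : ℝ, cn = cnt (3 ^ s) m (5 / 8) (UU n N W o u) := ⟨_, rfl⟩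
  rw [← hcn] at hcnt hlow
  have hcnt0 : 0 ≤ cn := by
    rw [hcn]
    unfold cnt
    exact Finset.sum_nonneg fun x _ => Finset.sum_nonneg fun y _ => Finset.sum_nonneg fun z _ =>
      Finset.sum_nonneg fun w _ => by split_ifs <;> norm_num
  -- test function
  have htest := test_le hloc.symm hloc.nonneg hLB hdis (fun x => (hu x).1) huE huG
  rw [← hκ] at htest
  have hsum := sl_cost (b := cube n o (3 ^ a)) hloc o (3 ^ s) hh u
  obtain ⟨M, hM⟩ : ∃ M : ℝ, M = ((((univ.filter fun k => k ≠ 0) ×ˢ cube n o (3 ^ s) :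
    Finset (Nd n N)).filter fun z => u z < 1 / 2).card : ℝ) := ⟨_, rfl⟩
  rw [← hM] at hlow hsum
  have hfin : A ≤ 4 * κ + (32 * (β / N * Dv) + β / (2 * m) * cn) := by
    have e1 := htest.trans (add_le_add_right hsum (4 * κ))
    have e2 : M * (β / (2 * N)) ≤ (64 * Dv + W * cn) * (β / (2 * N)) :=
      mul_le_mul_of_nonneg_right hlow (by positivity)
    rw [sl_eq2 hNR hm0 hW0] at e2
    linarith
  have hvol := sl_vol (by linarith : (1 : ℝ) ≤ β) hκ0 hc1 hCc hm1 hm2 hE0 hE hdev2 hcnt hfin hcnt0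
  rw [← hP, ← hQ] at hvol
  exact sl_num hβ0 hK hκ0 hκK hP0.le hQ0.le hCP hCQ hA1 hA2 hvol

end Vale.Agent.P361.LRO.Ind
end
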