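import Mathlib
import Vale.Agent.P361.Bdl.B2
import Vale.Agent.P361.Bdl.B7
import Vale.Agent.P361.Bdl.B4
import Vale.Agent.P361.Bdl.B1

set_option linter.all false

section

/-!
Part B: joint diagonalization with a number operator.
-/

namespace Vale.Agent.P361.B

open Matrix Finset

variable {κ : Type*} [Fintype κ] [DecidableEq κ]

lemma joint_diag (A : Matrix κ κ ℝ) (hA : Aᵀ = A) (tot : κ → ℕ)
    (hcomm : ∀ i j, tot i ≠ tot j → A i j = 0) :
    ∃ (U : Matrix κ κ ℝ) (E : κ → ℝ) (Nn : κ → ℕ), Uᵀ * U = 1 ∧ U * Uᵀ = 1 ∧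
      A = U * diagonal E * Uᵀ ∧ ∀ i j, tot i ≠ Nn j → U i j = 0 := by
  set C : ℝ := ∑ i, ∑ j, |A i j| with hC
  have hC0 : 0 ≤ C := Finset.sum_nonneg fun i _ => Finset.sum_nonneg fun j _ => abs_nonneg _
  set τ : ℝ := 2 * C + 1 with hτ
  set B : Matrix κ κ ℝ := A + τ • diagonal (fun i => (tot i : ℝ)) with hB
  have hBh : B.IsHermitian := by
    unfold Matrix.IsHermitian
    rw [hB, Matrix.conjTranspose_add, Matrix.conjTranspose_smul, Matrix.diagonal_conjTranspose]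
    have h1 : Aᴴ = A := by
      ext i j
      rw [Matrix.conjTranspose_apply]
      simp only [star_trivial]
      conv_rhs => rw [← hA]
      rfl
    rw [h1]
    simp
  set U : Matrix κ κ ℝ := (hBh.eigenvectorUnitary : Matrix κ κ ℝ) with hU
  have hstar : star U = Uᵀ := by
    ext i j
    rw [Matrix.star_apply, Matrix.transpose_apply]; simp
  have hUU : Uᵀ * U = 1 := by rw [← hstar]; exact Unitary.coe_star_mul_self _
  have hUU' : U * Uᵀ = 1 := by rw [← hstar]; exact Unitary.coe_mul_star_self _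
  set b : κ → ℝ := hBh.eigenvalues with hb
  have hspec : B = U * diagonal b * Uᵀ := by
    have h := hBh.spectral_theorem
    rw [Unitary.conjStarAlgAut_apply] at h
    rw [← hstar]
    exact h
  have hcol : B * U = U * diagonal b := by
    calc B * U = U * diagonal b * Uᵀ * U := by rw [← hspec]
      _ = U * diagonal b := by rw [Matrix.mul_assoc, hUU, Matrix.mul_one]
  -- mass in each sector
  set S : ℕ → κ → ℝ := fun N j => ∑ i, if tot i = N then U i j ^ 2 else 0 with hS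
  have hS0 : ∀ N j, 0 ≤ S N j := fun N j =>
    Finset.sum_nonneg fun i _ => by split_ifs <;> positivity
  have hle : ∀ i j, U i j ^ 2 ≤ S (tot i) j := by
    intro i j
    have := Finset.single_le_sum (f := fun k => if tot k = tot i then U k j ^ 2 else 0)
      (fun k _ => by split_ifs <;> positivity) (Finset.mem_univ i)
    simpa using this
  have hkey : ∀ (N : ℕ) (j : κ), |b j - τ * N| * S N j ≤ C * S N j := by
    intro N j
    have h1 : ∀ i, (∑ k, A i k * U k j) + τ * tot i * U i j = U i j * b j := by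
      intro i
      have h2 := congrFun (congrFun hcol i) j
      rw [Matrix.mul_diagonal, Matrix.mul_apply] at h2
      rw [← h2, hB]
      simp only [Matrix.add_apply, Matrix.smul_apply, Matrix.diagonal_apply, add_mul,
        Finset.sum_add_distrib, smul_eq_mul]
      congr 1
      rw [Finset.sum_eq_single i]
      · simp
      · intro k _ hk; simp [Ne.symm hk]
      · simp
    have h2 : (b j - τ * N) * S N j =
        ∑ i, ∑ k, if tot i = N then A i k * (U i j * U k j) else 0 := by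
      simp only [hS]
      rw [Finset.mul_sum]
      refine Finset.sum_congr rfl fun i _ => ?_
      by_cases hi : tot i = N
      · simp only [if_pos hi]
        have h3 := h1 i
        rw [hi] at h3
        calc (b j - τ * N) * U i j ^ 2 = U i j * (U i j * b j - τ * N * U i j) := by ring
          _ = U i j * ∑ k, A i k * U k j := by rw [← h3]; ring
          _ = _ := by rw [Finset.mul_sum]; exact Finset.sum_congr rfl fun k _ => by ring
      · simp [if_neg hi]
    calc |b j - τ * N| * S N j = |(b j - τ * N) * S N j| := by rw [abs_mul, abs_of_nonneg (hS0 N j)]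
      _ = |∑ i, ∑ k, if tot i = N then A i k * (U i j * U k j) else 0| := by rw [h2]
      _ ≤ ∑ i, ∑ k, |A i k| * S N j := by
          refine (Finset.abs_sum_le_sum_abs _ _).trans (Finset.sum_le_sum fun i _ => ?_)
          refine (Finset.abs_sum_le_sum_abs _ _).trans (Finset.sum_le_sum fun k _ => ?_)
          split_ifs with hi
          · rw [abs_mul]
            by_cases hk : tot i = tot k
            · refine mul_le_mul_of_nonneg_left ?_ (abs_nonneg _)
              have e1 := hle i j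
              have e2 := hle k j
              rw [hi] at e1
              rw [← hk, hi] at e2
              rw [abs_le]
              constructor <;> nlinarith [sq_nonneg (U i j + U k j), sq_nonneg (U i j - U k j)]
            · rw [hcomm i k hk]; simp
          · rw [abs_zero]; exact mul_nonneg (abs_nonneg _) (hS0 N j)
      _ = C * S N j := by
          rw [hC, Finset.sum_mul]
          exact Finset.sum_congr rfl fun i _ => by rw [Finset.sum_mul]
  have hnz : ∀ j, ∃ i, U i j ≠ 0 := by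
    intro j
    by_contra hcon
    push Not at hcon
    have h1 := congrFun (congrFun hUU j) j
    rw [Matrix.mul_apply, Matrix.one_apply_eq] at h1
    rw [Finset.sum_eq_zero] at h1
    · exact zero_ne_one h1
    · intro i _
      rw [hcon i, mul_zero]
  choose i0 hi0 using hnz
  have hzero : ∀ i j, tot i ≠ tot (i0 j) → U i j = 0 := by
    intro i j hij
    by_contra hne
    have p1 : 0 < S (tot i) j := lt_of_lt_of_le (by positivity) (hle i j)
    have p2 : 0 < S (tot (i0 j)) j :=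
      lt_of_lt_of_le (by have := hi0 j; positivity) (hle (i0 j) j)
    have q1 : |b j - τ * tot i| ≤ C := le_of_mul_le_mul_right (hkey _ _) p1
    have q2 : |b j - τ * tot (i0 j)| ≤ C := le_of_mul_le_mul_right (hkey _ _) p2
    have h3 : τ ≤ |τ * tot i - τ * tot (i0 j)| := by
      rw [← mul_sub, abs_mul, abs_of_nonneg (by positivity : 0 ≤ τ)]
      have : (1 : ℝ) ≤ |(tot i : ℝ) - tot (i0 j)| := by
        have h4 : (1 : ℤ) ≤ |(tot i : ℤ) - tot (i0 j)| := by
          exact Int.one_le_abs (by omega)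
        exact_mod_cast h4
      nlinarith
    have h5 : |τ * tot i - τ * tot (i0 j)| ≤ |b j - τ * tot i| + |b j - τ * tot (i0 j)| := by
      rw [abs_sub_comm (b j) (τ * tot i)]
      have := abs_add_le (τ * tot i - b j) (b j - τ * tot (i0 j))
      simpa using this
    linarith
  refine ⟨U, fun j => b j - τ * tot (i0 j), fun j => tot (i0 j), hUU, hUU', ?_, hzero⟩
  have hnum : diagonal (fun i => (tot i : ℝ)) = U * diagonal (fun j => (tot (i0 j) : ℝ)) * Uᵀ := by
    have h1 : diagonal (fun i => (tot i : ℝ)) * U = U * diagonal (fun j => (tot (i0 j) : ℝ)) := by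
      ext i j
      rw [Matrix.diagonal_mul, Matrix.mul_diagonal]
      by_cases hij : tot i = tot (i0 j)
      · rw [hij]; ring
      · rw [hzero i j hij]; ring
    rw [← h1, Matrix.mul_assoc, hUU', Matrix.mul_one]
  have h1 : A = B - τ • diagonal (fun i => (tot i : ℝ)) := by rw [hB]; simp
  have h2 : (diagonal fun j => b j - τ * (tot (i0 j) : ℝ)) =
      diagonal b - τ • diagonal (fun j => (tot (i0 j) : ℝ)) := by
    rw [← Matrix.diagonal_smul, Matrix.diagonal_sub]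
    rfl
  rw [h2, Matrix.mul_sub, Matrix.sub_mul, ← hspec, Matrix.mul_smul, Matrix.smul_mul, ← hnum]
  exact h1

lemma trace_exp_real_conj (U : Matrix κ κ ℝ) (h1 : Uᵀ * U = 1) (h2 : U * Uᵀ = 1) (d : κ → ℝ) :
    trace (NormedSpace.exp ((U * diagonal d * Uᵀ).map (fun r : ℝ => (r : ℂ)))) =
      ((∑ i, Real.exp (d i) : ℝ) : ℂ) := by
  set W : Matrix κ κ ℂ := U.map (fun r : ℝ => (r : ℂ)) with hW
  have hWi : W⁻¹ = (Uᵀ).map (fun r : ℝ => (r : ℂ)) := by
    apply Matrix.inv_eq_right_inv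
    have := congrArg (fun M : Matrix κ κ ℝ => M.map (fun r : ℝ => (r : ℂ))) h2
    have e1 := Matrix.map_mul (L := U) (M := Uᵀ) (f := Complex.ofRealHom)
    have e2 : (1 : Matrix κ κ ℝ).map (fun r : ℝ => (r : ℂ)) = 1 := by
      ext i j
      by_cases h : i = j
      · subst h; simp
      · simp [Matrix.one_apply_ne h]
    rw [e2] at this
    exact e1.symm.trans this
  have hunit : IsUnit W := by
    have := congrArg (fun M : Matrix κ κ ℝ => M.map (fun r : ℝ => (r : ℂ))) h2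
    have e1 := Matrix.map_mul (L := U) (M := Uᵀ) (f := Complex.ofRealHom)
    have e2 : (1 : Matrix κ κ ℝ).map (fun r : ℝ => (r : ℂ)) = 1 := by
      ext i j
      by_cases h : i = j
      · subst h; simp
      · simp [Matrix.one_apply_ne h]
    rw [e2] at this
    exact IsUnit.of_mul_eq_one _ (e1.symm.trans this)
  have hD : (diagonal d).map (fun r : ℝ => (r : ℂ)) = diagonal (fun i => ((d i : ℝ) : ℂ)) := by
    rw [Matrix.diagonal_map (by simp)]
  have hfac : (U * diagonal d * Uᵀ).map (fun r : ℝ => (r : ℂ)) =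
      W * diagonal (fun i => ((d i : ℝ) : ℂ)) * W⁻¹ := by
    rw [hWi, ← hD]
    have e1 := Matrix.map_mul (L := U * diagonal d) (M := Uᵀ) (f := Complex.ofRealHom)
    have e2 := Matrix.map_mul (L := U) (M := diagonal d) (f := Complex.ofRealHom)
    rw [e2] at e1
    exact e1
  rw [hfac, Matrix.exp_conj _ _ hunit, Matrix.exp_diagonal, Matrix.trace_mul_comm,
    ← Matrix.mul_assoc, Matrix.nonsing_inv_mul _ ((Matrix.isUnit_iff_isUnit_det _).1 hunit),
    Matrix.one_mul, Matrix.trace_diagonal]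
  push_cast
  refine Finset.sum_congr rfl fun i _ => ?_
  rw [Pi.exp_def]
  simp [Complex.exp_eq_exp_ℂ]

end Vale.Agent.P361.B
end

section

set_option linter.unusedSectionVars false

/-!
Part B: comparison with free bosons, occupation numbers.
-/

namespace Vale.Agent.P361.B

open Finset Filter Topology

variable {V : Type*} [Fintype V] [DecidableEq V]
variable {n N : ℕ} {adj : V → V → Prop} [DecidableRel adj] {e : V → V → ℝ} {lam : V → ℝ}
variable {E : ℝ} {ψ : (V → ℕ) → ℝ}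

/-- Boson hopping form. -/
noncomputable def kform (n : ℕ) (adj : V → V → Prop) [DecidableRel adj] (ψ : (V → ℕ) → ℝ) : ℝ :=
  (n : ℝ) / 4 * ∑ x, ∑ y, if adj x y then ∑ σ ∈ occBox V n,
    (Real.sqrt ((σ x : ℝ) + 1) * ψ (σ + Pi.single x 1) -
      Real.sqrt ((σ y : ℝ) + 1) * ψ (σ + Pi.single y 1)) ^ 2 else 0

lemma hop_pointwise {m a b A B : ℝ} (ha : 0 ≤ a) (hb : 0 ≤ b) (ham : a ≤ m) (hbm : b ≤ m) :
    m * (B - A) ^ 2 ≤ (Real.sqrt (m - a) * A - Real.sqrt (m - b) * B) ^ 2 +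
      2 * (a + b) * (A ^ 2 + B ^ 2) := by
  have h1 : 0 ≤ m - a := by linarith
  have h2 : 0 ≤ m - b := by linarith
  have s1 := Real.sq_sqrt h1
  have s2 := Real.sq_sqrt h2
  have p1 := Real.sqrt_nonneg (m - a)
  have p2 := Real.sqrt_nonneg (m - b)
  set p := Real.sqrt (m - a)
  set q := Real.sqrt (m - b)
  have hm : 0 ≤ m := ha.trans ham
  have hpq : p * q ≤ m := by nlinarith [sq_nonneg (p - q)]
  have hpq2 : m - a - b ≤ p * q := by
    rcases le_or_gt (m - a - b) 0 with h | h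
    · exact h.trans (mul_nonneg p1 p2)
    · refine le_of_sq_le_sq ?_ (mul_nonneg p1 p2)
      rw [mul_pow, s1, s2]
      nlinarith [mul_nonneg ha hb, mul_nonneg ha h.le, mul_nonneg hb h.le]
  have e1 : m * (B - A) ^ 2 = (p * A - q * B) ^ 2 + (a * A ^ 2 + b * B ^ 2 -
      2 * (m - p * q) * (A * B)) := by
    have : (p * A - q * B) ^ 2 = (m - a) * A ^ 2 + (m - b) * B ^ 2 - 2 * (p * q) * (A * B) := by
      rw [← s1, ← s2]; ring
    rw [this]; ring
  rw [e1]
  have h3 : -(2 * (m - p * q) * (A * B)) ≤ (m - p * q) * (A ^ 2 + B ^ 2) := by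
    nlinarith [mul_nonneg (sub_nonneg.2 hpq) (sq_nonneg (A + B))]
  have h4 : (m - p * q) * (A ^ 2 + B ^ 2) ≤ (a + b) * (A ^ 2 + B ^ 2) :=
    mul_le_mul_of_nonneg_right (by linarith) (by positivity)
  nlinarith [mul_nonneg ha (sq_nonneg B), mul_nonneg hb (sq_nonneg A)]

theorem IsEig.kform_le (h : IsEig n adj N E ψ)
    (hadj : ∀ x y, adj x y → adj y x) (hirr : ∀ x, ¬ adj x x) :
    kform n adj ψ ≤ E +
      ∑ x, ∑ y, (if adj x y then pairFn n ψ x y + pairFn n ψ y y else 0) := by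
  have hE : E = 1 / 4 * ∑ x, ∑ y, if adj x y then
      ∑ σ ∈ occBox V n, edgeT n x y ψ σ ^ 2 else 0 := by
    have := h.weak (fun _ => 1)
    simp only [one_mul, h.norm, mul_one] at this
    rw [this]
    congr 1
    refine Finset.sum_congr rfl fun x _ => Finset.sum_congr rfl fun y _ => ?_
    split_ifs
    · exact Finset.sum_congr rfl fun σ _ => by ring
    · rfl
  set t : V → V → ℝ := fun x y => ∑ σ ∈ occBox V n,
    ((σ x : ℝ) + σ y) * (((σ y : ℝ) + 1) * ψ (σ + Pi.single y 1) ^ 2) with ht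
  have hmain : kform n adj ψ ≤ 1 / 4 * ∑ x, ∑ y, (if adj x y then
      ∑ σ ∈ occBox V n, edgeT n x y ψ σ ^ 2 + 2 * (t x y + t y x) else 0) := by
    unfold kform
    rw [div_eq_mul_one_div, mul_comm (n : ℝ), mul_assoc]
    refine mul_le_mul_of_nonneg_left ?_ (by norm_num)
    rw [Finset.mul_sum]
    refine Finset.sum_le_sum fun x _ => ?_
    rw [Finset.mul_sum]
    refine Finset.sum_le_sum fun y _ => ?_
    by_cases hxy : adj x y
    · rw [if_pos hxy, if_pos hxy, Finset.mul_sum, ht, ← Finset.sum_add_distrib, Finset.mul_sum,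
        ← Finset.sum_add_distrib]
      refine Finset.sum_le_sum fun σ hσ => ?_
      rw [mem_occBox] at hσ
      have := @hop_pointwise (n : ℝ) (σ x) (σ y) (Real.sqrt ((σ y : ℝ) + 1) * ψ (σ + Pi.single y 1))
        (Real.sqrt ((σ x : ℝ) + 1) * ψ (σ + Pi.single x 1)) (by positivity) (by positivity)
        (by exact_mod_cast hσ x) (by exact_mod_cast hσ y)
      have e1 : (Real.sqrt ((σ y : ℝ) + 1) * ψ (σ + Pi.single y 1)) ^ 2 =
          ((σ y : ℝ) + 1) * ψ (σ + Pi.single y 1) ^ 2 := by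
        rw [mul_pow, Real.sq_sqrt (by positivity)]
      have e2 : (Real.sqrt ((σ x : ℝ) + 1) * ψ (σ + Pi.single x 1)) ^ 2 =
          ((σ x : ℝ) + 1) * ψ (σ + Pi.single x 1) ^ 2 := by
        rw [mul_pow, Real.sq_sqrt (by positivity)]
      rw [e1, e2] at this
      refine this.trans (le_of_eq ?_)
      unfold edgeT
      ring
    · rw [if_neg hxy, if_neg hxy, mul_zero]
  have hsplit : 1 / 4 * ∑ x, ∑ y, (if adj x y then
      ∑ σ ∈ occBox V n, edgeT n x y ψ σ ^ 2 + 2 * (t x y + t y x) else 0) =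
      E + 1 / 2 * (∑ x, ∑ y, (if adj x y then t x y else 0) +
        ∑ x, ∑ y, (if adj x y then t y x else 0)) := by
    rw [hE, ← Finset.sum_add_distrib, Finset.mul_sum, Finset.mul_sum, Finset.mul_sum,
      ← Finset.sum_add_distrib]
    refine Finset.sum_congr rfl fun x _ => ?_
    rw [← Finset.sum_add_distrib, Finset.mul_sum, Finset.mul_sum, Finset.mul_sum,
      ← Finset.sum_add_distrib]
    refine Finset.sum_congr rfl fun y _ => ?_
    split_ifs <;> ring
  have hsymm : ∑ x, ∑ y, (if adj x y then t y x else 0) =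
      ∑ x, ∑ y, (if adj x y then t x y else 0) := by
    rw [Finset.sum_comm]
    refine Finset.sum_congr rfl fun y _ => Finset.sum_congr rfl fun x _ => ?_
    by_cases hxy : adj x y
    · rw [if_pos hxy, if_pos (hadj _ _ hxy)]
    · rw [if_neg hxy, if_neg fun h' => hxy (hadj _ _ h')]
  have hterm : ∀ x y, adj x y → t x y = pairFn n ψ x y + pairFn n ψ y y := by
    intro x y hxy
    have hne : x ≠ y := fun h' => hirr x (by rw [← h'] at hxy; exact hxy)
    have hF : ∀ ζ, ζ ∉ occBox V n → (fun ζ => ψ ζ ^ 2) ζ = 0 := by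
      intro ζ hζ
      simp only [h.supp ζ hζ]; norm_num
    have key := sum_shift n y (fun ζ => ψ ζ ^ 2) (fun σ => (σ x : ℝ) + σ y) hF
    have e1 : t x y = ∑ σ ∈ occBox V n, ((σ y : ℝ) + 1) * ψ (σ + Pi.single y 1) ^ 2 *
        ((σ x : ℝ) + σ y) := Finset.sum_congr rfl fun σ _ => by ring
    rw [e1, key, pairFn, pairFn, ← Finset.sum_add_distrib]
    refine Finset.sum_congr rfl fun η _ => ?_
    rcases Nat.eq_zero_or_pos (η y) with h0 | h0
    · rw [h0, if_neg hne]; simp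
    · rw [sub_single_apply η x y h0, sub_single_apply η y y h0, if_neg hne, if_pos rfl]
      ring
  have hfin : ∑ x, ∑ y, (if adj x y then t x y else 0) =
      ∑ x, ∑ y, (if adj x y then pairFn n ψ x y + pairFn n ψ y y else 0) := by
    refine Finset.sum_congr rfl fun x _ => Finset.sum_congr rfl fun y _ => ?_
    split_ifs with hxy
    · exact hterm x y hxy
    · rfl
  rw [hsplit, hsymm, hfin] at hmain
  linarith

/-! Occupation numbers of `N` labelled particles. -/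

/-- Occupation numbers. -/
def occ {N : ℕ} (x : Fin N → V) (v : V) : ℕ := ∑ i, if x i = v then 1 else 0

lemma occ_cons {N : ℕ} (v : V) (x : Fin N → V) :
    occ (Fin.cons v x : Fin (N + 1) → V) = occ x + Pi.single v 1 := by
  ext w
  rw [Pi.add_apply, occ, occ, Fin.sum_univ_succ, add_comm]
  simp only [Fin.cons_zero, Fin.cons_succ]
  congr 1
  by_cases h : v = w
  · subst h; simp
  · rw [if_neg h, Pi.single_apply, if_neg (Ne.symm h)]

lemma sum_occ {N : ℕ} (x : Fin N → V) : ∑ v, occ x v = N := by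
  unfold occ
  rw [Finset.sum_comm]
  simp

lemma occ_perm {N : ℕ} (x : Fin N → V) (p : Equiv.Perm (Fin N)) : occ (x ∘ p) = occ x := by
  ext v
  exact Equiv.sum_comp p (fun i => if x i = v then 1 else 0)

lemma occ_eq_card {N : ℕ} (x : Fin N → V) (v : V) : occ x v = Fintype.card {i // x i = v} := by
  rw [occ, Fintype.card_subtype, Finset.card_filter]

lemma exists_perm {N : ℕ} {x y : Fin N → V} (h : occ x = occ y) :
    ∃ p : Equiv.Perm (Fin N), y ∘ p = x := by
  have e : ∀ v, Nonempty ({i // x i = v} ≃ {i // y i = v}) := by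
    intro v
    rw [← Fintype.card_eq, ← occ_eq_card, ← occ_eq_card, h]
  let f := fun v => Classical.choice (e v)
  refine ⟨Equiv.ofFiberEquiv f, ?_⟩
  ext i
  exact Equiv.ofFiberEquiv_map f i

/-- Number of labelled configurations with given occupation numbers. -/
def cnt (N : ℕ) (ζ : V → ℕ) : ℕ := (Finset.univ.filter fun x : Fin N → V => occ x = ζ).card

lemma cnt_eq_sum (N : ℕ) (ζ : V → ℕ) :
    cnt N ζ = ∑ x : Fin N → V, if occ x = ζ then 1 else 0 := by
  rw [cnt, Finset.card_filter]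

lemma cnt_succ (N : ℕ) (ζ : V → ℕ) (v : V) :
    cnt (N + 1) (ζ + Pi.single v 1) * (ζ v + 1) = (N + 1) * cnt N ζ := by
  have h1 : ∑ x : Fin (N + 1) → V, ∑ i, (if occ x = ζ + Pi.single v 1 then
      (if x i = v then 1 else 0) else 0) = cnt (N + 1) (ζ + Pi.single v 1) * (ζ v + 1) := by
    rw [cnt_eq_sum, Finset.sum_mul]
    refine Finset.sum_congr rfl fun x _ => ?_
    by_cases h : occ x = ζ + Pi.single v 1
    · simp only [if_pos h, one_mul]
      have : occ x v = ζ v + 1 := by rw [h]; simp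
      rw [← this]; rfl
    · simp only [if_neg h, zero_mul, Finset.sum_const_zero]
  have h0 : ∑ x : Fin (N + 1) → V, (if occ x = ζ + Pi.single v 1 then
      (if x 0 = v then 1 else 0) else 0) = cnt N ζ := by
    rw [← (Fin.consEquiv fun _ => V).sum_comp, Fintype.sum_prod_type, cnt_eq_sum]
    rw [Finset.sum_eq_single v]
    · refine Finset.sum_congr rfl fun x _ => ?_
      change (if occ (Fin.cons v x : Fin (N + 1) → V) = ζ + Pi.single v 1 then
        (if v = v then 1 else 0) else 0) = _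
      rw [occ_cons, if_pos rfl]
      simp only [add_left_inj]
    · intro w _ hw
      refine Finset.sum_eq_zero fun x _ => ?_
      change (if occ (Fin.cons w x : Fin (N + 1) → V) = ζ + Pi.single v 1 then
        (if w = v then 1 else 0) else 0) = _
      rw [if_neg hw, ite_self]
    · simp
  rw [← h1, Finset.sum_comm]
  have h2 : ∀ i : Fin (N + 1), ∑ x : Fin (N + 1) → V, (if occ x = ζ + Pi.single v 1 then
      (if x i = v then 1 else 0) else 0) = cnt N ζ := by
    intro i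
    rw [← h0, ← (Equiv.arrowCongr (Equiv.swap 0 i) (Equiv.refl V)).sum_comp]
    refine Finset.sum_congr rfl fun x _ => ?_
    have e1 : (Equiv.arrowCongr (Equiv.swap 0 i) (Equiv.refl V)) x = x ∘ Equiv.swap 0 i := by
      ext j; simp [Equiv.arrowCongr]
    rw [e1, occ_perm]
    simp
  simp only [h2]
  simp

lemma cnt_pos (N : ℕ) : ∀ ζ : V → ℕ, ∑ v, ζ v = N → 0 < cnt N ζ := by
  induction N with
  | zero =>
    intro ζ hζ
    rw [cnt, Finset.card_pos]
    refine ⟨Fin.elim0, ?_⟩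
    rw [Finset.mem_filter]
    refine ⟨Finset.mem_univ _, ?_⟩
    ext v
    have : ζ v = 0 := (Finset.sum_eq_zero_iff.1 hζ) v (Finset.mem_univ _)
    rw [this, occ]; simp
  | succ N ih =>
    intro ζ hζ
    obtain ⟨v, hv⟩ : ∃ v, 0 < ζ v := by
      by_contra hcon
      push Not at hcon
      have : ∑ v, ζ v = 0 := Finset.sum_eq_zero fun v _ => Nat.le_zero.1 (hcon v)
      omega
    set ζ' : V → ℕ := ζ - Pi.single v 1 with hζ'
    have e1 : ζ' + Pi.single v 1 = ζ := sub_add_single ζ v hv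
    have e2 : ∑ w, ζ' w = N := by
      have : ∑ w, (ζ' + Pi.single v 1 : V → ℕ) w = N + 1 := by rw [e1, hζ]
      simp only [Pi.add_apply, Finset.sum_add_distrib] at this
      rw [Finset.sum_pi_single'] at this
      simp at this
      exact this
    have h := cnt_succ N ζ' v
    rw [e1] at h
    have h3 := ih ζ' e2
    by_contra hcon
    have h4 : cnt (N + 1) ζ = 0 := by omega
    rw [h4, zero_mul] at h
    have : 0 < (N + 1) * cnt N ζ' := by positivity
    omega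

lemma cnt_eq_zero {N : ℕ} {ζ : V → ℕ} (h : ∑ v, ζ v ≠ N) : cnt N ζ = 0 := by
  rw [cnt, Finset.card_eq_zero, Finset.filter_eq_empty_iff]
  intro x _ hx
  apply h
  rw [← hx, sum_occ]

lemma fiber_sum (n N : ℕ) (g : (V → ℕ) → ℝ) (h1 : ∀ ζ, ζ ∉ occBox V n → g ζ = 0)
    (h2 : ∀ ζ, ∑ v, ζ v ≠ N → g ζ = 0) :
    ∑ x : Fin N → V, g (occ x) / cnt N (occ x) = ∑ ζ ∈ occBox V n, g ζ := by
  have e1 : ∀ ζ ∈ occBox V n, g ζ = ∑ x : Fin N → V, if occ x = ζ then g ζ / cnt N ζ else 0 := by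
    intro ζ _
    by_cases h : ∑ v, ζ v = N
    · rw [← Finset.sum_filter, Finset.sum_const, nsmul_eq_mul]
      have h3 : (0 : ℝ) < cnt N ζ := by exact_mod_cast cnt_pos N ζ h
      change g ζ = (cnt N ζ : ℝ) * (g ζ / cnt N ζ)
      field_simp
    · rw [h2 ζ h]; simp
  rw [Finset.sum_congr rfl e1, Finset.sum_comm]
  refine Finset.sum_congr rfl fun x _ => ?_
  by_cases h : occ x ∈ occBox V n
  · rw [Finset.sum_ite_eq, if_pos h]
  · rw [Finset.sum_ite_eq, if_neg h, h1 _ h]; simp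

end Vale.Agent.P361.B
end

section

set_option linter.unusedSectionVars false

/-!
Part B: comparison with free bosons, spectral side.
-/

namespace Vale.Agent.P361.B

open Finset Filter Topology

variable {V : Type*} [Fintype V] [DecidableEq V]
variable {n N : ℕ} {adj : V → V → Prop} [DecidableRel adj] {e : V → V → ℝ} {lam : V → ℝ}
variable {E : ℝ} {ψ : (V → ℕ) → ℝ}

/-- Tensor basis. -/
noncomputable def tens (e : V → V → ℝ) {N : ℕ} (k x : Fin N → V) : ℝ := ∏ i, e (k i) (x i)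

lemma tens_compl (hS : Spec adj e lam) (x y : Fin N → V) :
    ∑ k : Fin N → V, tens e k x * tens e k y = if x = y then 1 else 0 := by
  unfold tens
  simp only [← Finset.prod_mul_distrib]
  have h := Finset.prod_univ_sum (fun _ : Fin N => (Finset.univ : Finset V))
    (fun i v => e v (x i) * e v (y i))
  rw [Fintype.piFinset_univ] at h
  rw [← h]
  simp only [hS.compl]
  by_cases hxy : x = y
  · subst hxy; simp
  · rw [if_neg hxy]
    obtain ⟨i, hi⟩ := Function.ne_iff.1 hxy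
    exact Finset.prod_eq_zero (Finset.mem_univ i) (if_neg hi)

lemma tens_orth (hS : Spec adj e lam) (k l : Fin N → V) :
    ∑ x : Fin N → V, tens e k x * tens e l x = if k = l then 1 else 0 := by
  unfold tens
  simp only [← Finset.prod_mul_distrib]
  have h := Finset.prod_univ_sum (fun _ : Fin N => (Finset.univ : Finset V))
    (fun i v => e (k i) v * e (l i) v)
  rw [Fintype.piFinset_univ] at h
  rw [← h]
  simp only [hS.orth]
  by_cases hkl : k = l
  · subst hkl; simp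
  · rw [if_neg hkl]
    obtain ⟨i, hi⟩ := Function.ne_iff.1 hkl
    exact Finset.prod_eq_zero (Finset.mem_univ i) (if_neg hi)

/-- Fourier coefficient. -/
noncomputable def four (e : V → V → ℝ) {N : ℕ} (F : (Fin N → V) → ℝ) (k : Fin N → V) : ℝ :=
  ∑ x, tens e k x * F x

lemma parseval (hS : Spec adj e lam) (F : (Fin N → V) → ℝ) :
    ∑ k, four e F k ^ 2 = ∑ x, F x ^ 2 := by
  have h1 : ∀ k, four e F k ^ 2 = ∑ x, ∑ y, F x * F y * (tens e k x * tens e k y) := by
    intro k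
    rw [sq, four, Finset.sum_mul_sum]
    exact Finset.sum_congr rfl fun x _ => Finset.sum_congr rfl fun y _ => by ring
  simp only [h1]
  rw [Finset.sum_comm]
  refine Finset.sum_congr rfl fun x _ => ?_
  rw [Finset.sum_comm]
  simp only [← Finset.mul_sum, tens_compl hS]
  rw [Finset.sum_eq_single x]
  · rw [if_pos rfl]; ring
  · intro y _ hy
    rw [if_neg (Ne.symm hy), mul_zero]
  · simp

lemma edge_spectral (hS : Spec adj e lam) (hadj : ∀ x y, adj x y → adj y x) (f : V → ℝ) :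
    ∑ x, ∑ y, (if adj x y then (f x - f y) ^ 2 else 0) =
      2 * ∑ k, lam k * (∑ x, e k x * f x) ^ 2 := by
  have hexp : ∀ x, f x = ∑ k, (∑ y, e k y * f y) * e k x := by
    intro x
    calc f x = ∑ y, f y * ∑ k, e k y * e k x := by simp only [hS.compl]; simp
      _ = _ := by
        simp only [Finset.mul_sum, Finset.sum_mul]
        rw [Finset.sum_comm]
        exact Finset.sum_congr rfl fun k _ => Finset.sum_congr rfl fun y _ => by ring
  have hlap : ∀ x, ∑ y, (if adj x y then f x - f y else 0) =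
      ∑ k, lam k * (∑ y, e k y * f y) * e k x := by
    intro x
    have h1 : ∀ y, (if adj x y then f x - f y else 0) =
        ∑ k, -((∑ y, e k y * f y) * (if adj x y then e k y - e k x else 0)) := by
      intro y
      split_ifs
      · conv_lhs => rw [hexp x, hexp y]
        rw [← Finset.sum_sub_distrib]
        exact Finset.sum_congr rfl fun k _ => by ring
      · simp
    simp only [h1]
    rw [Finset.sum_comm]
    refine Finset.sum_congr rfl fun k _ => ?_
    rw [Finset.sum_neg_distrib, ← Finset.mul_sum, hS.eig]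
    ring
  have hsq : ∑ x, ∑ y, (if adj x y then (f x - f y) ^ 2 else 0) =
      2 * ∑ x, f x * ∑ y, (if adj x y then f x - f y else 0) := by
    have h1 : ∑ x, ∑ y, (if adj x y then (f x - f y) ^ 2 else 0) =
        ∑ x, ∑ y, (if adj x y then f x * (f x - f y) else 0) +
        ∑ x, ∑ y, (if adj x y then f y * (f y - f x) else 0) := by
      rw [← Finset.sum_add_distrib]
      refine Finset.sum_congr rfl fun x _ => ?_
      rw [← Finset.sum_add_distrib]
      refine Finset.sum_congr rfl fun y _ => ?_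
      split_ifs <;> ring
    have h2 : ∑ x, ∑ y, (if adj x y then f y * (f y - f x) else 0) =
        ∑ x, ∑ y, (if adj x y then f x * (f x - f y) else 0) := by
      rw [Finset.sum_comm]
      refine Finset.sum_congr rfl fun y _ => Finset.sum_congr rfl fun x _ => ?_
      by_cases hxy : adj x y
      · rw [if_pos hxy, if_pos (hadj _ _ hxy)]
      · rw [if_neg hxy, if_neg fun h' => hxy (hadj _ _ h')]
    rw [h1, h2, ← two_mul]
    congr 1
    refine Finset.sum_congr rfl fun x _ => ?_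
    rw [Finset.mul_sum]
    exact Finset.sum_congr rfl fun y _ => by split_ifs <;> ring
  rw [hsq]
  congr 1
  simp only [hlap]
  set c : V → ℝ := fun k => ∑ y, e k y * f y with hc
  calc ∑ x, f x * ∑ k, lam k * c k * e k x = ∑ x, ∑ k, lam k * c k * (e k x * f x) := by
        refine Finset.sum_congr rfl fun x _ => ?_
        rw [Finset.mul_sum]
        exact Finset.sum_congr rfl fun k _ => by ring
    _ = ∑ k, ∑ x, lam k * c k * (e k x * f x) := Finset.sum_comm
    _ = ∑ k, lam k * c k ^ 2 := by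
        refine Finset.sum_congr rfl fun k _ => ?_
        rw [← Finset.mul_sum, sq, mul_assoc]

/-- Wave function of labelled particles. -/
noncomputable def wf (N : ℕ) (ψ : (V → ℕ) → ℝ) (x : Fin N → V) : ℝ :=
  ψ (occ x) / Real.sqrt (cnt N (occ x))

lemma wf_perm (ψ : (V → ℕ) → ℝ) (x : Fin N → V) (p : Equiv.Perm (Fin N)) :
    wf N ψ (x ∘ p) = wf N ψ x := by
  rw [wf, occ_perm, wf]

lemma cnt_occ_pos (x : Fin N → V) : (0 : ℝ) < cnt N (occ x) := by
  exact_mod_cast cnt_pos N (occ x) (sum_occ x)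

lemma wf_inner {ψ₁ ψ₂ : (V → ℕ) → ℝ} (h1 : ∀ ζ, ζ ∉ occBox V n → ψ₁ ζ = 0)
    (h2 : ∀ ζ, ∑ v, ζ v ≠ N → ψ₁ ζ = 0) :
    ∑ x, wf N ψ₁ x * wf N ψ₂ x = ∑ ζ ∈ occBox V n, ψ₁ ζ * ψ₂ ζ := by
  rw [← fiber_sum n N (fun ζ => ψ₁ ζ * ψ₂ ζ) (fun ζ hζ => by simp only [h1 ζ hζ, zero_mul])
    (fun ζ hζ => by simp only [h2 ζ hζ, zero_mul])]
  refine Finset.sum_congr rfl fun x _ => ?_
  have h3 := cnt_occ_pos x
  rw [wf, wf, div_mul_div_comm, Real.mul_self_sqrt h3.le]

lemma four_perm (hS : Spec adj e lam) (F : (Fin N → V) → ℝ)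
    (hF : ∀ x (p : Equiv.Perm (Fin N)), F (x ∘ p) = F x) (k : Fin N → V)
    (p : Equiv.Perm (Fin N)) : four e F (k ∘ p) = four e F k := by
  unfold four
  rw [← (Equiv.arrowCongr p.symm (Equiv.refl V)).sum_comp]
  refine Finset.sum_congr rfl fun x _ => ?_
  have e1 : (Equiv.arrowCongr p.symm (Equiv.refl V)) x = x ∘ p := by
    ext j; simp [Equiv.arrowCongr]
  rw [e1]
  have e2 : tens e (k ∘ p) (x ∘ p) = tens e k x :=
    Equiv.prod_comp p (fun i => e (k i) (x i))
  rw [e2, hF]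

lemma four_occ (hS : Spec adj e lam) (F : (Fin N → V) → ℝ)
    (hF : ∀ x (p : Equiv.Perm (Fin N)), F (x ∘ p) = F x) {k l : Fin N → V} (h : occ k = occ l) :
    four e F k = four e F l := by
  obtain ⟨p, hp⟩ := exists_perm h
  rw [← hp, four_perm hS F hF]

lemma four_cons (F : (Fin (N + 1) → V) → ℝ) (v : V) (k : Fin N → V) :
    four e F (Fin.cons v k) = four e (fun x => ∑ w, e v w * F (Fin.cons w x)) k := by
  unfold four
  rw [← (Fin.consEquiv fun _ => V).sum_comp, Fintype.sum_prod_type, Finset.sum_comm]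
  refine Finset.sum_congr rfl fun x _ => ?_
  rw [Finset.mul_sum]
  refine Finset.sum_congr rfl fun w _ => ?_
  change tens e (Fin.cons v k : Fin (N + 1) → V) (Fin.cons w x : Fin (N + 1) → V) *
    F (Fin.cons w x) = _
  rw [tens, Fin.prod_univ_succ]
  simp only [Fin.cons_zero, Fin.cons_succ]
  rw [tens]; ring

lemma hop_sum (ψ : (V → ℕ) → ℝ) (h1 : ∀ ζ, ζ ∉ occBox V n → ψ ζ = 0)
    (h2 : ∀ ζ, ∑ v, ζ v ≠ N + 1 → ψ ζ = 0) (v w : V) :
    ∑ σ ∈ occBox V n, (Real.sqrt ((σ v : ℝ) + 1) * ψ (σ + Pi.single v 1) -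
      Real.sqrt ((σ w : ℝ) + 1) * ψ (σ + Pi.single w 1)) ^ 2 =
    (N + 1 : ℝ) * ∑ x : Fin N → V, (wf (N + 1) ψ (Fin.cons v x) -
      wf (N + 1) ψ (Fin.cons w x)) ^ 2 := by
  have hout : ∀ ζ : V → ℕ, ζ ∉ occBox V n → ∀ v, ψ (ζ + Pi.single v 1) = 0 := by
    intro ζ hζ v
    apply h1
    rw [mem_occBox] at hζ ⊢
    push Not at hζ ⊢
    obtain ⟨x, hx⟩ := hζ
    refine ⟨x, ?_⟩
    rw [Pi.add_apply]; omega
  have hsec : ∀ ζ : V → ℕ, ∑ u, ζ u ≠ N → ∀ v, ψ (ζ + Pi.single v 1) = 0 := by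
    intro ζ hζ v
    apply h2
    simp only [Pi.add_apply, Finset.sum_add_distrib]
    rw [Finset.sum_pi_single']
    simp [hζ]
  refine (fiber_sum n N (fun σ => (Real.sqrt ((σ v : ℝ) + 1) * ψ (σ + Pi.single v 1) -
      Real.sqrt ((σ w : ℝ) + 1) * ψ (σ + Pi.single w 1)) ^ 2)
      (fun ζ hζ => by simp only [hout ζ hζ]; simp)
      (fun ζ hζ => by simp only [hsec ζ hζ]; simp)).symm.trans ?_
  rw [Finset.mul_sum]
  refine Finset.sum_congr rfl fun x _ => ?_
  have hc := cnt_occ_pos x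
  have hwf : ∀ u, Real.sqrt (N + 1 : ℝ) * wf (N + 1) ψ (Fin.cons u x) =
      Real.sqrt ((occ x u : ℝ) + 1) * ψ (occ x + Pi.single u 1) / Real.sqrt (cnt N (occ x)) := by
    intro u
    rw [wf, occ_cons]
    have hc2 : (0 : ℝ) < cnt (N + 1) (occ x + Pi.single u 1) := by
      rw [← occ_cons]; exact cnt_occ_pos _
    have h3 : (cnt (N + 1) (occ x + Pi.single u 1) : ℝ) * ((occ x u : ℝ) + 1) =
        ((N : ℝ) + 1) * cnt N (occ x) := by exact_mod_cast cnt_succ N (occ x) u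
    have h4 : Real.sqrt (cnt (N + 1) (occ x + Pi.single u 1)) * Real.sqrt ((occ x u : ℝ) + 1) =
        Real.sqrt ((N : ℝ) + 1) * Real.sqrt (cnt N (occ x)) := by
      rw [← Real.sqrt_mul hc2.le, h3, Real.sqrt_mul (by positivity)]
    have h5 : 0 < Real.sqrt (cnt (N + 1) (occ x + Pi.single u 1)) := Real.sqrt_pos.2 hc2
    have h6 : 0 < Real.sqrt (cnt N (occ x)) := Real.sqrt_pos.2 hc
    rw [mul_div_assoc', div_eq_div_iff h5.ne' h6.ne']
    calc _ = (Real.sqrt ((N : ℝ) + 1) * Real.sqrt (cnt N (occ x))) * ψ (occ x + Pi.single u 1) := by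
          ring
      _ = _ := by rw [← h4]; ring
  have h7 : (N + 1 : ℝ) * (wf (N + 1) ψ (Fin.cons v x) - wf (N + 1) ψ (Fin.cons w x)) ^ 2 =
      (Real.sqrt (N + 1 : ℝ) * wf (N + 1) ψ (Fin.cons v x) -
        Real.sqrt (N + 1 : ℝ) * wf (N + 1) ψ (Fin.cons w x)) ^ 2 := by
    rw [← mul_sub, mul_pow, Real.sq_sqrt (by positivity)]
  rw [h7, hwf, hwf, ← sub_div, div_pow, Real.sq_sqrt hc.le]

/-- One-particle energies summed. -/
noncomputable def bosE (n : ℕ) (lam : V → ℝ) (m : V → ℕ) : ℝ := (n : ℝ) / 2 * ∑ v, lam v * m v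

lemma sum_lam_occ (k : Fin N → V) : ∑ v, lam v * (occ k v : ℝ) = ∑ i, lam (k i) := by
  unfold occ
  push_cast
  simp only [Finset.mul_sum]
  rw [Finset.sum_comm]
  refine Finset.sum_congr rfl fun i _ => ?_
  simp

theorem kform_eq (hS : Spec adj e lam) (hadj : ∀ x y, adj x y → adj y x)
    (h1 : ∀ ζ, ζ ∉ occBox V n → ψ ζ = 0) (h2 : ∀ ζ, ∑ v, ζ v ≠ N → ψ ζ = 0) :
    kform n adj ψ = ∑ k : Fin N → V, bosE n lam (occ k) * four e (wf N ψ) k ^ 2 := by
  rcases N with _ | N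
  · have h3 : ∀ (σ : V → ℕ) v, ψ (σ + Pi.single v 1) = 0 := by
      intro σ v
      apply h2
      simp only [Pi.add_apply, Finset.sum_add_distrib]
      rw [Finset.sum_pi_single']
      simp
    have h4 : kform n adj ψ = 0 := by
      unfold kform
      simp [h3]
    rw [h4]
    symm
    refine Finset.sum_eq_zero fun k _ => ?_
    rw [bosE, sum_lam_occ]; simp
  · unfold kform
    have h3 : ∀ v w, (if adj v w then ∑ σ ∈ occBox V n,
        (Real.sqrt ((σ v : ℝ) + 1) * ψ (σ + Pi.single v 1) -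
          Real.sqrt ((σ w : ℝ) + 1) * ψ (σ + Pi.single w 1)) ^ 2 else 0) =
        (N + 1 : ℝ) * ∑ x : Fin N → V, (if adj v w then (wf (N + 1) ψ (Fin.cons v x) -
          wf (N + 1) ψ (Fin.cons w x)) ^ 2 else 0) := by
      intro v w
      split_ifs
      · exact hop_sum ψ h1 h2 v w
      · simp
    simp only [h3]
    have h4 : ∑ v, ∑ w, (N + 1 : ℝ) * ∑ x : Fin N → V, (if adj v w then
        (wf (N + 1) ψ (Fin.cons v x) - wf (N + 1) ψ (Fin.cons w x)) ^ 2 else 0) =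
        (N + 1 : ℝ) * ∑ x : Fin N → V, ∑ v, ∑ w, (if adj v w then
        (wf (N + 1) ψ (Fin.cons v x) - wf (N + 1) ψ (Fin.cons w x)) ^ 2 else 0) := by
      have h5 := sum_swap3 (Finset.univ : Finset (Fin N → V)) (fun _ => (N + 1 : ℝ))
        (fun v w x => if adj v w then
          (wf (N + 1) ψ (Fin.cons v x) - wf (N + 1) ψ (Fin.cons w x)) ^ 2 else 0)
      simp only [← Finset.mul_sum] at h5 ⊢
      exact h5
    rw [h4]
    have h6 : ∀ x : Fin N → V, ∑ v, ∑ w, (if adj v w then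
        (wf (N + 1) ψ (Fin.cons v x) - wf (N + 1) ψ (Fin.cons w x)) ^ 2 else 0) =
        2 * ∑ k, lam k * (∑ v, e k v * wf (N + 1) ψ (Fin.cons v x)) ^ 2 := fun x =>
      edge_spectral hS hadj (fun v => wf (N + 1) ψ (Fin.cons v x))
    simp only [h6]
    have h7 : ∑ x : Fin N → V, 2 * ∑ k, lam k *
        (∑ v, e k v * wf (N + 1) ψ (Fin.cons v x)) ^ 2 =
        2 * ∑ k : Fin (N + 1) → V, lam (k 0) * four e (wf (N + 1) ψ) k ^ 2 := by
      rw [← Finset.mul_sum, Finset.sum_comm]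
      congr 1
      rw [← (Fin.consEquiv fun _ => V).sum_comp, Fintype.sum_prod_type]
      refine Finset.sum_congr rfl fun k0 _ => ?_
      have h8 := parseval hS (fun x : Fin N → V => ∑ v, e k0 v * wf (N + 1) ψ (Fin.cons v x))
      rw [← Finset.mul_sum, ← h8, Finset.mul_sum]
      refine Finset.sum_congr rfl fun k _ => ?_
      change _ = lam ((Fin.cons k0 k : Fin (N + 1) → V) 0) *
        four e (wf (N + 1) ψ) (Fin.cons k0 k) ^ 2
      rw [four_cons, Fin.cons_zero]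
    rw [h7]
    have h9 : ∀ i : Fin (N + 1), ∑ k : Fin (N + 1) → V, lam (k i) * four e (wf (N + 1) ψ) k ^ 2 =
        ∑ k : Fin (N + 1) → V, lam (k 0) * four e (wf (N + 1) ψ) k ^ 2 := by
      intro i
      rw [← (Equiv.arrowCongr (Equiv.swap 0 i) (Equiv.refl V)).sum_comp]
      refine Finset.sum_congr rfl fun k _ => ?_
      have e1 : (Equiv.arrowCongr (Equiv.swap 0 i) (Equiv.refl V)) k = k ∘ Equiv.swap 0 i := by
        ext j; simp [Equiv.arrowCongr]
      rw [e1, four_perm hS _ (wf_perm ψ)]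
      simp
    have h10 : ∑ k : Fin (N + 1) → V, bosE n lam (occ k) * four e (wf (N + 1) ψ) k ^ 2 =
        (n : ℝ) / 2 * ∑ i : Fin (N + 1), ∑ k : Fin (N + 1) → V,
          lam (k i) * four e (wf (N + 1) ψ) k ^ 2 := by
      rw [Finset.sum_comm, Finset.mul_sum]
      refine Finset.sum_congr rfl fun k _ => ?_
      rw [bosE, sum_lam_occ, ← Finset.sum_mul]
      ring
    rw [h10]
    simp only [h9]
    rw [Finset.sum_const, Finset.card_univ, Fintype.card_fin, nsmul_eq_mul]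
    push_cast
    ring

end Vale.Agent.P361.B
end

section

set_option linter.unusedSectionVars false

/-!
Part B: low-energy part of the partition function against free bosons.
-/

namespace Vale.Agent.P361.B

open Finset Filter Topology

variable {V : Type*} [Fintype V] [DecidableEq V]
variable {n N : ℕ} {adj : V → V → Prop} [DecidableRel adj] {e : V → V → ℝ} {lam : V → ℝ}

lemma bessel {X ι : Type*} [Fintype X] (I : Finset ι) (F : ι → X → ℝ) (Φ : X → ℝ)
    (h1 : ∀ i ∈ I, ∑ x, F i x ^ 2 = 1) (h2 : ∀ i ∈ I, ∀ j ∈ I, i ≠ j → ∑ x, F i x * F j x = 0) :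
    ∑ i ∈ I, (∑ x, Φ x * F i x) ^ 2 ≤ ∑ x, Φ x ^ 2 := by
  set c : ι → ℝ := fun i => ∑ x, Φ x * F i x with hc
  have h0 : 0 ≤ ∑ x, (Φ x - ∑ i ∈ I, c i * F i x) ^ 2 := Finset.sum_nonneg fun x _ => sq_nonneg _
  have e1 : ∑ x, (Φ x - ∑ i ∈ I, c i * F i x) ^ 2 = ∑ x, Φ x ^ 2 -
      2 * ∑ x, Φ x * ∑ i ∈ I, c i * F i x + ∑ x, (∑ i ∈ I, c i * F i x) ^ 2 := by
    rw [Finset.mul_sum, ← Finset.sum_sub_distrib, ← Finset.sum_add_distrib]
    exact Finset.sum_congr rfl fun x _ => by ring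
  have e2 : ∑ x, Φ x * ∑ i ∈ I, c i * F i x = ∑ i ∈ I, c i ^ 2 := by
    simp only [Finset.mul_sum]
    rw [Finset.sum_comm]
    refine Finset.sum_congr rfl fun i _ => ?_
    calc ∑ x, Φ x * (c i * F i x) = c i * ∑ x, Φ x * F i x := by
          rw [Finset.mul_sum]; exact Finset.sum_congr rfl fun x _ => by ring
      _ = c i ^ 2 := by rw [sq]
  have e3 : ∑ x, (∑ i ∈ I, c i * F i x) ^ 2 = ∑ i ∈ I, c i ^ 2 := by
    have : ∀ x, (∑ i ∈ I, c i * F i x) ^ 2 = ∑ i ∈ I, ∑ j ∈ I, c i * c j * (F i x * F j x) := by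
      intro x
      rw [sq, Finset.sum_mul_sum]
      exact Finset.sum_congr rfl fun i _ => Finset.sum_congr rfl fun j _ => by ring
    simp only [this]
    rw [Finset.sum_comm]
    refine Finset.sum_congr rfl fun i hi => ?_
    rw [Finset.sum_comm]
    simp only [← Finset.mul_sum]
    rw [Finset.sum_eq_single i]
    · have : ∑ x, F i x * F i x = 1 := by rw [← h1 i hi]; exact Finset.sum_congr rfl fun x _ => by ring
      rw [this]; ring
    · intro j hj hij
      rw [h2 i hi j hj (Ne.symm hij), mul_zero]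
    · intro h; exact absurd hi h
  rw [e1, e2, e3] at h0
  linarith

/-- Occupation numbers of `N` particles. -/
noncomputable def occImg (V : Type*) [Fintype V] [DecidableEq V] (N : ℕ) : Finset (V → ℕ) :=
  (Finset.univ : Finset (Fin N → V)).image occ

theorem peierls_bosons {ι : Type*} (hS : Spec adj e lam) (hadj : ∀ x y, adj x y → adj y x)
    (I : Finset ι) (E : ι → ℝ) (ψ : ι → (V → ℕ) → ℝ) (h : ∀ i ∈ I, IsEig n adj N (E i) (ψ i))
    (horth : ∀ i ∈ I, ∀ j ∈ I, i ≠ j → ∑ ζ ∈ occBox V n, ψ i ζ * ψ j ζ = 0)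
    {d : ℝ} (hd : ∀ i ∈ I, kform n adj (ψ i) ≤ E i + d) {β : ℝ} (hβ : 0 ≤ β) :
    ∑ i ∈ I, Real.exp (-(β * E i)) ≤
      Real.exp (β * d) * ∑ m ∈ occImg V N, Real.exp (-(β * bosE n lam m)) := by
  classical
  set w : ι → (V → ℕ) → ℝ := fun i m =>
    ∑ k : Fin N → V, if occ k = m then four e (wf N (ψ i)) k ^ 2 else 0 with hw
  have hw0 : ∀ i m, 0 ≤ w i m := fun i m =>
    Finset.sum_nonneg fun k _ => by split_ifs <;> positivity
  have hfib : ∀ (i : ι) (g : (V → ℕ) → ℝ), ∑ m ∈ occImg V N, g m * w i m =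
      ∑ k : Fin N → V, g (occ k) * four e (wf N (ψ i)) k ^ 2 := by
    intro i g
    simp only [hw, Finset.mul_sum]
    rw [Finset.sum_comm]
    refine Finset.sum_congr rfl fun k _ => ?_
    rw [Finset.sum_eq_single (occ k)]
    · rw [if_pos rfl]
    · intro m _ hm
      rw [if_neg (Ne.symm hm), mul_zero]
    · intro hk
      exact absurd (Finset.mem_image_of_mem _ (Finset.mem_univ k)) hk
  have hone : ∀ i ∈ I, ∑ m ∈ occImg V N, w i m = 1 := by
    intro i hi
    have h1 := hfib i (fun _ => 1)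
    simp only [one_mul] at h1
    rw [h1, parseval hS]
    have h2 := wf_inner (ψ₂ := ψ i) (h i hi).supp (h i hi).sect
    have h3 : ∑ x, wf N (ψ i) x ^ 2 = ∑ x, wf N (ψ i) x * wf N (ψ i) x :=
      Finset.sum_congr rfl fun x _ => by ring
    rw [h3, h2, ← (h i hi).norm]
    exact Finset.sum_congr rfl fun x _ => by ring
  have hle : ∀ m ∈ occImg V N, ∑ i ∈ I, w i m ≤ 1 := by
    intro m hm
    obtain ⟨k0, _, hk0⟩ := Finset.mem_image.1 hm
    have hc : (0 : ℝ) < cnt N m := by rw [← hk0]; exact cnt_occ_pos k0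
    have hwm : ∀ i, w i m = cnt N m * four e (wf N (ψ i)) k0 ^ 2 := by
      intro i
      simp only [hw]
      rw [cnt_eq_sum]
      push_cast
      rw [Finset.sum_mul]
      refine Finset.sum_congr rfl fun k _ => ?_
      split_ifs with hk
      · rw [one_mul, four_occ hS _ (wf_perm (ψ i)) (hk.trans hk0.symm)]
      · rw [zero_mul]
    set Φ : (Fin N → V) → ℝ := fun x => ∑ k : Fin N → V, if occ k = m then tens e k x else 0 with hΦ
    have hΦF : ∀ i, ∑ x, Φ x * wf N (ψ i) x = cnt N m * four e (wf N (ψ i)) k0 := by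
      intro i
      simp only [hΦ, Finset.sum_mul]
      rw [Finset.sum_comm, cnt_eq_sum]
      push_cast
      rw [Finset.sum_mul]
      refine Finset.sum_congr rfl fun k _ => ?_
      by_cases hk : occ k = m
      · simp only [if_pos hk, one_mul]
        rw [four_occ hS _ (wf_perm (ψ i)) (hk0.trans hk.symm)]
        rfl
      · simp only [if_neg hk, zero_mul, Finset.sum_const_zero]
    have hΦ2 : ∑ x, Φ x ^ 2 = cnt N m := by
      have h1 : ∀ x, Φ x ^ 2 = ∑ k : Fin N → V, ∑ l : Fin N → V,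
          (if occ k = m then (1 : ℝ) else 0) * (if occ l = m then (1 : ℝ) else 0) *
            (tens e k x * tens e l x) := by
        intro x
        rw [sq]
        simp only [hΦ]
        rw [Finset.sum_mul_sum]
        refine Finset.sum_congr rfl fun k _ => Finset.sum_congr rfl fun l _ => ?_
        by_cases hk : occ k = m <;> by_cases hl : occ l = m <;> simp [hk, hl]
      simp only [h1]
      rw [Finset.sum_comm, cnt_eq_sum]
      push_cast
      refine Finset.sum_congr rfl fun k _ => ?_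
      rw [Finset.sum_comm]
      simp only [← Finset.mul_sum, tens_orth hS]
      rw [Finset.sum_eq_single k]
      · by_cases hk : occ k = m <;> simp [hk]
      · intro l _ hl
        rw [if_neg (Ne.symm hl), mul_zero]
      · simp
    have hb := bessel I (fun i => wf N (ψ i)) Φ
      (fun i hi => by
        have h2 := wf_inner (ψ₂ := ψ i) (h i hi).supp (h i hi).sect
        have h3 : ∑ x, wf N (ψ i) x ^ 2 = ∑ x, wf N (ψ i) x * wf N (ψ i) x :=
          Finset.sum_congr rfl fun x _ => by ring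
        rw [h3, h2, ← (h i hi).norm]
        exact Finset.sum_congr rfl fun x _ => by ring)
      (fun i hi j hj hij => by
        rw [wf_inner (h i hi).supp (h i hi).sect]
        exact horth i hi j hj hij)
    rw [hΦ2] at hb
    simp only [hΦF] at hb
    have h4 : ∑ i ∈ I, ((cnt N m : ℝ) * four e (wf N (ψ i)) k0) ^ 2 =
        cnt N m * ∑ i ∈ I, w i m := by
      rw [Finset.mul_sum]
      exact Finset.sum_congr rfl fun i _ => by rw [hwm]; ring
    rw [h4] at hb
    by_contra hcon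
    push Not at hcon
    have : (cnt N m : ℝ) * 1 < cnt N m * ∑ i ∈ I, w i m := mul_lt_mul_of_pos_left hcon hc
    linarith
  have hterm : ∀ i ∈ I, Real.exp (-(β * E i)) ≤
      Real.exp (β * d) * ∑ m ∈ occImg V N, w i m * Real.exp (-(β * bosE n lam m)) := by
    intro i hi
    have h1 : kform n adj (ψ i) = ∑ m ∈ occImg V N, bosE n lam m * w i m := by
      rw [hfib, kform_eq hS hadj (h i hi).supp (h i hi).sect]
    have h2 : Real.exp (∑ m ∈ occImg V N, w i m * (-(β * bosE n lam m))) ≤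
        ∑ m ∈ occImg V N, w i m * Real.exp (-(β * bosE n lam m)) := by
      have := convexOn_exp.map_sum_le (t := occImg V N) (w := w i)
        (p := fun m => -(β * bosE n lam m)) (fun m _ => hw0 i m) (hone i hi)
        (fun m _ => Set.mem_univ _)
      simpa [smul_eq_mul] using this
    have h3 : ∑ m ∈ occImg V N, w i m * (-(β * bosE n lam m)) = -(β * kform n adj (ψ i)) := by
      rw [h1, Finset.mul_sum, ← Finset.sum_neg_distrib]
      exact Finset.sum_congr rfl fun m _ => by ring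
    rw [h3] at h2
    calc Real.exp (-(β * E i)) ≤ Real.exp (β * d + -(β * kform n adj (ψ i))) := by
          apply Real.exp_le_exp.2
          have := mul_le_mul_of_nonneg_left (hd i hi) hβ
          linarith
      _ = Real.exp (β * d) * Real.exp (-(β * kform n adj (ψ i))) := Real.exp_add _ _
      _ ≤ _ := mul_le_mul_of_nonneg_left h2 (Real.exp_pos _).le
  calc ∑ i ∈ I, Real.exp (-(β * E i))
      ≤ ∑ i ∈ I, Real.exp (β * d) * ∑ m ∈ occImg V N, w i m * Real.exp (-(β * bosE n lam m)) :=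
        Finset.sum_le_sum hterm
    _ = Real.exp (β * d) * ∑ m ∈ occImg V N, (∑ i ∈ I, w i m) * Real.exp (-(β * bosE n lam m)) := by
        rw [← Finset.mul_sum, Finset.sum_comm]
        congr 1
        exact Finset.sum_congr rfl fun m _ => by rw [Finset.sum_mul]
    _ ≤ _ := by
        refine mul_le_mul_of_nonneg_left (Finset.sum_le_sum fun m hm => ?_) (Real.exp_pos _).le
        calc (∑ i ∈ I, w i m) * Real.exp (-(β * bosE n lam m))
            ≤ 1 * Real.exp (-(β * bosE n lam m)) :=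
              mul_le_mul_of_nonneg_right (hle m hm) (Real.exp_pos _).le
          _ = _ := one_mul _

/-- Low-energy, low-number part of the partition function. -/
theorem low_part {ι : Type*} (hn : 1 ≤ n) (hS : Spec adj e lam)
    (hadj : ∀ x y, adj x y → adj y x)
    (hirr : ∀ x, ¬ adj x x) {D : ℝ} (hD : ∀ x, ∑ y, (if adj x y then (1 : ℝ) else 0) ≤ D)
    (hD0 : 0 ≤ D)
    {b : V → ℝ} (hb : ∀ k x, e k x ^ 2 ≤ b k) (hb0 : ∀ k, 0 ≤ b k)
    {E1 : ℝ} (hE1 : 0 < E1) {N1 : ℕ} {β t : ℝ} (hβ : 0 ≤ β) (ht : 0 < t)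
    (hlam : ∀ k, 0 ≤ lam k)
    (I : Finset ι) (E : ι → ℝ) (Nn : ι → ℕ) (ψ : ι → (V → ℕ) → ℝ)
    (h : ∀ i ∈ I, IsEig n adj (Nn i) (E i) (ψ i)) (hE0 : ∀ i ∈ I, 0 ≤ E i)
    (hEE : ∀ i ∈ I, E i ≤ E1) (hNN : ∀ i ∈ I, Nn i ≤ N1)
    (horth : ∀ i ∈ I, ∀ j ∈ I, i ≠ j → ∑ ζ ∈ occBox V n, ψ i ζ * ψ j ζ = 0) :
    ∑ i ∈ I, Real.exp (-(β * E i + t * Nn i)) ≤
      Real.exp (β * (2 * D * Real.exp 2 * ((N1 : ℝ) ^ 2 * ∑ k, Real.exp (-(n * lam k / E1)) * b k))) *
      ∏ k, (1 - Real.exp (-(t + β * ((n : ℝ) / 2 * lam k))))⁻¹ := by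
  classical
  set d := 2 * D * Real.exp 2 * ((N1 : ℝ) ^ 2 * ∑ k, Real.exp (-(n * lam k / E1)) * b k) with hd
  have hP0 : 0 ≤ ∑ k, Real.exp (-(n * lam k / E1)) * b k :=
    Finset.sum_nonneg fun k _ => mul_nonneg (Real.exp_pos _).le (hb0 k)
  -- energy bound
  have hkf : ∀ i ∈ I, kform n adj (ψ i) ≤ E i + d := by
    intro i hi
    have h1 := (h i hi).kform_le hadj hirr
    have h2 := (h i hi).edge_sum_le hn (hE0 i hi) hadj hirr hS hD hb
      (s := 1 / (2 * E1)) (by positivity)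
    have e1 : ∀ k, -(2 * (1 / (2 * E1)) * n * lam k) = -(n * lam k / E1) := by
      intro k; field_simp
    simp only [e1] at h2
    have h3 : Real.exp (4 * E i * (1 / (2 * E1))) ≤ Real.exp 2 := by
      apply Real.exp_le_exp.2
      rw [mul_one_div, div_le_iff₀ (by positivity)]
      have := hEE i hi
      linarith
    have h4 : (Nn i : ℝ) ^ 2 ≤ (N1 : ℝ) ^ 2 := by
      have : (Nn i : ℝ) ≤ N1 := by exact_mod_cast hNN i hi
      exact pow_le_pow_left₀ (by positivity) this 2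
    have h5 : 2 * D * Real.exp (4 * E i * (1 / (2 * E1))) *
        ((Nn i : ℝ) ^ 2 * ∑ k, Real.exp (-(n * lam k / E1)) * b k) ≤ d := by
      rw [hd]
      have h6 : (Nn i : ℝ) ^ 2 * ∑ k, Real.exp (-(n * lam k / E1)) * b k ≤
          (N1 : ℝ) ^ 2 * ∑ k, Real.exp (-(n * lam k / E1)) * b k :=
        mul_le_mul_of_nonneg_right h4 hP0
      exact mul_le_mul (mul_le_mul_of_nonneg_left h3 (by positivity)) h6 (by positivity)
        (by positivity)
    linarith
  -- split by number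
  have hsplit : ∑ i ∈ I, Real.exp (-(β * E i + t * Nn i)) =
      ∑ N ∈ Finset.range (N1 + 1), Real.exp (-(t * N)) *
        ∑ i ∈ I.filter (fun i => Nn i = N), Real.exp (-(β * E i)) := by
    rw [← Finset.sum_fiberwise_of_maps_to (s := I) (t := Finset.range (N1 + 1)) (g := Nn)
      (fun i hi => Finset.mem_range.2 (Nat.lt_succ_of_le (hNN i hi)))]
    refine Finset.sum_congr rfl fun N _ => ?_
    rw [Finset.mul_sum]
    refine Finset.sum_congr rfl fun i hi => ?_
    rw [(Finset.mem_filter.1 hi).2, ← Real.exp_add]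
    congr 1; ring
  rw [hsplit]
  have hN : ∀ N, ∑ i ∈ I.filter (fun i => Nn i = N), Real.exp (-(β * E i)) ≤
      Real.exp (β * d) * ∑ m ∈ occImg V N, Real.exp (-(β * bosE n lam m)) := by
    intro N
    refine peierls_bosons hS hadj _ E ψ ?_ ?_ ?_ hβ
    · intro i hi
      have := h i (Finset.mem_filter.1 hi).1
      rwa [(Finset.mem_filter.1 hi).2] at this
    · intro i hi j hj hij
      exact horth i (Finset.mem_filter.1 hi).1 j (Finset.mem_filter.1 hj).1 hij
    · intro i hi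
      exact hkf i (Finset.mem_filter.1 hi).1
  have hstep : ∑ N ∈ Finset.range (N1 + 1), Real.exp (-(t * N)) *
        ∑ i ∈ I.filter (fun i => Nn i = N), Real.exp (-(β * E i)) ≤
      Real.exp (β * d) * ∑ N ∈ Finset.range (N1 + 1), ∑ m ∈ occImg V N,
        ∏ v, Real.exp (-(t + β * ((n : ℝ) / 2 * lam v))) ^ (m v) := by
    rw [Finset.mul_sum]
    refine Finset.sum_le_sum fun N _ => ?_
    calc Real.exp (-(t * N)) * ∑ i ∈ I.filter (fun i => Nn i = N), Real.exp (-(β * E i))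
        ≤ Real.exp (-(t * N)) * (Real.exp (β * d) *
          ∑ m ∈ occImg V N, Real.exp (-(β * bosE n lam m))) :=
          mul_le_mul_of_nonneg_left (hN N) (Real.exp_pos _).le
      _ = Real.exp (β * d) * ∑ m ∈ occImg V N, Real.exp (-(t * N)) *
          Real.exp (-(β * bosE n lam m)) := by
          rw [Finset.mul_sum, Finset.mul_sum, Finset.mul_sum]
          exact Finset.sum_congr rfl fun m _ => by ring
      _ = _ := by
          congr 1
          refine Finset.sum_congr rfl fun m hm => ?_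
          obtain ⟨k, _, hk⟩ := Finset.mem_image.1 hm
          have hsum : ∑ v, (m v : ℝ) = N := by rw [← hk]; exact_mod_cast sum_occ k
          rw [← Real.exp_add]
          have : ∏ v, Real.exp (-(t + β * ((n : ℝ) / 2 * lam v))) ^ (m v) =
              Real.exp (∑ v, (m v : ℝ) * (-(t + β * ((n : ℝ) / 2 * lam v)))) := by
            rw [Real.exp_sum]
            exact Finset.prod_congr rfl fun v _ => by rw [← Real.exp_nat_mul]
          rw [this, bosE, ← hsum]
          congr 1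
          rw [Finset.mul_sum, Finset.mul_sum, Finset.mul_sum, ← Finset.sum_neg_distrib,
            ← Finset.sum_neg_distrib, ← Finset.sum_add_distrib]
          exact Finset.sum_congr rfl fun v _ => by ring
  refine hstep.trans (mul_le_mul_of_nonneg_left ?_ (Real.exp_pos _).le)
  set q : V → ℝ := fun v => Real.exp (-(t + β * ((n : ℝ) / 2 * lam v))) with hq
  have hq0 : ∀ v, 0 ≤ q v := fun v => (Real.exp_pos _).le
  have hq1 : ∀ v, q v < 1 := by
    intro v
    simp only [hq]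
    rw [Real.exp_lt_one_iff]
    have : 0 ≤ β * ((n : ℝ) / 2 * lam v) := mul_nonneg hβ (mul_nonneg (by positivity) (hlam v))
    linarith
  have hdisj : ∀ a ∈ Finset.range (N1 + 1), ∀ c ∈ Finset.range (N1 + 1), a ≠ c →
      Disjoint (occImg V a) (occImg V c) := by
    intro a _ c _ hac
    rw [Finset.disjoint_left]
    intro m hma hmc
    obtain ⟨k, _, hk⟩ := Finset.mem_image.1 hma
    obtain ⟨l, _, hl⟩ := Finset.mem_image.1 hmc
    apply hac
    rw [← sum_occ k, ← sum_occ l, hk, hl]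
  rw [← Finset.sum_biUnion hdisj]
  calc ∑ m ∈ (Finset.range (N1 + 1)).biUnion (fun N => occImg V N), ∏ v, q v ^ m v
      ≤ ∑ m ∈ Fintype.piFinset (fun _ : V => Finset.range (N1 + 1)), ∏ v, q v ^ m v := by
        refine Finset.sum_le_sum_of_subset_of_nonneg ?_ fun m _ _ =>
          Finset.prod_nonneg fun v _ => pow_nonneg (hq0 v) _
        intro m hm
        obtain ⟨N, hN, hm2⟩ := Finset.mem_biUnion.1 hm
        obtain ⟨k, _, hk⟩ := Finset.mem_image.1 hm2
        rw [Fintype.mem_piFinset]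
        intro v
        have h1 : m v ≤ ∑ w, m w := Finset.single_le_sum (fun _ _ => Nat.zero_le _) (Finset.mem_univ v)
        have h2 : ∑ w, m w = N := by rw [← hk]; exact sum_occ k
        have h3 := Finset.mem_range.1 hN
        rw [Finset.mem_range]; omega
    _ = ∏ v, ∑ j ∈ Finset.range (N1 + 1), q v ^ j := by
        rw [Finset.prod_univ_sum]
    _ ≤ ∏ v, (1 - q v)⁻¹ := by
        refine Finset.prod_le_prod (fun v _ => Finset.sum_nonneg fun j _ => pow_nonneg (hq0 v) _)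
          fun v _ => ?_
        rw [← tsum_geometric_of_lt_one (hq0 v) (hq1 v)]
        exact (summable_geometric_of_lt_one (hq0 v) (hq1 v)).sum_le_tsum _
          fun j _ => pow_nonneg (hq0 v) _

end Vale.Agent.P361.B
end

section

set_option linter.unusedSectionVars false

/-!
Part B: eigenvectors of `hT` with fixed number, in occupation number form.
-/

namespace Vale.Agent.P361.B

open Matrix Finset
open Vale.Agent.P361.H (oA oB dotOp schwA schwB siteOp_apply siteOp_comm fin_le isNN_ne isNN_symm)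

variable {n : ℕ} {Λ : Finset Site}

/-- Extension by zero to all occupation numbers. -/
noncomputable def extF {n : ℕ} {Λ : Finset Site} (f : (Λ → Fin (n + 1)) → ℝ) (ζ : Λ → ℕ) : ℝ :=
  if h : ∀ x, ζ x ≤ n then f (fun x => ⟨ζ x, Nat.lt_succ_of_le (h x)⟩) else 0

/-- Occupation numbers of a configuration. -/
def valF {n : ℕ} {Λ : Finset Site} (σ : Λ → Fin (n + 1)) (x : Λ) : ℕ := (σ x : ℕ)

lemma extF_valF (f : (Λ → Fin (n + 1)) → ℝ) (σ : Λ → Fin (n + 1)) : extF f (valF σ) = f σ := by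
  unfold extF
  have h : ∀ x, valF σ x ≤ n := fun x => Nat.lt_succ_iff.1 (σ x).2
  rw [dif_pos h]
  rfl

lemma extF_out (f : (Λ → Fin (n + 1)) → ℝ) (ζ : Λ → ℕ) (h : ζ ∉ occBox Λ n) : extF f ζ = 0 := by
  unfold extF
  rw [mem_occBox] at h
  rw [dif_neg h]

lemma sum_occBox (G : (Λ → ℕ) → ℝ) :
    ∑ ζ ∈ occBox Λ n, G ζ = ∑ σ : Λ → Fin (n + 1), G (valF σ) := by
  symm
  refine Finset.sum_bij' (fun σ _ => valF σ)
    (fun ζ hζ => fun x => ⟨ζ x, Nat.lt_succ_of_le (mem_occBox.1 hζ x)⟩) ?_ ?_ ?_ ?_ ?_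
  · intro σ _
    rw [mem_occBox]
    exact fun x => Nat.lt_succ_iff.1 (σ x).2
  · intro ζ _; exact Finset.mem_univ _
  · intro σ _; rfl
  · intro ζ _; rfl
  · intro σ _; rfl

lemma prod_one_self (x : Λ) (σ : Λ → Fin (n + 1)) :
    ∏ z ∈ Finset.univ.erase x, (1 : Matrix (Fin (n + 1)) (Fin (n + 1)) ℂ) (σ z) (σ z) = 1 :=
  Finset.prod_eq_one fun z _ => Matrix.one_apply_eq _

lemma prod_one_ne (x : Λ) (σ τ : Λ → Fin (n + 1)) (z : Λ) (hz : z ≠ x) (h : σ z ≠ τ z) :
    ∏ z ∈ Finset.univ.erase x, (1 : Matrix (Fin (n + 1)) (Fin (n + 1)) ℂ) (σ z) (τ z) = 0 :=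
  Finset.prod_eq_zero (i := z) (Finset.mem_erase.2 ⟨hz, Finset.mem_univ z⟩) (Matrix.one_apply_ne h)

lemma oB_apply (y : Λ) (σ τ : Λ → Fin (n + 1)) : oB n y σ τ = schwB n (σ y) (τ y) *
    ∏ z ∈ Finset.univ.erase y, (1 : Matrix (Fin (n + 1)) (Fin (n + 1)) ℂ) (σ z) (τ z) :=
  siteOp_apply y _ σ τ

lemma oA_apply (y : Λ) (σ τ : Λ → Fin (n + 1)) : oA n y σ τ = schwA n (σ y) (τ y) *
    ∏ z ∈ Finset.univ.erase y, (1 : Matrix (Fin (n + 1)) (Fin (n + 1)) ℂ) (σ z) (τ z) :=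
  siteOp_apply y _ σ τ

lemma oB_mulVec (y : Λ) (f : (Λ → Fin (n + 1)) → ℝ) (σ : Λ → Fin (n + 1)) :
    (oB n y *ᵥ fun τ => (f τ : ℂ)) σ =
      ((Real.sqrt ((valF σ y : ℝ) + 1) * extF f (valF σ + Pi.single y 1) : ℝ) : ℂ) := by
  rw [Matrix.mulVec, dotProduct]
  by_cases h : (σ y : ℕ) < n
  · set τ0 : Λ → Fin (n + 1) := Function.update σ y ⟨(σ y : ℕ) + 1, by omega⟩ with hτ0
    have hv : valF τ0 = valF σ + Pi.single y 1 := by
      ext x
      by_cases hx : x = y
      · subst hx; simp [hτ0, valF]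
      · simp [hτ0, valF, hx]
    rw [← hv, extF_valF, Finset.sum_eq_single τ0]
    · rw [oB_apply]
      have h1 : ∏ z ∈ Finset.univ.erase y, (1 : Matrix (Fin (n + 1)) (Fin (n + 1)) ℂ) (σ z) (τ0 z) =
          1 := by
        refine Finset.prod_eq_one fun z hz => ?_
        have : τ0 z = σ z := by simp [hτ0, Finset.ne_of_mem_erase hz]
        rw [this, Matrix.one_apply_eq]
      rw [h1, mul_one]
      have h2 : schwB n (σ y) (τ0 y) = ((Real.sqrt ((valF σ y : ℝ) + 1) : ℝ) : ℂ) := by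
        simp only [schwB, Matrix.of_apply]
        have : (τ0 y : ℕ) = (σ y : ℕ) + 1 := by simp [hτ0]
        rw [if_pos this, this]
        push_cast
        rfl
      rw [h2]; push_cast; ring
    · intro τ _ hτ
      rw [oB_apply]
      by_cases hall : ∀ z, z ≠ y → τ z = σ z
      · have hy : (τ y : ℕ) ≠ (σ y : ℕ) + 1 := by
          intro hy
          apply hτ
          ext z
          by_cases hz : z = y
          · subst hz; simp [hτ0, hy]
          · simp [hτ0, hz, hall z hz]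
        have : schwB n (σ y) (τ y) = 0 := by
          simp only [schwB, Matrix.of_apply, if_neg hy]
        rw [this]; simp
      · push Not at hall
        obtain ⟨z, hz, hne⟩ := hall
        rw [prod_one_ne y σ τ z hz (Ne.symm hne)]
        simp
    · intro h'; exact absurd (Finset.mem_univ _) h'
  · have hout : extF f (valF σ + Pi.single y 1) = 0 := by
      apply extF_out
      rw [mem_occBox]
      push Not
      refine ⟨y, ?_⟩
      have := (σ y).2
      simp only [Pi.add_apply, Pi.single_eq_same, valF]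
      omega
    rw [hout, mul_zero, Complex.ofReal_zero]
    refine Finset.sum_eq_zero fun τ _ => ?_
    rw [oB_apply]
    have : schwB n (σ y) (τ y) = 0 := by
      simp only [schwB, Matrix.of_apply]
      rw [if_neg]
      have := (τ y).2
      omega
    rw [this]; simp

lemma oA_mulVec (x : Λ) (g : (Λ → Fin (n + 1)) → ℂ) (σ : Λ → Fin (n + 1)) :
    (oA n x *ᵥ g) σ = ((Real.sqrt ((n : ℝ) - valF σ x) : ℝ) : ℂ) * g σ := by
  rw [Matrix.mulVec, dotProduct, Finset.sum_eq_single σ]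
  · rw [oA_apply, prod_one_self, mul_one]
    simp only [schwA, Matrix.diagonal_apply_eq, valF]
  · intro τ _ hτ
    rw [oA_apply]
    by_cases hx : τ x = σ x
    · obtain ⟨z, hz⟩ := Function.ne_iff.1 hτ
      have hzx : z ≠ x := fun h => hz (h ▸ hx)
      rw [prod_one_ne x σ τ z hzx (Ne.symm hz)]
      simp
    · simp only [schwA]
      rw [Matrix.diagonal_apply_ne _ (Ne.symm hx)]; simp
  · intro h'; exact absurd (Finset.mem_univ _) h'

lemma edge_mulVec {x y : Λ} (hxy : x ≠ y) (f : (Λ → Fin (n + 1)) → ℝ) (σ : Λ → Fin (n + 1)) :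
    ((oA n x * oB n y - oB n x * oA n y) *ᵥ fun τ => (f τ : ℂ)) σ =
      ((edgeT n x y (extF f) (valF σ) : ℝ) : ℂ) := by
  have hc : oB n x * oA n y = oA n y * oB n x := siteOp_comm hxy _ _
  rw [hc, Matrix.sub_mulVec, Pi.sub_apply, ← Matrix.mulVec_mulVec, ← Matrix.mulVec_mulVec,
    oA_mulVec, oA_mulVec, oB_mulVec, oB_mulVec, edgeT]
  push_cast
  ring

/-- The energy form. -/
noncomputable def eForm (n : ℕ) (Λ : Finset Site) (f g : (Λ → ℕ) → ℝ) : ℝ :=
  1 / 4 * ∑ x : Λ, ∑ y : Λ, if IsNN x.1 y.1 then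
    ∑ ζ ∈ occBox Λ n, edgeT n x y f ζ * edgeT n x y g ζ else 0

lemma edge_form {x y : Λ} (hxy : x ≠ y) (f g : (Λ → Fin (n + 1)) → ℝ) :
    (fun σ => (f σ : ℂ)) ⬝ᵥ (((((n : ℂ) / 2) ^ 2) • (1 : Matrix _ _ ℂ) - dotOp n x y) *ᵥ
      fun σ => (g σ : ℂ)) =
    ((1 / 2 * ∑ ζ ∈ occBox Λ n, edgeT n x y (extF f) ζ * edgeT n x y (extF g) ζ : ℝ) : ℂ) := by
  have h1 := H.dot_sos (n := n) hxy
  set T : Matrix (Λ → Fin (n + 1)) (Λ → Fin (n + 1)) ℂ :=
    oA n x * oB n y - oB n x * oA n y with hT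
  have h2 : (((n : ℂ) / 2) ^ 2) • (1 : Matrix (Λ → Fin (n + 1)) (Λ → Fin (n + 1)) ℂ) - dotOp n x y =
      (1 / 2 : ℂ) • (Tᴴ * T) := by
    rw [h1, smul_sub, smul_smul, smul_smul]
    congr 1
    · congr 1; ring
    · norm_num
  rw [h2, Matrix.smul_mulVec, dotProduct_smul, ← Matrix.mulVec_mulVec, Matrix.dotProduct_mulVec]
  have h3 : (fun σ => (f σ : ℂ)) ᵥ* Tᴴ = star (T *ᵥ fun σ => (f σ : ℂ)) := by
    rw [Matrix.star_mulVec]
    congr 1
    ext σ
    simp
  rw [h3, dotProduct, smul_eq_mul, sum_occBox]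
  push_cast
  congr 1
  refine Finset.sum_congr rfl fun σ _ => ?_
  rw [Pi.star_apply, hT, edge_mulVec hxy, edge_mulVec hxy]
  simp

lemma hT_form (f g : (Λ → Fin (n + 1)) → ℝ) :
    (fun σ => (f σ : ℂ)) ⬝ᵥ (hT n Λ *ᵥ fun σ => (g σ : ℂ)) =
      ((eForm n Λ (extF f) (extF g) : ℝ) : ℂ) := by
  rw [hT, Matrix.smul_mulVec, dotProduct_smul, Matrix.sum_mulVec, dotProduct_sum, smul_eq_mul]
  have h1 : ∀ x : Λ, (fun σ => (f σ : ℂ)) ⬝ᵥ ((∑ y : Λ, if IsNN x.1 y.1 then
      (((n : ℂ) / 2) ^ 2) • (1 : Matrix _ _ ℂ) - H.dotOp n x y else 0) *ᵥ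
      fun σ => (g σ : ℂ)) = ((∑ y : Λ, if IsNN x.1 y.1 then
        (1 / 2 * ∑ ζ ∈ occBox Λ n, edgeT n x y (extF f) ζ * edgeT n x y (extF g) ζ : ℝ) else 0 : ℝ)
          : ℂ) := by
    intro x
    rw [Matrix.sum_mulVec, dotProduct_sum]
    push_cast
    refine Finset.sum_congr rfl fun y _ => ?_
    split_ifs with hxy
    · rw [edge_form (isNN_ne hxy)]
    · simp
  simp only [h1]
  unfold eForm
  have h2 : (1 / 4 : ℝ) * ∑ x : Λ, ∑ y : Λ, (if IsNN x.1 y.1 then
      ∑ ζ ∈ occBox Λ n, edgeT n x y (extF f) ζ * edgeT n x y (extF g) ζ else 0) =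
      1 / 2 * ∑ x : Λ, ∑ y : Λ, (if IsNN x.1 y.1 then
      (1 / 2 * ∑ ζ ∈ occBox Λ n, edgeT n x y (extF f) ζ * edgeT n x y (extF g) ζ) else 0) := by
    rw [Finset.mul_sum, Finset.mul_sum]
    refine Finset.sum_congr rfl fun x _ => ?_
    rw [Finset.mul_sum, Finset.mul_sum]
    refine Finset.sum_congr rfl fun y _ => ?_
    split_ifs
    · ring
    · ring
  rw [h2]
  push_cast
  rfl

/-- Real matrix of `hT`. -/
noncomputable def hR (n : ℕ) (Λ : Finset Site) : Matrix (Λ → Fin (n + 1)) (Λ → Fin (n + 1)) ℝ :=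
  Matrix.of fun σ τ => eForm n Λ (extF (Pi.single σ 1)) (extF (Pi.single τ 1))

lemma hT_eq_map : hT n Λ = (hR n Λ).map (fun r : ℝ => (r : ℂ)) := by
  ext σ τ
  rw [Matrix.map_apply, hR, Matrix.of_apply, ← hT_form]
  have e1 : ∀ ρ : Λ → Fin (n + 1), (fun σ' => ((Pi.single ρ (1 : ℝ) : (Λ → Fin (n + 1)) → ℝ) σ' : ℂ)) =
      Pi.single ρ (1 : ℂ) := by
    intro ρ
    ext σ'
    by_cases h : σ' = ρ
    · subst h; simp
    · simp [h]
  rw [e1, e1]
  simp

lemma eForm_symm (f g : (Λ → ℕ) → ℝ) : eForm n Λ f g = eForm n Λ g f := by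
  unfold eForm
  congr 1
  refine Finset.sum_congr rfl fun x _ => Finset.sum_congr rfl fun y _ => ?_
  by_cases hxy : IsNN x.1 y.1
  · rw [if_pos hxy, if_pos hxy]
    exact Finset.sum_congr rfl fun ζ _ => mul_comm _ _
  · rw [if_neg hxy, if_neg hxy]

lemma hR_symm : (hR n Λ)ᵀ = hR n Λ := by
  ext σ τ
  rw [Matrix.transpose_apply]
  exact eForm_symm _ _

lemma hR_form (f g : (Λ → Fin (n + 1)) → ℝ) :
    f ⬝ᵥ (hR n Λ *ᵥ g) = eForm n Λ (extF f) (extF g) := by
  have h := hT_form (n := n) f g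
  rw [hT_eq_map] at h
  have h2 : (fun σ => (f σ : ℂ)) ⬝ᵥ ((hR n Λ).map (fun r : ℝ => (r : ℂ)) *ᵥ fun σ => (g σ : ℂ)) =
      ((f ⬝ᵥ (hR n Λ *ᵥ g) : ℝ) : ℂ) := by
    simp only [dotProduct, Matrix.mulVec, Matrix.map_apply]
    push_cast
    rfl
  rw [h2] at h
  exact_mod_cast h

/-- Number of magnons. -/
def totF {n : ℕ} {Λ : Finset Site} (σ : Λ → Fin (n + 1)) : ℕ := ∑ x, valF σ x

lemma extF_single {σ : Λ → Fin (n + 1)} {ζ : Λ → ℕ}
    (h : extF (Pi.single σ (1 : ℝ)) ζ ≠ 0) : ζ = valF σ := by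
  unfold extF at h
  by_cases h1 : ∀ x, ζ x ≤ n
  · rw [dif_pos h1] at h
    have h2 : (fun x => (⟨ζ x, Nat.lt_succ_of_le (h1 x)⟩ : Fin (n + 1))) = σ := by
      by_contra hne
      apply h
      simp [hne]
    ext x
    rw [← h2]
    rfl
  · rw [dif_neg h1] at h
    exact absurd rfl h

lemma edgeT_single {σ : Λ → Fin (n + 1)} {x y : Λ} {ζ : Λ → ℕ}
    (h : edgeT n x y (extF (Pi.single σ (1 : ℝ))) ζ ≠ 0) : ∑ z, ζ z + 1 = totF σ := by
  have hs : ∀ w : Λ, ∑ z, (ζ + Pi.single w 1 : Λ → ℕ) z = ∑ z, ζ z + 1 := by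
    intro w
    simp only [Pi.add_apply, Finset.sum_add_distrib]
    rw [Finset.sum_pi_single']
    simp
  by_cases h1 : extF (Pi.single σ (1 : ℝ)) (ζ + Pi.single y 1) = 0
  · by_cases h2 : extF (Pi.single σ (1 : ℝ)) (ζ + Pi.single x 1) = 0
    · exfalso; apply h; rw [edgeT, h1, h2]; ring
    · rw [← hs x, extF_single h2]; rfl
  · rw [← hs y, extF_single h1]; rfl

lemma hR_comm (σ τ : Λ → Fin (n + 1)) (h : totF σ ≠ totF τ) : hR n Λ σ τ = 0 := by
  rw [hR, Matrix.of_apply, eForm]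
  refine mul_eq_zero_of_right _ (Finset.sum_eq_zero fun x _ => Finset.sum_eq_zero fun y _ => ?_)
  split_ifs
  · refine Finset.sum_eq_zero fun ζ _ => ?_
    by_contra hne
    have h1 := left_ne_zero_of_mul hne
    have h2 := right_ne_zero_of_mul hne
    exact h ((edgeT_single h1).symm.trans (edgeT_single h2))
  · rfl

lemma numOp_eq : numOp n Λ = (diagonal fun σ : Λ → Fin (n + 1) => (totF σ : ℝ)).map
    (fun r : ℝ => (r : ℂ)) := by
  have h1 : ∀ x : Λ, ((n : ℂ) / 2) • (1 : Matrix (Λ → Fin (n + 1)) (Λ → Fin (n + 1)) ℂ) -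
      H.oZ n x = diagonal fun σ => ((valF σ x : ℕ) : ℂ) := by
    intro x
    rw [← H.siteOp_one x, ← H.siteOp_smul, ← H.siteOp_sub]
    ext σ τ
    rw [siteOp_apply]
    by_cases hστ : σ = τ
    · subst hστ
      rw [prod_one_self, Matrix.diagonal_apply_eq, mul_one, Matrix.sub_apply, Matrix.smul_apply,
        Matrix.one_apply_eq, spinZ, Matrix.diagonal_apply_eq, valF]
      simp
    · rw [Matrix.diagonal_apply_ne _ hστ]
      by_cases hx : σ x = τ x
      · obtain ⟨z, hz⟩ := Function.ne_iff.1 hστ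
        have hzx : z ≠ x := fun h => hz (h ▸ hx)
        rw [prod_one_ne x σ τ z hzx hz, mul_zero]
      · rw [Matrix.sub_apply, Matrix.smul_apply, Matrix.one_apply_ne hx, spinZ,
          Matrix.diagonal_apply_ne _ hx]
        simp
  rw [numOp]
  simp only [h1]
  ext σ τ
  rw [Matrix.sum_apply, Matrix.map_apply]
  by_cases hστ : σ = τ
  · subst hστ
    simp only [Matrix.diagonal_apply_eq, totF]
    push_cast
    rfl
  · simp only [Matrix.diagonal_apply_ne _ hστ]
    simp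

/-- Eigenbasis of `hT` with magnon numbers, and the partition function. -/
theorem exists_eigs (n : ℕ) (Λ : Finset Site) :
    ∃ (E : (Λ → Fin (n + 1)) → ℝ) (Nn : (Λ → Fin (n + 1)) → ℕ)
      (ψ : (Λ → Fin (n + 1)) → (Λ → ℕ) → ℝ),
      (∀ i, IsEig n (fun x y : Λ => IsNN x.1 y.1) (Nn i) (E i) (ψ i)) ∧ (∀ i, 0 ≤ E i) ∧
      (∀ i j, i ≠ j → ∑ ζ ∈ occBox Λ n, ψ i ζ * ψ j ζ = 0) ∧
      ∀ β t : ℝ, Zt n Λ β t = ∑ i, Real.exp (-(β * E i + t * Nn i)) := by
  obtain ⟨U, E, Nn, h1, h2, h3, h4⟩ := joint_diag (hR n Λ) hR_symm totF hR_comm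
  have hinner : ∀ (f g : (Λ → Fin (n + 1)) → ℝ),
      ∑ ζ ∈ occBox Λ n, extF f ζ * extF g ζ = ∑ σ, f σ * g σ := by
    intro f g
    rw [sum_occBox]
    exact Finset.sum_congr rfl fun σ _ => by rw [extF_valF, extF_valF]
  have horth : ∀ i j, ∑ ζ ∈ occBox Λ n, extF (fun σ => U σ i) ζ * extF (fun σ => U σ j) ζ =
      if i = j then 1 else 0 := by
    intro i j
    rw [hinner]
    have := congrFun (congrFun h1 i) j
    rw [Matrix.mul_apply] at this
    simp only [Matrix.transpose_apply, Matrix.one_apply] at this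
    exact this
  have heig : ∀ i, hR n Λ *ᵥ (fun σ => U σ i) = fun σ => E i * U σ i := by
    intro i
    have h5 : hR n Λ * U = U * diagonal E := by
      conv_lhs => rw [h3]
      rw [Matrix.mul_assoc, h1, Matrix.mul_one]
    ext σ
    have h6 := congrFun (congrFun h5 σ) i
    rw [Matrix.mul_diagonal, Matrix.mul_apply] at h6
    rw [Matrix.mulVec, dotProduct, h6]; ring
  have hweak : ∀ i (f : (Λ → Fin (n + 1)) → ℝ), eForm n Λ (extF f) (extF fun σ => U σ i) =
      E i * ∑ ζ ∈ occBox Λ n, extF f ζ * extF (fun σ => U σ i) ζ := by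
    intro i f
    rw [← hR_form, heig, hinner, dotProduct, Finset.mul_sum]
    exact Finset.sum_congr rfl fun σ _ => by ring
  refine ⟨E, Nn, fun i => extF (fun σ => U σ i), ?_, ?_, ?_, ?_⟩
  · intro i
    refine ⟨fun ζ hζ => extF_out _ ζ hζ, ?_, ?_, ?_⟩
    · intro ζ hζ
      by_cases hb : ζ ∈ occBox Λ n
      · rw [mem_occBox] at hb
        change extF (fun σ => U σ i) ζ = 0
        unfold extF
        rw [dif_pos hb]
        exact h4 _ i hζ
      · exact extF_out _ ζ hb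
    · have := horth i i
      rw [if_pos rfl] at this
      rw [← this]
      exact Finset.sum_congr rfl fun ζ _ => by ring
    · intro X
      have hX : ∀ ζ, X ζ * extF (fun σ => U σ i) ζ = extF (fun σ => X (valF σ) * U σ i) ζ := by
        intro ζ
        unfold extF
        split_ifs with hb
        · rfl
        · ring
      have h5 := hweak i (fun σ => X (valF σ) * U σ i)
      have h6 : ∑ ζ ∈ occBox Λ n, X ζ * extF (fun σ => U σ i) ζ ^ 2 =
          ∑ ζ ∈ occBox Λ n, extF (fun σ => X (valF σ) * U σ i) ζ * extF (fun σ => U σ i) ζ :=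
        Finset.sum_congr rfl fun ζ _ => by rw [← hX]; ring
      rw [h6, ← h5, eForm]
      simp only [hX]
  · intro i
    have h5 := hweak i (fun σ => U σ i)
    have h6 := horth i i
    rw [if_pos rfl] at h6
    rw [h6, mul_one] at h5
    rw [← h5, eForm]
    refine mul_nonneg (by norm_num) (Finset.sum_nonneg fun x _ => Finset.sum_nonneg fun y _ => ?_)
    split_ifs
    · exact Finset.sum_nonneg fun ζ _ => mul_self_nonneg _
    · exact le_rfl
  · intro i j hij
    have := horth i j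
    rwa [if_neg hij] at this
  · intro β t
    have hnum : diagonal (fun σ : Λ → Fin (n + 1) => (totF σ : ℝ)) =
        U * diagonal (fun j => (Nn j : ℝ)) * Uᵀ := by
      have h5 : diagonal (fun σ : Λ → Fin (n + 1) => (totF σ : ℝ)) * U =
          U * diagonal (fun j => (Nn j : ℝ)) := by
        ext σ j
        rw [Matrix.diagonal_mul, Matrix.mul_diagonal]
        by_cases hij : totF σ = Nn j
        · rw [hij]; ring
        · rw [h4 σ j hij]; ring
      rw [← h5, Matrix.mul_assoc, h2, Matrix.mul_one]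
    have hmat : -((β : ℂ) • hT n Λ + (t : ℂ) • numOp n Λ) =
        (U * diagonal (fun i => -(β * E i + t * Nn i)) * Uᵀ).map (fun r : ℝ => (r : ℂ)) := by
      have h5 : U * diagonal (fun i => -(β * E i + t * Nn i)) * Uᵀ =
          -(β • hR n Λ + t • diagonal (fun σ : Λ → Fin (n + 1) => (totF σ : ℝ))) := by
        rw [hnum]
        conv_rhs => rw [h3]
        have : (diagonal fun i => -(β * E i + t * (Nn i : ℝ))) =
            -(β • diagonal E + t • diagonal (fun j => (Nn j : ℝ))) := by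
          rw [← Matrix.diagonal_smul, ← Matrix.diagonal_smul, Matrix.diagonal_add,
            ← Matrix.diagonal_neg]
          rfl
        rw [this]
        simp only [Matrix.mul_neg, Matrix.neg_mul, Matrix.mul_add, Matrix.add_mul, Matrix.mul_smul,
          Matrix.smul_mul]
      rw [h5, hT_eq_map, numOp_eq]
      ext σ τ
      simp only [Matrix.map_apply, Matrix.neg_apply, Matrix.add_apply, Matrix.smul_apply,
        smul_eq_mul]
      push_cast
      rfl
    rw [Zt, hmat, trace_exp_real_conj U h1 h2, Complex.ofReal_re]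

end Vale.Agent.P361.B
end

section

set_option linter.unusedSectionVars false

/-!
Part B: finite-volume upper bound for the partition function on cubes.
-/

namespace Vale.Agent.P361.B

open Finset
open Vale.Agent.P361.H (bJ bJ_nonneg bJ_antitone)

variable {n L : ℕ}

lemma Zt_pos_eig (n : ℕ) (Λ : Finset Site) (β t : ℝ) : 0 < Zt n Λ β t := by
  obtain ⟨E, Nn, ψ, _, _, _, hZ⟩ := exists_eigs n Λ
  rw [hZ]
  exact Finset.sum_pos (fun i _ => Real.exp_pos _) Finset.univ_nonempty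

lemma Zt_split (hn : 1 ≤ n) (hL : 0 < L) {β t E1 : ℝ} (hβ : 0 ≤ β) (ht : 0 < t) (hE1 : 0 < E1)
    (N1 : ℕ) :
    Zt n (cube L) β t ≤ Real.exp (-(β * E1 / 2)) * Zt n (cube L) (β / 2) 0 +
      Real.exp (-(t * N1)) * Zt n (cube L) β 0 +
      Real.exp (β * (12 * Real.exp 2 * ((N1 : ℝ) ^ 2 * (1 / L + 2 * bJ (2 * n / E1)) ^ 3))) *
        ∏ k : cube L, (1 - Real.exp (-(t + β * ((n : ℝ) / 2 * lam3 L k))))⁻¹ := by
  classical
  obtain ⟨E, Nn, ψ, hψ, hE0, horth, hZ⟩ := exists_eigs n (cube L)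
  rw [hZ, hZ, hZ]
  set I1 := Finset.univ.filter (fun i => E1 < E i) with hI1
  set I2 := Finset.univ.filter (fun i => E i ≤ E1 ∧ N1 < Nn i) with hI2
  set I3 := Finset.univ.filter (fun i => E i ≤ E1 ∧ Nn i ≤ N1) with hI3
  have hsplit : ∑ i, Real.exp (-(β * E i + t * Nn i)) =
      ∑ i ∈ I1, Real.exp (-(β * E i + t * Nn i)) + ∑ i ∈ I2, Real.exp (-(β * E i + t * Nn i)) +
      ∑ i ∈ I3, Real.exp (-(β * E i + t * Nn i)) := by
    rw [hI1, hI2, hI3, Finset.sum_filter, Finset.sum_filter, Finset.sum_filter,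
      ← Finset.sum_add_distrib, ← Finset.sum_add_distrib]
    refine Finset.sum_congr rfl fun i _ => ?_
    by_cases h1 : E1 < E i
    · rw [if_pos h1, if_neg (fun h => absurd h.1 (not_le.2 h1)),
        if_neg (fun h => absurd h.1 (not_le.2 h1))]
      ring
    · rw [not_lt] at h1
      by_cases h2 : N1 < Nn i
      · rw [if_neg (not_lt.2 h1), if_pos ⟨h1, h2⟩, if_neg (fun h => absurd h.2 (not_le.2 h2))]
        ring
      · rw [not_lt] at h2
        rw [if_neg (not_lt.2 h1), if_neg (fun h => absurd h.2 (not_lt.2 h2)), if_pos ⟨h1, h2⟩]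
        ring
  rw [hsplit]
  refine add_le_add (add_le_add ?_ ?_) ?_
  · rw [Finset.mul_sum]
    refine (Finset.sum_le_sum (fun i hi => ?_)).trans
      (Finset.sum_le_sum_of_subset_of_nonneg (Finset.subset_univ _)
        (fun i _ _ => mul_nonneg (Real.exp_pos _).le (Real.exp_pos _).le))
    rw [← Real.exp_add]
    apply Real.exp_le_exp.2
    have h1 : E1 < E i := (Finset.mem_filter.1 hi).2
    have h2 : 0 ≤ t * Nn i := by positivity
    have h3 : β * E1 ≤ β * E i := mul_le_mul_of_nonneg_left h1.le hβ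
    nlinarith
  · rw [Finset.mul_sum]
    refine (Finset.sum_le_sum (fun i hi => ?_)).trans
      (Finset.sum_le_sum_of_subset_of_nonneg (Finset.subset_univ _)
        (fun i _ _ => mul_nonneg (Real.exp_pos _).le (Real.exp_pos _).le))
    rw [← Real.exp_add]
    apply Real.exp_le_exp.2
    have h1 : N1 < Nn i := (Finset.mem_filter.1 hi).2.2
    have h2 : t * N1 ≤ t * Nn i := mul_le_mul_of_nonneg_left (by exact_mod_cast h1.le) ht.le
    linarith
  · have h := low_part (ι := cube L → Fin (n + 1)) hn (spec3 hL)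
      (fun x y hxy => H.isNN_symm hxy) (fun x hx => H.isNN_ne hx rfl)
      (D := 6) degree_le (by norm_num) dct3_sq_le bd3_nonneg hE1 (N1 := N1) hβ ht lam3_nonneg
      I3 E Nn ψ (fun i _ => hψ i) (fun i _ => hE0 i) (fun i hi => (Finset.mem_filter.1 hi).2.1)
      (fun i hi => (Finset.mem_filter.1 hi).2.2) (fun i _ j _ hij => horth i j hij)
    refine h.trans ?_
    have h1 : ∑ k : cube L, Real.exp (-(n * lam3 L k / E1)) * bd3 L k ≤
        (1 / L + 2 * bJ (2 * n / E1)) ^ 3 := by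
      have h2 := three_dim_sum_bd (L := L) hL (t := 2 * n / E1) (by positivity)
      refine le_trans (le_of_eq ?_) h2
      refine Finset.sum_congr rfl fun k _ => ?_
      congr 3
      field_simp
    have hprod : 0 ≤ ∏ k : cube L, (1 - Real.exp (-(t + β * ((n : ℝ) / 2 * lam3 L k))))⁻¹ := by
      refine Finset.prod_nonneg fun k _ => inv_nonneg.2 (sub_nonneg.2 ?_)
      rw [Real.exp_le_one_iff]
      have : 0 ≤ β * ((n : ℝ) / 2 * lam3 L k) :=
        mul_nonneg hβ (mul_nonneg (by positivity) (lam3_nonneg k))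
      linarith
    refine mul_le_mul_of_nonneg_right ?_ hprod
    apply Real.exp_le_exp.2
    refine mul_le_mul_of_nonneg_left ?_ hβ
    have h3 : (2 : ℝ) * 6 * Real.exp 2 = 12 * Real.exp 2 := by ring
    rw [h3]
    refine mul_le_mul_of_nonneg_left ?_ (by positivity)
    exact mul_le_mul_of_nonneg_left h1 (by positivity)

/-- Free boson pressure series. -/
noncomputable def bosSer (n L : ℕ) (β t : ℝ) : ℝ :=
  ∑' j : ℕ, Real.exp (-(((j : ℝ) + 1) * t)) / ((j : ℝ) + 1) *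
    (1 + L * bJ (((j : ℝ) + 1) * (n * β))) ^ 3

lemma bJ_le_one {t : ℝ} (ht : 0 ≤ t) : bJ t ≤ 1 := by
  have h1 := bJ_antitone ht
  have h2 : bJ 0 = 1 := by
    unfold bJ
    simp
  rw [h2] at h1
  exact h1

lemma bosSer_summable (n L : ℕ) {β t : ℝ} (hβ : 0 ≤ β) (ht : 0 < t) :
    Summable fun j : ℕ => Real.exp (-(((j : ℝ) + 1) * t)) / ((j : ℝ) + 1) *
    (1 + L * bJ (((j : ℝ) + 1) * (n * β))) ^ 3 := by
  have hgeo : Summable fun j : ℕ => (1 + (L : ℝ)) ^ 3 * Real.exp (-t) ^ (j + 1) := by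
    refine Summable.mul_left _ ?_
    exact (summable_nat_add_iff 1).2 (summable_geometric_of_lt_one (Real.exp_pos _).le
      (by rw [Real.exp_lt_one_iff]; linarith))
  refine Summable.of_nonneg_of_le (fun j => ?_) (fun j => ?_) hgeo
  · have := bJ_nonneg (((j : ℝ) + 1) * (n * β))
    positivity
  · have h1 : Real.exp (-(((j : ℝ) + 1) * t)) / ((j : ℝ) + 1) ≤ Real.exp (-t) ^ (j + 1) := by
      rw [← Real.exp_nat_mul, div_le_iff₀ (by positivity)]
      have : Real.exp (-(((j : ℝ) + 1) * t)) = Real.exp (((j + 1 : ℕ) : ℝ) * -t) := by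
        congr 1; push_cast; ring
      rw [this]
      have h2 := Real.exp_pos (((j + 1 : ℕ) : ℝ) * -t)
      have h3 : (1 : ℝ) ≤ (j : ℝ) + 1 := by
        have : (0 : ℝ) ≤ j := by positivity
        linarith
      nlinarith
    have h2 : (1 + L * bJ (((j : ℝ) + 1) * (n * β))) ^ 3 ≤ (1 + (L : ℝ)) ^ 3 := by
      have hb := bJ_nonneg (((j : ℝ) + 1) * (n * β))
      refine pow_le_pow_left₀ (by positivity) ?_ 3
      have h3 := bJ_le_one (t := ((j : ℝ) + 1) * (n * β)) (by positivity)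
      have : (L : ℝ) * bJ (((j : ℝ) + 1) * (n * β)) ≤ L * 1 :=
        mul_le_mul_of_nonneg_left h3 (by positivity)
      linarith
    calc _ ≤ Real.exp (-t) ^ (j + 1) * (1 + (L : ℝ)) ^ 3 := by
          have hb := bJ_nonneg (((j : ℝ) + 1) * (n * β))
          exact mul_le_mul h1 h2 (by positivity) (by positivity)
      _ = _ := mul_comm _ _

lemma log_prod_le (hL : 0 < L) {β t : ℝ} (hβ : 0 ≤ β) (ht : 0 < t) :
    Real.log (∏ k : cube L, (1 - Real.exp (-(t + β * ((n : ℝ) / 2 * lam3 L k))))⁻¹) ≤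
      bosSer n L β t := by
  set q : cube L → ℝ := fun k => Real.exp (-(t + β * ((n : ℝ) / 2 * lam3 L k))) with hq
  have hq0 : ∀ k, 0 < q k := fun k => Real.exp_pos _
  have hq1 : ∀ k, q k < 1 := by
    intro k
    simp only [hq]
    rw [Real.exp_lt_one_iff]
    have : 0 ≤ β * ((n : ℝ) / 2 * lam3 L k) :=
      mul_nonneg hβ (mul_nonneg (by positivity) (lam3_nonneg k))
    linarith
  have h1 : Real.log (∏ k : cube L, (1 - q k)⁻¹) = ∑ k, - Real.log (1 - q k) := by
    rw [Real.log_prod (fun k _ => inv_ne_zero (sub_pos.2 (hq1 k)).ne')]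
    exact Finset.sum_congr rfl fun k _ => Real.log_inv _
  have h2 : HasSum (fun j : ℕ => ∑ k, q k ^ (j + 1) / ((j : ℝ) + 1))
      (∑ k, - Real.log (1 - q k)) := by
    refine hasSum_sum fun k _ => ?_
    exact Real.hasSum_pow_div_log_of_abs_lt_one (by rw [abs_of_pos (hq0 k)]; exact hq1 k)
  rw [h1, ← h2.tsum_eq, bosSer]
  refine h2.summable.tsum_le_tsum (fun j => ?_) (bosSer_summable n L hβ ht)
  have h3 : ∑ k, q k ^ (j + 1) / ((j : ℝ) + 1) = Real.exp (-(((j : ℝ) + 1) * t)) / ((j : ℝ) + 1) *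
      ∑ k : cube L, Real.exp (-((((j : ℝ) + 1) * (n * β)) / 2 * lam3 L k)) := by
    rw [Finset.mul_sum]
    refine Finset.sum_congr rfl fun k _ => ?_
    simp only [hq]
    have e7 : Real.exp (-(t + β * ((n : ℝ) / 2 * lam3 L k))) ^ (j + 1) =
        Real.exp (-(((j : ℝ) + 1) * t)) *
          Real.exp (-((((j : ℝ) + 1) * (n * β)) / 2 * lam3 L k)) := by
      rw [← Real.exp_nat_mul, ← Real.exp_add]
      congr 1
      push_cast
      ring
    rw [e7]
    ring
  rw [h3]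
  exact mul_le_mul_of_nonneg_left (three_dim_sum hL (by positivity)) (by positivity)

lemma one_le_prod (L : ℕ) {β t : ℝ} (hβ : 0 ≤ β) (ht : 0 < t) :
    1 ≤ ∏ k : cube L, (1 - Real.exp (-(t + β * ((n : ℝ) / 2 * lam3 L k))))⁻¹ := by
  have : ∏ _k : cube L, (1 : ℝ) ≤
      ∏ k : cube L, (1 - Real.exp (-(t + β * ((n : ℝ) / 2 * lam3 L k))))⁻¹ := by
    refine Finset.prod_le_prod (fun _ _ => zero_le_one) fun k _ => ?_
    have h1 : 0 < Real.exp (-(t + β * ((n : ℝ) / 2 * lam3 L k))) := Real.exp_pos _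
    have h2 : Real.exp (-(t + β * ((n : ℝ) / 2 * lam3 L k))) < 1 := by
      rw [Real.exp_lt_one_iff]
      have : 0 ≤ β * ((n : ℝ) / 2 * lam3 L k) :=
        mul_nonneg hβ (mul_nonneg (by positivity) (lam3_nonneg k))
      linarith
    exact (one_le_inv₀ (by linarith)).2 (by linarith)
  simpa using this

/-- Finite-volume upper bound. -/
theorem logZt_upper (hn : 1 ≤ n) (hL : 0 < L) {β t E1 : ℝ} (hβ : 0 ≤ β) (ht : 0 < t)
    (hE1 : 0 < E1) (N1 : ℕ) (h1 : Real.log (Zt n (cube L) (β / 2) 0) ≤ β * E1 / 2)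
    (h2 : Real.log (Zt n (cube L) β 0) ≤ t * N1) :
    Real.log (Zt n (cube L) β t) ≤ Real.log 3 +
      β * (12 * Real.exp 2 * ((N1 : ℝ) ^ 2 * (1 / L + 2 * bJ (2 * n / E1)) ^ 3)) +
      bosSer n L β t := by
  have hb := bJ_nonneg (2 * n / E1)
  set d := 12 * Real.exp 2 * ((N1 : ℝ) ^ 2 * (1 / L + 2 * bJ (2 * n / E1)) ^ 3) with hd
  have hd0 : 0 ≤ d := by rw [hd]; positivity
  set P := ∏ k : cube L, (1 - Real.exp (-(t + β * ((n : ℝ) / 2 * lam3 L k))))⁻¹ with hP
  have hP1 : 1 ≤ P := one_le_prod L hβ ht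
  have hX1 : 1 ≤ Real.exp (β * d) := Real.one_le_exp (mul_nonneg hβ hd0)
  have hmain := Zt_split hn hL hβ ht hE1 N1
  have e1 : Real.exp (-(β * E1 / 2)) * Zt n (cube L) (β / 2) 0 ≤ 1 := by
    have h3 : Zt n (cube L) (β / 2) 0 ≤ Real.exp (β * E1 / 2) := by
      rw [← Real.log_le_iff_le_exp (Zt_pos_eig _ _ _ _)]; exact h1
    calc _ ≤ Real.exp (-(β * E1 / 2)) * Real.exp (β * E1 / 2) :=
          mul_le_mul_of_nonneg_left h3 (Real.exp_pos _).le
      _ = 1 := by rw [← Real.exp_add]; simp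
  have e2 : Real.exp (-(t * N1)) * Zt n (cube L) β 0 ≤ 1 := by
    have h3 : Zt n (cube L) β 0 ≤ Real.exp (t * N1) := by
      rw [← Real.log_le_iff_le_exp (Zt_pos_eig _ _ _ _)]; exact h2
    calc _ ≤ Real.exp (-(t * N1)) * Real.exp (t * N1) :=
          mul_le_mul_of_nonneg_left h3 (Real.exp_pos _).le
      _ = 1 := by rw [← Real.exp_add]; simp
  have e3 : 1 ≤ Real.exp (β * d) * P := one_le_mul_of_one_le_of_one_le hX1 hP1
  have e4 : Zt n (cube L) β t ≤ 3 * (Real.exp (β * d) * P) := by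
    have : Zt n (cube L) β t ≤ 1 + 1 + Real.exp (β * d) * P := by
      refine hmain.trans ?_
      exact add_le_add (add_le_add e1 e2) le_rfl
    linarith
  have e5 := Real.log_le_log (Zt_pos_eig n (cube L) β t) e4
  have hP0 : 0 < P := by linarith
  rw [Real.log_mul (by norm_num) (by positivity), Real.log_mul (Real.exp_pos _).ne' hP0.ne',
    Real.log_exp] at e5
  have e6 := log_prod_le (n := n) hL hβ ht
  rw [← hP] at e6
  linarith

end Vale.Agent.P361.B
end

section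

/-!
Part B: asymptotics of the free boson pressure of the cube.
-/

namespace Vale.Agent.P361.B

open MeasureTheory Filter Topology Finset

theorem sq_exp_le {y : ℝ} (hy : 0 ≤ y) : y ^ 2 * Real.exp (-(y / 10)) ≤ 200 := by
  have h := Real.quadratic_le_exp_of_nonneg (x := y / 10) (by positivity)
  rw [Real.exp_neg, ← div_eq_mul_inv, div_le_iff₀ (Real.exp_pos _)]
  nlinarith

theorem exp_cos_le {a θ : ℝ} (ha : 1 ≤ a) (h0 : 0 ≤ θ) (h1 : θ ≤ Real.pi) :
    Real.exp (-a * (1 - Real.cos θ)) ≤ Real.exp (-(a / 2) * θ ^ 2) +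
      200 / a * Real.exp (-(a / 10) * θ ^ 2) := by
  have ha0 : 0 < a := by linarith
  have key : Real.exp (-a * (1 - Real.cos θ)) ≤ Real.exp (-(a / 2) * θ ^ 2) +
      a * θ ^ 4 * Real.exp (-(a / 5) * θ ^ 2) := by
    rcases le_or_gt θ 1 with h | h
    · have hb := (abs_le.1 (Real.cos_bound (x := θ) (by rw [abs_of_nonneg h0]; exact h))).2
      rw [abs_of_nonneg h0] at hb
      set w : ℝ := a * (θ ^ 4 * (5 / 96)) with hw
      have hw0 : 0 ≤ w := by positivity
      have hθ2 : θ ^ 2 ≤ 1 := by nlinarith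
      have hw1 : w ≤ a / 4 * θ ^ 2 := by
        have : θ ^ 4 = θ ^ 2 * θ ^ 2 := by ring
        rw [hw, this]
        nlinarith [mul_nonneg ha0.le (sq_nonneg θ), mul_le_mul_of_nonneg_left hθ2
          (mul_nonneg ha0.le (sq_nonneg θ))]
      have e1 : Real.exp (-a * (1 - Real.cos θ)) ≤ Real.exp (-(a / 2) * θ ^ 2 + w) := by
        apply Real.exp_le_exp.2
        rw [hw]
        nlinarith
      have e2 : Real.exp w ≤ 1 + w * Real.exp w := by
        have := Real.add_one_le_exp (-w)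
        have h3 : Real.exp w * Real.exp (-w) = 1 := by rw [← Real.exp_add]; simp
        nlinarith [Real.exp_pos w]
      have e3 : w * Real.exp w * Real.exp (-(a / 2) * θ ^ 2) ≤
          a * θ ^ 4 * Real.exp (-(a / 5) * θ ^ 2) := by
        rw [mul_assoc, ← Real.exp_add]
        refine mul_le_mul ?_ (Real.exp_le_exp.2 ?_) (Real.exp_pos _).le (by positivity)
        · rw [hw]
          have : 0 ≤ a * θ ^ 4 := by positivity
          nlinarith
        · nlinarith [mul_nonneg ha0.le (sq_nonneg θ)]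
      calc Real.exp (-a * (1 - Real.cos θ)) ≤ Real.exp (-(a / 2) * θ ^ 2 + w) := e1
        _ = Real.exp w * Real.exp (-(a / 2) * θ ^ 2) := by rw [← Real.exp_add, add_comm]
        _ ≤ (1 + w * Real.exp w) * Real.exp (-(a / 2) * θ ^ 2) :=
            mul_le_mul_of_nonneg_right e2 (Real.exp_pos _).le
        _ = Real.exp (-(a / 2) * θ ^ 2) + w * Real.exp w * Real.exp (-(a / 2) * θ ^ 2) := by ring
        _ ≤ _ := by linarith
    · have hc := Real.cos_le_one_sub_mul_cos_sq (x := θ) (by rw [abs_of_nonneg h0]; exact h1)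
      have hpi2 : Real.pi ^ 2 ≤ 10 := by nlinarith [Real.pi_lt_d2, Real.pi_pos]
      have h5 : θ ^ 2 / 5 ≤ 1 - Real.cos θ := by
        have h6 : 1 / 5 ≤ 2 / Real.pi ^ 2 := by
          rw [div_le_div_iff₀ (by norm_num) (by positivity)]
          linarith
        nlinarith [mul_le_mul_of_nonneg_right h6 (sq_nonneg θ)]
      have e1 : Real.exp (-a * (1 - Real.cos θ)) ≤ Real.exp (-(a / 5) * θ ^ 2) := by
        apply Real.exp_le_exp.2
        nlinarith
      have e2 : 1 ≤ a * θ ^ 4 := by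
        have h7 : 1 ≤ θ ^ 2 := by nlinarith
        have h8 : 1 ≤ θ ^ 4 := by nlinarith
        nlinarith
      have e3 : Real.exp (-(a / 5) * θ ^ 2) ≤ a * θ ^ 4 * Real.exp (-(a / 5) * θ ^ 2) :=
        le_mul_of_one_le_left (Real.exp_pos _).le e2
      linarith [Real.exp_pos (-(a / 2) * θ ^ 2)]
  refine key.trans (add_le_add le_rfl ?_)
  have h2 := sq_exp_le (y := a * θ ^ 2) (by positivity)
  have e1 : a * θ ^ 4 * Real.exp (-(a / 5) * θ ^ 2) = (1 / a) *
      (((a * θ ^ 2) ^ 2 * Real.exp (-((a * θ ^ 2) / 10))) * Real.exp (-(a / 10) * θ ^ 2)) := by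
    have : Real.exp (-(a / 5) * θ ^ 2) =
        Real.exp (-((a * θ ^ 2) / 10)) * Real.exp (-(a / 10) * θ ^ 2) := by
      rw [← Real.exp_add]; congr 1; ring
    rw [this]
    field_simp
  rw [e1]
  have h3 : (1 / a) * (((a * θ ^ 2) ^ 2 * Real.exp (-((a * θ ^ 2) / 10))) *
      Real.exp (-(a / 10) * θ ^ 2)) ≤ (1 / a) * (200 * Real.exp (-(a / 10) * θ ^ 2)) :=
    mul_le_mul_of_nonneg_left (mul_le_mul_of_nonneg_right h2 (Real.exp_pos _).le) (by positivity)
  refine h3.trans (le_of_eq ?_)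
  ring

/-- Upper bound of the Bessel factor. -/
theorem bJ_upper {a : ℝ} (ha : 1 ≤ a) :
    Real.sqrt (2 * Real.pi * a) * H.bJ a ≤ 1 + 448 / a := by
  have ha0 : 0 < a := by linarith
  have hpi := Real.pi_pos
  have hint : ∀ b : ℝ, 0 < b → IntegrableOn (fun u : ℝ => Real.exp (-b * u ^ 2)) (Set.Ioi 0) :=
    fun b hb => (integrable_exp_neg_mul_sq hb).integrableOn
  have h1 : ∫ θ in (0 : ℝ)..Real.pi, Real.exp (-a * (1 - Real.cos θ)) ≤
      ∫ θ in Set.Ioi (0 : ℝ), (Real.exp (-(a / 2) * θ ^ 2) +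
      200 / a * Real.exp (-(a / 10) * θ ^ 2)) := by
    rw [intervalIntegral.integral_of_le hpi.le]
    have hi := (hint (a / 2) (by positivity)).add ((hint (a / 10) (by positivity)).const_mul
      (200 / a))
    calc ∫ θ in Set.Ioc 0 Real.pi, Real.exp (-a * (1 - Real.cos θ)) ≤
        ∫ θ in Set.Ioc 0 Real.pi, (Real.exp (-(a / 2) * θ ^ 2) +
          200 / a * Real.exp (-(a / 10) * θ ^ 2)) := by
          refine setIntegral_mono_on ?_ (hi.mono_set Set.Ioc_subset_Ioi_self) measurableSet_Ioc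
            fun θ hθ => exp_cos_le ha hθ.1.le hθ.2
          exact (Continuous.integrableOn_Icc (by fun_prop)).mono_set Set.Ioc_subset_Icc_self
      _ ≤ _ := by
          refine setIntegral_mono_set hi ?_ Set.Ioc_subset_Ioi_self.eventuallyLE
          exact Filter.Eventually.of_forall fun θ => by
            simp only [Pi.zero_apply]; positivity
  rw [integral_add (hint (a / 2) (by positivity)) ((hint (a / 10) (by positivity)).const_mul
      (200 / a)), integral_const_mul, integral_gaussian_Ioi, integral_gaussian_Ioi] at h1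
  rw [H.bJ]
  have h2 := mul_le_mul_of_nonneg_left h1 (a := Real.sqrt (2 * Real.pi * a) * Real.pi⁻¹)
    (by positivity)
  rw [mul_assoc] at h2
  refine h2.trans ?_
  have e1 : Real.sqrt (2 * Real.pi * a) * Real.sqrt (Real.pi / (a / 2)) = 2 * Real.pi := by
    rw [← Real.sqrt_mul (by positivity),
      show 2 * Real.pi * a * (Real.pi / (a / 2)) = (2 * Real.pi) ^ 2 by field_simp,
      Real.sqrt_sq (by positivity)]
  have e2 : Real.sqrt (2 * Real.pi * a) * Real.sqrt (Real.pi / (a / 10)) ≤ 4.48 * Real.pi := by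
    rw [← Real.sqrt_mul (by positivity),
      show 2 * Real.pi * a * (Real.pi / (a / 10)) = 20 * Real.pi ^ 2 by field_simp; ring]
    rw [show 4.48 * Real.pi = Real.sqrt ((4.48 * Real.pi) ^ 2) by rw [Real.sqrt_sq (by positivity)]]
    refine Real.sqrt_le_sqrt ?_
    nlinarith [sq_nonneg Real.pi]
  have e3 : Real.sqrt (2 * Real.pi * a) * (Real.pi⁻¹ * (Real.sqrt (Real.pi / (a / 2)) / 2 +
      200 / a * (Real.sqrt (Real.pi / (a / 10)) / 2))) =
      Real.pi⁻¹ * ((Real.sqrt (2 * Real.pi * a) * Real.sqrt (Real.pi / (a / 2))) / 2 +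
        100 / a * (Real.sqrt (2 * Real.pi * a) * Real.sqrt (Real.pi / (a / 10)))) := by ring
  rw [mul_assoc, e3, e1]
  have h3 : Real.pi⁻¹ * (2 * Real.pi / 2 + 100 / a * (Real.sqrt (2 * Real.pi * a) *
      Real.sqrt (Real.pi / (a / 10)))) ≤ Real.pi⁻¹ * (2 * Real.pi / 2 + 100 / a *
        (4.48 * Real.pi)) := by
    refine mul_le_mul_of_nonneg_left (add_le_add le_rfl ?_) (by positivity)
    exact mul_le_mul_of_nonneg_left e2 (by positivity)
  refine h3.trans (le_of_eq ?_)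
  field_simp
  ring

theorem cube_add_pow {L y w : ℝ} (hL : 0 ≤ L) (hy : 0 ≤ y) (hw : 0 ≤ w) (hw1 : w ≤ 1) :
    (1 + L * (y * (1 + w))) ^ 3 ≤
      L ^ 3 * y ^ 3 * (1 + 7 * w) + 12 * (L ^ 2 * y ^ 2) + 6 * (L * y) + 1 := by
  have h1 : (1 + w) ^ 3 ≤ 1 + 7 * w := by nlinarith [mul_nonneg hw hw, mul_nonneg (mul_nonneg hw hw) hw]
  have h2 : (1 + w) ^ 2 ≤ 4 := by nlinarith
  have e : (1 + L * (y * (1 + w))) ^ 3 = L ^ 3 * y ^ 3 * (1 + w) ^ 3 +
      3 * (L ^ 2 * y ^ 2) * (1 + w) ^ 2 + 3 * (L * y) * (1 + w) + 1 := by ring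
  rw [e]
  have h3 : L ^ 3 * y ^ 3 * (1 + w) ^ 3 ≤ L ^ 3 * y ^ 3 * (1 + 7 * w) :=
    mul_le_mul_of_nonneg_left h1 (by positivity)
  have h4 : 3 * (L ^ 2 * y ^ 2) * (1 + w) ^ 2 ≤ 3 * (L ^ 2 * y ^ 2) * 4 :=
    mul_le_mul_of_nonneg_left h2 (by positivity)
  have h5 : 3 * (L * y) * (1 + w) ≤ 3 * (L * y) * 2 :=
    mul_le_mul_of_nonneg_left (by linarith) (by positivity)
  linarith

/-- One order of the fugacity expansion. -/
theorem order_bound {n : ℕ} (hn : 1 ≤ n) {β : ℝ} (hβ : 448 ≤ β) {L : ℕ} (hL : 0 < L) (r : ℕ) :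
    Real.sqrt β ^ 3 / (L : ℝ) ^ 3 * (1 + L * H.bJ (((r : ℝ) + 1) * (n * β))) ^ 3 ≤
    (Real.sqrt (4 * Real.pi * ((n : ℝ) / 2)) ^ 3)⁻¹ * (1 / Real.sqrt ((r : ℝ) + 1) ^ 3) *
      (1 + 7 * (448 / β)) +
    12 * (Real.sqrt (4 * Real.pi * ((n : ℝ) / 2)) ^ 2)⁻¹ * (Real.sqrt β / L) *
      (1 / Real.sqrt ((r : ℝ) + 1) ^ 2) +
    6 * (Real.sqrt (4 * Real.pi * ((n : ℝ) / 2)))⁻¹ * (β / (L : ℝ) ^ 2) *
      (1 / Real.sqrt ((r : ℝ) + 1)) + Real.sqrt β ^ 3 / (L : ℝ) ^ 3 := by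
  have hnR : (1 : ℝ) ≤ n := by exact_mod_cast hn
  have hn0 : (0 : ℝ) < n := by linarith
  have hβ0 : 0 < β := by linarith
  have hLR : (0 : ℝ) < L := by exact_mod_cast hL
  have hpi := Real.pi_pos
  have hr : (1 : ℝ) ≤ (r : ℝ) + 1 := by linarith [Nat.cast_nonneg (α := ℝ) r]
  set c : ℝ := ((r : ℝ) + 1) * (n * β) with hc
  have hβc : β ≤ c := by
    rw [hc]
    nlinarith [mul_le_mul hr hnR (by norm_num) (by linarith)]
  have hc0 : 0 < c := by linarith
  have h2 := bJ_upper (a := c) (by linarith)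
  set w : ℝ := 448 / β with hw
  have hw0 : 0 ≤ w := by positivity
  have hw1 : w ≤ 1 := by rw [hw, div_le_one hβ0]; exact hβ
  have h3 : 448 / c ≤ w := div_le_div_of_nonneg_left (by norm_num) hβ0 hβc
  have hsr : 0 < Real.sqrt ((r : ℝ) + 1) := Real.sqrt_pos.2 (by positivity)
  have hsb : 0 < Real.sqrt β := Real.sqrt_pos.2 hβ0
  have hs4 : 0 < Real.sqrt (4 * Real.pi * ((n : ℝ) / 2)) := Real.sqrt_pos.2 (by positivity)
  have e1 : Real.sqrt (2 * Real.pi * c) =
      Real.sqrt (4 * Real.pi * ((n : ℝ) / 2)) * (Real.sqrt β * Real.sqrt ((r : ℝ) + 1)) := by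
    rw [← Real.sqrt_mul hβ0.le, ← Real.sqrt_mul (by positivity)]
    congr 1
    rw [hc]; ring
  set A := Real.sqrt (4 * Real.pi * ((n : ℝ) / 2)) with hA
  set y : ℝ := (A * (Real.sqrt β * Real.sqrt ((r : ℝ) + 1)))⁻¹ with hy
  have hy0 : 0 < y := by positivity
  have h4 : H.bJ c ≤ y * (1 + w) := by
    rw [hy, inv_mul_eq_div, le_div_iff₀ (by positivity), ← e1, mul_comm]
    linarith
  have h5 : (1 + (L : ℝ) * H.bJ c) ^ 3 ≤ (1 + L * (y * (1 + w))) ^ 3 := by
    refine pow_le_pow_left₀ ?_ ?_ 3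
    · have := H.bJ_nonneg c
      positivity
    · have := mul_le_mul_of_nonneg_left h4 hLR.le
      linarith
  have h6 := cube_add_pow hLR.le hy0.le hw0 hw1
  have h7 := mul_le_mul_of_nonneg_left (h5.trans h6)
    (a := Real.sqrt β ^ 3 / (L : ℝ) ^ 3) (by positivity)
  refine h7.trans (le_of_eq ?_)
  have e2 : β = Real.sqrt β ^ 2 := (Real.sq_sqrt hβ0.le).symm
  have e3 : β / (L : ℝ) ^ 2 = Real.sqrt β ^ 2 / (L : ℝ) ^ 2 := by rw [← e2]
  rw [e3, hy]
  field_simp

/-- Asymptotics of the free boson pressure. -/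
theorem bosSer_le {n : ℕ} (hn : 1 ≤ n) : ∃ C : ℝ, 0 ≤ C ∧ ∀ β : ℝ, 448 ≤ β → ∀ L : ℕ, 0 < L →
    ∀ t : ℝ, 0 < t →
    Real.sqrt β ^ 3 / (L : ℝ) ^ 3 * bosSer n L β t ≤
    FS ((n : ℝ) / 2) t + C * (1 / β + Real.sqrt β / L + β / (L : ℝ) ^ 2) +
      Real.sqrt β ^ 3 / (L : ℝ) ^ 3 / t := by
  set A := Real.sqrt (4 * Real.pi * ((n : ℝ) / 2)) with hA
  have hnR : (1 : ℝ) ≤ n := by exact_mod_cast hn
  have hpi := Real.pi_pos
  have hA0 : 0 < A := Real.sqrt_pos.2 (by positivity)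
  set z : ℝ := ∑' r : ℕ, 1 / Real.sqrt ((r : ℝ) + 1) ^ 3 with hz
  have hz0 : 0 ≤ z := tsum_nonneg fun r => by positivity
  have haS : aS ((n : ℝ) / 2) = (A ^ 3)⁻¹ * z := by rw [aS, ← H.zeta_hasSum.tsum_eq]
  refine ⟨7 * 448 * ((A ^ 3)⁻¹ * z) + 12 * (A ^ 2)⁻¹ * z + 6 * A⁻¹ * z, by positivity, ?_⟩
  intro β hβ L hL t ht
  have hβ0 : 0 < β := by linarith
  have hLR : (0 : ℝ) < L := by exact_mod_cast hL
  have hsb : 0 < Real.sqrt β := Real.sqrt_pos.2 hβ0
  have h1 := ((bosSer_summable n L hβ0.le ht).hasSum).mul_left (Real.sqrt β ^ 3 / (L : ℝ) ^ 3)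
  -- majorant
  have hgeo : HasSum (fun r : ℕ => Real.exp (-(((r : ℝ) + 1) * t))) (1 / (Real.exp t - 1)) := by
    have hlt : Real.exp (-t) < 1 := by rw [Real.exp_lt_one_iff]; linarith
    have h2 := (hasSum_geometric_of_lt_one (Real.exp_pos (-t)).le hlt).mul_left (Real.exp (-t))
    have e1 : Real.exp (-t) * (1 - Real.exp (-t))⁻¹ = 1 / (Real.exp t - 1) := by
      have h3 : Real.exp t * Real.exp (-t) = 1 := by rw [← Real.exp_add]; simp
      have h4 : 1 < Real.exp t := by rw [Real.one_lt_exp_iff]; exact ht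
      have h5 : 0 < 1 - Real.exp (-t) := by linarith
      rw [eq_div_iff (by linarith), ← div_eq_mul_inv, div_mul_eq_mul_div, div_eq_iff h5.ne']
      linear_combination h3
    rw [e1] at h2
    have e2 : (fun r : ℕ => Real.exp (-(((r : ℝ) + 1) * t))) =
        fun r : ℕ => Real.exp (-t) * Real.exp (-t) ^ r := by
      ext1 r
      rw [← Real.exp_nat_mul, ← Real.exp_add]
      congr 1; ring
    rw [e2]
    exact h2
  have hF := (summable_F ht.le).hasSum
  have hz' : HasSum (fun r : ℕ => 1 / Real.sqrt ((r : ℝ) + 1) ^ 3) z := zsum.hasSum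
  have h2 := (((hF.mul_left ((A ^ 3)⁻¹ * (1 + 7 * (448 / β)))).add
    (hz'.mul_left (12 * (A ^ 2)⁻¹ * (Real.sqrt β / L)))).add
    (hz'.mul_left (6 * A⁻¹ * (β / (L : ℝ) ^ 2)))).add
    (hgeo.mul_left (Real.sqrt β ^ 3 / (L : ℝ) ^ 3))
  have h3 := hasSum_le (fun r => ?_) h1 h2
  · refine h3.trans ?_
    have e1 : (A ^ 3)⁻¹ * ∑' r : ℕ, Real.exp (-(((r : ℝ) + 1) * t)) /
        (((r : ℝ) + 1) * Real.sqrt ((r : ℝ) + 1) ^ 3) = FS ((n : ℝ) / 2) t := rfl
    have e2 : (A ^ 3)⁻¹ * (1 + 7 * (448 / β)) * ∑' r : ℕ, Real.exp (-(((r : ℝ) + 1) * t)) /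
        (((r : ℝ) + 1) * Real.sqrt ((r : ℝ) + 1) ^ 3) = FS ((n : ℝ) / 2) t +
        7 * 448 * FS ((n : ℝ) / 2) t * (1 / β) := by
      rw [← e1]; ring
    have e3 := FS_le ((n : ℝ) / 2) ht.le
    rw [haS] at e3
    have e4 : 7 * 448 * FS ((n : ℝ) / 2) t * (1 / β) ≤ 7 * 448 * ((A ^ 3)⁻¹ * z) * (1 / β) := by
      refine mul_le_mul_of_nonneg_right ?_ (by positivity)
      linarith
    have e5 : Real.sqrt β ^ 3 / (L : ℝ) ^ 3 * (1 / (Real.exp t - 1)) ≤
        Real.sqrt β ^ 3 / (L : ℝ) ^ 3 / t := by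
      rw [div_eq_mul_one_div _ t]
      refine mul_le_mul_of_nonneg_left ?_ (by positivity)
      refine one_div_le_one_div_of_le ht ?_
      linarith [Real.add_one_le_exp t]
    have p1 : 0 ≤ 12 * (A ^ 2)⁻¹ * z := by positivity
    have p2 : 0 ≤ 6 * A⁻¹ * z := by positivity
    have p3 : 0 ≤ 7 * 448 * ((A ^ 3)⁻¹ * z) := by positivity
    have q1 : 0 ≤ 1 / β := by positivity
    have q2 : 0 ≤ Real.sqrt β / L := by positivity
    have q3 : 0 ≤ β / (L : ℝ) ^ 2 := by positivity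
    rw [e2]
    nlinarith [mul_nonneg p1 q1, mul_nonneg p1 q3, mul_nonneg p2 q1, mul_nonneg p2 q2,
      mul_nonneg p3 q2, mul_nonneg p3 q3]
  · -- termwise
    have hr1 : (1 : ℝ) ≤ (r : ℝ) + 1 := by linarith [Nat.cast_nonneg (α := ℝ) r]
    have hsr : 0 < Real.sqrt ((r : ℝ) + 1) := Real.sqrt_pos.2 (by positivity)
    have hsr1 : 1 ≤ Real.sqrt ((r : ℝ) + 1) := by rw [Real.one_le_sqrt]; exact hr1
    have hsr2 : Real.sqrt ((r : ℝ) + 1) ^ 2 = (r : ℝ) + 1 := Real.sq_sqrt (by positivity)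
    have hsr3 : Real.sqrt ((r : ℝ) + 1) ^ 3 = ((r : ℝ) + 1) * Real.sqrt ((r : ℝ) + 1) := by
      calc Real.sqrt ((r : ℝ) + 1) ^ 3 = Real.sqrt ((r : ℝ) + 1) ^ 2 * Real.sqrt ((r : ℝ) + 1) := by
            ring
        _ = _ := by rw [hsr2]
    rw [mul_left_comm]
    have h4 := mul_le_mul_of_nonneg_left (order_bound hn hβ hL r)
      (a := Real.exp (-(((r : ℝ) + 1) * t)) / ((r : ℝ) + 1)) (by positivity)
    refine h4.trans ?_
    rw [← hA]
    have hE0 := Real.exp_pos (-(((r : ℝ) + 1) * t))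
    have hE1 := exp_le_one ht.le r
    set e := Real.exp (-(((r : ℝ) + 1) * t)) with he
    rw [mul_add, mul_add, mul_add]
    refine add_le_add (add_le_add (add_le_add ?_ ?_) ?_) ?_
    · apply le_of_eq
      field_simp
    · have : e / ((r : ℝ) + 1) * (12 * (A ^ 2)⁻¹ * (Real.sqrt β / L) *
          (1 / Real.sqrt ((r : ℝ) + 1) ^ 2)) = 12 * (A ^ 2)⁻¹ * (Real.sqrt β / L) *
          (e / (((r : ℝ) + 1) * Real.sqrt ((r : ℝ) + 1) ^ 2)) := by
        rw [← div_div]; ring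
      rw [this]
      refine mul_le_mul_of_nonneg_left ?_ (by positivity)
      refine div_le_div₀ (by norm_num) hE1 (by positivity) ?_
      rw [hsr2]
      rw [hsr3]
      refine mul_le_mul_of_nonneg_left ?_ (by positivity)
      nlinarith
    · have : e / ((r : ℝ) + 1) * (6 * A⁻¹ * (β / (L : ℝ) ^ 2) *
          (1 / Real.sqrt ((r : ℝ) + 1))) = 6 * A⁻¹ * (β / (L : ℝ) ^ 2) *
          (e / (((r : ℝ) + 1) * Real.sqrt ((r : ℝ) + 1))) := by
        rw [← div_div]; ring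
      rw [this]
      refine mul_le_mul_of_nonneg_left ?_ (by positivity)
      refine div_le_div₀ (by norm_num) hE1 (by positivity) ?_
      exact hsr3.le
    · rw [mul_comm]
      refine mul_le_mul_of_nonneg_left ?_ (by positivity)
      exact div_le_self hE0.le hr1

end Vale.Agent.P361.B
end

section

/-!
Part B, step D6: choice of the parameters.
-/

namespace Vale.Agent.P361.B

open Filter Topology

/-- Crude bound on cubes of side `≤ β^{1/2 - η}`. -/
theorem crude_log {n : ℕ} (hn : 1 ≤ n) {η : ℝ} (hη : 0 < η) (hη2 : η < 1 / 2) :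
    ∀ᶠ β : ℝ in atTop, ∀ L : ℕ, 0 < L → (L : ℝ) ≤ β ^ (1 / 2 - η) →
      Real.log (Zt n (cube L) (β / 2) 0) ≤ β ^ η := by
  have hnR : (1 : ℝ) ≤ n := by exact_mod_cast hn
  have l1 : Tendsto (fun β : ℝ => β ^ (2 * η)) atTop atTop := tendsto_rpow_atTop (by linarith)
  have l2 : Tendsto (fun β : ℝ => 2 * (β ^ (3 : ℝ) * Real.exp (-(1 / 12) * β ^ (2 * η)))) atTop
      (𝓝 0) := by
    have h1 := (tendsto_rpow_mul_exp_neg_mul_atTop_nhds_zero (3 / (2 * η)) (1 / 12)
      (by norm_num)).comp l1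
    have h2 : Tendsto (fun β : ℝ => β ^ (3 : ℝ) * Real.exp (-(1 / 12) * β ^ (2 * η))) atTop
        (𝓝 0) := by
      refine h1.congr' ?_
      filter_upwards [eventually_gt_atTop 0] with β hβ
      simp only [Function.comp]
      rw [← Real.rpow_mul hβ.le]
      congr 2
      field_simp
    simpa using h2.const_mul 2
  have l3 : Tendsto (fun β : ℝ => (Real.log (4 * n) + 3 * Real.log β) / β ^ η) atTop (𝓝 0) := by
    have h1 := (isLittleO_log_rpow_atTop hη).tendsto_div_nhds_zero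
    have h2 : Tendsto (fun β : ℝ => Real.log (4 * n) / β ^ η) atTop (𝓝 0) :=
      tendsto_const_nhds.div_atTop (tendsto_rpow_atTop hη)
    have h3 := h2.add (h1.const_mul 3)
    simp only [mul_zero, add_zero] at h3
    refine h3.congr fun β => ?_
    ring
  have l4 : Tendsto (fun β : ℝ => β ^ η) atTop atTop := tendsto_rpow_atTop hη
  filter_upwards [l2.eventually (ge_mem_nhds (show (0 : ℝ) < 1 / 2 by norm_num)),
    l3.eventually (ge_mem_nhds (show (0 : ℝ) < 1 / 2 by norm_num)), l4.eventually_ge_atTop 1,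
    eventually_ge_atTop 1] with β h2 h3 h4 hβ1 L hL hLβ
  have hβ : 0 < β := by linarith
  have hLR : (1 : ℝ) ≤ L := by exact_mod_cast hL
  have hL0 : (0 : ℝ) < L := by linarith
  have hLβ1 : (L : ℝ) ≤ β := by
    refine hLβ.trans ?_
    calc β ^ (1 / 2 - η) ≤ β ^ (1 : ℝ) :=
          Real.rpow_le_rpow_of_exponent_le hβ1 (by linarith)
      _ = β := Real.rpow_one β
  have hL3 : (L : ℝ) ^ 3 ≤ β ^ (3 : ℝ) := by
    rw [show (3 : ℝ) = ((3 : ℕ) : ℝ) by norm_num, Real.rpow_natCast]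
    exact pow_le_pow_left₀ hL0.le hLβ1 3
  have hL2 : (L : ℝ) ^ 2 ≤ β / β ^ (2 * η) := by
    calc (L : ℝ) ^ 2 ≤ (β ^ (1 / 2 - η)) ^ 2 := pow_le_pow_left₀ hL0.le hLβ 2
      _ = β / β ^ (2 * η) := by
        rw [← Real.rpow_natCast, ← Real.rpow_mul hβ.le]
        nth_rewrite 2 [← Real.rpow_one β]
        rw [← Real.rpow_sub hβ]
        congr 1
        push_cast
        ring
  have hp : 0 < β ^ (2 * η) := Real.rpow_pos_of_pos hβ _
  have hz1 : Real.exp (-(n * (β / 2) / (6 * (L : ℝ) ^ 2))) ≤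
      Real.exp (-(1 / 12) * β ^ (2 * η)) := by
    apply Real.exp_le_exp.2
    have h5 : 1 / 12 * β ^ (2 * η) ≤ n * (β / 2) / (6 * (L : ℝ) ^ 2) := by
      rw [le_div_iff₀ (by positivity)]
      have h6 : β ^ (2 * η) * (L : ℝ) ^ 2 ≤ β := by
        have := mul_le_mul_of_nonneg_left hL2 hp.le
        rwa [mul_div_cancel₀ β hp.ne'] at this
      nlinarith
    linarith
  have hz2 : Real.exp (-(n * (β / 2) / (6 * (L : ℝ) ^ 2))) ≤ 1 / 2 := by
    refine hz1.trans ?_
    have h5 : 1 ≤ β ^ (3 : ℝ) := Real.one_le_rpow hβ1 (by norm_num)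
    have h6 := Real.exp_pos (-(1 / 12) * β ^ (2 * η))
    nlinarith
  have h := log_Zt_le_crude (n := n) hn hL (β := β / 2) (by positivity) hz2
  refine h.trans ?_
  have h5 : Real.log (2 * ((n : ℝ) * (L : ℝ) ^ 3 + 1)) ≤ Real.log (4 * n) + 3 * Real.log β := by
    have h6 : 2 * ((n : ℝ) * (L : ℝ) ^ 3 + 1) ≤ 4 * n * β ^ (3 : ℝ) := by
      have h7 : 1 ≤ β ^ (3 : ℝ) := Real.one_le_rpow hβ1 (by norm_num)
      have h8 : (n : ℝ) * (L : ℝ) ^ 3 ≤ n * β ^ (3 : ℝ) :=
        mul_le_mul_of_nonneg_left hL3 (by positivity)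
      have h9 : 1 ≤ (n : ℝ) * β ^ (3 : ℝ) := by nlinarith
      linarith
    have h7 := Real.log_le_log (by positivity) h6
    rwa [Real.log_mul (x := 4 * (n : ℝ)) (by positivity) (by positivity), Real.log_rpow hβ] at h7
  have h6 : 2 * (L : ℝ) ^ 3 * Real.exp (-(n * (β / 2) / (6 * (L : ℝ) ^ 2))) ≤ 1 / 2 := by
    refine le_trans ?_ h2
    rw [mul_assoc]
    refine mul_le_mul_of_nonneg_left ?_ (by norm_num)
    exact mul_le_mul hL3 hz1 (Real.exp_pos _).le (by positivity)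
  have h7 : Real.log (4 * n) + 3 * Real.log β ≤ 1 / 2 * β ^ η := by
    rwa [div_le_iff₀ (by linarith)] at h3
  linarith

/-- Choice of the cube. -/
theorem exists_cube {n : ℕ} (hn : 1 ≤ n) {κ η : ℝ} (hκ : 0 < κ) (hη : 0 < η) (hη2 : η < 1 / 2) :
    ∀ᶠ β : ℝ in atTop, ∃ L : ℕ, 0 < L ∧ β ^ (1 / 2 + κ + η) / 2 ≤ L ∧
      Real.log (Zt n (cube L) (β / 2) 0) ≤ 8 * β ^ (3 * κ + 7 * η) := by
  have hcr := crude_log hn hη (by linarith)
  have l1 : ∀ᶠ β : ℝ in atTop, 2 ≤ β ^ (1 / 2 - η) :=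
    (tendsto_rpow_atTop (by linarith)).eventually_ge_atTop 2
  filter_upwards [hcr, l1, eventually_ge_atTop 1] with β hcr h2X hβ1
  have hβ0 : 0 < β := by linarith
  have pp : ∀ a : ℝ, 0 < β ^ a := fun a => Real.rpow_pos_of_pos hβ0 a
  set X : ℝ := β ^ (1 / 2 - η) with hX
  set Y : ℝ := β ^ (κ + 2 * η) with hY
  have hX0 : 0 < X := pp _
  have hY1 : 1 ≤ Y := Real.one_le_rpow hβ1 (by linarith)
  obtain ⟨L0, hL0a, hL0b⟩ : ∃ L0 : ℕ, (L0 : ℝ) ≤ X ∧ X / 2 ≤ L0 := by
    refine ⟨⌊X⌋₊, Nat.floor_le hX0.le, ?_⟩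
    have := Nat.lt_floor_add_one X
    linarith
  have hL0pos : 0 < L0 := by
    have : (0 : ℝ) < L0 := by linarith
    exact_mod_cast this
  obtain ⟨q, hqa, hqb⟩ : ∃ q : ℕ, Y ≤ q ∧ (q : ℝ) ≤ 2 * Y := by
    refine ⟨⌈Y⌉₊, Nat.le_ceil Y, ?_⟩
    have := (Nat.ceil_lt_add_one (by linarith : 0 ≤ Y)).le
    linarith
  have hqpos : 0 < q := by
    have : (0 : ℝ) < q := by linarith
    exact_mod_cast this
  refine ⟨q * L0, Nat.mul_pos hqpos hL0pos, ?_, ?_⟩
  · have hXY : X * Y = β ^ (1 / 2 + κ + η) := by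
      rw [hX, hY, ← Real.rpow_add hβ0]; congr 1; ring
    rw [Nat.cast_mul, ← hXY]
    have := mul_le_mul hqa hL0b (by positivity) (by positivity)
    linarith
  · have hYA : (2 * Y) ^ 3 * β ^ η = 8 * β ^ (3 * κ + 7 * η) := by
      rw [hY, mul_pow, ← Real.rpow_natCast (β ^ (κ + 2 * η)) 3, ← Real.rpow_mul hβ0.le, mul_assoc,
        ← Real.rpow_add hβ0]
      norm_num
      congr 1
      ring
    have h1 := log_Zt_cube_mul (n := n) (β := β / 2) (t := 0) (by positivity) le_rfl q L0 hL0pos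
    have h2 := hcr L0 hL0pos hL0a
    refine h1.trans ?_
    calc (q : ℝ) ^ 3 * Real.log (Zt n (cube L0) (β / 2) 0) ≤ (q : ℝ) ^ 3 * β ^ η :=
          mul_le_mul_of_nonneg_left h2 (by positivity)
      _ ≤ (2 * Y) ^ 3 * β ^ η :=
          mul_le_mul_of_nonneg_right (pow_le_pow_left₀ (by positivity) hqb 3) (pp _).le
      _ = _ := hYA

theorem bJ_param {n : ℕ} (hn : 1 ≤ n) {β A : ℝ} (hβ0 : 0 < β) (hA1 : 1 ≤ A) (hAβ : A ≤ β) :
    H.bJ (2 * n / (2 * A / β)) ≤ 449 * Real.sqrt (A / β) := by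
  have hnR : (1 : ℝ) ≤ n := by exact_mod_cast hn
  have hA0 : 0 < A := by linarith
  have hs0 : 0 < Real.sqrt (A / β) := Real.sqrt_pos.2 (by positivity)
  have haβ : β / A ≤ 2 * n / (2 * A / β) := by
    have : 2 * (n : ℝ) / (2 * A / β) = n * (β / A) := by field_simp
    rw [this]
    have h0 : 0 ≤ β / A := by positivity
    nlinarith
  have hβA : 1 ≤ β / A := by rwa [one_le_div hA0]
  generalize 2 * (n : ℝ) / (2 * A / β) = a at haβ
  have ha1 : 1 ≤ a := hβA.trans haβ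
  have h1 := bJ_upper ha1
  have h2 : 448 / a ≤ 448 := div_le_self (by norm_num) ha1
  have h3 : Real.sqrt (β / A) ≤ Real.sqrt (2 * Real.pi * a) := by
    refine Real.sqrt_le_sqrt (haβ.trans ?_)
    have : 1 ≤ 2 * Real.pi := by linarith [Real.pi_gt_three]
    nlinarith
  have h4 : Real.sqrt (β / A) * H.bJ a ≤ 449 := by
    refine (mul_le_mul_of_nonneg_right h3 (H.bJ_nonneg a)).trans ?_
    linarith
  have h5 : Real.sqrt (A / β) * Real.sqrt (β / A) = 1 := by
    rw [← Real.sqrt_mul (by positivity), show A / β * (β / A) = 1 by field_simp, Real.sqrt_one]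
  calc H.bJ a = Real.sqrt (A / β) * Real.sqrt (β / A) * H.bJ a := by rw [h5, one_mul]
    _ = Real.sqrt (A / β) * (Real.sqrt (β / A) * H.bJ a) := by ring
    _ ≤ Real.sqrt (A / β) * 449 := mul_le_mul_of_nonneg_left h4 hs0.le
    _ = _ := by ring

/-- Consequences of the lower bound on the side. -/
theorem side_bounds {κ η β : ℝ} {L : ℕ} (hκ : 0 < κ) (hη : 0 < η) (hβ1 : 1 ≤ β) (hL : 0 < L)
    (hLge : β ^ (1 / 2 + κ + η) / 2 ≤ L) :
    β / 4 ≤ (L : ℝ) ^ 2 ∧ Real.sqrt β / L ≤ 2 * β ^ (-κ) ∧ β / (L : ℝ) ^ 2 ≤ 4 * β ^ (-κ) ∧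
      Real.sqrt β ^ 3 / (L : ℝ) ^ 3 ≤ 8 * β ^ (-(3 * κ) - 3 * η) := by
  have hβ0 : 0 < β := by linarith
  have hLR : (0 : ℝ) < L := by exact_mod_cast hL
  have pw : ∀ {a b : ℝ}, a ≤ b → β ^ a ≤ β ^ b := fun h =>
    Real.rpow_le_rpow_of_exponent_le hβ1 h
  have pp : ∀ a : ℝ, 0 < β ^ a := fun a => Real.rpow_pos_of_pos hβ0 a
  have hq0 := pp (1 / 2 + κ + η)
  have h2 : (β ^ (1 / 2 + κ + η) / 2) ^ 2 = β ^ (1 + 2 * κ + 2 * η) / 4 := by
    rw [div_pow, ← Real.rpow_natCast, ← Real.rpow_mul hβ0.le]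
    norm_num
    congr 1
    ring
  have h1 : β ^ (1 + 2 * κ + 2 * η) / 4 ≤ (L : ℝ) ^ 2 := by
    rw [← h2]
    exact pow_le_pow_left₀ (by positivity) hLge 2
  refine ⟨?_, ?_, ?_, ?_⟩
  · have h3 : β ≤ β ^ (1 + 2 * κ + 2 * η) := by
      nth_rewrite 1 [← Real.rpow_one β]
      exact pw (by linarith)
    linarith
  · rw [div_le_iff₀ hLR, Real.sqrt_eq_rpow]
    have h2 : β ^ (-κ) * β ^ (1 / 2 + κ + η) = β ^ (1 / 2 + η) := by
      rw [← Real.rpow_add hβ0]; congr 1; ring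
    have h3 : β ^ (1 / 2 : ℝ) ≤ β ^ (1 / 2 + η) := pw (by linarith)
    have h4 := mul_le_mul_of_nonneg_left hLge (pp (-κ)).le
    nlinarith
  · rw [div_le_iff₀ (by positivity)]
    have h4 : β ^ (-κ) * β ^ (1 + 2 * κ + 2 * η) = β ^ (1 + κ + 2 * η) := by
      rw [← Real.rpow_add hβ0]; congr 1; ring
    have h5 : β ≤ β ^ (1 + κ + 2 * η) := by
      nth_rewrite 1 [← Real.rpow_one β]
      exact pw (by linarith)
    have h6 := mul_le_mul_of_nonneg_left h1 (pp (-κ)).le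
    nlinarith
  · have hsβ : Real.sqrt β ^ 3 = β ^ (3 / 2 : ℝ) := by
      rw [Real.sqrt_eq_rpow, ← Real.rpow_natCast, ← Real.rpow_mul hβ0.le]
      norm_num
    rw [div_le_iff₀ (by positivity), hsβ]
    have h1 : (β ^ (1 / 2 + κ + η) / 2) ^ 3 ≤ (L : ℝ) ^ 3 :=
      pow_le_pow_left₀ (by positivity) hLge 3
    have h2 : (β ^ (1 / 2 + κ + η) / 2) ^ 3 = β ^ (3 / 2 + 3 * κ + 3 * η) / 8 := by
      rw [div_pow, ← Real.rpow_natCast, ← Real.rpow_mul hβ0.le]
      norm_num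
      congr 1
      ring
    rw [h2] at h1
    have h3 : β ^ (-(3 * κ) - 3 * η) * β ^ (3 / 2 + 3 * κ + 3 * η) = β ^ (3 / 2 : ℝ) := by
      rw [← Real.rpow_add hβ0]; congr 1; ring
    have h4 := mul_le_mul_of_nonneg_left h1 (pp (-(3 * κ) - 3 * η)).le
    nlinarith

/-- The interaction error. -/
theorem interaction_error {κ η β A P N W : ℝ} (hη : 43 * η ≤ 1 - 21 * κ)
    (hβ1 : 1 ≤ β) (hA : A = 8 * β ^ (3 * κ + 7 * η))
    (hP : P ≤ 8 * β ^ (-(3 * κ) - 3 * η)) (hN0 : 0 ≤ N) (hN : N ≤ 2 * (A * β ^ κ)) (hW0 : 0 ≤ W)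
    (hW : W ≤ 899 * Real.sqrt (A / β)) :
    P * (β * (12 * Real.exp 2 * (N ^ 2 * W ^ 3))) ≤
      8 * (12 * Real.exp 2 * (4 * 8 ^ 2) * (899 ^ 3 * Real.sqrt 8 ^ 3)) * β ^ (-κ) := by
  have hβ0 : 0 < β := by linarith
  have pw : ∀ {a b : ℝ}, a ≤ b → β ^ a ≤ β ^ b := fun h =>
    Real.rpow_le_rpow_of_exponent_le hβ1 h
  have pp : ∀ a : ℝ, 0 < β ^ a := fun a => Real.rpow_pos_of_pos hβ0 a
  have h1 : N ^ 2 ≤ (2 * (A * β ^ κ)) ^ 2 := pow_le_pow_left₀ hN0 hN 2
  have h1' : W ^ 3 ≤ (899 * Real.sqrt (A / β)) ^ 3 := pow_le_pow_left₀ hW0 hW 3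
  have h2 : N ^ 2 * W ^ 3 ≤ (2 * (A * β ^ κ)) ^ 2 * (899 * Real.sqrt (A / β)) ^ 3 :=
    mul_le_mul h1 h1' (by positivity) (by positivity)
  have h3 : Real.sqrt (A / β) ^ 3 = Real.sqrt 8 ^ 3 * β ^ ((9 * κ + 21 * η - 3) / 2) := by
    have e1 : A / β = 8 * β ^ (3 * κ + 7 * η - 1) := by
      rw [hA, Real.rpow_sub hβ0, Real.rpow_one]; ring
    rw [e1, Real.sqrt_mul (by norm_num), mul_pow, Real.sqrt_eq_rpow (β ^ _),
      ← Real.rpow_mul hβ0.le, ← Real.rpow_natCast (β ^ _), ← Real.rpow_mul hβ0.le]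
    congr 2
    push_cast
    ring
  have q1 := pp (-(3 * κ) - 3 * η)
  have h4 : P * (β * (12 * Real.exp 2 * (N ^ 2 * W ^ 3))) ≤
      8 * β ^ (-(3 * κ) - 3 * η) * (β * (12 * Real.exp 2 *
        ((2 * (A * β ^ κ)) ^ 2 * (899 * Real.sqrt (A / β)) ^ 3))) := by
    refine mul_le_mul hP ?_ (by positivity) (by positivity)
    exact mul_le_mul_of_nonneg_left (mul_le_mul_of_nonneg_left h2 (by positivity)) hβ0.le
  refine h4.trans ?_
  have h5 : 8 * β ^ (-(3 * κ) - 3 * η) * (β * (12 * Real.exp 2 *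
        ((2 * (A * β ^ κ)) ^ 2 * (899 * Real.sqrt (A / β)) ^ 3))) =
      8 * (12 * Real.exp 2 * (4 * 8 ^ 2) * (899 ^ 3 * Real.sqrt 8 ^ 3)) *
      (β ^ (-(3 * κ) - 3 * η) * β * (β ^ (3 * κ + 7 * η)) ^ 2 * (β ^ κ) ^ 2 *
        β ^ ((9 * κ + 21 * η - 3) / 2)) := by
    rw [mul_pow 899, h3, hA]
    ring
  rw [h5]
  refine mul_le_mul_of_nonneg_left ?_ (by positivity)
  have h6 : β ^ (-(3 * κ) - 3 * η) * β * (β ^ (3 * κ + 7 * η)) ^ 2 * (β ^ κ) ^ 2 *
        β ^ ((9 * κ + 21 * η - 3) / 2) =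
      β ^ (-(3 * κ) - 3 * η + 1 + (3 * κ + 7 * η) * 2 + κ * 2 + (9 * κ + 21 * η - 3) / 2) := by
    have g : ∀ u v w : ℝ, β ^ v * β * (β ^ u) ^ 2 * (β ^ κ) ^ 2 * β ^ w =
        β ^ (v + 1 + u * 2 + κ * 2 + w) := by
      intro u v w
      rw [Real.rpow_add hβ0, Real.rpow_add hβ0, Real.rpow_add hβ0, Real.rpow_add hβ0,
        Real.rpow_one, Real.rpow_mul hβ0.le u 2, Real.rpow_mul hβ0.le κ 2, Real.rpow_two,
        Real.rpow_two]
    exact g _ _ _
  rw [h6]
  refine pw ?_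
  linarith

/-- (D6) Upper bound for the reduced pressure, uniformly in the field. -/
theorem gRed_upper {n : ℕ} (hn : 1 ≤ n) {κ : ℝ} (hκ : 0 < κ) (hκ2 : κ < 1 / 21) :
    ∃ C β₀ : ℝ, ∀ β : ℝ, β₀ ≤ β → ∀ t : ℝ, β ^ (-κ) ≤ t →
      Real.sqrt β ^ 3 * gRed n β (t / β) ≤ FS ((n : ℝ) / 2) t + C * β ^ (-κ) := by
  have hnR : (1 : ℝ) ≤ n := by exact_mod_cast hn
  obtain ⟨C, hC0, hC⟩ := bosSer_le hn
  obtain ⟨η, hη, hη2, hη3⟩ : ∃ η : ℝ, 0 < η ∧ η ≤ 1 / 43 ∧ 43 * η ≤ 1 - 21 * κ :=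
    ⟨(1 - 21 * κ) / 43, by linarith, by linarith, by linarith⟩
  have l2 : ∀ᶠ β : ℝ in atTop, 8 ≤ β ^ (1 - 3 * κ - 7 * η) :=
    (tendsto_rpow_atTop (by linarith)).eventually_ge_atTop 8
  obtain ⟨β₀, hβ₀⟩ := eventually_atTop.1
    ((exists_cube hn hκ hη (by linarith)).and (l2.and (eventually_ge_atTop 448)))
  refine ⟨8 * Real.log 3 + 8 * (12 * Real.exp 2 * (4 * 8 ^ 2) * (899 ^ 3 * Real.sqrt 8 ^ 3)) +
    C * 7 + 8, β₀, fun β hβ t ht => ?_⟩
  obtain ⟨⟨L, hLpos, hLge, hz1⟩, h8, h448⟩ := hβ₀ β hβ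
  have hβ0 : 0 < β := by linarith
  have hβ1 : 1 ≤ β := by linarith
  have pw : ∀ {a b : ℝ}, a ≤ b → β ^ a ≤ β ^ b := fun h =>
    Real.rpow_le_rpow_of_exponent_le hβ1 h
  have pp : ∀ a : ℝ, 0 < β ^ a := fun a => Real.rpow_pos_of_pos hβ0 a
  have ht0 : 0 < t := lt_of_lt_of_le (pp _) ht
  have hLR : (0 : ℝ) < L := by exact_mod_cast hLpos
  obtain ⟨A, hA⟩ : ∃ A : ℝ, A = 8 * β ^ (3 * κ + 7 * η) := ⟨_, rfl⟩
  rw [← hA] at hz1
  have hA8 : 8 ≤ A := by
    have : 1 ≤ β ^ (3 * κ + 7 * η) := Real.one_le_rpow hβ1 (by linarith)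
    rw [hA]; linarith
  have hz2 : Real.log (Zt n (cube L) β 0) ≤ A :=
    (Real.log_le_log (Zt_pos β 0) (Zt_anti (by linarith) le_rfl)).trans hz1
  have hAβ : A ≤ β := by
    have h1 : β ^ (3 * κ + 7 * η) * β ^ (1 - 3 * κ - 7 * η) = β := by
      rw [← Real.rpow_add hβ0]
      nth_rewrite 2 [← Real.rpow_one β]
      congr 1; ring
    calc A = β ^ (3 * κ + 7 * η) * 8 := by rw [hA]; ring
      _ ≤ β ^ (3 * κ + 7 * η) * β ^ (1 - 3 * κ - 7 * η) :=
        mul_le_mul_of_nonneg_left h8 (pp _).le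
      _ = β := h1
  obtain ⟨N1, hN1a, hN1b⟩ : ∃ N1 : ℕ, A ≤ t * N1 ∧ (N1 : ℝ) ≤ 2 * (A * β ^ κ) := by
    refine ⟨⌈A / t⌉₊, ?_, ?_⟩
    · have := Nat.le_ceil (A / t)
      rwa [div_le_iff₀ ht0, mul_comm] at this
    · have h1 := (Nat.ceil_lt_add_one (by positivity : 0 ≤ A / t)).le
      have h2 : A / t ≤ A * β ^ κ := by
        rw [div_le_iff₀ ht0]
        have h3 : β ^ κ * β ^ (-κ) = 1 := by rw [← Real.rpow_add hβ0]; simp
        have h4 : A * β ^ κ * β ^ (-κ) ≤ A * β ^ κ * t :=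
          mul_le_mul_of_nonneg_left ht (mul_nonneg (by linarith) (pp _).le)
        calc A = A * β ^ κ * β ^ (-κ) := by rw [mul_assoc, h3, mul_one]
          _ ≤ _ := h4
      have h5 : 1 ≤ A * β ^ κ := by
        have := Real.one_le_rpow hβ1 hκ.le
        nlinarith
      linarith
  have hup := logZt_upper hn hLpos (β := β) (t := t) (E1 := 2 * A / β) hβ0.le ht0
    (by positivity) N1 (hz1.trans (le_of_eq (by field_simp))) (hz2.trans hN1a)
  obtain ⟨sb1, sb2, sb3, sb4⟩ := side_bounds hκ hη hβ1 hLpos hLge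
  have hbJ := bJ_param hn hβ0 (by linarith) hAβ
  have hLinv : 1 / (L : ℝ) ≤ Real.sqrt (A / β) := by
    refine Real.le_sqrt_of_sq_le ?_
    rw [div_pow, one_pow, div_le_div_iff₀ (by positivity) hβ0, one_mul]
    nlinarith
  have hP0 : 0 < Real.sqrt β ^ 3 / (L : ℝ) ^ 3 := by positivity
  have piece2 := interaction_error hη3 hβ1 hA sb4 (Nat.cast_nonneg N1) hN1b
    (W := 1 / (L : ℝ) + 2 * H.bJ (2 * n / (2 * A / β)))
    (by have := H.bJ_nonneg (2 * n / (2 * A / β)); positivity) (by linarith)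
  have hPκ : Real.sqrt β ^ 3 / (L : ℝ) ^ 3 ≤ 8 * β ^ (-κ) :=
    sb4.trans (mul_le_mul_of_nonneg_left (pw (by linarith)) (by norm_num))
  have piece3 := hC β h448 L hLpos t ht0
  have g1 : 1 / β ≤ β ^ (-κ) := by
    rw [one_div, ← Real.rpow_neg_one]
    exact pw (by linarith)
  have g4 : Real.sqrt β ^ 3 / (L : ℝ) ^ 3 / t ≤ 8 * β ^ (-κ) := by
    rw [div_le_iff₀ ht0]
    have h2 : 8 * β ^ (-(3 * κ) - 3 * η) ≤ 8 * β ^ (-κ) * β ^ (-κ) := by
      rw [mul_assoc, ← Real.rpow_add hβ0]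
      exact mul_le_mul_of_nonneg_left (pw (by linarith)) (by norm_num)
    have h3 : 8 * β ^ (-κ) * β ^ (-κ) ≤ 8 * β ^ (-κ) * t :=
      mul_le_mul_of_nonneg_left ht (by have := pp (-κ); positivity)
    linarith
  have g5 : C * (1 / β + Real.sqrt β / L + β / (L : ℝ) ^ 2) ≤ C * (7 * β ^ (-κ)) :=
    mul_le_mul_of_nonneg_left (by linarith) hC0
  have hred := gRed_le (n := n) (β := β) (h := t / β) hβ0 (by positivity) hLpos
  rw [mul_div_cancel₀ t hβ0.ne'] at hred
  set P : ℝ := Real.sqrt β ^ 3 / (L : ℝ) ^ 3 with hP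
  have piece1 : P * Real.log 3 ≤ 8 * Real.log 3 * β ^ (-κ) := by
    have h1 : 0 ≤ Real.log 3 := Real.log_nonneg (by norm_num)
    have := mul_le_mul_of_nonneg_right hPκ h1
    linarith
  have h1 := mul_le_mul_of_nonneg_left hred (a := Real.sqrt β ^ 3) (by positivity)
  have h2 : Real.sqrt β ^ 3 * (Real.log (Zt n (cube L) β t) / (L : ℝ) ^ 3) =
      P * Real.log (Zt n (cube L) β t) := by rw [hP]; ring
  rw [h2] at h1
  have h3 := mul_le_mul_of_nonneg_left hup hP0.le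
  rw [mul_add, mul_add] at h3
  generalize 8 * (12 * Real.exp 2 * (4 * 8 ^ 2) * (899 ^ 3 * Real.sqrt 8 ^ 3)) = K at piece2 ⊢
  have h4 : (8 * Real.log 3 + K + C * 7 + 8) * β ^ (-κ) = 8 * Real.log 3 * β ^ (-κ) +
      K * β ^ (-κ) + C * (7 * β ^ (-κ)) + 8 * β ^ (-κ) := by ring
  rw [h4]
  linarith

end Vale.Agent.P361.B
end

section

/-! # P361, stage 3: zero field from a small positive field (helper348)

`Tr e^{-β H} ≤ 2 (n |Λ| + 1) Tr e^{-β' H - t N}`, `t = (β - β') n / (6 L²)`, on the cube of side `L`. -/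

namespace Vale.Agent.P361.B

open Matrix Finset Filter Topology
open scoped ComplexOrder Kronecker

set_option linter.unusedSectionVars false

noncomputable section

namespace Su2

variable {n : ℕ} {Λ : Finset Site}

theorem dot_jM {x y : Λ} (hxy : x ≠ y) : Commute (H.dotOp n x y) (jM n Λ) := by
  have h := H.comm_dot_mode (n := n) hxy (fun _ => (1 : ℂ))
  rw [← jM_eq_mode, sub_self, zero_smul] at h
  exact sub_eq_zero.1 h

theorem hT_jM : Commute (hT n Λ) (jM n Λ) := by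
  unfold hT
  refine Commute.smul_left ?_ _
  refine Commute.sum_left _ _ _ fun x _ => Commute.sum_left _ _ _ fun y _ => ?_
  split_ifs with h
  · have hxy : x ≠ y := by
      rintro rfl
      exact isNN_irrefl _ h
    exact ((Commute.one_left _).smul_left _).sub_left (dot_jM hxy)
  · exact Commute.zero_left _

theorem hT_jP : Commute (hT n Λ) (jP n Λ) := by
  have h := congrArg Matrix.conjTranspose (hT_jM (n := n) (Λ := Λ)).eq
  rw [Matrix.conjTranspose_mul, Matrix.conjTranspose_mul, jM_conj, hT_isHermitian.eq] at h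
  exact h.symm

theorem hT_num : Commute (hT n Λ) (numOp n Λ) := by
  have h := jP_jM (n := n) (Λ := Λ)
  have e : numOp n Λ = (1 / 2 : ℂ) • (jM n Λ * jP n Λ + (((n * Λ.card : ℕ) : ℂ) •
      (1 : Matrix (Λ → Fin (n + 1)) (Λ → Fin (n + 1)) ℂ)) - jP n Λ * jM n Λ) := by
    rw [h]
    module
  rw [e]
  exact (((hT_jM.mul_right hT_jP).add_right ((Commute.one_right _).smul_right _)).sub_right
    (hT_jP.mul_right hT_jM)).smul_right _

theorem hT_casX : Commute (hT n Λ) (casX n Λ) := by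
  rw [casX_eq]
  exact (hT_num.mul_right (((Commute.one_right _).smul_right _).sub_right hT_num)).sub_right
    (hT_jM.mul_right hT_jP)

section Rec

variable {A : Matrix (Λ → Fin (n + 1)) (Λ → Fin (n + 1)) ℂ}

theorem rec_pow_succ (hA : A * jM n Λ = jM n Λ * A) (j k : ℕ) :
    trace (A * pj n Λ (j + 1) * casX n Λ ^ (k + 1)) - trace (A * pj n Λ j * casX n Λ ^ (k + 1)) =
      (((j : ℂ) + 1) * ((n * Λ.card : ℕ) - (j : ℂ))) *
      (trace (A * pj n Λ (j + 1) * casX n Λ ^ k) - trace (A * pj n Λ j * casX n Λ ^ k)) := by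
  have g1 : A * pj n Λ (j + 1) * casX n Λ =
      (((j : ℂ) + 1) * ((n * Λ.card : ℕ) - (j : ℂ))) • (A * pj n Λ (j + 1)) -
        jM n Λ * (A * pj n Λ j) * jP n Λ := by
    rw [Matrix.mul_assoc, pj_casX_succ, Matrix.mul_sub, Matrix.mul_smul]
    congr 1
    rw [← Matrix.mul_assoc, ← Matrix.mul_assoc, hA, Matrix.mul_assoc (jM n Λ) A]
  have g2 : A * pj n Λ j * casX n Λ =
      (((j : ℂ) + 1) * ((n * Λ.card : ℕ) - (j : ℂ))) • (A * pj n Λ j) -
        A * pj n Λ j * (jP n Λ * jM n Λ) := by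
    rw [Matrix.mul_assoc, pj_casX, Matrix.mul_sub, Matrix.mul_smul, ← Matrix.mul_assoc A]
  have h1 := trace_step _ _ _ _ g1 k
  have h2 := trace_step _ _ _ _ g2 k
  rw [trace_move _ _ _ _ (casX_pow_comm k)] at h1
  rw [h1, h2]
  ring

theorem rec_pow (hA : A * jM n Λ = jM n Λ * A) (j k : ℕ) :
    trace (A * pj n Λ (j + 1) * casX n Λ ^ k) - trace (A * pj n Λ j * casX n Λ ^ k) =
      (((j : ℂ) + 1) * ((n * Λ.card : ℕ) - (j : ℂ))) ^ k *
      (trace (A * pj n Λ (j + 1)) - trace (A * pj n Λ j)) := by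
  induction k with
  | zero => simp
  | succ k ih => rw [rec_pow_succ hA, ih, pow_succ]; ring

theorem rec_exp (hA : A * jM n Λ = jM n Λ * A) (j : ℕ) (a : ℂ) :
    trace (A * pj n Λ (j + 1) * NormedSpace.exp (a • casX n Λ)) -
      trace (A * pj n Λ j * NormedSpace.exp (a • casX n Λ)) =
      Complex.exp (a * (((j : ℂ) + 1) * ((n * Λ.card : ℕ) - (j : ℂ)))) *
      (trace (A * pj n Λ (j + 1)) - trace (A * pj n Λ j)) := by
  have h1 := (hasSum_trace_exp (A * pj n Λ (j + 1)) (casX n Λ) a).sub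
    (hasSum_trace_exp (A * pj n Λ j) (casX n Λ) a)
  have h2 : HasSum (fun k : ℕ => ((k.factorial : ℂ)⁻¹) *
      ((a * (((j : ℂ) + 1) * ((n * Λ.card : ℕ) - (j : ℂ)))) ^ k))
      (Complex.exp (a * (((j : ℂ) + 1) * ((n * Λ.card : ℕ) - (j : ℂ))))) := by
    rw [Complex.exp_eq_exp_ℂ]
    have := NormedSpace.exp_series_hasSum_exp' (𝕂 := ℂ)
      (a * (((j : ℂ) + 1) * ((n * Λ.card : ℕ) - (j : ℂ))))
    simpa only [smul_eq_mul] using this
  have h3 := h2.mul_right (trace (A * pj n Λ (j + 1)) - trace (A * pj n Λ j))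
  refine h1.unique ?_
  refine hasSum_congr_fun h3 ?_
  intro k
  have h4 := rec_pow hA j k
  rw [mul_pow]
  linear_combination (-((k.factorial : ℂ)⁻¹ * a ^ k)) * h4

theorem rec_zero (a : ℂ) :
    trace (A * pj n Λ 0 * NormedSpace.exp (a • casX n Λ)) = trace (A * pj n Λ 0) := by
  have h1 := hasSum_trace_exp (A * pj n Λ 0) (casX n Λ) a
  have h2 : HasSum (fun k : ℕ => ((k.factorial : ℂ)⁻¹) * (a ^ k *
      trace (A * pj n Λ 0 * casX n Λ ^ k))) (trace (A * pj n Λ 0)) := by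
    have h3 := hasSum_single (f := fun k : ℕ => ((k.factorial : ℂ)⁻¹) * (a ^ k *
      trace (A * pj n Λ 0 * casX n Λ ^ k))) 0 (fun k hk => by
        obtain ⟨k', rfl⟩ := Nat.exists_eq_succ_of_ne_zero hk
        simp only [Nat.succ_eq_add_one]
        rw [pow_succ' (casX n Λ), ← Matrix.mul_assoc, Matrix.mul_assoc A, p0_casX]
        simp)
    simpa using h3
  exact h1.unique h2

theorem rec_le (hA : A * jM n Λ = jM n Λ * A) (hpos : ∀ i, 0 ≤ (trace (A * pj n Λ i)).re) (j : ℕ)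
    (s : ℝ) : (trace (A * pj n Λ j * NormedSpace.exp (((-s : ℝ) : ℂ) • casX n Λ))).re ≤
      ∑ i ∈ Finset.range (j + 1), Real.exp (-s * cj n Λ i) * (trace (A * pj n Λ i)).re := by
  induction j with
  | zero =>
    rw [rec_zero]
    simp [cj]
  | succ j ih =>
    rw [Finset.sum_range_succ]
    have h := congrArg Complex.re (rec_exp hA j ((-s : ℝ) : ℂ))
    rw [Complex.sub_re] at h
    have e1 : Complex.exp (((-s : ℝ) : ℂ) * (((j : ℂ) + 1) * ((n * Λ.card : ℕ) - (j : ℂ)))) =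
        ((Real.exp (-s * cj n Λ (j + 1)) : ℝ) : ℂ) := by
      rw [Complex.ofReal_exp]
      congr 1
      unfold cj
      push_cast
      ring
    rw [e1, Complex.re_ofReal_mul, Complex.sub_re] at h
    have h3 : 0 ≤ Real.exp (-s * cj n Λ (j + 1)) * (trace (A * pj n Λ j)).re :=
      mul_nonneg (Real.exp_pos _).le (hpos j)
    linarith

end Rec

/-! ### Spin flip -/

/-- the spin flip on configurations -/
def rv (n : ℕ) (Λ : Finset Site) : (Λ → Fin (n + 1)) ≃ (Λ → Fin (n + 1)) :=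
  Equiv.piCongrRight fun _ => Fin.revPerm

theorem rv_apply (σ : Λ → Fin (n + 1)) (x : Λ) : rv n Λ σ x = Fin.rev (σ x) := rfl

theorem siteOp_rv (x : Λ) (M : Matrix (Fin (n + 1)) (Fin (n + 1)) ℂ) :
    (siteOp x M).submatrix (rv n Λ) (rv n Λ) = siteOp x (M.submatrix Fin.rev Fin.rev) := by
  ext σ τ
  rw [Matrix.submatrix_apply]
  refine (H.siteOp_apply x M _ _).trans ((H.siteOp_apply x (M.submatrix Fin.rev Fin.rev) σ τ).symm ▸ ?_)
  simp only [rv_apply, Matrix.submatrix_apply]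
  congr 1
  refine Finset.prod_congr rfl fun y _ => ?_
  rw [Matrix.one_apply, Matrix.one_apply, rv_apply, rv_apply]
  exact if_congr Fin.rev_inj rfl rfl

theorem spinZ_rev : (spinZ n).submatrix Fin.rev Fin.rev = -spinZ n := by
  ext i j
  rw [Matrix.submatrix_apply, Matrix.neg_apply, spinZ, Matrix.diagonal_apply, Matrix.diagonal_apply]
  by_cases h : i = j
  · subst h
    rw [if_pos rfl, if_pos rfl, Fin.val_rev]
    have : (i : ℕ) ≤ n := Nat.lt_succ_iff.1 i.2
    have e : ((n + 1 - ((i : ℕ) + 1) : ℕ) : ℂ) = (n : ℂ) - (i : ℕ) := by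
      rw [Nat.add_sub_add_right, Nat.cast_sub this]
    rw [e]
    ring
  · rw [if_neg (fun h' => h (Fin.rev_inj.1 h')), if_neg h, neg_zero]

theorem spinLower_rev : (spinLower n).submatrix Fin.rev Fin.rev = (spinLower n)ᴴ := by
  ext i j
  rw [Matrix.submatrix_apply, Matrix.conjTranspose_apply, spinLower, Matrix.of_apply, Matrix.of_apply,
    Fin.val_rev, Fin.val_rev]
  have hi : (i : ℕ) ≤ n := Nat.lt_succ_iff.1 i.2
  have hj : (j : ℕ) ≤ n := Nat.lt_succ_iff.1 j.2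
  by_cases h : (j : ℕ) = (i : ℕ) + 1
  · rw [if_pos (by omega), if_pos h]
    simp only [RCLike.star_def, Complex.conj_ofReal]
    congr 2
    have e : ((n + 1 - ((i : ℕ) + 1) : ℕ) : ℝ) = (n : ℝ) - (i : ℕ) := by
      rw [Nat.add_sub_add_right, Nat.cast_sub hi]
    rw [e, h]
    push_cast
    ring
  · rw [if_neg (by omega), if_neg h]
    simp

theorem spinLower_rev' : ((spinLower n)ᴴ).submatrix Fin.rev Fin.rev = spinLower n := by
  rw [← spinLower_rev, Matrix.submatrix_submatrix]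
  ext i j
  simp

theorem dot_rv (x y : Λ) : (H.dotOp n x y).submatrix (rv n Λ) (rv n Λ) = H.dotOp n x y := by
  rw [H.dotOp_eq]
  simp only [Matrix.submatrix_add, Matrix.submatrix_smul, Pi.add_apply, Pi.smul_apply,
    ← Matrix.submatrix_mul_equiv _ _ (rv n Λ) (rv n Λ) (rv n Λ), siteOp_rv, spinZ_rev, spinLower_rev,
    spinLower_rev']
  have e : ∀ z : Λ, siteOp z (-spinZ n) = -H.oZ n z := by
    intro z
    have := H.siteOp_smul z (-1 : ℂ) (spinZ n)
    rw [neg_one_smul, neg_one_smul] at this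
    exact this
  rw [e, e, neg_mul_neg, add_comm (H.oM n x * H.oP n y)]

theorem hT_rv : (hT n Λ).submatrix (rv n Λ) (rv n Λ) = hT n Λ := by
  ext σ τ
  have hd : ∀ x y : Λ, H.dotOp n x y (rv n Λ σ) (rv n Λ τ) = H.dotOp n x y σ τ := by
    intro x y
    exact congrFun (congrFun (dot_rv x y) σ) τ
  have h1 : (1 : Matrix (Λ → Fin (n + 1)) (Λ → Fin (n + 1)) ℂ) (rv n Λ σ) (rv n Λ τ) =
      (1 : Matrix (Λ → Fin (n + 1)) (Λ → Fin (n + 1)) ℂ) σ τ := by
    simp only [Matrix.one_apply, (rv n Λ).injective.eq_iff]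
  rw [Matrix.submatrix_apply]
  unfold hT
  simp only [Matrix.smul_apply, Matrix.sum_apply]
  congr 1
  refine Finset.sum_congr rfl fun x _ => Finset.sum_congr rfl fun y _ => ?_
  split_ifs
  · simp only [Matrix.sub_apply, Matrix.smul_apply, hd, h1]
  · rfl

theorem cntS_rv (σ : Λ → Fin (n + 1)) : cntS (rv n Λ σ) + cntS σ = n * Λ.card := by
  unfold cntS
  rw [← Finset.sum_add_distrib]
  have : ∀ x : Λ, ((rv n Λ σ x : Fin (n + 1)) : ℕ) + (σ x : ℕ) = n := by
    intro x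
    rw [rv_apply, Fin.val_rev]
    have := Nat.lt_succ_iff.1 (σ x).2
    omega
  simp only [this, Finset.sum_const, Finset.card_univ, Fintype.card_coe, smul_eq_mul]
  ring

theorem tr_flip (b : ℂ) {i : ℕ} (hi : i ≤ n * Λ.card) :
    trace (NormedSpace.exp (b • hT n Λ) * pj n Λ i) =
      trace (NormedSpace.exp (b • hT n Λ) * pj n Λ (n * Λ.card - i)) := by
  have hexp : (NormedSpace.exp (b • hT n Λ)).submatrix (rv n Λ) (rv n Λ) =
      NormedSpace.exp (b • hT n Λ) := by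
    rw [← exp_submatrix_equiv]
    congr 1
    rw [Matrix.submatrix_smul, Pi.smul_apply, Pi.smul_apply, hT_rv]
  have key : ∀ j, trace (NormedSpace.exp (b • hT n Λ) * pj n Λ j) =
      ∑ σ, if cntS σ = j then NormedSpace.exp (b • hT n Λ) σ σ else 0 := by
    intro j
    rw [pj, Matrix.trace]
    refine Finset.sum_congr rfl fun σ _ => ?_
    rw [Matrix.diag_apply, Matrix.mul_diagonal]
    split_ifs <;> simp
  rw [key, key, ← (rv n Λ).sum_comp]
  refine Finset.sum_congr rfl fun σ _ => ?_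
  have h1 := congrFun (congrFun hexp σ) σ
  rw [Matrix.submatrix_apply] at h1
  rw [h1]
  have h2 := cntS_rv σ
  have h3 : (cntS (rv n Λ σ) = i) ↔ (cntS σ = n * Λ.card - i) := by omega
  simp only [h3]

theorem exp_num (t : ℝ) : NormedSpace.exp (((-t : ℝ) : ℂ) • numOp n Λ) =
    ∑ i ∈ Finset.range (n * Λ.card + 1), ((Real.exp (-t * i) : ℝ) : ℂ) • pj n Λ i := by
  have e1 : ((-t : ℝ) : ℂ) • numOp n Λ =
      diagonal fun σ : Λ → Fin (n + 1) => ((-t : ℝ) : ℂ) * ((cntS σ : ℕ) : ℂ) := by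
    rw [numOp_eq_diagonal, ← Matrix.diagonal_smul]
    rfl
  rw [e1, Matrix.exp_diagonal]
  ext σ τ
  rw [Matrix.sum_apply]
  by_cases h : σ = τ
  · subst h
    rw [Matrix.diagonal_apply_eq]
    simp only [Matrix.smul_apply, pj, Matrix.diagonal_apply_eq, smul_eq_mul, mul_ite, mul_one, mul_zero]
    rw [Finset.sum_ite_eq, if_pos (by
      rw [Finset.mem_range]
      have := cntS_le σ
      omega)]
    rw [Pi.exp_def]
    simp only
    rw [← Complex.exp_eq_exp_ℂ, Complex.ofReal_exp]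
    push_cast
    rfl
  · rw [Matrix.diagonal_apply_ne _ h]
    symm
    refine Finset.sum_eq_zero fun i _ => ?_
    rw [Matrix.smul_apply, pj, Matrix.diagonal_apply_ne _ h, smul_zero]

theorem Zt_eq_sum (b t : ℝ) : Zt n Λ b t = ∑ i ∈ Finset.range (n * Λ.card + 1),
    Real.exp (-t * i) * (trace (NormedSpace.exp (((-b : ℝ) : ℂ) • hT n Λ) * pj n Λ i)).re := by
  have hc : Commute (((-b : ℝ) : ℂ) • hT n Λ) (((-t : ℝ) : ℂ) • numOp n Λ) :=
    (hT_num.smul_left _).smul_right _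
  have e1 : -((b : ℂ) • hT n Λ + (t : ℂ) • numOp n Λ) =
      ((-b : ℝ) : ℂ) • hT n Λ + ((-t : ℝ) : ℂ) • numOp n Λ := by
    push_cast
    module
  unfold Zt
  rw [e1, Matrix.exp_add_of_commute _ _ hc, exp_num, Matrix.mul_sum, Matrix.trace_sum, Complex.re_sum]
  refine Finset.sum_congr rfl fun i _ => ?_
  rw [Matrix.mul_smul, Matrix.trace_smul, smul_eq_mul, Complex.re_ofReal_mul]

theorem exp_cj_le {s : ℝ} (hs : 0 ≤ s) {i : ℕ} (hi : i ≤ n * Λ.card) :
    Real.exp (-s * cj n Λ i) ≤ Real.exp (-(s * (n * Λ.card / 2)) * i) +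
      Real.exp (-(s * (n * Λ.card / 2)) * ((n * Λ.card - i : ℕ) : ℝ)) := by
  have hi' : (i : ℝ) ≤ (n : ℝ) * Λ.card := by exact_mod_cast hi
  have hi0 : (0 : ℝ) ≤ i := Nat.cast_nonneg i
  rw [Nat.cast_sub hi]
  push_cast
  unfold cj
  rcases le_total (i : ℝ) ((n : ℝ) * Λ.card / 2) with h | h
  · refine le_trans (Real.exp_le_exp.2 ?_) (le_add_of_nonneg_right (Real.exp_pos _).le)
    have : (n : ℝ) * Λ.card / 2 * i ≤ i * ((n : ℝ) * Λ.card + 1 - i) := by nlinarith
    have := mul_le_mul_of_nonneg_left this hs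
    linarith
  · refine le_trans (Real.exp_le_exp.2 ?_) (le_add_of_nonneg_left (Real.exp_pos _).le)
    have h2 : (n : ℝ) * Λ.card / 2 * ((n : ℝ) * Λ.card - i) ≤ i * ((n : ℝ) * Λ.card + 1 - i) := by
      nlinarith
    have := mul_le_mul_of_nonneg_left h2 hs
    linarith

end Su2

open Su2 in
theorem su2_sum {n : ℕ} {Λ : Finset Site} {A : Matrix (Λ → Fin (n + 1)) (Λ → Fin (n + 1)) ℂ}
    (hAj : A * jM n Λ = jM n Λ * A) (hpos : ∀ i, 0 ≤ (trace (A * pj n Λ i)).re) (s : ℝ) :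
    (trace (A * NormedSpace.exp (((-s : ℝ) : ℂ) • casX n Λ))).re ≤
      ((n : ℝ) * Λ.card + 1) * ∑ i ∈ Finset.range (n * Λ.card + 1),
        Real.exp (-s * cj n Λ i) * (trace (A * pj n Λ i)).re := by
  have h2 : (trace (A * NormedSpace.exp (((-s : ℝ) : ℂ) • casX n Λ))).re =
      ∑ j ∈ Finset.range (n * Λ.card + 1),
        (trace (A * pj n Λ j * NormedSpace.exp (((-s : ℝ) : ℂ) • casX n Λ))).re := by
    rw [← Complex.re_sum, ← Matrix.trace_sum, ← Finset.sum_mul, ← Finset.mul_sum, sum_pj,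
      Matrix.mul_one]
  rw [h2]
  calc _ ≤ ∑ _j ∈ Finset.range (n * Λ.card + 1), ∑ i ∈ Finset.range (n * Λ.card + 1),
        Real.exp (-s * cj n Λ i) * (trace (A * pj n Λ i)).re := by
        refine Finset.sum_le_sum fun j hj => (rec_le hAj hpos j s).trans ?_
        refine Finset.sum_le_sum_of_subset_of_nonneg ?_ fun i _ _ =>
          mul_nonneg (Real.exp_pos _).le (hpos i)
        intro i hi
        rw [Finset.mem_range] at hi hj ⊢
        omega
    _ = _ := by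
        rw [Finset.sum_const, Finset.card_range, nsmul_eq_mul]
        push_cast
        rfl

open Su2 in
theorem su2_flip {n : ℕ} {Λ : Finset Site} (b' t : ℝ) : ∑ i ∈ Finset.range (n * Λ.card + 1),
      Real.exp (-t * ((n * Λ.card - i : ℕ) : ℝ)) *
        (trace (NormedSpace.exp (((-b' : ℝ) : ℂ) • hT n Λ) * pj n Λ i)).re = Zt n Λ b' t := by
  rw [Zt_eq_sum, ← Finset.sum_range_reflect]
  refine Finset.sum_congr rfl fun i hi => ?_
  rw [Finset.mem_range] at hi
  have hi2 : i ≤ n * Λ.card := by omega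
  have e1 : n * Λ.card + 1 - 1 - i = n * Λ.card - i := by omega
  rw [e1]
  have e2 : n * Λ.card - (n * Λ.card - i) = i := by omega
  rw [e2, tr_flip (((-b' : ℝ) : ℂ)) (i := i) hi2]

open Su2 in
theorem su2_T {n : ℕ} {Λ : Finset Site} {s : ℝ} (hs0 : 0 ≤ s) (b' : ℝ)
    (hpos : ∀ i, 0 ≤ (trace (NormedSpace.exp (((-b' : ℝ) : ℂ) • hT n Λ) * pj n Λ i)).re) :
    ∑ i ∈ Finset.range (n * Λ.card + 1), Real.exp (-s * cj n Λ i) *
      (trace (NormedSpace.exp (((-b' : ℝ) : ℂ) • hT n Λ) * pj n Λ i)).re ≤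
      2 * Zt n Λ b' (s * (n * Λ.card / 2)) := by
  have hflip := su2_flip (n := n) (Λ := Λ) b' (s * (n * Λ.card / 2))
  have hZ := Zt_eq_sum (n := n) (Λ := Λ) b' (s * (n * Λ.card / 2))
  calc _ ≤ ∑ i ∈ Finset.range (n * Λ.card + 1),
      (Real.exp (-(s * (n * Λ.card / 2)) * i) *
        (trace (NormedSpace.exp (((-b' : ℝ) : ℂ) • hT n Λ) * pj n Λ i)).re +
        Real.exp (-(s * (n * Λ.card / 2)) * ((n * Λ.card - i : ℕ) : ℝ)) *
        (trace (NormedSpace.exp (((-b' : ℝ) : ℂ) • hT n Λ) * pj n Λ i)).re) := by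
        refine Finset.sum_le_sum fun i hi => ?_
        rw [Finset.mem_range] at hi
        rw [← add_mul]
        exact mul_le_mul_of_nonneg_right (exp_cj_le hs0 (by omega)) (hpos i)
    _ = _ := by
        rw [Finset.sum_add_distrib, hflip, ← hZ]
        ring

open Su2 in
theorem su2_mono {n : ℕ} (hn : 0 < n) {L : ℕ} (hL : 0 < L) {b b' : ℝ} (hbb : b' ≤ b) {s : ℝ}
    (hs : s = (b - b') / (3 * (L : ℝ) ^ 5)) :
    Zt n (cube L) b 0 ≤ (trace (NormedSpace.exp (((-b' : ℝ) : ℂ) • hT n (cube L)) *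
      NormedSpace.exp (((-s : ℝ) : ℂ) • casX n (cube L)))).re := by
  have hLR : (0 : ℝ) < L := by exact_mod_cast hL
  have hs0 : 0 ≤ s := by rw [hs]; exact div_nonneg (by linarith) (by positivity)
  have hXh : (((-b' : ℝ) : ℂ) • hT n (cube L)).IsHermitian := by
    rw [Matrix.IsHermitian, Matrix.conjTranspose_smul, hT_isHermitian]
    simp
  have hch : (((-s : ℝ) : ℂ) • casX n (cube L)).IsHermitian := by
    rw [Matrix.IsHermitian, Matrix.conjTranspose_smul, casX_isHermitian]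
    simp
  have hc : Commute (((-b' : ℝ) : ℂ) • hT n (cube L)) (((-s : ℝ) : ℂ) • casX n (cube L)) :=
    (hT_casX.smul_left _).smul_right _
  rw [← Matrix.exp_add_of_commute _ _ hc]
  refine trace_exp_mono (expo_isHermitian' (n := n) (Λ := cube L) b 0) (hXh.add hch) ?_
  have e : ((-b' : ℝ) : ℂ) • hT n (cube L) + ((-s : ℝ) : ℂ) • casX n (cube L) -
      -((b : ℂ) • hT n (cube L) + ((0 : ℝ) : ℂ) • numOp n (cube L)) =
      (s : ℂ) • (((3 * (L : ℝ) ^ 5 : ℝ) : ℂ) • hT n (cube L) - casX n (cube L)) := by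
    have e2 : ((b - b' : ℝ) : ℂ) = (s : ℂ) * ((3 * (L : ℝ) ^ 5 : ℝ) : ℂ) := by
      rw [← Complex.ofReal_mul]
      congr 1
      rw [hs]
      field_simp
    rw [smul_sub, smul_smul, ← e2]
    push_cast
    module
  rw [e]
  exact (casX_le_hT hn L).smul (by simpa using hs0)

open Su2 in
/-- **Zero field from a small positive field.** -/
theorem Zt_su2 {n : ℕ} (hn : 0 < n) {L : ℕ} (hL : 0 < L) {b b' : ℝ} (hbb : b' ≤ b) :
    Zt n (cube L) b 0 ≤ 2 * ((n : ℝ) * (L : ℝ) ^ 3 + 1) *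
      Zt n (cube L) b' ((b - b') * n / (6 * (L : ℝ) ^ 2)) := by
  have hLR : (0 : ℝ) < L := by exact_mod_cast hL
  obtain ⟨s, hs⟩ : ∃ s : ℝ, s = (b - b') / (3 * (L : ℝ) ^ 5) := ⟨_, rfl⟩
  have hs0 : 0 ≤ s := by rw [hs]; exact div_nonneg (by linarith) (by positivity)
  have hcard : ((cube L).card : ℝ) = (L : ℝ) ^ 3 := by
    rw [cube_eq, card_cube]; push_cast; rfl
  have hXh : (((-b' : ℝ) : ℂ) • hT n (cube L)).IsHermitian := by
    rw [Matrix.IsHermitian, Matrix.conjTranspose_smul, hT_isHermitian]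
    simp
  have hAj : NormedSpace.exp (((-b' : ℝ) : ℂ) • hT n (cube L)) * jM n (cube L) =
      jM n (cube L) * NormedSpace.exp (((-b' : ℝ) : ℂ) • hT n (cube L)) := by
    open scoped Matrix.Norms.Operator in
    exact ((hT_jM.smul_left _).exp_left).eq
  have hpj : ∀ i, (pj n (cube L) i).PosSemidef := fun i => by
    unfold pj
    refine Matrix.PosSemidef.diagonal fun σ => ?_
    simp only [Pi.zero_apply]
    split_ifs <;> simp
  have hpos : ∀ i, 0 ≤ (trace (NormedSpace.exp (((-b' : ℝ) : ℂ) • hT n (cube L)) *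
      pj n (cube L) i)).re := fun i => trace_exp_mul_nonneg hXh (hpj i)
  have h1 := su2_mono hn hL hbb hs
  have h2 := su2_sum hAj hpos s
  have h3 := su2_T hs0 b' hpos
  have ht2 : s * (n * (cube L).card / 2) = (b - b') * n / (6 * (L : ℝ) ^ 2) := by
    rw [hcard, hs]
    field_simp
    ring
  rw [ht2] at h3
  rw [hcard] at h2
  have h4 := mul_le_mul_of_nonneg_left h3 (by positivity : 0 ≤ (n : ℝ) * (L : ℝ) ^ 3 + 1)
  linarith

end

end Vale.Agent.P361.B
end

section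

/-!
P361 stage 3, block (M), (V1): trace of `exp (- hcM a)` against free bosons.
-/

set_option linter.unusedSectionVars false

namespace Vale.Agent.P361.LRO.S3.Fock

open Finset Matrix Vale.Agent.P361.B

noncomputable section

variable {V : Type} [Fintype V] [DecidableEq V]

/-- Extension by zero. -/
def ext (f : (V → Fin 2) → ℝ) (ζ : V → ℕ) : ℝ :=
  if h : ∀ x, ζ x ≤ 1 then f (fun x => ⟨ζ x, Nat.lt_succ_of_le (h x)⟩) else 0

/-- Occupation numbers. -/
def val (σ : V → Fin 2) (x : V) : ℕ := (σ x : ℕ)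

theorem ext_val (f : (V → Fin 2) → ℝ) (σ : V → Fin 2) : ext f (val σ) = f σ := by
  unfold ext
  have h : ∀ x, val σ x ≤ 1 := fun x => Nat.lt_succ_iff.1 (σ x).2
  rw [dif_pos h]
  rfl

theorem ext_out (f : (V → Fin 2) → ℝ) (ζ : V → ℕ) (h : ζ ∉ occBox V 1) : ext f ζ = 0 := by
  unfold ext
  rw [mem_occBox] at h
  rw [dif_neg h]

theorem sum_occBox (G : (V → ℕ) → ℝ) :
    ∑ ζ ∈ occBox V 1, G ζ = ∑ σ : V → Fin 2, G (val σ) := by
  symm
  refine Finset.sum_bij' (fun σ _ => val σ)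
    (fun ζ hζ => fun x => ⟨ζ x, Nat.lt_succ_of_le (mem_occBox.1 hζ x)⟩) ?_ ?_ ?_ ?_ ?_
  · intro σ _
    rw [mem_occBox]
    exact fun x => Nat.lt_succ_iff.1 (σ x).2
  · intro ζ _; exact Finset.mem_univ _
  · intro σ _; rfl
  · intro ζ _; rfl
  · intro σ _; rfl

theorem aM_ext (x : V) (f : (V → Fin 2) → ℝ) (σ : V → Fin 2) :
    (aM x *ᵥ f) σ = Real.sqrt ((val σ x : ℝ) + 1) * ext f (val σ + Pi.single x 1) := by
  rw [aM_mulVec]
  by_cases h : σ x = 0
  · rw [if_pos h]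
    have h1 : val σ x = 0 := by rw [val, h]; rfl
    have h2 : val σ + Pi.single x 1 = val (Function.update σ x 1) := by
      funext z
      by_cases hz : z = x
      · subst hz
        rw [Pi.add_apply, Pi.single_eq_same, h1, val, Function.update_self]
        rfl
      · rw [Pi.add_apply, Pi.single_eq_of_ne hz, add_zero, val, val, Function.update_of_ne hz]
    rw [h2, ext_val, h1]
    simp
  · rw [if_neg h, ext_out, mul_zero]
    rw [mem_occBox]
    push Not
    refine ⟨x, ?_⟩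
    have h1 : val σ x = 1 := by rw [val, fin2_ne h]; rfl
    rw [Pi.add_apply, Pi.single_eq_same, h1]
    norm_num

/-- Bilinear version of `hop_sum`. -/
theorem hop_bil {n N : ℕ} (ψ : (V → ℕ) → ℝ) (h1 : ∀ ζ, ζ ∉ occBox V n → ψ ζ = 0)
    (h2 : ∀ ζ, ∑ v, ζ v ≠ N + 1 → ψ ζ = 0) (v w : V) :
    ∑ σ ∈ occBox V n, (Real.sqrt ((σ v : ℝ) + 1) * ψ (σ + Pi.single v 1)) *
      (Real.sqrt ((σ w : ℝ) + 1) * ψ (σ + Pi.single w 1)) =
    (N + 1 : ℝ) * ∑ x : Fin N → V, wf (N + 1) ψ (Fin.cons v x) *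
      wf (N + 1) ψ (Fin.cons w x) := by
  have hout : ∀ ζ : V → ℕ, ζ ∉ occBox V n → ∀ v, ψ (ζ + Pi.single v 1) = 0 := by
    intro ζ hζ v
    apply h1
    rw [mem_occBox] at hζ ⊢
    push Not at hζ ⊢
    obtain ⟨x, hx⟩ := hζ
    refine ⟨x, ?_⟩
    rw [Pi.add_apply]; omega
  have hsec : ∀ ζ : V → ℕ, ∑ u, ζ u ≠ N → ∀ v, ψ (ζ + Pi.single v 1) = 0 := by
    intro ζ hζ v
    apply h2
    simp only [Pi.add_apply, Finset.sum_add_distrib]
    rw [Finset.sum_pi_single']
    simp [hζ]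
  refine (fiber_sum n N (fun σ => (Real.sqrt ((σ v : ℝ) + 1) * ψ (σ + Pi.single v 1)) *
      (Real.sqrt ((σ w : ℝ) + 1) * ψ (σ + Pi.single w 1)))
      (fun ζ hζ => by simp only [hout ζ hζ]; simp)
      (fun ζ hζ => by simp only [hsec ζ hζ]; simp)).symm.trans ?_
  rw [Finset.mul_sum]
  refine Finset.sum_congr rfl fun x _ => ?_
  have hc := cnt_occ_pos x
  have hwf : ∀ u, Real.sqrt (N + 1 : ℝ) * wf (N + 1) ψ (Fin.cons u x) =
      Real.sqrt ((occ x u : ℝ) + 1) * ψ (occ x + Pi.single u 1) / Real.sqrt (cnt N (occ x)) := by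
    intro u
    rw [wf, occ_cons]
    have hc2 : (0 : ℝ) < cnt (N + 1) (occ x + Pi.single u 1) := by
      rw [← occ_cons]; exact cnt_occ_pos _
    have h3 : (cnt (N + 1) (occ x + Pi.single u 1) : ℝ) * ((occ x u : ℝ) + 1) =
        ((N : ℝ) + 1) * cnt N (occ x) := by exact_mod_cast cnt_succ N (occ x) u
    have h4 : Real.sqrt (cnt (N + 1) (occ x + Pi.single u 1)) * Real.sqrt ((occ x u : ℝ) + 1) =
        Real.sqrt ((N : ℝ) + 1) * Real.sqrt (cnt N (occ x)) := by
      rw [← Real.sqrt_mul hc2.le, h3, Real.sqrt_mul (by positivity)]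
    have h5 : 0 < Real.sqrt (cnt (N + 1) (occ x + Pi.single u 1)) := Real.sqrt_pos.2 hc2
    have h6 : 0 < Real.sqrt (cnt N (occ x)) := Real.sqrt_pos.2 hc
    rw [mul_div_assoc', div_eq_div_iff h5.ne' h6.ne']
    calc _ = (Real.sqrt ((N : ℝ) + 1) * Real.sqrt (cnt N (occ x))) * ψ (occ x + Pi.single u 1) := by
          ring
      _ = _ := by rw [← h4]; ring
  have h7 : (N + 1 : ℝ) * (wf (N + 1) ψ (Fin.cons v x) * wf (N + 1) ψ (Fin.cons w x)) =
      (Real.sqrt (N + 1 : ℝ) * wf (N + 1) ψ (Fin.cons v x)) *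
        (Real.sqrt (N + 1 : ℝ) * wf (N + 1) ψ (Fin.cons w x)) := by
    have := Real.mul_self_sqrt (show (0 : ℝ) ≤ N + 1 by positivity)
    calc _ = (Real.sqrt (N + 1 : ℝ) * Real.sqrt (N + 1 : ℝ)) *
          (wf (N + 1) ψ (Fin.cons v x) * wf (N + 1) ψ (Fin.cons w x)) := by rw [this]
      _ = _ := by ring
  rw [h7, hwf, hwf, div_mul_div_comm, Real.mul_self_sqrt hc.le]

/-- The one-particle data: orthonormal basis `e`, eigenvalues `al`. -/
structure Orth (e : V → V → ℝ) : Prop where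
  compl : ∀ x y, ∑ k, e k x * e k y = if x = y then 1 else 0
  orth : ∀ k l, ∑ x, e k x * e l x = if k = l then 1 else 0

/-- A graph without edges has every orthonormal basis as a spectral basis. -/
theorem Orth.spec {e : V → V → ℝ} (h : Orth e) : Spec (fun _ _ : V => False) e (fun _ => 0) where
  eig := by intro k x; simp
  compl := h.compl
  orth := h.orth

/-- Sum of the one-particle energies. -/
def boE (al : V → ℝ) (m : V → ℕ) : ℝ := ∑ v, al v * m v

theorem boE_occ {N : ℕ} (al : V → ℝ) (k : Fin N → V) : boE al (occ k) = ∑ i, al (k i) :=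
  sum_lam_occ k

theorem form_eq {N : ℕ} {e : V → V → ℝ} (he : Orth e) (al : V → ℝ) {f : (V → Fin 2) → ℝ}
    (h2 : ∀ ζ, ∑ v, ζ v ≠ N → ext f ζ = 0) :
    f ⬝ᵥ (hcM (fun u v => ∑ k, al k * (e k u * e k v)) *ᵥ f) =
      ∑ k : Fin N → V, boE al (occ k) * four e (wf N (ext f)) k ^ 2 := by
  have h1 : ∀ ζ, ζ ∉ occBox V 1 → ext f ζ = 0 := fun ζ hζ => ext_out f ζ hζ
  rw [hcM_form]
  have h3 : ∀ x y, ∑ σ, (aM x *ᵥ f) σ * (aM y *ᵥ f) σ =
      ∑ σ ∈ occBox V 1, (Real.sqrt ((σ x : ℝ) + 1) * ext f (σ + Pi.single x 1)) *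
        (Real.sqrt ((σ y : ℝ) + 1) * ext f (σ + Pi.single y 1)) := by
    intro x y
    rw [sum_occBox]
    exact Finset.sum_congr rfl fun σ _ => by rw [aM_ext, aM_ext]
  simp only [h3]
  rcases N with _ | N
  · have h4 : ∀ (σ : V → ℕ) v, ext f (σ + Pi.single v 1) = 0 := by
      intro σ v
      apply h2
      simp only [Pi.add_apply, Finset.sum_add_distrib]
      rw [Finset.sum_pi_single']
      simp
    simp only [h4, mul_zero, Finset.sum_const_zero]
    symm
    refine Finset.sum_eq_zero fun k _ => ?_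
    rw [boE_occ]; simp
  · simp only [hop_bil (ext f) h1 h2]
    set F := wf (N + 1) (ext f) with hF
    have h4 : ∑ x, ∑ y, (∑ k, al k * (e k x * e k y)) * ((N + 1 : ℝ) *
        ∑ z : Fin N → V, F (Fin.cons x z) * F (Fin.cons y z)) =
        (N + 1 : ℝ) * ∑ k, al k * ∑ z : Fin N → V, (∑ v, e k v * F (Fin.cons v z)) ^ 2 := by
      have h5 : ∀ (k : V) (z : Fin N → V), (∑ v, e k v * F (Fin.cons v z)) ^ 2 =
          ∑ x, ∑ y, (e k x * e k y) * (F (Fin.cons x z) * F (Fin.cons y z)) := by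
        intro k z
        rw [sq, Finset.sum_mul_sum]
        exact Finset.sum_congr rfl fun x _ => Finset.sum_congr rfl fun y _ => by ring
      simp only [h5]
      calc _ = ∑ x, ∑ y, ∑ k, ∑ z : Fin N → V, (N + 1 : ℝ) * (al k * ((e k x * e k y) *
            (F (Fin.cons x z) * F (Fin.cons y z)))) := by
            refine Finset.sum_congr rfl fun x _ => Finset.sum_congr rfl fun y _ => ?_
            rw [Finset.sum_mul]
            refine Finset.sum_congr rfl fun k _ => ?_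
            rw [Finset.mul_sum, Finset.mul_sum]
            exact Finset.sum_congr rfl fun z _ => by ring
        _ = ∑ k, ∑ z : Fin N → V, ∑ x, ∑ y, (N + 1 : ℝ) * (al k * ((e k x * e k y) *
            (F (Fin.cons x z) * F (Fin.cons y z)))) := by
            have s1 : ∀ x, ∑ y, ∑ k, ∑ z : Fin N → V, (N + 1 : ℝ) * (al k * ((e k x * e k y) *
                (F (Fin.cons x z) * F (Fin.cons y z)))) = ∑ k, ∑ z : Fin N → V, ∑ y,
                (N + 1 : ℝ) * (al k * ((e k x * e k y) *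
                (F (Fin.cons x z) * F (Fin.cons y z)))) := by
              intro x
              rw [Finset.sum_comm]
              exact Finset.sum_congr rfl fun k _ => Finset.sum_comm
            simp only [s1]
            rw [Finset.sum_comm]
            exact Finset.sum_congr rfl fun k _ => Finset.sum_comm
        _ = _ := by
            rw [Finset.mul_sum]
            refine Finset.sum_congr rfl fun k _ => ?_
            rw [Finset.mul_sum, Finset.mul_sum]
            refine Finset.sum_congr rfl fun z _ => ?_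
            rw [Finset.mul_sum, Finset.mul_sum]
            refine Finset.sum_congr rfl fun x _ => ?_
            rw [Finset.mul_sum, Finset.mul_sum]
    rw [h4]
    have h7 : ∑ k, al k * ∑ z : Fin N → V, (∑ v, e k v * F (Fin.cons v z)) ^ 2 =
        ∑ k : Fin (N + 1) → V, al (k 0) * four e F k ^ 2 := by
      rw [← (Fin.consEquiv fun _ => V).sum_comp, Fintype.sum_prod_type]
      refine Finset.sum_congr rfl fun k0 _ => ?_
      have h8 := parseval he.spec (fun x : Fin N → V => ∑ v, e k0 v * F (Fin.cons v x))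
      rw [← h8, Finset.mul_sum]
      refine Finset.sum_congr rfl fun k _ => ?_
      change _ = al ((Fin.cons k0 k : Fin (N + 1) → V) 0) *
        four e F (Fin.cons k0 k) ^ 2
      rw [four_cons, Fin.cons_zero]
    rw [h7]
    have h9 : ∀ i : Fin (N + 1), ∑ k : Fin (N + 1) → V, al (k i) * four e F k ^ 2 =
        ∑ k : Fin (N + 1) → V, al (k 0) * four e F k ^ 2 := by
      intro i
      rw [← (Equiv.arrowCongr (Equiv.swap 0 i) (Equiv.refl V)).sum_comp]
      refine Finset.sum_congr rfl fun k _ => ?_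
      have e1 : (Equiv.arrowCongr (Equiv.swap 0 i) (Equiv.refl V)) k = k ∘ Equiv.swap 0 i := by
        ext j; simp [Equiv.arrowCongr]
      rw [e1, hF, four_perm he.spec _ (wf_perm (ext f))]
      simp
    have h10 : ∑ k : Fin (N + 1) → V, boE al (occ k) * four e F k ^ 2 =
        ∑ i : Fin (N + 1), ∑ k : Fin (N + 1) → V, al (k i) * four e F k ^ 2 := by
      rw [Finset.sum_comm]
      refine Finset.sum_congr rfl fun k _ => ?_
      rw [boE_occ, ← Finset.sum_mul]
    rw [h10]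
    simp only [h9]
    rw [Finset.sum_const, Finset.card_univ, Fintype.card_fin, nsmul_eq_mul]
    push_cast
    ring

theorem inner_ext (f g : (V → Fin 2) → ℝ) :
    ∑ ζ ∈ occBox V 1, ext f ζ * ext g ζ = ∑ σ, f σ * g σ := by
  rw [sum_occBox]
  exact Finset.sum_congr rfl fun σ _ => by rw [ext_val, ext_val]

/-- Peierls' inequality against free bosons, one sector. -/
theorem peierls_gen {ι : Type*} {N : ℕ} {e : V → V → ℝ} (he : Orth e) (al : V → ℝ)
    (I : Finset ι) (E : ι → ℝ) (f : ι → (V → Fin 2) → ℝ)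
    (hsec : ∀ i ∈ I, ∀ ζ, ∑ v, ζ v ≠ N → ext (f i) ζ = 0)
    (hnorm : ∀ i ∈ I, ∑ σ, f i σ * f i σ = 1)
    (horth : ∀ i ∈ I, ∀ j ∈ I, i ≠ j → ∑ σ, f i σ * f j σ = 0)
    (hE : ∀ i ∈ I, f i ⬝ᵥ (hcM (fun u v => ∑ k, al k * (e k u * e k v)) *ᵥ f i) = E i) :
    ∑ i ∈ I, Real.exp (-(E i)) ≤ ∑ m ∈ occImg V N, Real.exp (-(boE al m)) := by
  classical
  set w : ι → (V → ℕ) → ℝ := fun i m =>
    ∑ k : Fin N → V, if occ k = m then four e (wf N (ext (f i))) k ^ 2 else 0 with hw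
  have hw0 : ∀ i m, 0 ≤ w i m := fun i m =>
    Finset.sum_nonneg fun k _ => by split_ifs <;> positivity
  have hfib : ∀ (i : ι) (g : (V → ℕ) → ℝ), ∑ m ∈ occImg V N, g m * w i m =
      ∑ k : Fin N → V, g (occ k) * four e (wf N (ext (f i))) k ^ 2 := by
    intro i g
    simp only [hw, Finset.mul_sum]
    rw [Finset.sum_comm]
    refine Finset.sum_congr rfl fun k _ => ?_
    rw [Finset.sum_eq_single (occ k)]
    · rw [if_pos rfl]
    · intro m _ hm
      rw [if_neg (Ne.symm hm), mul_zero]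
    · intro hk
      exact absurd (Finset.mem_image_of_mem _ (Finset.mem_univ k)) hk
  have hsq : ∀ i ∈ I, ∑ x, wf N (ext (f i)) x ^ 2 = 1 := by
    intro i hi
    have h2 := wf_inner (n := 1) (ψ₁ := ext (f i)) (ψ₂ := ext (f i)) (N := N)
      (fun ζ hζ => ext_out _ ζ hζ) (hsec i hi)
    have h3 : ∑ x, wf N (ext (f i)) x ^ 2 = ∑ x, wf N (ext (f i)) x * wf N (ext (f i)) x :=
      Finset.sum_congr rfl fun x _ => by ring
    rw [h3, h2, inner_ext, hnorm i hi]
  have hone : ∀ i ∈ I, ∑ m ∈ occImg V N, w i m = 1 := by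
    intro i hi
    have h1 := hfib i (fun _ => 1)
    simp only [one_mul] at h1
    rw [h1, parseval he.spec, hsq i hi]
  have hle : ∀ m ∈ occImg V N, ∑ i ∈ I, w i m ≤ 1 := by
    intro m hm
    obtain ⟨k0, _, hk0⟩ := Finset.mem_image.1 hm
    have hc : (0 : ℝ) < cnt N m := by rw [← hk0]; exact cnt_occ_pos k0
    have hwm : ∀ i, w i m = cnt N m * four e (wf N (ext (f i))) k0 ^ 2 := by
      intro i
      simp only [hw]
      rw [cnt_eq_sum]
      push_cast
      rw [Finset.sum_mul]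
      refine Finset.sum_congr rfl fun k _ => ?_
      split_ifs with hk
      · rw [one_mul, four_occ he.spec _ (wf_perm (ext (f i))) (hk.trans hk0.symm)]
      · rw [zero_mul]
    set Φ : (Fin N → V) → ℝ := fun x => ∑ k : Fin N → V, if occ k = m then tens e k x else 0 with hΦ
    have hΦF : ∀ i, ∑ x, Φ x * wf N (ext (f i)) x = cnt N m * four e (wf N (ext (f i))) k0 := by
      intro i
      simp only [hΦ, Finset.sum_mul]
      rw [Finset.sum_comm, cnt_eq_sum]
      push_cast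
      rw [Finset.sum_mul]
      refine Finset.sum_congr rfl fun k _ => ?_
      by_cases hk : occ k = m
      · simp only [if_pos hk, one_mul]
        rw [four_occ he.spec _ (wf_perm (ext (f i))) (hk0.trans hk.symm)]
        rfl
      · simp only [if_neg hk, zero_mul, Finset.sum_const_zero]
    have hΦ2 : ∑ x, Φ x ^ 2 = cnt N m := by
      have h1 : ∀ x, Φ x ^ 2 = ∑ k : Fin N → V, ∑ l : Fin N → V,
          (if occ k = m then (1 : ℝ) else 0) * (if occ l = m then (1 : ℝ) else 0) *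
            (tens e k x * tens e l x) := by
        intro x
        rw [sq]
        simp only [hΦ]
        rw [Finset.sum_mul_sum]
        refine Finset.sum_congr rfl fun k _ => Finset.sum_congr rfl fun l _ => ?_
        by_cases hk : occ k = m <;> by_cases hl : occ l = m <;> simp [hk, hl]
      simp only [h1]
      rw [Finset.sum_comm, cnt_eq_sum]
      push_cast
      refine Finset.sum_congr rfl fun k _ => ?_
      rw [Finset.sum_comm]
      simp only [← Finset.mul_sum, tens_orth he.spec]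
      rw [Finset.sum_eq_single k]
      · by_cases hk : occ k = m <;> simp [hk]
      · intro l _ hl
        rw [if_neg (Ne.symm hl), mul_zero]
      · simp
    have hb := bessel I (fun i => wf N (ext (f i))) Φ hsq
      (fun i hi j hj hij => by
        rw [wf_inner (n := 1) (ψ₁ := ext (f i)) (ψ₂ := ext (f j)) (N := N)
          (fun ζ hζ => ext_out _ ζ hζ) (hsec i hi), inner_ext]
        exact horth i hi j hj hij)
    rw [hΦ2] at hb
    simp only [hΦF] at hb
    have h4 : ∑ i ∈ I, ((cnt N m : ℝ) * four e (wf N (ext (f i))) k0) ^ 2 =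
        cnt N m * ∑ i ∈ I, w i m := by
      rw [Finset.mul_sum]
      exact Finset.sum_congr rfl fun i _ => by rw [hwm]; ring
    rw [h4] at hb
    by_contra hcon
    push Not at hcon
    have : (cnt N m : ℝ) * 1 < cnt N m * ∑ i ∈ I, w i m := mul_lt_mul_of_pos_left hcon hc
    linarith
  have hterm : ∀ i ∈ I, Real.exp (-(E i)) ≤
      ∑ m ∈ occImg V N, w i m * Real.exp (-(boE al m)) := by
    intro i hi
    have h1 : E i = ∑ m ∈ occImg V N, boE al m * w i m := by
      rw [hfib, ← hE i hi, form_eq he al (hsec i hi)]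
    have h2 : Real.exp (∑ m ∈ occImg V N, w i m * (-(boE al m))) ≤
        ∑ m ∈ occImg V N, w i m * Real.exp (-(boE al m)) := by
      have := convexOn_exp.map_sum_le (t := occImg V N) (w := w i)
        (p := fun m => -(boE al m)) (fun m _ => hw0 i m) (hone i hi)
        (fun m _ => Set.mem_univ _)
      simpa [smul_eq_mul] using this
    have h3 : ∑ m ∈ occImg V N, w i m * (-(boE al m)) = -(E i) := by
      rw [h1, ← Finset.sum_neg_distrib]
      exact Finset.sum_congr rfl fun m _ => by ring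
    rwa [h3] at h2
  calc ∑ i ∈ I, Real.exp (-(E i))
      ≤ ∑ i ∈ I, ∑ m ∈ occImg V N, w i m * Real.exp (-(boE al m)) :=
        Finset.sum_le_sum hterm
    _ = ∑ m ∈ occImg V N, (∑ i ∈ I, w i m) * Real.exp (-(boE al m)) := by
        rw [Finset.sum_comm]
        exact Finset.sum_congr rfl fun m _ => by rw [Finset.sum_mul]
    _ ≤ _ := by
        refine Finset.sum_le_sum fun m hm => ?_
        calc (∑ i ∈ I, w i m) * Real.exp (-(boE al m))
            ≤ 1 * Real.exp (-(boE al m)) :=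
              mul_le_mul_of_nonneg_right (hle m hm) (Real.exp_pos _).le
          _ = _ := one_mul _

/-- Sum over all occupation numbers of the free bosons. -/
theorem boson_sum_le (al : V → ℝ) (hal : ∀ k, 0 < al k) (N1 : ℕ) :
    ∑ N ∈ Finset.range (N1 + 1), ∑ m ∈ occImg V N, Real.exp (-(boE al m)) ≤
      ∏ k, (1 - Real.exp (-(al k)))⁻¹ := by
  classical
  set q : V → ℝ := fun v => Real.exp (-(al v)) with hq
  have hq0 : ∀ v, 0 ≤ q v := fun v => (Real.exp_pos _).le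
  have hq1 : ∀ v, q v < 1 := by
    intro v
    simp only [hq]
    rw [Real.exp_lt_one_iff]
    linarith [hal v]
  have hterm : ∀ m : V → ℕ, Real.exp (-(boE al m)) = ∏ v, q v ^ m v := by
    intro m
    have : ∏ v, q v ^ (m v) = Real.exp (∑ v, (m v : ℝ) * (-(al v))) := by
      rw [Real.exp_sum]
      exact Finset.prod_congr rfl fun v _ => by rw [← Real.exp_nat_mul]
    rw [this, boE, ← Finset.sum_neg_distrib]
    congr 1
    exact Finset.sum_congr rfl fun v _ => by ring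
  simp only [hterm]
  have hdisj : ∀ a ∈ Finset.range (N1 + 1), ∀ c ∈ Finset.range (N1 + 1), a ≠ c →
      Disjoint (occImg V a) (occImg V c) := by
    intro a _ c _ hac
    rw [Finset.disjoint_left]
    intro m hma hmc
    obtain ⟨k, _, hk⟩ := Finset.mem_image.1 hma
    obtain ⟨l, _, hl⟩ := Finset.mem_image.1 hmc
    apply hac
    rw [← sum_occ k, ← sum_occ l, hk, hl]
  rw [← Finset.sum_biUnion hdisj]
  calc ∑ m ∈ (Finset.range (N1 + 1)).biUnion (fun N => occImg V N), ∏ v, q v ^ m v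
      ≤ ∑ m ∈ Fintype.piFinset (fun _ : V => Finset.range (N1 + 1)), ∏ v, q v ^ m v := by
        refine Finset.sum_le_sum_of_subset_of_nonneg ?_ fun m _ _ =>
          Finset.prod_nonneg fun v _ => pow_nonneg (hq0 v) _
        intro m hm
        obtain ⟨N, hN, hm2⟩ := Finset.mem_biUnion.1 hm
        obtain ⟨k, _, hk⟩ := Finset.mem_image.1 hm2
        rw [Fintype.mem_piFinset]
        intro v
        have h1 : m v ≤ ∑ w, m w := Finset.single_le_sum (fun _ _ => Nat.zero_le _) (Finset.mem_univ v)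
        have h2 : ∑ w, m w = N := by rw [← hk]; exact sum_occ k
        have h3 := Finset.mem_range.1 hN
        rw [Finset.mem_range]; omega
    _ = ∏ v, ∑ j ∈ Finset.range (N1 + 1), q v ^ j := by
        rw [Finset.prod_univ_sum]
    _ ≤ ∏ v, (1 - q v)⁻¹ := by
        refine Finset.prod_le_prod (fun v _ => Finset.sum_nonneg fun j _ => pow_nonneg (hq0 v) _)
          fun v _ => ?_
        rw [← tsum_geometric_of_lt_one (hq0 v) (hq1 v)]
        exact (summable_geometric_of_lt_one (hq0 v) (hq1 v)).sum_le_tsum _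
          fun j _ => pow_nonneg (hq0 v) _

theorem trace_exp_conj {κ : Type*} [Fintype κ] [DecidableEq κ] (U : Matrix κ κ ℝ)
    (h2 : U * Uᵀ = 1) (d : κ → ℝ) :
    trace (NormedSpace.exp (U * diagonal d * Uᵀ)) = ∑ i, Real.exp (d i) := by
  have hinv : U⁻¹ = Uᵀ := Matrix.inv_eq_right_inv h2
  have hunit : IsUnit U := IsUnit.of_mul_eq_one _ h2
  rw [← hinv, Matrix.exp_conj _ _ hunit, Matrix.exp_diagonal, Matrix.trace_mul_comm,
    ← Matrix.mul_assoc, Matrix.nonsing_inv_mul _ ((Matrix.isUnit_iff_isUnit_det _).1 hunit),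
    Matrix.one_mul, Matrix.trace_diagonal]
  refine Finset.sum_congr rfl fun i _ => ?_
  rw [Pi.exp_def]
  simp [Real.exp_eq_exp_ℝ]

theorem totN_le (σ : V → Fin 2) : totN σ ≤ Fintype.card V := by
  unfold totN
  calc ∑ x, (σ x : ℕ) ≤ ∑ _x : V, 1 := Finset.sum_le_sum fun x _ => Nat.lt_succ_iff.1 (σ x).2
    _ = _ := by simp

theorem totN_eq (σ : V → Fin 2) : totN σ = ∑ x, val σ x := rfl

/-- **(V1)** The trace of `exp (- hcM a)` is at most the partition function of free bosons. -/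
theorem trace_exp_hcM_le {e : V → V → ℝ} (he : Orth e) {al : V → ℝ} (hal : ∀ k, 0 < al k) :
    trace (NormedSpace.exp (-(hcM fun u v => ∑ k, al k * (e k u * e k v)))) ≤
      ∏ k, (1 - Real.exp (-(al k)))⁻¹ := by
  classical
  set A : Matrix (V → Fin 2) (V → Fin 2) ℝ := hcM fun u v => ∑ k, al k * (e k u * e k v) with hA
  have hsymm : Aᵀ = A := hcM_symm fun x y => Finset.sum_congr rfl fun k _ => by ring
  obtain ⟨U, E, Nn, h1, h2, h3, h4⟩ := joint_diag A hsymm totN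
    (fun i j hij => hcM_comm _ i j hij)
  have htr : trace (NormedSpace.exp (-A)) = ∑ i, Real.exp (-(E i)) := by
    have h5 : -A = U * diagonal (fun i => -(E i)) * Uᵀ := by
      rw [h3, ← Matrix.neg_mul, ← Matrix.mul_neg, ← Matrix.diagonal_neg]
    rw [h5, trace_exp_conj U h2]
  rw [htr]
  set f : (V → Fin 2) → (V → Fin 2) → ℝ := fun i σ => U σ i with hf
  have horth : ∀ i j, ∑ σ, f i σ * f j σ = if i = j then 1 else 0 := by
    intro i j
    have := congrFun (congrFun h1 i) j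
    rw [Matrix.mul_apply] at this
    simp only [Matrix.transpose_apply, Matrix.one_apply] at this
    exact this
  have heig : ∀ i, A *ᵥ (f i) = fun σ => E i * f i σ := by
    intro i
    have h5 : A * U = U * diagonal E := by
      conv_lhs => rw [h3]
      rw [Matrix.mul_assoc, h1, Matrix.mul_one]
    ext σ
    have h6 := congrFun (congrFun h5 σ) i
    rw [Matrix.mul_diagonal, Matrix.mul_apply] at h6
    rw [Matrix.mulVec, dotProduct, h6]; ring
  have hsec : ∀ i, ∀ ζ, ∑ v, ζ v ≠ Nn i → ext (f i) ζ = 0 := by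
    intro i ζ hζ
    unfold ext
    split_ifs with hb
    · exact h4 _ i hζ
    · rfl
  have hEf : ∀ i, f i ⬝ᵥ (A *ᵥ f i) = E i := by
    intro i
    rw [heig, dotProduct]
    have h5 := horth i i
    rw [if_pos rfl] at h5
    calc ∑ σ, f i σ * (E i * f i σ) = E i * ∑ σ, f i σ * f i σ := by
          rw [Finset.mul_sum]
          exact Finset.sum_congr rfl fun σ _ => by ring
      _ = E i := by rw [h5, mul_one]
  set N1 : ℕ := Finset.univ.sup Nn with hN1
  have hNN : ∀ i, Nn i ≤ N1 := fun i => Finset.le_sup (Finset.mem_univ i)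
  have hsplit : ∑ i, Real.exp (-(E i)) = ∑ N ∈ Finset.range (N1 + 1),
      ∑ i ∈ Finset.univ.filter (fun i => Nn i = N), Real.exp (-(E i)) := by
    rw [← Finset.sum_fiberwise_of_maps_to (s := (Finset.univ : Finset (V → Fin 2)))
      (t := Finset.range (N1 + 1)) (g := Nn)
      (fun i _ => Finset.mem_range.2 (Nat.lt_succ_of_le (hNN i)))]
  rw [hsplit]
  refine le_trans (Finset.sum_le_sum fun N _ => ?_) (boson_sum_le al hal N1)
  refine peierls_gen he al _ E f ?_ ?_ ?_ ?_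
  · intro i hi ζ hζ
    refine hsec i ζ ?_
    rwa [(Finset.mem_filter.1 hi).2]
  · intro i _
    have h5 := horth i i
    rwa [if_pos rfl] at h5
  · intro i _ j _ hij
    have h5 := horth i j
    rwa [if_neg hij] at h5
  · intro i _
    exact hEf i

/-- Spectral decomposition of a symmetric kernel. -/
theorem exists_spectral (a : V → V → ℝ) (ha : ∀ x y, a x y = a y x) :
    ∃ (e : V → V → ℝ) (al : V → ℝ), Orth e ∧
      (∀ u v, a u v = ∑ k, al k * (e k u * e k v)) ∧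
      ∀ (k : V) (u : V), ∑ v, a u v * e k v = al k * e k u := by
  obtain ⟨U, E, _, h1, h2, h3, _⟩ := joint_diag (Matrix.of a) (by
    ext x y
    exact ha y x) (fun _ => 0) (fun i j hij => absurd rfl hij)
  have hval : ∀ u v, a u v = ∑ k, E k * (U u k * U v k) := by
    intro u v
    have h4 := congrFun (congrFun h3 u) v
    rw [Matrix.mul_apply] at h4
    rw [show a u v = Matrix.of a u v from rfl, h4]
    refine Finset.sum_congr rfl fun k _ => ?_
    rw [Matrix.mul_diagonal, Matrix.transpose_apply]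
    ring
  have horth : ∀ k l, ∑ x, U x k * U x l = if k = l then 1 else 0 := by
    intro k l
    have := congrFun (congrFun h1 k) l
    rw [Matrix.mul_apply] at this
    simp only [Matrix.transpose_apply, Matrix.one_apply] at this
    exact this
  refine ⟨fun k x => U x k, E, ⟨?_, horth⟩, hval, ?_⟩
  · intro x y
    have := congrFun (congrFun h2 x) y
    rw [Matrix.mul_apply] at this
    simp only [Matrix.transpose_apply, Matrix.one_apply] at this
    exact this
  · intro k u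
    simp only [hval, Finset.sum_mul]
    rw [Finset.sum_comm]
    calc ∑ l, ∑ v, E l * (U u l * U v l) * U v k = ∑ l, E l * U u l * ∑ v, U v l * U v k := by
          refine Finset.sum_congr rfl fun l _ => ?_
          rw [Finset.mul_sum]
          exact Finset.sum_congr rfl fun v _ => by ring
      _ = _ := by
          simp only [horth]
          simp

/-- **(V1)**, logarithmic form. -/
theorem log_trace_exp_hcM_le {e : V → V → ℝ} (he : Orth e) {al : V → ℝ} (hal : ∀ k, 0 < al k)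
    (hpos : 0 < trace (NormedSpace.exp (-(hcM fun u v => ∑ k, al k * (e k u * e k v))))) :
    Real.log (trace (NormedSpace.exp (-(hcM fun u v => ∑ k, al k * (e k u * e k v))))) ≤
      ∑ k, -Real.log (1 - Real.exp (-(al k))) := by
  have h1 := Real.log_le_log hpos (trace_exp_hcM_le he hal)
  have h2 : ∀ k, 1 - Real.exp (-(al k)) ≠ 0 := by
    intro k
    have : Real.exp (-(al k)) < 1 := by
      rw [Real.exp_lt_one_iff]
      linarith [hal k]
    linarith
  rw [Real.log_prod (fun k _ => inv_ne_zero (h2 k))] at h1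
  refine h1.trans (le_of_eq ?_)
  exact Finset.sum_congr rfl fun k _ => Real.log_inv _

end

end Vale.Agent.P361.LRO.S3.Fock
end

section

/-!
P361 stage 3: ideal Bose gas sums over the dual torus `Fin 3 → ZMod m`, explicit in `m`.

`tK m k = ∑ j, (1 - cos (2π k_j / m))`; `n` is the spin parameter (`n = 2 S`).
* `tor_log_le`  : `∑_k -log (1 - exp (-(β n t(k) + s))) ≤ bosSer n m β s`;
* `tor_dens_le` : `∑_k 1 / (exp (β n t(k) + s) - 1) ≤ densSer n m β s`;
* `densSer_le`  : asymptotics of `densSer` (the one of `bosSer` is `B.bosSer_le`).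
-/

namespace Vale.Agent.P361.LRO.S3

open MeasureTheory Filter Topology Vale.Agent.P361.B
open Vale.Agent.P361 (H.bJ H.bJ_nonneg)

/-- Dispersion on the dual torus. -/
noncomputable def tK (m : ℕ) (k : Fin 3 → ZMod m) : ℝ :=
  ∑ j, (1 - Real.cos (2 * Real.pi * ((k j).val : ℝ) / m))

theorem tK_nonneg (m : ℕ) (k : Fin 3 → ZMod m) : 0 ≤ tK m k :=
  Finset.sum_nonneg fun j _ => by
    have := Real.cos_le_one (2 * Real.pi * ((k j).val : ℝ) / m)
    linarith

theorem riemann_upper_real {L : ℝ} (hL' : 0 < L) {t : ℝ} (ht : 0 ≤ t) {M : ℕ} (hM : (M : ℝ) ≤ L) :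
    ∑ i ∈ Finset.range M, Real.exp (-t * (1 - Real.cos (Real.pi * ((i + 1 : ℕ) : ℝ) / L))) ≤
      L * H.bJ t := by
  set f : ℝ → ℝ := fun x => Real.exp (-t * (1 - Real.cos (Real.pi * x / L))) with hf
  have hanti : AntitoneOn f (Set.Icc 0 (0 + (M : ℝ))) := by
    intro x hx y hy hxy
    simp only [hf]
    apply Real.exp_le_exp.2
    rw [zero_add] at hx hy
    have h1 : Real.cos (Real.pi * y / L) ≤ Real.cos (Real.pi * x / L) := by
      refine Real.cos_le_cos_of_nonneg_of_le_pi ?_ ?_ ?_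
      · have := hx.1; have := Real.pi_pos; positivity
      · rw [div_le_iff₀ hL']
        exact mul_le_mul_of_nonneg_left (hy.2.trans hM) Real.pi_pos.le
      · gcongr
    nlinarith
  have h1 := hanti.sum_le_integral
  simp only [zero_add] at h1
  have hcont : Continuous f := by
    simp only [hf]; fun_prop
  have h2 : ∫ x in (0 : ℝ)..M, f x ≤ ∫ x in (0 : ℝ)..L, f x := by
    have h3 : ∫ x in (0 : ℝ)..L, f x = (∫ x in (0 : ℝ)..M, f x) + ∫ x in (M : ℝ)..L, f x :=
      (intervalIntegral.integral_add_adjacent_intervals (hcont.intervalIntegrable _ _)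
        (hcont.intervalIntegrable _ _)).symm
    have h4 : 0 ≤ ∫ x in (M : ℝ)..L, f x :=
      intervalIntegral.integral_nonneg hM fun x _ => (Real.exp_pos _).le
    linarith
  have h3 : ∫ x in (0 : ℝ)..L, f x = L * H.bJ t := by
    have h4 : ∀ x, f x = (fun θ => Real.exp (-t * (1 - Real.cos θ))) (Real.pi / L * x) := by
      intro x
      simp only [hf]
      congr 4
      ring
    have hc : Real.pi / L ≠ 0 := by have := Real.pi_pos; positivity
    rw [intervalIntegral.integral_congr (fun x _ => h4 x),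
      intervalIntegral.integral_comp_mul_left (fun θ => Real.exp (-t * (1 - Real.cos θ))) hc,
      mul_zero, H.bJ, smul_eq_mul]
    have h5 : Real.pi / L * L = Real.pi := by field_simp
    rw [h5]
    field_simp
  calc _ ≤ ∫ x in (0 : ℝ)..M, f x := h1
    _ ≤ _ := h2
    _ = _ := h3

theorem sum_range_three {m M1 M2 : ℕ} (hm : m = M1 + M2 + 1) (g : ℕ → ℝ) :
    ∑ p ∈ Finset.range m, g p = g 0 + ∑ i ∈ Finset.range M1, g (i + 1) +
      ∑ i ∈ Finset.range M2, g (m - (i + 1)) := by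
  subst hm
  rw [Finset.sum_range_succ', Finset.sum_range_add, add_comm, add_assoc]
  congr 1
  congr 1
  rw [← Finset.sum_range_reflect]
  refine Finset.sum_congr rfl fun i hi => ?_
  have := Finset.mem_range.1 hi
  congr 1
  omega

/-- One-dimensional torus sum. -/
theorem tor_one_dim (m : ℕ) [NeZero m] {a : ℝ} (ha : 0 ≤ a) :
    ∑ p : ZMod m, Real.exp (-a * (1 - Real.cos (2 * Real.pi * (p.val : ℝ) / m))) ≤
      1 + m * H.bJ a := by
  have hm0 : 0 < m := Nat.pos_of_ne_zero (NeZero.ne m)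
  have hmR : (0 : ℝ) < m := by exact_mod_cast hm0
  set g : ℕ → ℝ := fun p => Real.exp (-a * (1 - Real.cos (2 * Real.pi * (p : ℝ) / m))) with hg
  have h0 : ∑ p : ZMod m, Real.exp (-a * (1 - Real.cos (2 * Real.pi * (p.val : ℝ) / m))) =
      ∑ p ∈ Finset.range m, g p := by
    obtain ⟨k, rfl⟩ : ∃ k, m = k + 1 := ⟨m - 1, by omega⟩
    rw [← Fin.sum_univ_eq_sum_range]
    rfl
  rw [h0]
  have hsplit := sum_range_three (m := m) (M1 := m / 2) (M2 := m - 1 - m / 2) (by omega) g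
  rw [hsplit]
  have hL : (0 : ℝ) < (m : ℝ) / 2 := by positivity
  have e1 : ∀ i : ℕ, g (i + 1) =
      Real.exp (-a * (1 - Real.cos (Real.pi * ((i + 1 : ℕ) : ℝ) / ((m : ℝ) / 2)))) := by
    intro i
    simp only [hg]
    congr 4
    field_simp
  have e2 : ∀ i ∈ Finset.range (m - 1 - m / 2), g (m - (i + 1)) =
      Real.exp (-a * (1 - Real.cos (Real.pi * ((i + 1 : ℕ) : ℝ) / ((m : ℝ) / 2)))) := by
    intro i hi
    have hi' := Finset.mem_range.1 hi
    simp only [hg]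
    congr 3
    rw [Nat.cast_sub (by omega)]
    rw [show 2 * Real.pi * ((m : ℝ) - ((i + 1 : ℕ) : ℝ)) / m =
      2 * Real.pi - Real.pi * ((i + 1 : ℕ) : ℝ) / ((m : ℝ) / 2) by field_simp,
      Real.cos_two_pi_sub]
  have g0 : g 0 = 1 := by simp [hg]
  rw [g0, Finset.sum_congr rfl fun i _ => e1 i, Finset.sum_congr rfl e2]
  have h1 := riemann_upper_real hL ha (M := m / 2) (by
    rw [le_div_iff₀ (by norm_num)]
    exact_mod_cast Nat.div_mul_le_self m 2)
  have h2 := riemann_upper_real hL ha (M := m - 1 - m / 2) (by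
    rw [le_div_iff₀ (by norm_num)]
    have : (m - 1 - m / 2) * 2 ≤ m := by omega
    exact_mod_cast this)
  linarith

/-- Three-dimensional torus sum. -/
theorem tor_three_dim (m : ℕ) [NeZero m] {a : ℝ} (ha : 0 ≤ a) :
    ∑ k : Fin 3 → ZMod m, Real.exp (-(a * tK m k)) ≤ (1 + m * H.bJ a) ^ 3 := by
  have h1 : ∀ k : Fin 3 → ZMod m, Real.exp (-(a * tK m k)) =
      ∏ j, Real.exp (-a * (1 - Real.cos (2 * Real.pi * ((k j).val : ℝ) / m))) := by
    intro k
    rw [← Real.exp_sum, tK, Finset.mul_sum, ← Finset.sum_neg_distrib]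
    congr 1
    exact Finset.sum_congr rfl fun j _ => by ring
  have h2 : ∑ k : Fin 3 → ZMod m, Real.exp (-(a * tK m k)) =
      (∑ p : ZMod m, Real.exp (-a * (1 - Real.cos (2 * Real.pi * (p.val : ℝ) / m)))) ^ 3 := by
    rw [Finset.sum_congr rfl fun k _ => h1 k]
    have := (Finset.prod_univ_sum (fun _ : Fin 3 => (Finset.univ : Finset (ZMod m)))
      (fun _ p => Real.exp (-a * (1 - Real.cos (2 * Real.pi * (p.val : ℝ) / m))))).symm
    rw [Fintype.piFinset_univ] at this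
    rw [this, Finset.prod_const, Finset.card_univ, Fintype.card_fin]
  rw [h2]
  exact pow_le_pow_left₀ (Finset.sum_nonneg fun _ _ => (Real.exp_pos _).le) (tor_one_dim m ha) 3

/-- Ideal pressure on the torus. -/
theorem tor_log_le {n : ℕ} (m : ℕ) [NeZero m] {β s : ℝ} (hβ : 0 ≤ β) (hs : 0 < s) :
    ∑ k : Fin 3 → ZMod m, -Real.log (1 - Real.exp (-(β * (n * tK m k) + s))) ≤
      bosSer n m β s := by
  set q : (Fin 3 → ZMod m) → ℝ := fun k => Real.exp (-(β * (n * tK m k) + s)) with hq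
  have hq0 : ∀ k, 0 < q k := fun k => Real.exp_pos _
  have hq1 : ∀ k, q k < 1 := by
    intro k
    simp only [hq]
    rw [Real.exp_lt_one_iff]
    have : 0 ≤ β * (n * tK m k) := mul_nonneg hβ (mul_nonneg (by positivity) (tK_nonneg m k))
    linarith
  have h2 : HasSum (fun j : ℕ => ∑ k, q k ^ (j + 1) / ((j : ℝ) + 1))
      (∑ k, - Real.log (1 - q k)) := by
    refine hasSum_sum fun k _ => ?_
    exact Real.hasSum_pow_div_log_of_abs_lt_one (by rw [abs_of_pos (hq0 k)]; exact hq1 k)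
  rw [← h2.tsum_eq, bosSer]
  refine h2.summable.tsum_le_tsum (fun j => ?_) (bosSer_summable n m hβ hs)
  have h3 : ∑ k, q k ^ (j + 1) / ((j : ℝ) + 1) = Real.exp (-(((j : ℝ) + 1) * s)) / ((j : ℝ) + 1) *
      ∑ k : Fin 3 → ZMod m, Real.exp (-((((j : ℝ) + 1) * (n * β)) * tK m k)) := by
    rw [Finset.mul_sum]
    refine Finset.sum_congr rfl fun k _ => ?_
    simp only [hq]
    have e7 : Real.exp (-(β * (n * tK m k) + s)) ^ (j + 1) =
        Real.exp (-(((j : ℝ) + 1) * s)) *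
          Real.exp (-((((j : ℝ) + 1) * (n * β)) * tK m k)) := by
      rw [← Real.exp_nat_mul, ← Real.exp_add]
      congr 1
      push_cast
      ring
    rw [e7]
    ring
  rw [h3]
  exact mul_le_mul_of_nonneg_left (tor_three_dim m (by positivity)) (by positivity)

/-- Free boson density series. -/
noncomputable def densSer (n L : ℕ) (β s : ℝ) : ℝ :=
  ∑' j : ℕ, Real.exp (-(((j : ℝ) + 1) * s)) *
    (1 + L * H.bJ (((j : ℝ) + 1) * (n * β))) ^ 3

theorem hasSum_exp {s : ℝ} (hs : 0 < s) :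
    HasSum (fun r : ℕ => Real.exp (-(((r : ℝ) + 1) * s))) (1 / (Real.exp s - 1)) := by
  have hlt : Real.exp (-s) < 1 := by rw [Real.exp_lt_one_iff]; linarith
  have h2 := (hasSum_geometric_of_lt_one (Real.exp_pos (-s)).le hlt).mul_left (Real.exp (-s))
  have e1 : Real.exp (-s) * (1 - Real.exp (-s))⁻¹ = 1 / (Real.exp s - 1) := by
    have h3 : Real.exp s * Real.exp (-s) = 1 := by rw [← Real.exp_add]; simp
    have h4 : 1 < Real.exp s := by rw [Real.one_lt_exp_iff]; exact hs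
    have h5 : 0 < 1 - Real.exp (-s) := by linarith
    rw [eq_div_iff (by linarith), ← div_eq_mul_inv, div_mul_eq_mul_div, div_eq_iff h5.ne']
    linear_combination h3
  rw [e1] at h2
  have e2 : (fun r : ℕ => Real.exp (-(((r : ℝ) + 1) * s))) =
      fun r : ℕ => Real.exp (-s) * Real.exp (-s) ^ r := by
    ext1 r
    rw [← Real.exp_nat_mul, ← Real.exp_add]
    congr 1; ring
  rw [e2]
  exact h2

theorem densSer_summable (n L : ℕ) {β s : ℝ} (hβ : 0 ≤ β) (hs : 0 < s) :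
    Summable fun j : ℕ => Real.exp (-(((j : ℝ) + 1) * s)) *
    (1 + L * H.bJ (((j : ℝ) + 1) * (n * β))) ^ 3 := by
  refine Summable.of_nonneg_of_le (fun j => ?_) (fun j => ?_)
    ((hasSum_exp hs).summable.mul_right ((1 + (L : ℝ)) ^ 3))
  · have := H.bJ_nonneg (((j : ℝ) + 1) * (n * β))
    positivity
  · refine mul_le_mul_of_nonneg_left ?_ (Real.exp_pos _).le
    have hb := H.bJ_nonneg (((j : ℝ) + 1) * (n * β))
    refine pow_le_pow_left₀ (by positivity) ?_ 3
    have h3 := bJ_le_one (t := ((j : ℝ) + 1) * (n * β)) (by positivity)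
    have : (L : ℝ) * H.bJ (((j : ℝ) + 1) * (n * β)) ≤ L * 1 :=
      mul_le_mul_of_nonneg_left h3 (by positivity)
    linarith

/-- Ideal density on the torus. -/
theorem tor_dens_le {n : ℕ} (m : ℕ) [NeZero m] {β s : ℝ} (hβ : 0 ≤ β) (hs : 0 < s) :
    ∑ k : Fin 3 → ZMod m, 1 / (Real.exp (β * (n * tK m k) + s) - 1) ≤ densSer n m β s := by
  have hpos : ∀ k : Fin 3 → ZMod m, 0 < β * (n * tK m k) + s := by
    intro k
    have : 0 ≤ β * (n * tK m k) := mul_nonneg hβ (mul_nonneg (by positivity) (tK_nonneg m k))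
    linarith
  have h2 : HasSum (fun j : ℕ => ∑ k : Fin 3 → ZMod m,
      Real.exp (-(((j : ℝ) + 1) * (β * (n * tK m k) + s))))
      (∑ k : Fin 3 → ZMod m, 1 / (Real.exp (β * (n * tK m k) + s) - 1)) :=
    hasSum_sum fun k _ => hasSum_exp (hpos k)
  rw [← h2.tsum_eq, densSer]
  refine h2.summable.tsum_le_tsum (fun j => ?_) (densSer_summable n m hβ hs)
  have h3 : ∑ k : Fin 3 → ZMod m, Real.exp (-(((j : ℝ) + 1) * (β * (n * tK m k) + s))) =
      Real.exp (-(((j : ℝ) + 1) * s)) *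
      ∑ k : Fin 3 → ZMod m, Real.exp (-((((j : ℝ) + 1) * (n * β)) * tK m k)) := by
    rw [Finset.mul_sum]
    refine Finset.sum_congr rfl fun k _ => ?_
    rw [← Real.exp_add]
    congr 1
    ring
  rw [h3]
  exact mul_le_mul_of_nonneg_left (tor_three_dim m (by positivity)) (by positivity)

/-- Asymptotics of the free boson density. -/
theorem densSer_le {n : ℕ} (hn : 1 ≤ n) : ∃ C : ℝ, 0 ≤ C ∧ ∀ β : ℝ, 448 ≤ β → ∀ L : ℕ, 0 < L →
    ∀ s : ℝ, 0 < s →
    Real.sqrt β ^ 3 / (L : ℝ) ^ 3 * densSer n L β s ≤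
    fS ((n : ℝ) / 2) s + C / β +
      C * (Real.sqrt β / L + β / (L : ℝ) ^ 2 + Real.sqrt β ^ 3 / (L : ℝ) ^ 3) / s := by
  set A := Real.sqrt (4 * Real.pi * ((n : ℝ) / 2)) with hA
  have hnR : (1 : ℝ) ≤ n := by exact_mod_cast hn
  have hpi := Real.pi_pos
  have hA0 : 0 < A := Real.sqrt_pos.2 (by positivity)
  have haS0 : 0 ≤ Vale.Agent.P361.B.aS ((n : ℝ) / 2) := by
    rw [← fS_zero]; exact fS_nonneg _ _
  refine ⟨7 * 448 * Vale.Agent.P361.B.aS ((n : ℝ) / 2) + 12 * (A ^ 2)⁻¹ + 6 * A⁻¹ + 1, by positivity, ?_⟩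
  intro β hβ L hL s hs
  have hβ0 : 0 < β := by linarith
  have hLR : (0 : ℝ) < L := by exact_mod_cast hL
  have hsb : 0 < Real.sqrt β := Real.sqrt_pos.2 hβ0
  have h1 := ((densSer_summable n L hβ0.le hs).hasSum).mul_left (Real.sqrt β ^ 3 / (L : ℝ) ^ 3)
  have hgeo := hasSum_exp hs
  have hF := (summable_f hs.le).hasSum
  have h2 := (((hF.mul_left ((A ^ 3)⁻¹ * (1 + 7 * (448 / β)))).add
    (hgeo.mul_left (12 * (A ^ 2)⁻¹ * (Real.sqrt β / L)))).add
    (hgeo.mul_left (6 * A⁻¹ * (β / (L : ℝ) ^ 2)))).add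
    (hgeo.mul_left (Real.sqrt β ^ 3 / (L : ℝ) ^ 3))
  have h3 := hasSum_le (fun r => ?_) h1 h2
  · refine h3.trans ?_
    have e1 : (A ^ 3)⁻¹ * ∑' r : ℕ, Real.exp (-(((r : ℝ) + 1) * s)) /
        Real.sqrt ((r : ℝ) + 1) ^ 3 = fS ((n : ℝ) / 2) s := rfl
    have e2 : (A ^ 3)⁻¹ * (1 + 7 * (448 / β)) * ∑' r : ℕ, Real.exp (-(((r : ℝ) + 1) * s)) /
        Real.sqrt ((r : ℝ) + 1) ^ 3 = fS ((n : ℝ) / 2) s +
        7 * 448 * fS ((n : ℝ) / 2) s * (1 / β) := by
      rw [← e1]; ring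
    have e3 := fS_le ((n : ℝ) / 2) hs.le
    have e4 : 7 * 448 * fS ((n : ℝ) / 2) s * (1 / β) ≤ 7 * 448 * Vale.Agent.P361.B.aS ((n : ℝ) / 2) * (1 / β) := by
      refine mul_le_mul_of_nonneg_right ?_ (by positivity)
      linarith
    have e5 : 1 / (Real.exp s - 1) ≤ 1 / s := by
      refine one_div_le_one_div_of_le hs ?_
      linarith [Real.add_one_le_exp s]
    have p1 : 0 ≤ 12 * (A ^ 2)⁻¹ := by positivity
    have p2 : 0 ≤ 6 * A⁻¹ := by positivity
    have p3 : 0 ≤ 7 * 448 * Vale.Agent.P361.B.aS ((n : ℝ) / 2) := by positivity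
    have q1 : 0 ≤ 1 / β := by positivity
    have q2 : 0 ≤ Real.sqrt β / L := by positivity
    have q3 : 0 ≤ β / (L : ℝ) ^ 2 := by positivity
    have q4 : 0 ≤ Real.sqrt β ^ 3 / (L : ℝ) ^ 3 := by positivity
    have q5 : 0 ≤ 1 / s := by positivity
    rw [e2]
    generalize 1 / (Real.exp s - 1) = G at e5 ⊢
    have f1 : 12 * (A ^ 2)⁻¹ * (Real.sqrt β / L) * G ≤ 12 * (A ^ 2)⁻¹ * (Real.sqrt β / L) * (1 / s) :=
      mul_le_mul_of_nonneg_left e5 (by positivity)
    have f2 : 6 * A⁻¹ * (β / (L : ℝ) ^ 2) * G ≤ 6 * A⁻¹ * (β / (L : ℝ) ^ 2) * (1 / s) :=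
      mul_le_mul_of_nonneg_left e5 (by positivity)
    have f3 : Real.sqrt β ^ 3 / (L : ℝ) ^ 3 * G ≤ Real.sqrt β ^ 3 / (L : ℝ) ^ 3 * (1 / s) :=
      mul_le_mul_of_nonneg_left e5 (by positivity)
    have e6 : (7 * 448 * Vale.Agent.P361.B.aS ((n : ℝ) / 2) + 12 * (A ^ 2)⁻¹ + 6 * A⁻¹ + 1) / β =
        (7 * 448 * Vale.Agent.P361.B.aS ((n : ℝ) / 2) + 12 * (A ^ 2)⁻¹ + 6 * A⁻¹ + 1) * (1 / β) := by ring
    have e7 : (7 * 448 * Vale.Agent.P361.B.aS ((n : ℝ) / 2) + 12 * (A ^ 2)⁻¹ + 6 * A⁻¹ + 1) *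
        (Real.sqrt β / L + β / (L : ℝ) ^ 2 + Real.sqrt β ^ 3 / (L : ℝ) ^ 3) / s =
        (7 * 448 * Vale.Agent.P361.B.aS ((n : ℝ) / 2) + 12 * (A ^ 2)⁻¹ + 6 * A⁻¹ + 1) *
        (Real.sqrt β / L + β / (L : ℝ) ^ 2 + Real.sqrt β ^ 3 / (L : ℝ) ^ 3) * (1 / s) := by ring
    rw [e6, e7]
    generalize 12 * (A ^ 2)⁻¹ = P1 at *
    generalize 6 * A⁻¹ = P2 at *
    generalize 7 * 448 * Vale.Agent.P361.B.aS ((n : ℝ) / 2) = P3 at *
    generalize Real.sqrt β / L = Q2 at *
    generalize β / (L : ℝ) ^ 2 = Q3 at *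
    generalize Real.sqrt β ^ 3 / (L : ℝ) ^ 3 = Q4 at *
    generalize 1 / β = Q1 at *
    generalize 1 / s = Q5 at *
    have g1 : 0 ≤ P1 * Q1 := mul_nonneg p1 q1
    have g2 : 0 ≤ P2 * Q1 := mul_nonneg p2 q1
    have g3 : 0 ≤ P3 * (Q2 + Q3 + Q4) * Q5 := by positivity
    have g4 : 0 ≤ P1 * (Q3 + Q4) * Q5 := by positivity
    have g5 : 0 ≤ P2 * (Q2 + Q4) * Q5 := by positivity
    have g6 : 0 ≤ (Q2 + Q3) * Q5 := by positivity
    have k1 : (P3 + P1 + P2 + 1) * (Q2 + Q3 + Q4) * Q5 = P1 * Q2 * Q5 + P2 * Q3 * Q5 + Q4 * Q5 +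
        (P3 * (Q2 + Q3 + Q4) * Q5 + P1 * (Q3 + Q4) * Q5 + P2 * (Q2 + Q4) * Q5 +
          (Q2 + Q3) * Q5) := by ring
    have k2 : (P3 + P1 + P2 + 1) * Q1 = P3 * Q1 + (P1 * Q1 + P2 * Q1 + Q1) := by ring
    rw [k1, k2]
    linarith
  · -- termwise
    have hr1 : (1 : ℝ) ≤ (r : ℝ) + 1 := by linarith [Nat.cast_nonneg (α := ℝ) r]
    have hsr : 0 < Real.sqrt ((r : ℝ) + 1) := Real.sqrt_pos.2 (by positivity)
    have hsr1 : 1 ≤ Real.sqrt ((r : ℝ) + 1) := by rw [Real.one_le_sqrt]; exact hr1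
    rw [mul_left_comm]
    have h4 := mul_le_mul_of_nonneg_left (order_bound hn hβ hL r)
      (a := Real.exp (-(((r : ℝ) + 1) * s))) (by positivity)
    refine h4.trans ?_
    rw [← hA]
    have hE0 := Real.exp_pos (-(((r : ℝ) + 1) * s))
    set e := Real.exp (-(((r : ℝ) + 1) * s)) with he
    rw [mul_add, mul_add, mul_add]
    have i1 : 1 / Real.sqrt ((r : ℝ) + 1) ≤ 1 := by rw [div_le_one hsr]; exact hsr1
    have i2 : 1 / Real.sqrt ((r : ℝ) + 1) ^ 2 ≤ 1 := by
      rw [div_le_one (by positivity)]; exact one_le_pow₀ hsr1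
    refine add_le_add (add_le_add (add_le_add ?_ ?_) ?_) ?_
    · apply le_of_eq
      field_simp
    · have : e * (12 * (A ^ 2)⁻¹ * (Real.sqrt β / L) *
          (1 / Real.sqrt ((r : ℝ) + 1) ^ 2)) = (12 * (A ^ 2)⁻¹ * (Real.sqrt β / L) * e) *
          (1 / Real.sqrt ((r : ℝ) + 1) ^ 2) := by ring
      rw [this]
      exact mul_le_of_le_one_right (by positivity) i2
    · have : e * (6 * A⁻¹ * (β / (L : ℝ) ^ 2) *
          (1 / Real.sqrt ((r : ℝ) + 1))) = (6 * A⁻¹ * (β / (L : ℝ) ^ 2) * e) *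
          (1 / Real.sqrt ((r : ℝ) + 1)) := by ring
      rw [this]
      exact mul_le_of_le_one_right (by positivity) i1
    · rw [mul_comm]

/-- Torus pressure, final form. -/
theorem tor_log_asymp {n : ℕ} (hn : 1 ≤ n) : ∃ C : ℝ, 0 ≤ C ∧ ∀ β : ℝ, 448 ≤ β →
    ∀ (m : ℕ) [NeZero m] (s : ℝ), 0 < s →
    Real.sqrt β ^ 3 / (m : ℝ) ^ 3 *
      ∑ k : Fin 3 → ZMod m, -Real.log (1 - Real.exp (-(β * (n * tK m k) + s))) ≤
    FS ((n : ℝ) / 2) s + C * (1 / β + Real.sqrt β / m + β / (m : ℝ) ^ 2) +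
      Real.sqrt β ^ 3 / (m : ℝ) ^ 3 / s := by
  obtain ⟨C, hC, h⟩ := bosSer_le hn
  refine ⟨C, hC, fun β hβ m _ s hs => ?_⟩
  refine le_trans (mul_le_mul_of_nonneg_left (tor_log_le m (by linarith) hs) (by positivity)) ?_
  exact h β hβ m (Nat.pos_of_ne_zero (NeZero.ne m)) s hs

/-- Torus density, final form. -/
theorem tor_dens_asymp {n : ℕ} (hn : 1 ≤ n) : ∃ C : ℝ, 0 ≤ C ∧ ∀ β : ℝ, 448 ≤ β →
    ∀ (m : ℕ) [NeZero m] (s : ℝ), 0 < s →
    Real.sqrt β ^ 3 / (m : ℝ) ^ 3 *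
      ∑ k : Fin 3 → ZMod m, 1 / (Real.exp (β * (n * tK m k) + s) - 1) ≤
    fS ((n : ℝ) / 2) s + C / β +
      C * (Real.sqrt β / m + β / (m : ℝ) ^ 2 + Real.sqrt β ^ 3 / (m : ℝ) ^ 3) / s := by
  obtain ⟨C, hC, h⟩ := densSer_le hn
  refine ⟨C, hC, fun β hβ m _ s hs => ?_⟩
  refine le_trans (mul_le_mul_of_nonneg_left (tor_dens_le m (by linarith) hs) (by positivity)) ?_
  exact h β hβ m (Nat.pos_of_ne_zero (NeZero.ne m)) s hs

/-- The finite size errors vanish as `m → ∞`. -/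
theorem err_tendsto (β C s : ℝ) : Tendsto (fun m : ℕ =>
    C * (Real.sqrt β / m + β / (m : ℝ) ^ 2 + Real.sqrt β ^ 3 / (m : ℝ) ^ 3) / s) atTop (𝓝 0) := by
  have h1 : Tendsto (fun m : ℕ => Real.sqrt β / (m : ℝ)) atTop (𝓝 0) :=
    tendsto_const_div_atTop_nhds_zero_nat _
  have h2 : Tendsto (fun m : ℕ => β / (m : ℝ) ^ 2) atTop (𝓝 0) :=
    tendsto_const_nhds.div_atTop
      ((tendsto_pow_atTop (by norm_num)).comp tendsto_natCast_atTop_atTop)
  have h3 : Tendsto (fun m : ℕ => Real.sqrt β ^ 3 / (m : ℝ) ^ 3) atTop (𝓝 0) :=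
    tendsto_const_nhds.div_atTop
      ((tendsto_pow_atTop (by norm_num)).comp tendsto_natCast_atTop_atTop)
  have h4 := (((h1.add h2).add h3).const_mul C).div_const s
  simpa using h4

/-- Density: for each `β` and `s`, all large tori. -/
theorem tor_dens_eventually {n : ℕ} (hn : 1 ≤ n) : ∃ C : ℝ, 0 ≤ C ∧ ∀ β : ℝ, 448 ≤ β →
    ∀ s : ℝ, 0 < s → ∀ ε : ℝ, 0 < ε → ∀ᶠ m : ℕ in atTop, ∀ [NeZero m],
    Real.sqrt β ^ 3 / (m : ℝ) ^ 3 *
      ∑ k : Fin 3 → ZMod m, 1 / (Real.exp (β * (n * tK m k) + s) - 1) ≤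
    fS ((n : ℝ) / 2) s + C / β + ε := by
  obtain ⟨C, hC, h⟩ := tor_dens_asymp hn
  refine ⟨C, hC, fun β hβ s hs ε hε => ?_⟩
  filter_upwards [(err_tendsto β C s).eventually (ge_mem_nhds hε)] with m hm
  intro _
  have := h β hβ m s hs
  linarith

/-- Pressure: for each `β` and `s`, all large tori. -/
theorem tor_log_eventually {n : ℕ} (hn : 1 ≤ n) : ∃ C : ℝ, 0 ≤ C ∧ ∀ β : ℝ, 448 ≤ β →
    ∀ s : ℝ, 0 < s → ∀ ε : ℝ, 0 < ε → ∀ᶠ m : ℕ in atTop, ∀ [NeZero m],
    Real.sqrt β ^ 3 / (m : ℝ) ^ 3 *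
      ∑ k : Fin 3 → ZMod m, -Real.log (1 - Real.exp (-(β * (n * tK m k) + s))) ≤
    FS ((n : ℝ) / 2) s + C / β + ε := by
  obtain ⟨C, hC, h⟩ := tor_log_asymp hn
  refine ⟨C, hC, fun β hβ s hs ε hε => ?_⟩
  have h1 : Tendsto (fun m : ℕ => C * (Real.sqrt β / m + β / (m : ℝ) ^ 2) +
      Real.sqrt β ^ 3 / (m : ℝ) ^ 3 / s) atTop (𝓝 0) := by
    have g1 : Tendsto (fun m : ℕ => Real.sqrt β / (m : ℝ)) atTop (𝓝 0) :=
      tendsto_const_div_atTop_nhds_zero_nat _
    have g2 : Tendsto (fun m : ℕ => β / (m : ℝ) ^ 2) atTop (𝓝 0) :=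
      tendsto_const_nhds.div_atTop
        ((tendsto_pow_atTop (by norm_num)).comp tendsto_natCast_atTop_atTop)
    have g3 : Tendsto (fun m : ℕ => Real.sqrt β ^ 3 / (m : ℝ) ^ 3) atTop (𝓝 0) :=
      tendsto_const_nhds.div_atTop
        ((tendsto_pow_atTop (by norm_num)).comp tendsto_natCast_atTop_atTop)
    have g4 := ((g1.add g2).const_mul C).add (g3.div_const s)
    simpa using g4
  filter_upwards [h1.eventually (ge_mem_nhds hε)] with m hm
  intro _
  have := h β hβ m s hs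
  have e : C * (1 / β + Real.sqrt β / m + β / (m : ℝ) ^ 2) =
      C / β + C * (Real.sqrt β / m + β / (m : ℝ) ^ 2) := by ring
  rw [e] at this
  linarith

end Vale.Agent.P361.LRO.S3
end

section

/-!
# P361 stage 3, (T2): numbers for the lower tail (helper683)

Finite-volume upper bound for `log Zt` on a cube of side `3 ^ a ∼ β ^ (1/2 + d)` with a fixed
reward `τ`.
-/

namespace Vale.Agent.P361.LRO.S3

open Filter Topology Vale.Agent.P361.B

/-- crude bound on the cube of side `3 ^ a` at the inverse temperature `β / 2`. -/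
theorem lt2_crude {n : ℕ} (hn : 1 ≤ n) {d : ℝ} (hd : 0 < d) (hd2 : d ≤ 1 / 100) :
    ∀ᶠ β : ℝ in atTop, ∀ a : ℕ, β ^ (1 / 2 + d) ≤ (3 : ℝ) ^ a →
      (3 : ℝ) ^ a ≤ 3 * β ^ (1 / 2 + d) →
      Real.log (Zt n (B.cube (3 ^ a)) (β / 2) 0) ≤ 729 * β ^ (7 * d) := by
  have hcr := crude_log hn hd (by linarith)
  filter_upwards [hcr, eventually_ge_atTop 1] with β hcrβ hβ1 a ha1 ha2
  have hβ0 : 0 < β := by linarith
  have pw : ∀ {a b : ℝ}, a ≤ b → β ^ a ≤ β ^ b := fun h =>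
    Real.rpow_le_rpow_of_exponent_le hβ1 h
  have pp : ∀ a : ℝ, 0 < β ^ a := fun a => Real.rpow_pos_of_pos hβ0 a
  have hX1 : (1 : ℝ) ≤ β ^ (1 / 2 - d) := Real.one_le_rpow hβ1 (by linarith)
  obtain ⟨a0, ha0, ha0'⟩ := exists_nat_pow_near hX1 (by norm_num : (1 : ℝ) < 3)
  have haa : a0 ≤ a := by
    have h1 : (3 : ℝ) ^ a0 ≤ 3 ^ a := ha0.trans ((pw (by linarith)).trans ha1)
    exact (pow_le_pow_iff_right₀ (by norm_num : (1 : ℝ) < 3)).1 h1
  have hdec : 3 ^ a = 3 ^ (a - a0) * 3 ^ a0 := by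
    rw [← pow_add]; congr 1; omega
  have hq : ((3 ^ (a - a0) : ℕ) : ℝ) ≤ 9 * β ^ (2 * d) := by
    have h1 : ((3 ^ (a - a0) : ℕ) : ℝ) * (3 : ℝ) ^ a0 = (3 : ℝ) ^ a := by
      push_cast
      rw [← pow_add]; congr 1; omega
    have h2 : β ^ (1 / 2 - d) / 3 ≤ (3 : ℝ) ^ a0 := by
      rw [pow_succ] at ha0'
      linarith
    have h3 : ((3 ^ (a - a0) : ℕ) : ℝ) * (β ^ (1 / 2 - d) / 3) ≤ 3 * β ^ (1 / 2 + d) := by
      calc _ ≤ ((3 ^ (a - a0) : ℕ) : ℝ) * (3 : ℝ) ^ a0 :=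
            mul_le_mul_of_nonneg_left h2 (by positivity)
        _ = _ := h1
        _ ≤ _ := ha2
    have h4 : β ^ (1 / 2 + d) = β ^ (2 * d) * β ^ (1 / 2 - d) := by
      rw [← Real.rpow_add hβ0]; congr 1; ring
    rw [h4] at h3
    have h5 := pp (1 / 2 - d)
    have h6 : ((3 ^ (a - a0) : ℕ) : ℝ) * β ^ (1 / 2 - d) ≤
        (9 * β ^ (2 * d)) * β ^ (1 / 2 - d) := by linarith
    exact le_of_mul_le_mul_right h6 h5
  have h1 := log_Zt_cube_mul (n := n) (β := β / 2) (t := 0) (by positivity) le_rfl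
    (3 ^ (a - a0)) (3 ^ a0) (by positivity)
  rw [← hdec] at h1
  have h2 := hcrβ (3 ^ a0) (by positivity) (by push_cast; exact ha0)
  refine h1.trans ?_
  calc ((3 ^ (a - a0) : ℕ) : ℝ) ^ 3 * Real.log (Zt n (B.cube (3 ^ a0)) (β / 2) 0) ≤
        ((3 ^ (a - a0) : ℕ) : ℝ) ^ 3 * β ^ d := mul_le_mul_of_nonneg_left h2 (by positivity)
    _ ≤ (9 * β ^ (2 * d)) ^ 3 * β ^ d :=
        mul_le_mul_of_nonneg_right (pow_le_pow_left₀ (by positivity) hq 3) (pp _).le
    _ = _ := by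
        rw [mul_pow, ← Real.rpow_natCast (β ^ (2 * d)) 3, ← Real.rpow_mul hβ0.le, mul_assoc,
          ← Real.rpow_add hβ0]
        norm_num
        congr 1
        ring

/-- bounds of the side. -/
theorem lt2_side {d β L : ℝ} (hd : 0 < d) (hβ1 : 1 ≤ β) (hL : β ^ (1 / 2 + d) ≤ L) :
    β ≤ L ^ 2 ∧ Real.sqrt β / L ≤ β ^ (-d) ∧ β / L ^ 2 ≤ β ^ (-(2 * d)) ∧
      Real.sqrt β ^ 3 / L ^ 3 ≤ β ^ (-(3 * d)) := by
  have hβ0 : 0 < β := by linarith
  have pw : ∀ {a b : ℝ}, a ≤ b → β ^ a ≤ β ^ b := fun h =>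
    Real.rpow_le_rpow_of_exponent_le hβ1 h
  have pp : ∀ a : ℝ, 0 < β ^ a := fun a => Real.rpow_pos_of_pos hβ0 a
  have hLR : 0 < L := (pp _).trans_le hL
  have hL2 : β ^ (1 + 2 * d) ≤ L ^ 2 := by
    have h1 : (β ^ (1 / 2 + d)) ^ 2 = β ^ (1 + 2 * d) := by
      rw [← Real.rpow_natCast, ← Real.rpow_mul hβ0.le]
      congr 1
      push_cast
      ring
    rw [← h1]
    exact pow_le_pow_left₀ (pp _).le hL 2
  have sb2 : Real.sqrt β / L ≤ β ^ (-d) := by
    rw [div_le_iff₀ hLR, Real.sqrt_eq_rpow]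
    have h2 : β ^ (-d) * β ^ (1 / 2 + d) = β ^ (1 / 2 : ℝ) := by
      rw [← Real.rpow_add hβ0]; congr 1; ring
    rw [← h2]
    exact mul_le_mul_of_nonneg_left hL (pp _).le
  refine ⟨?_, sb2, ?_, ?_⟩
  · refine le_trans ?_ hL2
    nth_rewrite 1 [← Real.rpow_one β]
    exact pw (by linarith)
  · rw [div_le_iff₀ (by positivity)]
    have h4 : β ^ (-(2 * d)) * β ^ (1 + 2 * d) = β := by
      rw [← Real.rpow_add hβ0]
      nth_rewrite 2 [← Real.rpow_one β]
      congr 1; ring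
    calc β = β ^ (-(2 * d)) * β ^ (1 + 2 * d) := h4.symm
      _ ≤ _ := mul_le_mul_of_nonneg_left hL2 (pp _).le
  · have h1 : Real.sqrt β ^ 3 / L ^ 3 = (Real.sqrt β / L) ^ 3 := by rw [div_pow]
    rw [h1]
    refine (pow_le_pow_left₀ (by positivity) sb2 3).trans (le_of_eq ?_)
    rw [← Real.rpow_natCast, ← Real.rpow_mul hβ0.le]
    congr 1
    push_cast
    ring

/-- interaction error. -/
theorem lt2_inter {d β A P N W M : ℝ} (hβ1 : 1 ≤ β) (hA : A = 729 * β ^ (7 * d))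
    (hP1 : P ≤ 1) (hM0 : 0 < M) (hN0 : 0 ≤ N) (hN : N ≤ M * A) (hW0 : 0 ≤ W)
    (hW1 : W ≤ 899 * Real.sqrt (A / β)) :
    P * (β * (12 * Real.exp 2 * (N ^ 2 * W ^ 3))) ≤
      12 * Real.exp 2 * (M ^ 2 * 899 ^ 3) * (729 ^ 2 * Real.sqrt 729 ^ 3) *
        β ^ (-(1 / 2 - 49 / 2 * d)) := by
  have hβ0 : 0 < β := by linarith
  have pp : ∀ a : ℝ, 0 < β ^ a := fun a => Real.rpow_pos_of_pos hβ0 a
  have hA0 : 0 < A := by rw [hA]; exact mul_pos (by norm_num) (pp _)
  have h1 : N ^ 2 * W ^ 3 ≤ (M * A) ^ 2 * (899 * Real.sqrt (A / β)) ^ 3 :=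
    mul_le_mul (pow_le_pow_left₀ hN0 hN 2) (pow_le_pow_left₀ hW0 hW1 3)
      (by positivity) (by positivity)
  have h3 : Real.sqrt (A / β) ^ 3 = Real.sqrt 729 ^ 3 * β ^ ((21 * d - 3) / 2) := by
    have e1 : A / β = 729 * β ^ (7 * d - 1) := by
      rw [hA, Real.rpow_sub hβ0, Real.rpow_one]; ring
    rw [e1, Real.sqrt_mul (by norm_num), mul_pow, Real.sqrt_eq_rpow (β ^ _),
      ← Real.rpow_mul hβ0.le, ← Real.rpow_natCast (β ^ _), ← Real.rpow_mul hβ0.le]
    congr 2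
    push_cast
    ring
  have h4 : P * (β * (12 * Real.exp 2 * (N ^ 2 * W ^ 3))) ≤
      1 * (β * (12 * Real.exp 2 * ((M * A) ^ 2 * (899 * Real.sqrt (A / β)) ^ 3))) := by
    refine mul_le_mul hP1 ?_ (by positivity) (by norm_num)
    exact mul_le_mul_of_nonneg_left (mul_le_mul_of_nonneg_left h1 (by positivity)) hβ0.le
  refine h4.trans (le_of_eq ?_)
  rw [mul_pow 899, h3, hA]
  have h6 : β * (β ^ (7 * d)) ^ 2 * β ^ ((21 * d - 3) / 2) = β ^ (-(1 / 2 - 49 / 2 * d)) := by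
    rw [← Real.rpow_natCast (β ^ (7 * d)) 2, ← Real.rpow_mul hβ0.le]
    nth_rewrite 1 [← Real.rpow_one β]
    rw [← Real.rpow_add hβ0, ← Real.rpow_add hβ0]
    congr 1
    push_cast
    ring
  rw [← h6]
  ring

/-- the total error. -/
theorem lt2_lim {d : ℝ} (hd : 0 < d) (hd2 : d ≤ 1 / 100) (τ K C : ℝ) :
    Tendsto (fun β : ℝ => β ^ (-(3 * d)) * Real.log 3 +
      K * β ^ (-(1 / 2 - 49 / 2 * d)) + C * (β ^ (-(1 : ℝ)) + β ^ (-d) + β ^ (-(2 * d))) +
      β ^ (-(3 * d)) / τ) atTop (𝓝 0) := by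
  have lim0 : ∀ c : ℝ, 0 < c → Tendsto (fun β : ℝ => β ^ (-c)) atTop (𝓝 0) := fun c hc =>
    tendsto_rpow_neg_atTop hc
  have h1 := (((lim0 (3 * d) (by linarith)).mul_const (Real.log 3)).add
    ((lim0 (1 / 2 - 49 / 2 * d) (by linarith)).const_mul K)).add
    ((((lim0 1 one_pos).add (lim0 d hd)).add (lim0 (2 * d) (by linarith))).const_mul C)
  have h2 := h1.add ((lim0 (3 * d) (by linarith)).div_const τ)
  simpa using h2

/-- (T2), one cube. -/
theorem lt2_one {n : ℕ} (hn : 1 ≤ n) {d : ℝ} (hd : 0 < d) {τ : ℝ} (hτ : 0 < τ) {C : ℝ}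
    (hC0 : 0 ≤ C) (hC : ∀ β : ℝ, 448 ≤ β → ∀ L : ℕ, 0 < L → ∀ t : ℝ, 0 < t →
      Real.sqrt β ^ 3 / (L : ℝ) ^ 3 * bosSer n L β t ≤
      FS ((n : ℝ) / 2) t + C * (1 / β + Real.sqrt β / L + β / (L : ℝ) ^ 2) +
        Real.sqrt β ^ 3 / (L : ℝ) ^ 3 / t) {β : ℝ} (h448 : 448 ≤ β)
    (h729 : 729 ≤ β ^ (1 - 7 * d)) {L : ℕ} (hLpos : 0 < L) (hL : β ^ (1 / 2 + d) ≤ L)
    (hz0 : Real.log (Zt n (B.cube L) (β / 2) 0) ≤ 729 * β ^ (7 * d)) :
    Real.sqrt β ^ 3 / (L : ℝ) ^ 3 * Real.log (Zt n (B.cube L) β τ) ≤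
      FS ((n : ℝ) / 2) τ + (β ^ (-(3 * d)) * Real.log 3 +
      12 * Real.exp 2 * ((1 / τ + 1) ^ 2 * 899 ^ 3) * (729 ^ 2 * Real.sqrt 729 ^ 3) *
        β ^ (-(1 / 2 - 49 / 2 * d)) + C * (β ^ (-(1 : ℝ)) + β ^ (-d) + β ^ (-(2 * d))) +
      β ^ (-(3 * d)) / τ) := by
  have hβ0 : 0 < β := by linarith
  have hβ1 : 1 ≤ β := by linarith
  have pp : ∀ a : ℝ, 0 < β ^ a := fun a => Real.rpow_pos_of_pos hβ0 a
  have hLR : (0 : ℝ) < L := by exact_mod_cast hLpos
  obtain ⟨A, hA⟩ : ∃ A : ℝ, A = 729 * β ^ (7 * d) := ⟨_, rfl⟩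
  have hz1 := hz0
  rw [← hA] at hz1
  have hA1 : 1 ≤ A := by
    have : 1 ≤ β ^ (7 * d) := Real.one_le_rpow hβ1 (by linarith)
    rw [hA]; linarith
  have hA0 : 0 < A := by linarith
  have hz2 : Real.log (Zt n (B.cube L) β 0) ≤ A :=
    (Real.log_le_log (Zt_pos β 0) (Zt_anti (by linarith) le_rfl)).trans hz1
  have hAβ : A ≤ β := by
    have h1 : β ^ (7 * d) * β ^ (1 - 7 * d) = β := by
      rw [← Real.rpow_add hβ0]
      nth_rewrite 2 [← Real.rpow_one β]
      congr 1; ring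
    calc A = β ^ (7 * d) * 729 := by rw [hA]; ring
      _ ≤ β ^ (7 * d) * β ^ (1 - 7 * d) := mul_le_mul_of_nonneg_left h729 (pp _).le
      _ = β := h1
  obtain ⟨N1, hN1a, hN1b⟩ : ∃ N1 : ℕ, A ≤ τ * N1 ∧ (N1 : ℝ) ≤ (1 / τ + 1) * A := by
    refine ⟨⌈A / τ⌉₊, ?_, ?_⟩
    · have := Nat.le_ceil (A / τ)
      rwa [div_le_iff₀ hτ, mul_comm] at this
    · have h1 := (Nat.ceil_lt_add_one (by positivity : 0 ≤ A / τ)).le
      have h2 : (1 / τ + 1) * A = A / τ + A := by ring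
      rw [h2]
      linarith
  have hup := logZt_upper hn hLpos (β := β) (t := τ) (E1 := 2 * A / β) hβ0.le hτ
    (by positivity) N1 (hz1.trans (le_of_eq (by field_simp))) (hz2.trans hN1a)
  obtain ⟨hβL, sb2, sb3, sb4⟩ := lt2_side hd hβ1 hL
  have hbJ := bJ_param hn hβ0 hA1 hAβ
  have hLinv : 1 / (L : ℝ) ≤ Real.sqrt (A / β) := by
    refine Real.le_sqrt_of_sq_le ?_
    rw [div_pow, one_pow, div_le_div_iff₀ (by positivity) hβ0, one_mul]
    nlinarith
  have hP0 : 0 < Real.sqrt β ^ 3 / (L : ℝ) ^ 3 := by positivity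
  have hP1 : Real.sqrt β ^ 3 / (L : ℝ) ^ 3 ≤ 1 :=
    sb4.trans (Real.rpow_le_one_of_one_le_of_nonpos hβ1 (by linarith))
  have piece2 := lt2_inter (d := d) (M := 1 / τ + 1) hβ1 hA hP1 (by positivity)
    (Nat.cast_nonneg N1) hN1b
    (W := 1 / (L : ℝ) + 2 * H.bJ (2 * n / (2 * A / β)))
    (by have := H.bJ_nonneg (2 * n / (2 * A / β)); positivity) (by linarith)
  have piece3 := hC β h448 L hLpos τ hτ
  have g1 : 1 / β = β ^ (-(1 : ℝ)) := by rw [one_div, ← Real.rpow_neg_one]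
  have g4 : Real.sqrt β ^ 3 / (L : ℝ) ^ 3 / τ ≤ β ^ (-(3 * d)) / τ :=
    div_le_div_of_nonneg_right sb4 hτ.le
  have g5 : C * (1 / β + Real.sqrt β / L + β / (L : ℝ) ^ 2) ≤
      C * (β ^ (-(1 : ℝ)) + β ^ (-d) + β ^ (-(2 * d))) := by
    refine mul_le_mul_of_nonneg_left ?_ hC0
    rw [g1]
    linarith
  generalize 12 * Real.exp 2 * ((1 / τ + 1) ^ 2 * 899 ^ 3) * (729 ^ 2 * Real.sqrt 729 ^ 3) = K
    at piece2 ⊢
  generalize Real.sqrt β ^ 3 / (L : ℝ) ^ 3 = P at hP0 hP1 sb4 piece2 piece3 g4 ⊢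
  have piece1 : P * Real.log 3 ≤ β ^ (-(3 * d)) * Real.log 3 :=
    mul_le_mul_of_nonneg_right sb4 (Real.log_nonneg (by norm_num))
  have h3 := mul_le_mul_of_nonneg_left hup hP0.le
  rw [mul_add, mul_add] at h3
  linarith

/-- (T2), all spins `n / 2`. -/
theorem lt2n {n : ℕ} (hn : 1 ≤ n) {d : ℝ} (hd : 0 < d) (hd2 : d ≤ 1 / 100) {τ : ℝ} (hτ : 0 < τ)
    {ε : ℝ} (hε : 0 < ε) : ∃ β0 : ℝ, ∀ β : ℝ, β0 ≤ β → ∀ a : ℕ,
      β ^ (1 / 2 + d) ≤ (3 : ℝ) ^ a → (3 : ℝ) ^ a ≤ 3 * β ^ (1 / 2 + d) →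
      Real.sqrt β ^ 3 / ((3 : ℝ) ^ a) ^ 3 * Real.log (Zt n (B.cube (3 ^ a)) β τ) ≤
        FS ((n : ℝ) / 2) τ + ε := by
  obtain ⟨C, hC0, hC⟩ := bosSer_le hn
  have l2 : ∀ᶠ β : ℝ in atTop, 729 ≤ β ^ (1 - 7 * d) :=
    (tendsto_rpow_atTop (by linarith)).eventually_ge_atTop 729
  obtain ⟨β₀, hβ₀⟩ := eventually_atTop.1
    ((lt2_crude hn hd hd2).and (l2.and ((eventually_ge_atTop (448 : ℝ)).and
      ((lt2_lim hd hd2 τ (12 * Real.exp 2 * ((1 / τ + 1) ^ 2 * 899 ^ 3) *
        (729 ^ 2 * Real.sqrt 729 ^ 3)) C).eventually (ge_mem_nhds hε)))))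
  refine ⟨β₀, fun β hβ a ha1 ha2 => ?_⟩
  obtain ⟨hcrβ, h729, h448, hlim⟩ := hβ₀ β hβ
  have h := lt2_one hn hd hτ hC0 hC h448 h729 (L := 3 ^ a) (by positivity)
    (by push_cast; exact ha1) (hcrβ a ha1 ha2)
  push_cast at h
  linarith

/-- (T2) in the form of the split of helper260 (spin 1/2). -/
theorem lt2 (d : ℝ) (hd : 0 < d) (hd2 : d ≤ 1 / 100) (τ : ℝ) (hτ : 0 < τ)
    (ε : ℝ) (hε : 0 < ε) : ∃ β0 : ℝ, ∀ β : ℝ, β0 ≤ β → ∀ a : ℕ,
      β ^ (1 / 2 + d) ≤ (3 : ℝ) ^ a → (3 : ℝ) ^ a ≤ 3 * β ^ (1 / 2 + d) →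
      Real.sqrt β ^ 3 / ((3 : ℝ) ^ a) ^ 3 * Real.log (Zt 1 (B.cube (3 ^ a)) β τ) ≤
        FS (1 / 2) τ + ε := by
  have h := lt2n (n := 1) le_rfl hd hd2 hτ hε
  rw [Nat.cast_one] at h
  exact h

end Vale.Agent.P361.LRO.S3
end
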