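import Mathlib
import Vale.Agent.P361.Bdl.B5
import Vale.Agent.P361.Bdl.B1
import Vale.Agent.P361.Bdl.B7
import Vale.Agent.P361.Bdl.B3
import Vale.Agent.P361.Bdl.B6
import Vale.Agent.P361.Bdl.B2
import Vale.Agent.P361.Bdl.B4

set_option linter.all false

section

/-!
P361, block twist, part 5: the scalar averages `a(N)`, `b₀(N)`, `b₁(N)` and the scalar inequality.
-/

namespace Vale.Agent.P361.LRO.TwJ

set_option linter.all false

open MeasureTheory intervalIntegral Real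

theorem dd_le {k : ℝ} (hk : 0 ≤ k) (θ : ℝ) : dd k θ ≤ Real.exp (k / 2) := by
  have h1 : 0 ≤ Real.sinh (k / 2) := Real.sinh_nonneg_iff.2 (by linarith)
  have h2 := Real.cosh_add_sinh (k / 2)
  have h3 := Real.cos_le_one θ
  rw [dd]
  nlinarith

theorem cont_a (k : ℝ) (N : ℕ) : Continuous fun θ => 1 / 2 * Real.sin θ ^ 1 * dd k θ ^ N := by
  have := continuous_dd k
  fun_prop

theorem cont_b0 (k : ℝ) (N : ℕ) :
    Continuous fun θ => 1 / 2 * Real.cos θ * Real.sin θ ^ 1 * dd k θ ^ N := by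
  have := continuous_dd k
  fun_prop

theorem cont_b1 {k : ℝ} (hk : 0 ≤ k) (N : ℕ) :
    Continuous fun θ => 1 / 2 * Real.sin θ ^ 2 *
      (dd k θ ^ N * (Real.sinh (k / 2) * Real.sin θ / dd k θ)) := by
  have h1 := continuous_dd k
  have h2 : ∀ θ, dd k θ ≠ 0 := fun θ => (dd_pos hk θ).ne'
  exact (by fun_prop : Continuous fun θ => 1 / 2 * Real.sin θ ^ 2).mul
    ((h1.pow N).mul ((continuous_const.mul Real.continuous_sin).div h1 h2))

theorem aN_pos {k : ℝ} (hk : 0 ≤ k) (N : ℕ) : 0 < aN k N := by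
  refine intervalIntegral.intervalIntegral_pos_of_pos_on
    ((cont_a k N).intervalIntegrable _ _) (fun θ hθ => ?_) Real.pi_pos
  have h1 := Real.sin_pos_of_pos_of_lt_pi hθ.1 hθ.2
  have h2 := dd_pos hk θ
  positivity

theorem aN_le {k : ℝ} (hk : 0 ≤ k) {N n : ℕ} (h : N ≤ n) :
    aN k n ≤ Real.exp (k / 2 * (n - N : ℕ)) * aN k N := by
  rw [aN, aN, ← intervalIntegral.integral_const_mul]
  refine intervalIntegral.integral_mono_on Real.pi_pos.le
    ((cont_a k n).intervalIntegrable _ _)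
    (((cont_a k N).const_mul _).intervalIntegrable _ _) fun θ hθ => ?_
  have h1 := Real.sin_nonneg_of_nonneg_of_le_pi hθ.1 hθ.2
  have h2 := dd_pos hk θ
  have h3 : dd k θ ^ n = dd k θ ^ (n - N) * dd k θ ^ N := by
    rw [← pow_add, Nat.sub_add_cancel h]
  have h4 : dd k θ ^ (n - N) ≤ Real.exp (k / 2 * (n - N : ℕ)) := by
    rw [mul_comm, Real.exp_nat_mul]
    exact pow_le_pow_left₀ h2.le (dd_le hk θ) _
  rw [h3]
  have h5 : 0 ≤ 1 / 2 * Real.sin θ ^ 1 * dd k θ ^ N := by positivity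
  calc 1 / 2 * Real.sin θ ^ 1 * (dd k θ ^ (n - N) * dd k θ ^ N)
      = dd k θ ^ (n - N) * (1 / 2 * Real.sin θ ^ 1 * dd k θ ^ N) := by ring
    _ ≤ _ := mul_le_mul_of_nonneg_right h4 h5

theorem b1N_nonneg {k : ℝ} (hk : 0 ≤ k) (N : ℕ) : 0 ≤ b1N k N := by
  refine intervalIntegral.integral_nonneg Real.pi_pos.le fun θ hθ => ?_
  have h1 := Real.sin_nonneg_of_nonneg_of_le_pi hθ.1 hθ.2
  have h2 := dd_pos hk θ
  have h3 : 0 ≤ Real.sinh (k / 2) := Real.sinh_nonneg_iff.2 (by linarith)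
  positivity

theorem b0N_le {k : ℝ} (hk : 0 ≤ k) (N : ℕ) : b0N k N ≤ aN k N := by
  refine intervalIntegral.integral_mono_on Real.pi_pos.le
    ((cont_b0 k N).intervalIntegrable _ _) ((cont_a k N).intervalIntegrable _ _) fun θ hθ => ?_
  have h1 := Real.sin_nonneg_of_nonneg_of_le_pi hθ.1 hθ.2
  have h2 := dd_pos hk θ
  have h3 := Real.cos_le_one θ
  have h4 : 0 ≤ 1 / 2 * Real.sin θ ^ 1 * dd k θ ^ N := by positivity
  nlinarith

theorem hasDerivAt_dd (k θ : ℝ) : HasDerivAt (dd k) (Real.sinh (k / 2) * -Real.sin θ) θ :=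
  ((Real.hasDerivAt_cos θ).const_mul _).const_add _

theorem N_b1 {k : ℝ} (hk : 0 ≤ k) (N : ℕ) : (N : ℝ) * b1N k N = 2 * b0N k N := by
  have h1 : ∀ θ ∈ Set.uIcc (0 : ℝ) Real.pi, HasDerivAt (fun θ => dd k θ ^ N * Real.sin θ ^ 2)
      (-2 * N * (1 / 2 * Real.sin θ ^ 2 *
        (dd k θ ^ N * (Real.sinh (k / 2) * Real.sin θ / dd k θ))) +
        4 * (1 / 2 * Real.cos θ * Real.sin θ ^ 1 * dd k θ ^ N)) θ := by
    intro θ _
    have h2 := ((hasDerivAt_dd k θ).pow N).mul ((Real.hasDerivAt_sin θ).pow 2)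
    refine HasDerivAt.congr_deriv (f := fun θ => dd k θ ^ N * Real.sin θ ^ 2) h2 ?_
    have h3 := (dd_pos hk θ).ne'
    rcases N with _ | M
    · simp; ring
    · have : dd k θ ^ (M + 1) / dd k θ = dd k θ ^ M := by
        rw [pow_succ, mul_div_cancel_right₀ _ h3]
      simp only [Nat.add_sub_cancel, Pi.pow_apply]
      have h5 : dd k θ ^ (M + 1) * (Real.sinh (k / 2) * Real.sin θ / dd k θ) =
          dd k θ ^ M * (Real.sinh (k / 2) * Real.sin θ) := by
        rw [← this]; ring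
      rw [h5]
      push_cast
      ring
  have h2 := intervalIntegral.integral_eq_sub_of_hasDerivAt h1
    ((((cont_b1 hk N).const_mul _).add ((cont_b0 k N).const_mul _)).intervalIntegrable _ _)
  rw [intervalIntegral.integral_add (((cont_b1 hk N).const_mul _).intervalIntegrable _ _)
    (((cont_b0 k N).const_mul _).intervalIntegrable _ _), intervalIntegral.integral_const_mul,
    intervalIntegral.integral_const_mul] at h2
  simp only [Real.sin_pi, Real.sin_zero] at h2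
  change -2 * (N : ℝ) * b1N k N + 4 * b0N k N = _ at h2
  norm_num at h2
  linarith

theorem aN_mono_succ {k : ℝ} (hk : 0 ≤ k) (N : ℕ) : aN k N ≤ aN k (N + 1) := by
  have h0 : (∫ θ in (0 : ℝ)..Real.pi, 1 / 2 * Real.sin θ * (dd k θ - 1)) =
      Real.cosh (k / 2) - 1 := by
    have h1 : ∀ θ ∈ Set.uIcc (0 : ℝ) Real.pi,
        HasDerivAt (fun θ => -(1 / 2) * (Real.cosh (k / 2) - 1) * Real.cos θ +
          1 / 4 * Real.sinh (k / 2) * Real.sin θ ^ 2)
          (1 / 2 * Real.sin θ * (dd k θ - 1)) θ := by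
      intro θ _
      have h2 := ((Real.hasDerivAt_cos θ).const_mul (-(1 / 2) * (Real.cosh (k / 2) - 1))).add
        (((Real.hasDerivAt_sin θ).pow 2).const_mul (1 / 4 * Real.sinh (k / 2)))
      refine HasDerivAt.congr_deriv (f := fun θ => -(1 / 2) * (Real.cosh (k / 2) - 1) * Real.cos θ +
          1 / 4 * Real.sinh (k / 2) * Real.sin θ ^ 2) h2 ?_
      rw [dd]
      norm_num
      ring
    have hc := continuous_dd k
    rw [intervalIntegral.integral_eq_sub_of_hasDerivAt h1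
      ((by fun_prop : Continuous fun θ => 1 / 2 * Real.sin θ * (dd k θ - 1)).intervalIntegrable
        _ _)]
    simp
    ring
  have h1 : (∫ θ in (0 : ℝ)..Real.pi, 1 / 2 * Real.sin θ * (dd k θ - 1)) ≤
      aN k (N + 1) - aN k N := by
    rw [aN, aN, ← intervalIntegral.integral_sub ((cont_a k (N + 1)).intervalIntegrable _ _)
      ((cont_a k N).intervalIntegrable _ _)]
    have hc := continuous_dd k
    refine intervalIntegral.integral_mono_on Real.pi_pos.le
      ((by fun_prop : Continuous fun θ => 1 / 2 * Real.sin θ * (dd k θ - 1)).intervalIntegrable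
        _ _)
      (((cont_a k (N + 1)).sub (cont_a k N)).intervalIntegrable _ _) fun θ hθ => ?_
    have h2 := Real.sin_nonneg_of_nonneg_of_le_pi hθ.1 hθ.2
    have h3 := dd_pos hk θ
    have h4 : dd k θ - 1 ≤ dd k θ ^ N * (dd k θ - 1) := by
      rcases le_total 1 (dd k θ) with h | h
      · have := one_le_pow₀ h (n := N)
        nlinarith
      · have := pow_le_one₀ h3.le h (n := N)
        nlinarith
    have h5 := mul_le_mul_of_nonneg_left h4 (by positivity : 0 ≤ 1 / 2 * Real.sin θ)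
    calc 1 / 2 * Real.sin θ * (dd k θ - 1) ≤ _ := h5
      _ = _ := by ring
  have h2 : 0 ≤ Real.cosh (k / 2) - 1 := by linarith [Real.one_le_cosh (k / 2)]
  linarith

theorem aN_mono {k : ℝ} (hk : 0 ≤ k) {N n : ℕ} (h : N ≤ n) : aN k N ≤ aN k n := by
  induction n, h using Nat.le_induction with
  | base => exact le_rfl
  | succ m _ ih => exact ih.trans (aN_mono_succ hk m)

/-- The scalar inequality. -/
theorem scal {K : ℝ} (hK : 0 < K) {n N r p : ℕ} (hn : 0 < n) (hN : N + 2 * r = n) (hp : p ≤ N) :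
    0 ≤ (1 + K) * (2 / (n : ℝ) ^ 2) *
        ((n : ℝ) / 2 * ((n : ℝ) / 2 + 1) - (N : ℝ) / 2 * ((N : ℝ) / 2 + 1)) +
      Real.exp 1 / aN (K / n) n * (aN (K / n) N - (b0N (K / n) N - p * b1N (K / n) N)) -
      1 / (n : ℝ) * ((n : ℝ) / 2 - ((N : ℝ) / 2 - p)) := by
  have hn' : (0 : ℝ) < n := by exact_mod_cast hn
  set k := K / (n : ℝ) with hk
  have hk0 : 0 ≤ k := by positivity
  have hNn : N ≤ n := by omega
  have hNr : (n : ℝ) = N + 2 * r := by rw [← hN]; push_cast; ring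
  have ha := aN_pos hk0 N
  have han := aN_pos hk0 n
  have h1 := aN_le hk0 hNn
  have h2 := b1N_nonneg hk0 N
  have h3 := b0N_le hk0 N
  have h4 := N_b1 hk0 N
  set a := aN k N
  set A := aN k n
  set β0 := b0N k N
  set β1 := b1N k N
  have hr0 : (0 : ℝ) ≤ r := Nat.cast_nonneg r
  have hN0 : (0 : ℝ) ≤ N := Nat.cast_nonneg N
  have hp0 : (0 : ℝ) ≤ p := Nat.cast_nonneg p
  have hpN : (p : ℝ) ≤ N := by exact_mod_cast hp
  -- `δ = r / n`
  have hkr : k / 2 * ((n - N : ℕ) : ℝ) = K * (r / n) := by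
    have : ((n - N : ℕ) : ℝ) = 2 * r := by
      have : n - N = 2 * r := by omega
      rw [this]; push_cast; ring
    rw [this, hk]; ring
  rw [hkr] at h1
  set δ := (r : ℝ) / n with hδ
  have hδ0 : 0 ≤ δ := by positivity
  -- the Casimir term
  have hD : δ ≤ 2 / (n : ℝ) ^ 2 *
      ((n : ℝ) / 2 * ((n : ℝ) / 2 + 1) - (N : ℝ) / 2 * ((N : ℝ) / 2 + 1)) := by
    have e1 : (n : ℝ) / 2 * ((n : ℝ) / 2 + 1) - (N : ℝ) / 2 * ((N : ℝ) / 2 + 1) =
        r * ((n : ℝ) - r + 1) := by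
      have : (N : ℝ) = n - 2 * r := by linarith
      rw [this]; ring
    rw [e1, hδ, div_mul_eq_mul_div, div_le_div_iff₀ hn' (by positivity)]
    have h5 : (n : ℝ) ≤ 2 * ((n : ℝ) - r + 1) := by nlinarith
    have h6 : (r : ℝ) * n * n ≤ r * (2 * ((n : ℝ) - r + 1)) * n := by
      refine mul_le_mul_of_nonneg_right (mul_le_mul_of_nonneg_left h5 hr0) hn'.le
    nlinarith
  -- `x = 1 - M/J` part
  have hx : a * (p / n) ≤ a - (β0 - p * β1) ∨ True := Or.inr trivial
  -- `a - M β₁ ≥ (p/N) a`, written as `N (a - M β₁) ≥ p a`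
  have hM : (p : ℝ) * a ≤ N * (a - (β0 - p * β1)) := by
    have e2 : N * (a - (β0 - p * β1)) = N * a - ((N : ℝ) - 2 * p) * β0 := by
      linear_combination (p : ℝ) * h4
    rw [e2]
    rcases le_total (2 * (p : ℝ)) N with h | h
    · have : ((N : ℝ) - 2 * p) * β0 ≤ ((N : ℝ) - 2 * p) * a :=
        mul_le_mul_of_nonneg_left h3 (by linarith)
      nlinarith
    · have hb0 : 0 ≤ β0 := by nlinarith
      nlinarith
  -- magnetization deficit
  have hdef : 1 / (n : ℝ) * ((n : ℝ) / 2 - ((N : ℝ) / 2 - p)) = δ + p / n := by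
    rw [hδ, hNr]; ring
  rw [hdef]
  have hK1 : (1 + K) * δ ≤ (1 + K) * (2 / (n : ℝ) ^ 2) *
      ((n : ℝ) / 2 * ((n : ℝ) / 2 + 1) - (N : ℝ) / 2 * ((N : ℝ) / 2 + 1)) := by
    rw [mul_assoc]
    exact mul_le_mul_of_nonneg_left hD (by linarith)
  have hgoal : (p : ℝ) / n ≤ K * δ + Real.exp 1 / A * (a - (β0 - p * β1)) := by
    rcases Nat.eq_zero_or_pos N with hN1 | hN1
    · have : (p : ℝ) = 0 := by
        have : p = 0 := by omega
        rw [this]; simp
      have h5 : β0 ≤ a := h3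
      have h6 : 0 ≤ Real.exp 1 / A * (a - (β0 - p * β1)) := by
        rw [this]
        refine mul_nonneg (by positivity) (by linarith)
      have : (p : ℝ) / n = 0 := by rw [this]; simp
      rw [this]
      positivity
    have hN1' : (0 : ℝ) < N := by exact_mod_cast hN1
    have hM' : p / N * a ≤ a - (β0 - p * β1) := by
      rw [div_mul_eq_mul_div, div_le_iff₀ hN1']
      linarith
    have hNn' : (N : ℝ) ≤ n := by exact_mod_cast hNn
    have hpn : (p : ℝ) / n ≤ p / N := by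
      exact div_le_div_of_nonneg_left hp0 hN1' hNn'
    have hpn1 : (p : ℝ) / n ≤ 1 := by
      rw [div_le_one hn']; linarith
    rcases le_total (K * δ) 1 with h | h
    · have h7 : A ≤ Real.exp 1 * a := by
        refine h1.trans (mul_le_mul_of_nonneg_right (Real.exp_le_exp.2 h) ha.le)
      have h8 : 1 ≤ Real.exp 1 / A * a := by
        rw [div_mul_eq_mul_div, le_div_iff₀ han]
        linarith
      have h9 : (p : ℝ) / N ≤ Real.exp 1 / A * (a - (β0 - p * β1)) := by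
        calc (p : ℝ) / N = p / N * 1 := by ring
          _ ≤ p / N * (Real.exp 1 / A * a) := mul_le_mul_of_nonneg_left h8 (by positivity)
          _ = Real.exp 1 / A * (p / N * a) := by ring
          _ ≤ _ := mul_le_mul_of_nonneg_left hM' (by positivity)
      have : 0 ≤ K * δ := by positivity
      linarith
    · have h6 : 0 ≤ Real.exp 1 / A * (a - (β0 - p * β1)) := by
        refine mul_nonneg (by positivity) (le_trans (by positivity) hM')
      linarith
  have e3 : (1 + K) * δ = δ + K * δ := by ring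
  linarith

end Vale.Agent.P361.LRO.TwJ
end

section

/-!
P361, block twist, part 6: quadratic forms from joint eigenvectors; the operator inequality.
-/

namespace Vale.Agent.P361.LRO.TwJ

set_option linter.all false

open Matrix Finset
open scoped ComplexOrder

variable {V : Type} [Fintype V] [DecidableEq V]

/-- A quadratic form which is nonnegative on joint eigenvectors (acting there by scalars) is
nonnegative. -/
theorem form_nonneg (b : Finset V) (X : Opr V)
    (hX : ∀ (w : (V → Fin 2) → ℂ), w ≠ 0 → ∀ lam mu : ℂ, Cas b *ᵥ w = lam • w →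
      Sg b sz *ᵥ w = mu • w → ∃ y : ℝ, 0 ≤ y ∧ X *ᵥ w = (y : ℂ) • w)
    (w : (V → Fin 2) → ℂ) : 0 ≤ (star w ⬝ᵥ (X *ᵥ w)).re := by
  classical
  let A : EuclideanSpace ℂ (V → Fin 2) →ₗ[ℂ] EuclideanSpace ℂ (V → Fin 2) :=
    Matrix.toEuclideanLin (Cas b)
  let B : EuclideanSpace ℂ (V → Fin 2) →ₗ[ℂ] EuclideanSpace ℂ (V → Fin 2) :=
    Matrix.toEuclideanLin (Sg b sz)
  have hA : A.IsSymmetric := Matrix.isSymmetric_toEuclideanLin_iff.2 (Cas_herm b)
  have hB : B.IsSymmetric := Matrix.isSymmetric_toEuclideanLin_iff.2 (Sz_herm b)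
  have hAB : Commute A B := by
    apply LinearMap.ext
    intro u
    change Matrix.toEuclideanLin (Cas b) (Matrix.toEuclideanLin (Sg b sz) u) =
      Matrix.toEuclideanLin (Sg b sz) (Matrix.toEuclideanLin (Cas b) u)
    rw [Matrix.toLpLin_apply, Matrix.toLpLin_apply, Matrix.toLpLin_apply, Matrix.toLpLin_apply]
    simp only [Matrix.mulVec_mulVec]
    rw [Cas_Sz]
  have hint := LinearMap.IsSymmetric.directSum_isInternal_of_commute hA hB hAB
  have horth := LinearMap.IsSymmetric.orthogonalFamily_eigenspace_inf_eigenspace hA hB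
  have htop := hint.submodule_iSup_eq_top
  have hmem : (WithLp.toLp 2 w : EuclideanSpace ℂ (V → Fin 2)) ∈
      ⨆ i : ℂ × ℂ, (Module.End.eigenspace A i.2 ⊓ Module.End.eigenspace B i.1) := by
    rw [htop]; trivial
  obtain ⟨f, hf, hfw⟩ := (Submodule.mem_iSup_iff_exists_finsupp _ _).1 hmem
  have hw : w = ∑ i ∈ f.support, (f i).ofLp := by
    have := congrArg WithLp.ofLp hfw
    rw [Finsupp.sum, WithLp.ofLp_sum] at this
    exact this.symm
  have hact : ∀ i, ∃ y : ℝ, 0 ≤ y ∧ X *ᵥ (f i).ofLp = (y : ℂ) • (f i).ofLp := by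
    intro i
    by_cases h0 : (f i).ofLp = 0
    · exact ⟨0, le_rfl, by rw [h0]; simp⟩
    · have h1 := Module.End.mem_eigenspace_iff.1 (hf i).1
      have h2 := Module.End.mem_eigenspace_iff.1 (hf i).2
      have h3 := congrArg WithLp.ofLp h1
      have h4 := congrArg WithLp.ofLp h2
      exact hX _ h0 i.2 i.1 h3 h4
  choose y hy hXy using hact
  have horth' : ∀ i j, i ≠ j → star (f i).ofLp ⬝ᵥ (f j).ofLp = 0 := by
    intro i j hij
    have := horth hij ⟨f i, hf i⟩ ⟨f j, hf j⟩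
    simp only [Submodule.coe_subtypeₗᵢ, Submodule.coe_subtype] at this
    rw [EuclideanSpace.inner_eq_star_dotProduct, dotProduct_comm] at this
    exact this
  have hXw : X *ᵥ w = ∑ j ∈ f.support, ((y j : ℂ)) • (f j).ofLp := by
    conv_lhs => rw [hw]
    rw [Matrix.mulVec_sum]
    exact Finset.sum_congr rfl fun j _ => hXy j
  have hfin : star w ⬝ᵥ (X *ᵥ w) =
      ∑ j ∈ f.support, (y j : ℂ) * (star (f j).ofLp ⬝ᵥ (f j).ofLp) := by
    rw [hXw, dotProduct_sum]
    refine Finset.sum_congr rfl fun j hj => ?_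
    rw [dotProduct_smul, smul_eq_mul]
    congr 1
    conv_lhs => rw [hw]
    rw [star_sum, sum_dotProduct, Finset.sum_eq_single j]
    · intro i _ hij
      exact horth' i j hij
    · intro hj'; exact absurd hj hj'
  rw [hfin, Complex.re_sum]
  refine Finset.sum_nonneg fun j _ => ?_
  rw [Complex.re_ofReal_mul]
  exact mul_nonneg (hy j) (re_star_dot_nonneg _)

/-- The operator of the block twist inequality. -/
noncomputable def Yop (b : Finset V) (K : ℝ) : Opr V :=
  (((1 + K) * (2 / (b.card : ℝ) ^ 2) : ℝ) : ℂ) •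
      ((((b.card : ℝ) / 2 * ((b.card : ℝ) / 2 + 1) : ℝ) : ℂ) • (1 : Opr V) - Cas b) +
    ((Real.exp 1 / aN (K / b.card) b.card : ℝ) : ℂ) • (opA b (K / b.card) - opB b (K / b.card)) -
    ((1 / (b.card : ℝ) : ℝ) : ℂ) • ((((b.card : ℝ) / 2 : ℝ) : ℂ) • (1 : Opr V) - Sg b sz)

theorem Yop_form {b : Finset V} (hb : b.Nonempty) {K : ℝ} (hK : 0 < K)
    (w : (V → Fin 2) → ℂ) : 0 ≤ (star w ⬝ᵥ (Yop b K *ᵥ w)).re := by
  refine form_nonneg b _ (fun w hw lam mu h1 h2 => ?_) w
  have hn : 0 < b.card := Finset.card_pos.2 hb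
  have hk0 : 0 ≤ K / (b.card : ℝ) := by positivity
  obtain ⟨N, r, p, hN, hp, hC, hS, hA, hB⟩ := joint hk0 hw h1 h2
  refine ⟨_, scal hK hn hN hp, ?_⟩
  rw [Yop, Matrix.sub_mulVec, Matrix.add_mulVec, Matrix.smul_mulVec, Matrix.smul_mulVec,
    Matrix.smul_mulVec, Matrix.sub_mulVec, Matrix.sub_mulVec, Matrix.sub_mulVec,
    Matrix.smul_mulVec, Matrix.smul_mulVec, Matrix.one_mulVec, hC, hS, hA, hB]
  ext σ
  simp only [Pi.add_apply, Pi.sub_apply, Pi.smul_apply, smul_eq_mul]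
  push_cast
  ring

theorem opA_form {b : Finset V} {k : ℝ} (hk : 0 ≤ k) (w : (V → Fin 2) → ℂ) :
    (star w ⬝ᵥ (opA b k *ᵥ w)).re ≤ aN k b.card * (star w ⬝ᵥ w).re := by
  have h := form_nonneg b (((aN k b.card : ℝ) : ℂ) • (1 : Opr V) - opA b k)
    (fun w hw lam mu h1 h2 => by
      obtain ⟨N, r, p, hN, hp, hC, hS, hA, hB⟩ := joint hk hw h1 h2
      refine ⟨aN k b.card - aN k N, sub_nonneg.2 (aN_mono hk (by omega)), ?_⟩
      rw [Matrix.sub_mulVec, Matrix.smul_mulVec, Matrix.one_mulVec, hA, ← sub_smul]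
      push_cast
      rfl) w
  rw [Matrix.sub_mulVec, Matrix.smul_mulVec, Matrix.one_mulVec, dotProduct_sub, dotProduct_smul,
    smul_eq_mul, Complex.sub_re, Complex.re_ofReal_mul] at h
  linarith

/-- Traces against a positive semidefinite matrix. -/
theorem trace_form {X : Opr V} {c : ℝ}
    (hX : ∀ w : (V → Fin 2) → ℂ, 0 ≤ (star w ⬝ᵥ (X *ᵥ w)).re)
    {R : Opr V} : 0 ≤ (Matrix.trace (Rᴴ * R * X)).re := by
  have h1 : Matrix.trace (Rᴴ * R * X) = Matrix.trace (R * X * Rᴴ) := by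
    rw [mul_assoc, Matrix.trace_mul_comm, mul_assoc]
  rw [h1, Matrix.trace, Complex.re_sum]
  refine Finset.sum_nonneg fun i _ => ?_
  have h2 := hX (fun j => star (R i j))
  have h3 : (R * X * Rᴴ).diag i = star (fun j => star (R i j)) ⬝ᵥ (X *ᵥ fun j => star (R i j)) := by
    simp only [Matrix.diag, Matrix.mul_apply, dotProduct, Matrix.mulVec,
      Matrix.conjTranspose_apply, Pi.star_apply, star_star, Finset.sum_mul, Finset.mul_sum]
    rw [Finset.sum_comm]
    refine Finset.sum_congr rfl fun j _ => Finset.sum_congr rfl fun l _ => ?_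
    ring
  rw [h3]
  exact h2

end Vale.Agent.P361.LRO.TwJ
end

section

/-!
P361, block twist, part 7: the inequality for real positive semidefinite matrices.
-/

namespace Vale.Agent.P361.LRO.TwJ

set_option linter.all false

open Matrix Finset
open scoped ComplexOrder

variable {V : Type} [Fintype V] [DecidableEq V]

/-- Real matrices as complex matrices. -/
noncomputable def cm (W : Matrix (V → Fin 2) (V → Fin 2) ℝ) : Opr V :=
  Matrix.of fun σ τ => ((W σ τ : ℝ) : ℂ)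

theorem cm_mul (A B : Matrix (V → Fin 2) (V → Fin 2) ℝ) : cm (A * B) = cm A * cm B := by
  ext σ τ; simp [cm, Matrix.mul_apply]

theorem cm_trace (A : Matrix (V → Fin 2) (V → Fin 2) ℝ) :
    Matrix.trace (cm A) = ((Matrix.trace A : ℝ) : ℂ) := by
  simp [cm, Matrix.trace]

theorem cm_conj (A : Matrix (V → Fin 2) (V → Fin 2) ℝ) : (cm A)ᴴ = cm Aᵀ := by
  ext σ τ; simp [cm, Matrix.conjTranspose_apply]

theorem cm_add (A B : Matrix (V → Fin 2) (V → Fin 2) ℝ) : cm (A + B) = cm A + cm B := by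
  ext σ τ; simp [cm]

theorem cm_sub (A B : Matrix (V → Fin 2) (V → Fin 2) ℝ) : cm (A - B) = cm A - cm B := by
  ext σ τ; simp [cm]

theorem cm_smul (c : ℝ) (A : Matrix (V → Fin 2) (V → Fin 2) ℝ) :
    cm (c • A) = (c : ℂ) • cm A := by
  ext σ τ; simp [cm]

theorem cm_one : cm (1 : Matrix (V → Fin 2) (V → Fin 2) ℝ) = 1 := by
  ext σ τ; simp only [cm, Matrix.of_apply, Matrix.one_apply]; split_ifs <;> simp

theorem cm_sum {ι : Type} (s : Finset ι) (A : ι → Matrix (V → Fin 2) (V → Fin 2) ℝ) :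
    cm (∑ i ∈ s, A i) = ∑ i ∈ s, cm (A i) := by
  ext σ τ; simp [cm, Matrix.sum_apply]

open scoped MatrixOrder in
theorem cm_factor {W : Matrix (V → Fin 2) (V → Fin 2) ℝ} (hW : W.PosSemidef) :
    ∃ R : Opr V, cm W = Rᴴ * R := by
  obtain ⟨B, hB⟩ := CStarAlgebra.nonneg_iff_eq_star_mul_self.mp hW.nonneg
  refine ⟨cm B, ?_⟩
  rw [cm_conj, ← cm_mul, hB]
  congr 2

/-- The rotated slice and `rotT`. -/
theorem Tw_eq (b : Finset V) (k φ : ℝ) :
    Tw b k φ = ((Real.cosh (k / 2) ^ b.card : ℝ) : ℂ) • cm (rotT b (Real.tanh (k / 2)) φ) := by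
  ext σ τ
  rw [Matrix.smul_apply, smul_eq_mul, Tw, pr, P, Matrix.of_apply, cm, Matrix.of_apply, rotT,
    Matrix.of_apply]
  have h1 : (Real.cosh (k / 2) ^ b.card : ℝ) = ∏ x : V, if x ∈ b then Real.cosh (k / 2) else 1 := by
    rw [Finset.prod_ite_mem, Finset.univ_inter, Finset.prod_const]
  rw [h1, ← Complex.ofReal_mul, ← Finset.prod_mul_distrib, Complex.ofReal_prod]
  refine Finset.prod_congr rfl fun x _ => ?_
  have hc := (Real.cosh_pos (k / 2)).ne'
  by_cases hx : x ∈ b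
  · rw [blk, if_pos hx, if_pos hx, if_pos hx]
    have hs : Real.cosh (k / 2) * Real.tanh (k / 2) = Real.sinh (k / 2) := by
      rw [Real.tanh_eq_sinh_div_cosh]; field_simp
    generalize σ x = i
    generalize τ x = j
    fin_cases i <;> fin_cases j
    · simp only [gm, rotM, Matrix.of_apply, Matrix.cons_val', Matrix.cons_val_zero,
        Fin.zero_eta, Matrix.cons_val_fin_one]
      congr 1
      rw [← hs]; ring
    · simp only [gm, rotM, Matrix.of_apply, Matrix.cons_val', Matrix.cons_val_zero,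
        Fin.zero_eta, Matrix.cons_val_fin_one, Fin.mk_one, Matrix.cons_val_one]
      congr 1
      rw [← hs]; ring
    · simp only [gm, rotM, Matrix.of_apply, Matrix.cons_val', Matrix.cons_val_zero,
        Fin.zero_eta, Matrix.cons_val_fin_one, Fin.mk_one, Matrix.cons_val_one]
      congr 1
      rw [← hs]; ring
    · simp only [gm, rotM, Matrix.of_apply, Matrix.cons_val', Matrix.cons_val_zero,
        Fin.zero_eta, Matrix.cons_val_fin_one, Fin.mk_one, Matrix.cons_val_one]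
      congr 1
      rw [← hs]; ring
  · rw [blk, if_neg hx, if_neg hx, if_neg hx, one_mul, Matrix.one_apply]
    split_ifs <;> simp

/-- The trace against a matrix preserving the total number only sees the pinched part. -/
theorem trace_E (b : Finset V) (k θ : ℝ) {W : Opr V}
    (hsym : ∀ σ τ, W σ τ ≠ 0 → nb univ σ = nb univ τ) :
    Matrix.trace (W * E b k 0 θ) = Matrix.trace (W * Tw b k θ) := by
  simp only [Matrix.trace, Matrix.diag, Matrix.mul_apply]
  refine Finset.sum_congr rfl fun σ _ => Finset.sum_congr rfl fun τ _ => ?_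
  by_cases h1 : W σ τ = 0
  · rw [h1, zero_mul, zero_mul]
  · congr 1
    rw [E, Pi, Matrix.of_apply]
    split_ifs with h2
    · rfl
    · -- then the entry of `Tw` vanishes
      by_contra hne
      have hne' : Tw b k θ τ σ ≠ 0 := fun h => hne h.symm
      rw [Tw, pr, P, Matrix.of_apply, Finset.prod_ne_zero_iff] at hne'
      apply h2
      have h3 : ∀ y, y ∉ b → τ y = σ y := by
        intro y hy
        have := hne' y (Finset.mem_univ y)
        rw [blk, if_neg hy] at this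
        by_contra hc
        exact this (Matrix.one_apply_ne hc)
      have h4 := hsym σ τ h1
      rw [nb, nb, ← Finset.sum_add_sum_compl b, ← Finset.sum_add_sum_compl b] at h4
      have h5 : ∑ y ∈ bᶜ, ((σ y : ℕ) : ℤ) = ∑ y ∈ bᶜ, ((τ y : ℕ) : ℤ) :=
        Finset.sum_congr rfl fun y hy => by rw [h3 y (Finset.mem_compl.1 hy)]
      rw [nb, nb]
      omega

theorem trace_Av (b : Finset V) (k : ℝ) {w : ℝ → ℝ} (hw : Continuous w) {W : Opr V}
    (hsym : ∀ σ τ, W σ τ ≠ 0 → nb univ σ = nb univ τ) :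
    Matrix.trace (W * Av b k 0 w) =
      ∫ θ in (0 : ℝ)..Real.pi, ((w θ : ℝ) : ℂ) * Matrix.trace (W * Tw b k θ) := by
  rw [mul_Av b k 0 hw, Matrix.trace]
  simp only [Matrix.diag, Matrix.of_apply]
  rw [← intervalIntegral.integral_finset_sum]
  · congr 1
    ext θ
    rw [← trace_E b k θ hsym, Matrix.trace, Finset.mul_sum]
    rfl
  · intro σ _
    refine (Continuous.mul (Complex.continuous_ofReal.comp hw) ?_).intervalIntegrable _ _
    simp only [Matrix.mul_apply]
    exact continuous_finset_sum _ fun ρ _ => continuous_const.mul (continuous_E b k 0 ρ σ)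

/-! ### The Casimir operator and the exchange operators -/

theorem st_st_apply {x y : V} (hxy : x ≠ y) (A B : M2) (σ τ : V → Fin 2) :
    (st x A * st y B) σ τ = A (σ x) (τ x) * B (σ y) (τ y) *
      if (∀ z, z ≠ x → z ≠ y → σ z = τ z) then 1 else 0 := by
  rw [show st y B = P (Function.update (fun _ => 1) y B) from rfl, st_mul_P,
    Function.update_of_ne hxy, mul_one, P_update, mul_assoc]
  congr 1
  rw [← Finset.mul_prod_erase _ _ (Finset.mem_erase.2 ⟨hxy.symm, Finset.mem_univ y⟩)]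
  congr 1
  · simp
  · split_ifs with h
    · refine Finset.prod_eq_one fun z hz => ?_
      have h1 := Finset.mem_erase.1 hz
      have h2 := Finset.mem_erase.1 h1.2
      rw [Function.update_of_ne h1.1, h z h2.1 h1.1, Matrix.one_apply_eq]
    · push Not at h
      obtain ⟨z, hz1, hz2, hz3⟩ := h
      refine Finset.prod_eq_zero
        (Finset.mem_erase.2 ⟨hz2, Finset.mem_erase.2 ⟨hz1, Finset.mem_univ z⟩⟩) ?_
      rw [Function.update_of_ne hz2]
      exact Matrix.one_apply_ne hz3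

theorem swap_eq {x y : V} (hxy : x ≠ y) :
    cm (swapM x y) = (1 / 2 : ℂ) • (1 : Opr V) + (2 : ℂ) • (st x sz * st y sz) +
      st x sm * st y sp + st x sp * st y sm := by
  ext σ τ
  simp only [Matrix.add_apply, Matrix.smul_apply, smul_eq_mul, st_st_apply hxy]
  rw [cm, Matrix.of_apply, swapM, Matrix.of_apply]
  by_cases h : ∀ z, z ≠ x → z ≠ y → σ z = τ z
  · simp only [if_pos h, mul_one]
    have h1 : (σ = τ ∘ Equiv.swap x y) ↔ (σ x = τ y ∧ σ y = τ x) := by
      constructor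
      · intro hc
        rw [hc]
        simp
      · rintro ⟨ha, hb⟩
        ext1 z
        by_cases hzx : z = x
        · subst hzx; simp [ha]
        · by_cases hzy : z = y
          · subst hzy; simp [hb]
          · rw [Function.comp_apply, Equiv.swap_apply_of_ne_of_ne hzx hzy, h z hzx hzy]
    have h2 : (σ = τ) ↔ (σ x = τ x ∧ σ y = τ y) := by
      constructor
      · intro hc; rw [hc]; simp
      · rintro ⟨ha, hb⟩
        ext1 z
        by_cases hzx : z = x
        · subst hzx; exact ha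
        · by_cases hzy : z = y
          · subst hzy; exact hb
          · exact h z hzx hzy
    rw [Matrix.one_apply]
    simp only [h1, h2]
    generalize σ x = i
    generalize σ y = j
    generalize τ x = i'
    generalize τ y = j'
    fin_cases i <;> fin_cases j <;> fin_cases i' <;> fin_cases j' <;>
      simp [sz, sm, sp] <;> norm_num
  · simp only [if_neg h, mul_zero, add_zero]
    have h1 : ¬ (σ = τ ∘ Equiv.swap x y) := by
      intro hc
      apply h
      intro z hzx hzy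
      rw [hc, Function.comp_apply, Equiv.swap_apply_of_ne_of_ne hzx hzy]
    have h2 : ¬ (σ = τ) := by
      intro hc
      apply h
      intro z _ _
      rw [hc]
    rw [if_neg h1, Matrix.one_apply_ne h2]
    simp

theorem hM_self (x : V) : cm (hM x x) = 0 := by
  ext σ τ
  simp only [cm, hM, swapM, Matrix.of_apply, Matrix.smul_apply, Matrix.sub_apply,
    Equiv.swap_self, Equiv.coe_refl, Function.comp_id, Matrix.one_apply, smul_eq_mul,
    Matrix.zero_apply]
  simp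

/-- One pair. -/
noncomputable def Fp (x y : V) : Opr V :=
  (1 / 2 : ℂ) • (st x sm * st y sp + st y sm * st x sp) + (1 / 2 : ℂ) •
    (st x sz * st y sz + st y sz * st x sz)

theorem Fp_ne {x y : V} (hxy : x ≠ y) : (1 / 4 : ℂ) • (1 : Opr V) - Fp x y = cm (hM x y) := by
  have h1 : st y sm * st x sp = st x sp * st y sm := st_comm hxy.symm _ _
  have h2 : st y sz * st x sz = st x sz * st y sz := st_comm hxy.symm _ _
  have h3 : cm (hM x y) = (1 / 2 : ℂ) • ((1 : Opr V) - cm (swapM x y)) := by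
    rw [hM, cm_smul, cm_sub, cm_one]; push_cast; rfl
  rw [h3, swap_eq hxy, Fp, h1, h2]
  ext σ τ
  simp only [Matrix.add_apply, Matrix.sub_apply, Matrix.smul_apply, smul_eq_mul]
  ring

theorem Fp_self (x : V) :
    (1 / 4 : ℂ) • (1 : Opr V) - Fp x x = cm (hM x x) - ((1 / 2 : ℂ) • (1 : Opr V) - st x sz) := by
  rw [hM_self, Fp, st_mul_st, st_mul_st]
  have h1 : (1 : Opr V) = st x 1 := by
    rw [st, ← P_one]
    congr 1
    ext1 y
    by_cases h : y = x
    · subst h; simp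
    · simp [Function.update_of_ne h]
  rw [h1, ← st_add, ← st_add, ← st_smul, ← st_smul, ← st_smul, ← st_smul, ← st_add, ← st_sub,
    ← st_sub]
  have h2 : (1 / 4 : ℂ) • (1 : M2) - ((1 / 2 : ℂ) • (sm * sp + sm * sp) +
      (1 / 2 : ℂ) • (sz * sz + sz * sz)) = -((1 / 2 : ℂ) • (1 : M2) - sz) := by
    ext i j
    fin_cases i <;> fin_cases j <;>
      simp [sm, sp, sz, Matrix.mul_apply, Fin.sum_univ_two] <;> norm_num
  rw [h2, zero_sub]
  have h3 : ∀ A : M2, st x (-A) = -st x A := fun A => by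
    have := st_smul x (-1) A
    simpa using this
  rw [h3]

theorem Cas_eq (b : Finset V) :
    (((b.card : ℝ) / 2 * ((b.card : ℝ) / 2 + 1) : ℝ) : ℂ) • (1 : Opr V) - Cas b =
      ∑ x ∈ b, ∑ y ∈ b, cm (hM x y) := by
  have h1 : Cas b = ∑ x ∈ b, ∑ y ∈ b, Fp x y + ∑ x ∈ b, st x sz := by
    have e1 : ∑ x ∈ b, ∑ y ∈ b, Fp x y = ∑ x ∈ b, ∑ y ∈ b, (st x sm * st y sp) +
        ∑ x ∈ b, ∑ y ∈ b, (st x sz * st y sz) := by
      simp only [Fp, Finset.sum_add_distrib, ← Finset.smul_sum]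
      rw [Finset.sum_comm (f := fun x y => st y sm * st x sp),
        Finset.sum_comm (f := fun x y => st y sz * st x sz), ← two_smul ℂ, ← two_smul ℂ, smul_smul,
        smul_smul]
      norm_num
    rw [e1, Cas, Sg, Sg, Sg, Finset.sum_mul_sum, Finset.sum_mul_sum]
  have h2 : ∀ x ∈ b, ∑ y ∈ b, ((1 / 4 : ℂ) • (1 : Opr V) - Fp x y) =
      ∑ y ∈ b, cm (hM x y) - ((1 / 2 : ℂ) • (1 : Opr V) - st x sz) := by
    intro x hx
    rw [← Finset.add_sum_erase b _ hx, ← Finset.add_sum_erase b _ hx, Fp_self]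
    have : ∑ y ∈ b.erase x, ((1 / 4 : ℂ) • (1 : Opr V) - Fp x y) =
        ∑ y ∈ b.erase x, cm (hM x y) :=
      Finset.sum_congr rfl fun y hy => Fp_ne (Finset.ne_of_mem_erase hy).symm
    rw [this]
    abel
  have h3 := Finset.sum_congr rfl h2
  simp only [Finset.sum_sub_distrib, Finset.sum_const] at h3
  have h4 : ∑ x ∈ b, ∑ y ∈ b, cm (hM x y) =
      b.card • b.card • ((1 / 4 : ℂ) • (1 : Opr V)) - ∑ x ∈ b, ∑ y ∈ b, Fp x y +
        (b.card • ((1 / 2 : ℂ) • (1 : Opr V)) - ∑ x ∈ b, st x sz) := by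
    rw [h3]; abel
  rw [h4, h1]
  simp only [← Nat.cast_smul_eq_nsmul ℂ, smul_smul]
  ext σ τ
  simp only [Matrix.add_apply, Matrix.sub_apply, Matrix.smul_apply, smul_eq_mul]
  push_cast
  ring

theorem Sz_cm (b : Finset V) :
    (((b.card : ℝ) / 2 : ℝ) : ℂ) • (1 : Opr V) - Sg b sz =
      ∑ x ∈ b, cm ((1 / 2 : ℝ) • (1 - szM x)) := by
  have h1 : ∀ x : V, cm ((1 / 2 : ℝ) • (1 - szM x)) = (1 / 2 : ℂ) • (1 : Opr V) - st x sz := by
    intro x
    ext σ τ
    rw [cm, Matrix.of_apply, Matrix.smul_apply, Matrix.sub_apply, szM, Matrix.sub_apply,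
      Matrix.smul_apply, st_apply]
    by_cases h : σ = τ
    · subst h
      rw [Matrix.one_apply_eq, Matrix.diagonal_apply_eq, Matrix.one_apply_eq,
        if_pos (fun _ _ => rfl)]
      generalize σ x = i
      fin_cases i <;> simp [sz] <;> norm_num
    · rw [Matrix.one_apply_ne h, Matrix.diagonal_apply_ne _ h, Matrix.one_apply_ne h]
      by_cases hx : σ x = τ x
      · rw [if_neg]
        · simp
        · intro hc
          exact h (funext fun y => by
            by_cases hy : y = x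
            · rw [hy, hx]
            · exact hc y hy)
      · have : sz (σ x) (τ x) = 0 := by
          revert hx
          generalize σ x = i
          generalize τ x = j
          intro hx
          fin_cases i <;> fin_cases j <;> simp [sz] at hx ⊢
        rw [this]; simp
  rw [Finset.sum_congr rfl fun x _ => h1 x, Finset.sum_sub_distrib, Finset.sum_const, Sg]
  congr 1
  ext σ τ
  simp only [Matrix.smul_apply, smul_eq_mul, nsmul_eq_mul]
  push_cast
  ring

/-- **The operator part of the block twist.** -/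
theorem op_partJ {W : Matrix (V → Fin 2) (V → Fin 2) ℝ} (hW : W.PosSemidef)
    (hsym : ∀ σ τ, W σ τ ≠ 0 → ∑ x, ((σ x : ℕ) : ℤ) = ∑ x, ((τ x : ℕ) : ℤ))
    {b : Finset V} (hb : b.Nonempty) {K κ : ℝ} (hK : 0 < K) (hκ : 0 < κ)
    (h : κ * (∫ φ in (0 : ℝ)..Real.pi, Real.sin φ * (1 - Real.cos φ) *
        Matrix.trace (W * rotT b (Real.tanh (K / (2 * b.card))) φ)) ≤
      ∫ φ in (0 : ℝ)..Real.pi, Real.sin φ *
        Matrix.trace (W * rotT b (Real.tanh (K / (2 * b.card))) φ)) :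
    (∑ x ∈ b, Matrix.trace (W * ((1 / 2 : ℝ) • (1 - szM x)))) / b.card ≤
      Real.exp 1 / κ * Matrix.trace W +
        (1 + K) * (2 / (b.card : ℝ) ^ 2 * ∑ x ∈ b, ∑ y ∈ b, Matrix.trace (W * hM x y)) := by
  obtain ⟨R, hR⟩ := cm_factor hW
  have hn : 0 < b.card := Finset.card_pos.2 hb
  have hn' : (0 : ℝ) < b.card := by exact_mod_cast hn
  set k := K / (b.card : ℝ) with hk
  have hk0 : 0 ≤ k := by positivity
  have hk2 : K / (2 * (b.card : ℝ)) = k / 2 := by rw [hk]; field_simp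
  rw [hk2] at h
  have hsym' : ∀ σ τ, cm W σ τ ≠ 0 → nb univ σ = nb univ τ := by
    intro σ τ h1
    apply hsym
    intro h2
    apply h1
    rw [cm, Matrix.of_apply, h2]; simp
  set Z : ℝ → ℝ := fun φ => Matrix.trace (W * rotT b (Real.tanh (k / 2)) φ) with hZ
  set c := Real.cosh (k / 2) ^ b.card with hc
  have hcpos : 0 < c := pow_pos (Real.cosh_pos _) _
  have hT : ∀ φ, Matrix.trace (cm W * Tw b k φ) = ((c * Z φ : ℝ) : ℂ) := by
    intro φ
    rw [Tw_eq, Matrix.mul_smul, Matrix.trace_smul, ← cm_mul, cm_trace, smul_eq_mul,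
      ← Complex.ofReal_mul]
  have hA : Matrix.trace (cm W * opA b k) =
      ((c / 2 * ∫ φ in (0 : ℝ)..Real.pi, Real.sin φ * Z φ : ℝ) : ℂ) := by
    rw [opA, trace_Av b k (by fun_prop) hsym', ← intervalIntegral.integral_const_mul,
      ← intervalIntegral.integral_ofReal]
    congr 1
    ext φ
    rw [hT]; push_cast; ring
  have hZc : Continuous Z := by
    have h1 : Continuous fun φ => (Matrix.trace (cm W * Tw b k φ)).re := by
      refine Complex.continuous_re.comp ?_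
      simp only [Matrix.trace, Matrix.diag, Matrix.mul_apply]
      exact continuous_finset_sum _ fun σ _ => continuous_finset_sum _ fun τ _ =>
        continuous_const.mul (continuous_Tw b k τ σ)
    have h2 : Z = fun φ => c⁻¹ * (Matrix.trace (cm W * Tw b k φ)).re := by
      ext φ
      rw [hT, Complex.ofReal_re]
      field_simp
    rw [h2]
    exact continuous_const.mul h1
  have hAB : Matrix.trace (cm W * (opA b k - opB b k)) =
      ((c / 2 * ∫ φ in (0 : ℝ)..Real.pi, Real.sin φ * (1 - Real.cos φ) * Z φ : ℝ) : ℂ) := by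
    rw [Matrix.mul_sub, Matrix.trace_sub, opA, opB, trace_Av b k (by fun_prop) hsym',
      trace_Av b k (by fun_prop) hsym', ← intervalIntegral.integral_sub,
      ← intervalIntegral.integral_const_mul, ← intervalIntegral.integral_ofReal]
    · congr 1
      ext φ
      rw [hT]; push_cast; ring
    · refine Continuous.intervalIntegrable ?_ _ _
      simp only [hT]
      fun_prop
    · refine Continuous.intervalIntegrable ?_ _ _
      simp only [hT]
      fun_prop
  -- the two operator inequalities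
  have h1 : 0 ≤ (Matrix.trace (cm W * Yop b K)).re := by
    rw [hR]
    exact trace_form (c := 0) (Yop_form hb hK)
  have h2 : 0 ≤ (Matrix.trace (cm W * (((aN k b.card : ℝ) : ℂ) • (1 : Opr V) - opA b k))).re := by
    rw [hR]
    refine trace_form (c := 0) fun w => ?_
    have := opA_form hk0 w (b := b)
    rw [Matrix.sub_mulVec, Matrix.smul_mulVec, Matrix.one_mulVec, dotProduct_sub, dotProduct_smul,
      smul_eq_mul, Complex.sub_re, Complex.re_ofReal_mul]
    linarith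
  have ha := aN_pos hk0 b.card
  set a := aN k b.card with hadef
  set I0 := ∫ φ in (0 : ℝ)..Real.pi, Real.sin φ * Z φ with hI0
  set I1 := ∫ φ in (0 : ℝ)..Real.pi, Real.sin φ * (1 - Real.cos φ) * Z φ with hI1
  have h3 : c / 2 * I0 ≤ a * Matrix.trace W := by
    rw [Matrix.mul_sub, Matrix.trace_sub, hA, Matrix.mul_smul, mul_one, Matrix.trace_smul,
      cm_trace, smul_eq_mul, Complex.sub_re, Complex.re_ofReal_mul, Complex.ofReal_re,
      Complex.ofReal_re] at h2
    linarith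
  have h4 : (∑ x ∈ b, Matrix.trace (W * ((1 / 2 : ℝ) • (1 - szM x)))) / b.card ≤
      (1 + K) * (2 / (b.card : ℝ) ^ 2 * ∑ x ∈ b, ∑ y ∈ b, Matrix.trace (W * hM x y)) +
        Real.exp 1 / a * (c / 2 * I1) := by
    have e1 : Matrix.trace (cm W * ∑ x ∈ b, ∑ y ∈ b, cm (hM x y)) =
        ((∑ x ∈ b, ∑ y ∈ b, Matrix.trace (W * hM x y) : ℝ) : ℂ) := by
      simp only [Matrix.mul_sum, Matrix.trace_sum, ← cm_mul, cm_trace]
      push_cast; rfl
    have e2 : Matrix.trace (cm W * ∑ x ∈ b, cm ((1 / 2 : ℝ) • (1 - szM x))) =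
        ((∑ x ∈ b, Matrix.trace (W * ((1 / 2 : ℝ) • (1 - szM x))) : ℝ) : ℂ) := by
      simp only [Matrix.mul_sum, Matrix.trace_sum, ← cm_mul, cm_trace]
      push_cast; rfl
    rw [Yop, Cas_eq, Sz_cm, Matrix.mul_sub, Matrix.mul_add, Matrix.mul_smul, Matrix.mul_smul,
      Matrix.mul_smul, Matrix.trace_sub, Matrix.trace_add, Matrix.trace_smul, Matrix.trace_smul,
      Matrix.trace_smul, e1, e2, ← hk, hAB, smul_eq_mul, smul_eq_mul, smul_eq_mul,
      Complex.sub_re, Complex.add_re, ← Complex.ofReal_mul, ← Complex.ofReal_mul,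
      ← Complex.ofReal_mul, Complex.ofReal_re, Complex.ofReal_re, Complex.ofReal_re] at h1
    rw [div_eq_mul_inv, mul_comm _ (b.card : ℝ)⁻¹, ← one_div]
    linarith
  have h5 : c / 2 * I1 ≤ 1 / κ * (a * Matrix.trace W) := by
    have : I1 ≤ 1 / κ * I0 := by
      rw [div_mul_eq_mul_div, one_mul, le_div_iff₀ hκ]
      linarith
    calc c / 2 * I1 ≤ c / 2 * (1 / κ * I0) := mul_le_mul_of_nonneg_left this (by positivity)
      _ = 1 / κ * (c / 2 * I0) := by ring
      _ ≤ _ := mul_le_mul_of_nonneg_left h3 (by positivity)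
  have h6 : Real.exp 1 / a * (c / 2 * I1) ≤ Real.exp 1 / κ * Matrix.trace W := by
    calc Real.exp 1 / a * (c / 2 * I1) ≤ Real.exp 1 / a * (1 / κ * (a * Matrix.trace W)) :=
          mul_le_mul_of_nonneg_left h5 (by positivity)
      _ = _ := by field_simp
  linarith

end Vale.Agent.P361.LRO.TwJ
end

section

/-!
P361, block twist, part 8: the joint law of `(J, M)` of a block in a positive semidefinite state,
with all moments of the twist.
-/

namespace Vale.Agent.P361.LRO.TwJ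

set_option linter.all false

open Matrix Finset
open scoped ComplexOrder

variable {V : Type} [Fintype V] [DecidableEq V]

/-! ### Commutation -/

theorem swap_comm_pr {b : Finset V} {x y : V} (hx : x ∈ b) (hy : y ∈ b) (G : M2) :
    cm (swapM x y) * pr b G = pr b G * cm (swapM x y) := by
  have hs : ∀ z, Equiv.swap x y z ∈ b ↔ z ∈ b := by
    intro z
    by_cases hzx : z = x
    · subst hzx; simp [hx, hy]
    · by_cases hzy : z = y
      · subst hzy; simp [hx, hy]
      · rw [Equiv.swap_apply_of_ne_of_ne hzx hzy]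
  have hinv : ∀ σ τ : V → Fin 2, σ = τ ∘ Equiv.swap x y ↔ τ = σ ∘ Equiv.swap x y := by
    intro σ τ
    constructor
    · intro h; rw [h]; ext1 z; simp
    · intro h; rw [h]; ext1 z; simp
  ext σ τ
  have h1 : (cm (swapM x y) * pr b G) σ τ = pr b G (σ ∘ Equiv.swap x y) τ := by
    rw [Matrix.mul_apply, Finset.sum_eq_single (σ ∘ Equiv.swap x y)]
    · rw [cm, Matrix.of_apply, swapM, Matrix.of_apply, if_pos ((hinv _ _).2 rfl)]; simp
    · intro ρ _ hρ
      rw [cm, Matrix.of_apply, swapM, Matrix.of_apply, if_neg (fun h => hρ ((hinv _ _).1 h))]; simp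
    · intro h; exact absurd (Finset.mem_univ _) h
  have h2 : (pr b G * cm (swapM x y)) σ τ = pr b G σ (τ ∘ Equiv.swap x y) := by
    rw [Matrix.mul_apply, Finset.sum_eq_single (τ ∘ Equiv.swap x y)]
    · rw [cm, Matrix.of_apply, swapM, Matrix.of_apply, if_pos rfl]; simp
    · intro ρ _ hρ
      rw [cm, Matrix.of_apply, swapM, Matrix.of_apply, if_neg hρ]; simp
    · intro h; exact absurd (Finset.mem_univ _) h
  rw [h1, h2, pr, P, Matrix.of_apply, Matrix.of_apply]
  refine (Fintype.prod_equiv (Equiv.swap x y) _ _ fun z => ?_)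
  simp only [Function.comp_apply, Equiv.swap_apply_self, blk, hs]

theorem Cas_comm_pr (b : Finset V) (G : M2) : Cas b * pr b G = pr b G * Cas b := by
  have h := Cas_eq b
  have h1 : Cas b = (((b.card : ℝ) / 2 * ((b.card : ℝ) / 2 + 1) : ℝ) : ℂ) • (1 : Opr V) -
      ∑ x ∈ b, ∑ y ∈ b, cm (hM x y) := by
    rw [← h]; abel
  have h2 : (∑ x ∈ b, ∑ y ∈ b, cm (hM x y)) * pr b G =
      pr b G * ∑ x ∈ b, ∑ y ∈ b, cm (hM x y) := by
    rw [Finset.sum_mul, Finset.mul_sum]
    refine Finset.sum_congr rfl fun x hx => ?_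
    rw [Finset.sum_mul, Finset.mul_sum]
    refine Finset.sum_congr rfl fun y hy => ?_
    rw [hM, cm_smul, cm_sub, cm_one, Matrix.smul_mul, Matrix.mul_smul, Matrix.sub_mul,
      Matrix.mul_sub, swap_comm_pr hx hy, one_mul, mul_one]
  rw [h1, Matrix.sub_mul, Matrix.mul_sub, h2, Matrix.smul_mul, Matrix.mul_smul, one_mul, mul_one]

theorem Shift.mul {b : Finset V} {r s : ℤ} {X Y : Opr V} (hX : Shift b r X) (hY : Shift b s Y) :
    Shift b (r + s) (X * Y) := by
  intro σ τ h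
  rw [Matrix.mul_apply] at h
  obtain ⟨ρ, _, hρ⟩ := Finset.exists_ne_zero_of_sum_ne_zero h
  have h1 := hX _ _ (left_ne_zero_of_mul hρ)
  have h2 := hY _ _ (right_ne_zero_of_mul hρ)
  omega

theorem shift_Sz (b : Finset V) : Shift b 0 (Sg b sz) := by
  intro σ τ h
  rw [Sz_eq] at h
  by_cases hst : σ = τ
  · rw [hst, sub_self]
  · exact absurd (Matrix.diagonal_apply_ne _ hst) h

theorem shift_Cas (b : Finset V) : Shift b 0 (Cas b) := by
  have h1 : Shift b 0 (Sg b sm * Sg b sp) := by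
    have := (shift_Sm b).mul (shift_Sp b)
    simpa using this
  have h2 : Shift b 0 (Sg b sz * Sg b sz) := by
    have := (shift_Sz b).mul (shift_Sz b)
    simpa using this
  exact (h1.add h2).add (shift_Sz b)

theorem Cas_comm_E (b : Finset V) (k θ : ℝ) : Cas b * E b k 0 θ = E b k 0 θ * Cas b := by
  rw [E, (shift_Cas b).mul_Pi, (shift_Cas b).Pi_mul, Tw, Cas_comm_pr]

theorem Sz_comm_E (b : Finset V) (k θ : ℝ) : Sg b sz * E b k 0 θ = E b k 0 θ * Sg b sz := by
  have h := Pi_comm_Sz b 0 (Tw b k θ)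
  rw [Pi_sub] at h
  have h1 := (shift_Sz b).mul_Pi 0 (Tw b k θ)
  have h2 := (shift_Sz b).Pi_mul 0 (Tw b k θ)
  rw [add_zero] at h1 h2
  rw [E, h1, h2]
  have h3 : (-((0 : ℤ) : ℂ)) • Pi b 0 (Tw b k θ) = 0 := by simp
  rw [h3] at h
  exact sub_eq_zero.1 h

theorem comm_Av0 (b : Finset V) (k : ℝ) {w : ℝ → ℝ} (hw : Continuous w) {Y : Opr V}
    (h : ∀ θ, Y * E b k 0 θ = E b k 0 θ * Y) : Y * Av b k 0 w = Av b k 0 w * Y := by
  rw [mul_Av b k 0 hw, Av_mul b k 0 hw]
  simp only [h]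

/-! ### Decomposition -/

theorem decomp (b : Finset V) (w : (V → Fin 2) → ℂ) :
    ∃ (s : Finset (ℂ × ℂ)) (f : ℂ × ℂ → ((V → Fin 2) → ℂ)), w = ∑ j ∈ s, f j ∧
      (∀ j ∈ s, f j ≠ 0) ∧ (∀ j, Cas b *ᵥ f j = j.2 • f j ∧ Sg b sz *ᵥ f j = j.1 • f j) := by
  classical
  let A : EuclideanSpace ℂ (V → Fin 2) →ₗ[ℂ] EuclideanSpace ℂ (V → Fin 2) :=
    Matrix.toEuclideanLin (Cas b)
  let B : EuclideanSpace ℂ (V → Fin 2) →ₗ[ℂ] EuclideanSpace ℂ (V → Fin 2) :=
    Matrix.toEuclideanLin (Sg b sz)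
  have hA : A.IsSymmetric := Matrix.isSymmetric_toEuclideanLin_iff.2 (Cas_herm b)
  have hB : B.IsSymmetric := Matrix.isSymmetric_toEuclideanLin_iff.2 (Sz_herm b)
  have hAB : Commute A B := by
    apply LinearMap.ext
    intro u
    change Matrix.toEuclideanLin (Cas b) (Matrix.toEuclideanLin (Sg b sz) u) =
      Matrix.toEuclideanLin (Sg b sz) (Matrix.toEuclideanLin (Cas b) u)
    rw [Matrix.toLpLin_apply, Matrix.toLpLin_apply, Matrix.toLpLin_apply, Matrix.toLpLin_apply]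
    simp only [Matrix.mulVec_mulVec]
    rw [Cas_Sz]
  have hint := LinearMap.IsSymmetric.directSum_isInternal_of_commute hA hB hAB
  have htop := hint.submodule_iSup_eq_top
  have hmem : (WithLp.toLp 2 w : EuclideanSpace ℂ (V → Fin 2)) ∈
      ⨆ i : ℂ × ℂ, (Module.End.eigenspace A i.2 ⊓ Module.End.eigenspace B i.1) := by
    rw [htop]; trivial
  obtain ⟨f, hf, hfw⟩ := (Submodule.mem_iSup_iff_exists_finsupp _ _).1 hmem
  refine ⟨f.support, fun j => (f j).ofLp, ?_, ?_, ?_⟩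
  · have := congrArg WithLp.ofLp hfw
    rw [Finsupp.sum, WithLp.ofLp_sum] at this
    exact this.symm
  · intro j hj h0
    apply Finsupp.mem_support_iff.1 hj
    have := congrArg (WithLp.toLp 2) h0
    exact this
  · intro i
    have h1 := Module.End.mem_eigenspace_iff.1 (hf i).1
    have h2 := Module.End.mem_eigenspace_iff.1 (hf i).2
    exact ⟨congrArg WithLp.ofLp h1, congrArg WithLp.ofLp h2⟩

theorem orth (b : Finset V) {i j : ℂ × ℂ} (hij : i ≠ j) {u v : (V → Fin 2) → ℂ}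
    (hu : Cas b *ᵥ u = i.2 • u ∧ Sg b sz *ᵥ u = i.1 • u)
    (hv : Cas b *ᵥ v = j.2 • v ∧ Sg b sz *ᵥ v = j.1 • v) : star u ⬝ᵥ v = 0 := by
  classical
  let A : EuclideanSpace ℂ (V → Fin 2) →ₗ[ℂ] EuclideanSpace ℂ (V → Fin 2) :=
    Matrix.toEuclideanLin (Cas b)
  let B : EuclideanSpace ℂ (V → Fin 2) →ₗ[ℂ] EuclideanSpace ℂ (V → Fin 2) :=
    Matrix.toEuclideanLin (Sg b sz)
  have hA : A.IsSymmetric := Matrix.isSymmetric_toEuclideanLin_iff.2 (Cas_herm b)
  have hB : B.IsSymmetric := Matrix.isSymmetric_toEuclideanLin_iff.2 (Sz_herm b)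
  have horth := LinearMap.IsSymmetric.orthogonalFamily_eigenspace_inf_eigenspace hA hB
  have mem : ∀ (i : ℂ × ℂ) (u : (V → Fin 2) → ℂ),
      (Cas b *ᵥ u = i.2 • u ∧ Sg b sz *ᵥ u = i.1 • u) →
      (WithLp.toLp 2 u : EuclideanSpace ℂ (V → Fin 2)) ∈
        (Module.End.eigenspace A i.2 ⊓ Module.End.eigenspace B i.1) := by
    intro i u hu
    constructor
    · apply Module.End.mem_eigenspace_iff.2
      exact congrArg (WithLp.toLp 2) hu.1
    · apply Module.End.mem_eigenspace_iff.2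
      exact congrArg (WithLp.toLp 2) hu.2
  have := horth hij ⟨_, mem i u hu⟩ ⟨_, mem j v hv⟩
  simp only [Submodule.coe_subtypeₗᵢ, Submodule.coe_subtype] at this
  rw [EuclideanSpace.inner_eq_star_dotProduct, dotProduct_comm] at this
  exact this

theorem form_decomp (b : Finset V) {X : Opr V} (hC : Cas b * X = X * Cas b)
    (hZ : Sg b sz * X = X * Sg b sz) {s : Finset (ℂ × ℂ)} {f : ℂ × ℂ → ((V → Fin 2) → ℂ)}
    (hf : ∀ j, Cas b *ᵥ f j = j.2 • f j ∧ Sg b sz *ᵥ f j = j.1 • f j) :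
    star (∑ j ∈ s, f j) ⬝ᵥ (X *ᵥ ∑ j ∈ s, f j) = ∑ j ∈ s, star (f j) ⬝ᵥ (X *ᵥ f j) := by
  rw [Matrix.mulVec_sum, dotProduct_sum]
  refine Finset.sum_congr rfl fun j hj => ?_
  rw [star_sum, sum_dotProduct, Finset.sum_eq_single j]
  · intro i _ hij
    refine orth b hij (hf i) ⟨?_, ?_⟩
    · rw [Matrix.mulVec_mulVec, hC, ← Matrix.mulVec_mulVec, (hf j).1, Matrix.mulVec_smul]
    · rw [Matrix.mulVec_mulVec, hZ, ← Matrix.mulVec_mulVec, (hf j).2, Matrix.mulVec_smul]
  · intro h; exact absurd hj h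

theorem trace_rows (R X : Opr V) :
    Matrix.trace (Rᴴ * R * X) =
      ∑ i, star (fun j => star (R i j)) ⬝ᵥ (X *ᵥ fun j => star (R i j)) := by
  have h1 : Matrix.trace (Rᴴ * R * X) = Matrix.trace (R * X * Rᴴ) := by
    rw [mul_assoc, Matrix.trace_mul_comm, mul_assoc]
  rw [h1, Matrix.trace]
  refine Finset.sum_congr rfl fun i _ => ?_
  simp only [Matrix.diag, Matrix.mul_apply, dotProduct, Matrix.mulVec,
    Matrix.conjTranspose_apply, Pi.star_apply, star_star, Finset.sum_mul, Finset.mul_sum]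
  rw [Finset.sum_comm]
  refine Finset.sum_congr rfl fun j _ => Finset.sum_congr rfl fun l _ => ?_
  ring

/-- The finite family of joint eigenvectors of a positive semidefinite matrix. -/
theorem law0 (b : Finset V) (R : Opr V) :
    ∃ (ι : Type) (_ : Fintype ι) (u : ι → ((V → Fin 2) → ℂ)),
      (∀ i, u i ≠ 0 ∧ ∃ lam mu : ℂ, Cas b *ᵥ u i = lam • u i ∧ Sg b sz *ᵥ u i = mu • u i) ∧
      ∀ X : Opr V, Cas b * X = X * Cas b → Sg b sz * X = X * Sg b sz →
        Matrix.trace (Rᴴ * R * X) = ∑ i, star (u i) ⬝ᵥ (X *ᵥ u i) := by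
  classical
  choose s f h1 h2 h3 using fun i : V → Fin 2 => decomp b (fun j => star (R i j))
  refine ⟨Σ i : V → Fin 2, {j // j ∈ s i}, inferInstance, fun i => f i.1 i.2.1, ?_, ?_⟩
  · rintro ⟨i, j, hj⟩
    exact ⟨h2 i j hj, j.2, j.1, (h3 i j).1, (h3 i j).2⟩
  · intro X hC hZ
    rw [trace_rows, Fintype.sum_sigma]
    refine Finset.sum_congr rfl fun i _ => ?_
    conv_lhs => rw [h1 i]
    rw [form_decomp b hC hZ (h3 i)]
    exact (Finset.sum_coe_sort (s i) fun j => star (f i j) ⬝ᵥ (X *ᵥ f i j)).symm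

/-- The quantum numbers do not depend on `k`. -/
theorem joint_all {b : Finset V} {w : (V → Fin 2) → ℂ} (hw : w ≠ 0) {lam mu : ℂ}
    (h1 : Cas b *ᵥ w = lam • w) (h2 : Sg b sz *ᵥ w = mu • w) :
    ∃ N r p : ℕ, N + 2 * r = b.card ∧ p ≤ N ∧
      Cas b *ᵥ w = (((N : ℝ) / 2 * ((N : ℝ) / 2 + 1) : ℝ) : ℂ) • w ∧
      Sg b sz *ᵥ w = (((N : ℝ) / 2 - p : ℝ) : ℂ) • w ∧
      ∀ k : ℝ, 0 ≤ k → opA b k *ᵥ w = ((aN k N : ℝ) : ℂ) • w ∧
        opB b k *ᵥ w = ((b0N k N - p * b1N k N : ℝ) : ℂ) • w := by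
  obtain ⟨N, r, p, hN, hp, hC, hS, -, -⟩ := joint (k := 0) le_rfl hw h1 h2
  refine ⟨N, r, p, hN, hp, hC, hS, fun k hk => ?_⟩
  obtain ⟨N', r', p', hN', hp', hC', hS', hA', hB'⟩ := joint hk hw h1 h2
  obtain ⟨σ, hσ⟩ := Function.ne_iff.1 hw
  have e1 : ((N : ℝ) / 2 * ((N : ℝ) / 2 + 1)) = ((N' : ℝ) / 2 * ((N' : ℝ) / 2 + 1)) := by
    have := congrFun (hC.symm.trans hC') σ
    rw [Pi.smul_apply, Pi.smul_apply, smul_eq_mul, smul_eq_mul] at this
    exact_mod_cast mul_right_cancel₀ hσ this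
  have e2 : ((N : ℝ) / 2 - p) = ((N' : ℝ) / 2 - p') := by
    have := congrFun (hS.symm.trans hS') σ
    rw [Pi.smul_apply, Pi.smul_apply, smul_eq_mul, smul_eq_mul] at this
    exact_mod_cast mul_right_cancel₀ hσ this
  have e3 : (N : ℝ) = N' := by
    have h0 : (0 : ℝ) ≤ N := Nat.cast_nonneg N
    have h0' : (0 : ℝ) ≤ N' := Nat.cast_nonneg N'
    have : ((N : ℝ) - N') * ((N : ℝ) + N' + 2) = 0 := by nlinarith
    rcases mul_eq_zero.1 this with h | h
    · linarith
    · linarith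
  have e4 : N = N' := by exact_mod_cast e3
  have e5 : p = p' := by
    have : (p : ℝ) = p' := by rw [e3] at e2; linarith
    exact_mod_cast this
  subst e4; subst e5
  exact ⟨hA', hB'⟩

/-! ### Positivity and moments -/

theorem gm_half (k θ : ℝ) : gm (k / 2) θ * gm (k / 2) θ = gm k θ := by
  have h1 : Real.cosh (k / 2) = Real.cosh (k / 2 / 2) ^ 2 + Real.sinh (k / 2 / 2) ^ 2 := by
    rw [← Real.cosh_two_mul]; congr 1; ring
  have h2 : Real.sinh (k / 2) = 2 * Real.sinh (k / 2 / 2) * Real.cosh (k / 2 / 2) := by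
    rw [← Real.sinh_two_mul]; congr 1; ring
  have h3 := Real.sin_sq_add_cos_sq θ
  unfold gm
  rw [h1, h2]
  set c := Real.cosh (k / 2 / 2)
  set s := Real.sinh (k / 2 / 2)
  set x := Real.cos θ
  set y := Real.sin θ
  rw [Matrix.mul_fin_two]
  congr 1
  have a1 : ((c + s * x : ℝ) : ℂ) * ((c + s * x : ℝ) : ℂ) + ((s * y : ℝ) : ℂ) * ((s * y : ℝ) : ℂ) =
      ((c ^ 2 + s ^ 2 + 2 * s * c * x : ℝ) : ℂ) := by
    rw [← Complex.ofReal_mul, ← Complex.ofReal_mul, ← Complex.ofReal_add]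
    congr 1
    linear_combination s ^ 2 * h3
  have a2 : ((c + s * x : ℝ) : ℂ) * ((s * y : ℝ) : ℂ) + ((s * y : ℝ) : ℂ) * ((c - s * x : ℝ) : ℂ) =
      ((2 * s * c * y : ℝ) : ℂ) := by
    rw [← Complex.ofReal_mul, ← Complex.ofReal_mul, ← Complex.ofReal_add]
    congr 1
    ring
  have a3 : ((s * y : ℝ) : ℂ) * ((c + s * x : ℝ) : ℂ) + ((c - s * x : ℝ) : ℂ) * ((s * y : ℝ) : ℂ) =
      ((2 * s * c * y : ℝ) : ℂ) := by
    rw [← Complex.ofReal_mul, ← Complex.ofReal_mul, ← Complex.ofReal_add]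
    congr 1
    ring
  have a4 : ((s * y : ℝ) : ℂ) * ((s * y : ℝ) : ℂ) + ((c - s * x : ℝ) : ℂ) * ((c - s * x : ℝ) : ℂ) =
      ((c ^ 2 + s ^ 2 - 2 * s * c * x : ℝ) : ℂ) := by
    rw [← Complex.ofReal_mul, ← Complex.ofReal_mul, ← Complex.ofReal_add]
    congr 1
    linear_combination s ^ 2 * h3
  rw [a1, a2, a3, a4]

theorem pr_conj (b : Finset V) (G : M2) : (pr b G)ᴴ = pr b Gᴴ := by
  ext σ τ
  rw [Matrix.conjTranspose_apply, pr, P, Matrix.of_apply, pr, P, Matrix.of_apply, star_prod]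
  refine Finset.prod_congr rfl fun y _ => ?_
  by_cases hy : y ∈ b
  · rw [blk, blk, if_pos hy, if_pos hy, Matrix.conjTranspose_apply]
  · rw [blk, blk, if_neg hy, if_neg hy, Matrix.one_apply, Matrix.one_apply]
    by_cases h : σ y = τ y
    · rw [if_pos h, if_pos h.symm, star_one]
    · rw [if_neg h, if_neg (Ne.symm h), star_zero]

theorem gm_conj (k θ : ℝ) : (gm k θ)ᴴ = gm k θ := by
  ext i j
  fin_cases i <;> fin_cases j <;>
    simp only [gm, Matrix.conjTranspose_apply, Matrix.of_apply, Matrix.cons_val', Fin.zero_eta,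
      Matrix.cons_val_zero, Matrix.cons_val_fin_one, Fin.mk_one, Matrix.cons_val_one,
      Complex.star_def, Complex.conj_ofReal]

theorem Tw_sq (b : Finset V) (k θ : ℝ) :
    Tw b k θ = (Tw b (k / 2) θ)ᴴ * Tw b (k / 2) θ := by
  rw [Tw, Tw, pr_conj, gm_conj, pr_mul, gm_half]

theorem Tw_form_nonneg (b : Finset V) (k θ : ℝ) (w : (V → Fin 2) → ℂ) :
    0 ≤ (star w ⬝ᵥ (Tw b k θ *ᵥ w)).re := by
  rw [Tw_sq, ← Matrix.mulVec_mulVec, form_conj]
  exact re_star_dot_nonneg _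

theorem E_form {b : Finset V} {w : (V → Fin 2) → ℂ} {mu : ℂ}
    (h2 : Sg b sz *ᵥ w = mu • w) (k θ : ℝ) :
    star w ⬝ᵥ (E b k 0 θ *ᵥ w) = star w ⬝ᵥ (Tw b k θ *ᵥ w) := by
  by_cases hw : w = 0
  · subst hw; simp
  obtain ⟨σ0, hσ0⟩ := Function.ne_iff.1 hw
  have hmu : ∀ σ, w σ ≠ 0 → (b.card : ℂ) / 2 - (nb b σ : ℂ) = mu := by
    intro σ hσ
    have := congrFun h2 σ
    rw [Sz_eq, Matrix.mulVec_diagonal, Pi.smul_apply, smul_eq_mul] at this
    exact mul_right_cancel₀ hσ this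
  have hwm : Supp b (nb b σ0) w := by
    intro σ hσ
    have h3 := hmu σ hσ
    have h4 := hmu σ0 hσ0
    have h5 : ((nb b σ : ℤ) : ℂ) = ((nb b σ0 : ℤ) : ℂ) := by
      linear_combination h4 - h3
    exact_mod_cast h5
  simp only [dotProduct]
  refine Finset.sum_congr rfl fun σ _ => ?_
  by_cases h0 : w σ = 0
  · simp [h0]
  · rw [E, Pi_mulVec hwm, if_pos (by rw [hwm σ h0, add_zero])]

theorem form_Av (b : Finset V) (k : ℝ) {w : ℝ → ℝ} (hw : Continuous w)
    (v : (V → Fin 2) → ℂ) :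
    (star v ⬝ᵥ (Av b k 0 w *ᵥ v)).re =
      ∫ θ in (0 : ℝ)..Real.pi, w θ * (star v ⬝ᵥ (E b k 0 θ *ᵥ v)).re := by
  have hc : Continuous fun θ => star v ⬝ᵥ (E b k 0 θ *ᵥ v) := by
    simp only [dotProduct, Matrix.mulVec]
    exact continuous_finset_sum _ fun σ _ => continuous_const.mul
      (continuous_finset_sum _ fun τ _ => (continuous_E b k 0 σ τ).mul continuous_const)
  have h1 : star v ⬝ᵥ (Av b k 0 w *ᵥ v) =
      ∫ θ in (0 : ℝ)..Real.pi, ((w θ : ℝ) : ℂ) * (star v ⬝ᵥ (E b k 0 θ *ᵥ v)) := by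
    simp only [dotProduct, Av_mulVec b k 0 hw, Finset.mul_sum]
    rw [intervalIntegral.integral_finset_sum]
    · refine Finset.sum_congr rfl fun σ _ => ?_
      rw [← intervalIntegral.integral_const_mul]
      congr 1
      ext θ
      ring
    · intro σ _
      refine (Continuous.mul (Complex.continuous_ofReal.comp hw) ?_).intervalIntegrable _ _
      refine continuous_const.mul ?_
      simp only [Matrix.mulVec, dotProduct]
      exact continuous_finset_sum _ fun τ _ => (continuous_E b k 0 σ τ).mul continuous_const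
  rw [h1]
  have h2 := intervalIntegral.intervalIntegral_re (a := (0 : ℝ)) (b := Real.pi)
    (f := fun θ => ((w θ : ℝ) : ℂ) * (star v ⬝ᵥ (E b k 0 θ *ᵥ v))) (μ := MeasureTheory.volume)
    (((Complex.continuous_ofReal.comp hw).mul hc).intervalIntegrable _ _)
  have h3 : (∫ θ in (0 : ℝ)..Real.pi, ((w θ : ℝ) : ℂ) * (star v ⬝ᵥ (E b k 0 θ *ᵥ v))).re =
      ∫ θ in (0 : ℝ)..Real.pi, (((w θ : ℝ) : ℂ) * (star v ⬝ᵥ (E b k 0 θ *ᵥ v))).re := h2.symm
  rw [h3]
  congr 1
  ext θ
  rw [Complex.re_ofReal_mul]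

end Vale.Agent.P361.LRO.TwJ
end

section

/-!
P361, block twist, part 9: the joint law of `(J, M)` of a block, all moments of the twist.
-/

namespace Vale.Agent.P361.LRO.TwJ

set_option linter.all false

open Matrix Finset
open scoped ComplexOrder

variable {V : Type} [Fintype V] [DecidableEq V]

/-- Tangent line inequality. -/
theorem tangent {x y : ℝ} (hx : 0 ≤ x) (hy : 0 < y) (m : ℕ) :
    y ^ m + m * y ^ m * (x / y - 1) ≤ x ^ m := by
  have h1 : -2 ≤ x / y - 1 := by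
    have : 0 ≤ x / y := by positivity
    linarith
  have h2 := one_add_mul_le_pow h1 m
  have h3 : x ^ m = y ^ m * (1 + (x / y - 1)) ^ m := by
    rw [← mul_pow]
    congr 1
    field_simp
    ring
  rw [h3]
  have h4 := mul_le_mul_of_nonneg_left h2 (by positivity : 0 ≤ y ^ m)
  calc y ^ m + m * y ^ m * (x / y - 1) = y ^ m * (1 + m * (x / y - 1)) := by ring
    _ ≤ _ := h4

/-- `(p/N) a ≤ a - (b₀ - p b₁)`. -/
theorem mean_ge {k : ℝ} (hk : 0 ≤ k) {N p : ℕ} (hp : p ≤ N) :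
    (p : ℝ) / N * aN k N ≤ aN k N - (b0N k N - p * b1N k N) := by
  have ha := aN_pos hk N
  have h2 := b1N_nonneg hk N
  have h3 := b0N_le hk N
  have h4 := N_b1 hk N
  set a := aN k N
  set β0 := b0N k N
  set β1 := b1N k N
  have hN0 : (0 : ℝ) ≤ N := Nat.cast_nonneg N
  have hp0 : (0 : ℝ) ≤ p := Nat.cast_nonneg p
  have hpN : (p : ℝ) ≤ N := by exact_mod_cast hp
  rcases Nat.eq_zero_or_pos N with hN1 | hN1
  · have : p = 0 := by omega
    rw [this]
    simp
    exact h3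
  have hN1' : (0 : ℝ) < N := by exact_mod_cast hN1
  rw [div_mul_eq_mul_div, div_le_iff₀ hN1']
  have e2 : (a - (β0 - p * β1)) * N = N * a - ((N : ℝ) - 2 * p) * β0 := by
    linear_combination (p : ℝ) * h4
  rw [e2]
  rcases le_total (2 * (p : ℝ)) N with h | h
  · have : ((N : ℝ) - 2 * p) * β0 ≤ ((N : ℝ) - 2 * p) * a :=
      mul_le_mul_of_nonneg_left h3 (by linarith)
    nlinarith
  · have hb0 : 0 ≤ β0 := by nlinarith
    nlinarith

theorem moment {b : Finset V} {w : (V → Fin 2) → ℂ} {mu : ℂ}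
    (h2 : Sg b sz *ᵥ w = mu • w) {k : ℝ} (hk : 0 ≤ k) {N p : ℕ} (hp : p ≤ N)
    (hA : opA b k *ᵥ w = ((aN k N : ℝ) : ℂ) • w)
    (hB : opB b k *ᵥ w = ((b0N k N - p * b1N k N : ℝ) : ℂ) • w) (m : ℕ) :
    (star w ⬝ᵥ w).re * (aN k N * ((p : ℝ) / N) ^ m) ≤
      ∫ θ in (0 : ℝ)..Real.pi, 1 / 2 * Real.sin θ * (1 - Real.cos θ) ^ m *
        (star w ⬝ᵥ (E b k 0 θ *ᵥ w)).re := by
  set f : ℝ → ℝ := fun θ => (star w ⬝ᵥ (E b k 0 θ *ᵥ w)).re with hf
  set S := (star w ⬝ᵥ w).re with hS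
  have hS0 : 0 ≤ S := re_star_dot_nonneg w
  have hf0 : ∀ θ, 0 ≤ f θ := by
    intro θ
    rw [hf]
    simp only
    rw [E_form h2]
    exact Tw_form_nonneg b k θ w
  have hfc : Continuous f := by
    refine Complex.continuous_re.comp ?_
    simp only [dotProduct, Matrix.mulVec]
    exact continuous_finset_sum _ fun σ _ => continuous_const.mul
      (continuous_finset_sum _ fun τ _ => (continuous_E b k 0 σ τ).mul continuous_const)
  have ha := aN_pos hk N
  have IA : ∫ θ in (0 : ℝ)..Real.pi, 1 / 2 * Real.sin θ ^ 1 * f θ = aN k N * S := by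
    have h := form_Av b k (w := fun θ => 1 / 2 * Real.sin θ ^ 1) (by fun_prop) w
    rw [← h]
    change (star w ⬝ᵥ (opA b k *ᵥ w)).re = _
    rw [hA, dotProduct_smul, smul_eq_mul, Complex.re_ofReal_mul]
  have IB : ∫ θ in (0 : ℝ)..Real.pi, 1 / 2 * Real.cos θ * Real.sin θ ^ 1 * f θ =
      (b0N k N - p * b1N k N) * S := by
    have h := form_Av b k (w := fun θ => 1 / 2 * Real.cos θ * Real.sin θ ^ 1) (by fun_prop) w
    rw [← h]
    change (star w ⬝ᵥ (opB b k *ᵥ w)).re = _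
    rw [hB, dotProduct_smul, smul_eq_mul, Complex.re_ofReal_mul]
  have hnn : 0 ≤ ∫ θ in (0 : ℝ)..Real.pi, 1 / 2 * Real.sin θ * (1 - Real.cos θ) ^ m * f θ := by
    refine intervalIntegral.integral_nonneg Real.pi_pos.le fun θ hθ => ?_
    have h1 := Real.sin_nonneg_of_nonneg_of_le_pi hθ.1 hθ.2
    have h3 := Real.cos_le_one θ
    have h4 : 0 ≤ 1 - Real.cos θ := by linarith
    have := hf0 θ
    positivity
  rcases Nat.eq_zero_or_pos m with hm | hm
  · subst hm
    have : (∫ θ in (0 : ℝ)..Real.pi, 1 / 2 * Real.sin θ * (1 - Real.cos θ) ^ 0 * f θ) =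
        aN k N * S := by
      rw [← IA]; congr 1; ext θ; ring
    rw [this]
    simp only [pow_zero, mul_one]
    exact le_of_eq (mul_comm _ _)
  rcases Nat.eq_zero_or_pos p with hp1 | hp1
  · subst hp1
    have : ((0 : ℕ) : ℝ) / N = 0 := by simp
    rw [this, zero_pow hm.ne', mul_zero, mul_zero]
    exact hnn
  have hN1 : 0 < N := lt_of_lt_of_le hp1 hp
  have hN1' : (0 : ℝ) < N := by exact_mod_cast hN1
  have hp1' : (0 : ℝ) < p := by exact_mod_cast hp1
  have hmean := mean_ge hk hp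
  set a := aN k N
  set y := (a - (b0N k N - p * b1N k N)) / a with hy
  have hyp : (p : ℝ) / N ≤ y := by
    rw [hy, le_div_iff₀ ha]; exact hmean
  have hy0 : 0 < y := lt_of_lt_of_le (by positivity) hyp
  -- integrate the tangent inequality
  have h1 : (∫ θ in (0 : ℝ)..Real.pi, (y ^ m - m * y ^ m) * (1 / 2 * Real.sin θ ^ 1 * f θ) +
        m * y ^ m / y * (1 / 2 * Real.sin θ ^ 1 * f θ - 1 / 2 * Real.cos θ * Real.sin θ ^ 1 * f θ))
      ≤ ∫ θ in (0 : ℝ)..Real.pi, 1 / 2 * Real.sin θ * (1 - Real.cos θ) ^ m * f θ := by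
    refine intervalIntegral.integral_mono_on Real.pi_pos.le
      ((by fun_prop : Continuous _).intervalIntegrable _ _)
      ((by fun_prop : Continuous _).intervalIntegrable _ _) fun θ hθ => ?_
    have h1 := Real.sin_nonneg_of_nonneg_of_le_pi hθ.1 hθ.2
    have h3 := Real.cos_le_one θ
    have h4 : 0 ≤ 1 - Real.cos θ := by linarith
    have h5 := tangent h4 hy0 m
    have h6 : 0 ≤ 1 / 2 * Real.sin θ * f θ := by
      have := hf0 θ
      positivity
    have h7 := mul_le_mul_of_nonneg_left h5 h6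
    calc _ = 1 / 2 * Real.sin θ * f θ * (y ^ m + m * y ^ m * ((1 - Real.cos θ) / y - 1)) := by
          ring
      _ ≤ _ := h7
      _ = _ := by ring
  rw [intervalIntegral.integral_add ((by fun_prop : Continuous _).intervalIntegrable _ _)
    ((by fun_prop : Continuous _).intervalIntegrable _ _), intervalIntegral.integral_const_mul,
    intervalIntegral.integral_const_mul, intervalIntegral.integral_sub
      ((by fun_prop : Continuous _).intervalIntegrable _ _)
      ((by fun_prop : Continuous _).intervalIntegrable _ _), IA, IB] at h1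
  have h2' : (y ^ m - m * y ^ m) * (a * S) +
      m * y ^ m / y * (a * S - (b0N k N - p * b1N k N) * S) = y ^ m * (a * S) := by
    have e : a * S - (b0N k N - p * b1N k N) * S = y * (a * S) := by
      rw [hy]; field_simp
    rw [e]
    field_simp
    ring
  rw [h2'] at h1
  have h3 : ((p : ℝ) / N) ^ m ≤ y ^ m := pow_le_pow_left₀ (by positivity) hyp m
  calc S * (a * ((p : ℝ) / N) ^ m) = (a * S) * ((p : ℝ) / N) ^ m := by ring
    _ ≤ (a * S) * y ^ m := mul_le_mul_of_nonneg_left h3 (by positivity)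
    _ = y ^ m * (a * S) := by ring
    _ ≤ _ := h1

/-- **The joint law of `(J, M)` of a block**: `J = N / 2`, `M = N / 2 - p`, `|b| = N + 2 r`; the
same law for all strengths `k` and all moments `m` of the twist. -/
theorem joint_law {W : Matrix (V → Fin 2) (V → Fin 2) ℝ} (hW : W.PosSemidef)
    (hsym : ∀ σ τ, W σ τ ≠ 0 → ∑ x, ((σ x : ℕ) : ℤ) = ∑ x, ((τ x : ℕ) : ℤ))
    (b : Finset V) :
    ∃ (ι : Type) (_ : Fintype ι) (μ : ι → ℝ) (N r p : ι → ℕ),
      (∀ i, 0 ≤ μ i) ∧ (∀ i, N i + 2 * r i = b.card ∧ p i ≤ N i) ∧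
      ∑ i, μ i = Matrix.trace W ∧
      ∑ i, μ i * ((r i : ℝ) + p i) = ∑ x ∈ b, Matrix.trace (W * ((1 / 2 : ℝ) • (1 - szM x))) ∧
      ∑ i, μ i * ((r i : ℝ) * ((b.card : ℝ) - r i + 1)) =
        ∑ x ∈ b, ∑ y ∈ b, Matrix.trace (W * hM x y) ∧
      (∀ k : ℝ, 0 ≤ k → ∑ i, μ i * aN k (N i) =
        Real.cosh (k / 2) ^ b.card / 2 * ∫ φ in (0 : ℝ)..Real.pi,
          Real.sin φ * Matrix.trace (W * rotT b (Real.tanh (k / 2)) φ)) ∧
      (∀ k : ℝ, 0 ≤ k → ∀ m : ℕ, ∑ i, μ i * (aN k (N i) * ((p i : ℝ) / N i) ^ m) ≤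
        Real.cosh (k / 2) ^ b.card / 2 * ∫ φ in (0 : ℝ)..Real.pi,
          Real.sin φ * (1 - Real.cos φ) ^ m *
            Matrix.trace (W * rotT b (Real.tanh (k / 2)) φ)) := by
  obtain ⟨R, hR⟩ := cm_factor hW
  obtain ⟨ι, hι, u, hu, hlaw⟩ := law0 b R
  rw [← hR] at hlaw
  choose N r p hN hp hC hS hK using fun i => joint_all (hu i).1
    (hu i).2.choose_spec.choose_spec.1 (hu i).2.choose_spec.choose_spec.2
  have hsym' : ∀ σ τ, cm W σ τ ≠ 0 → nb univ σ = nb univ τ := by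
    intro σ τ h1
    apply hsym
    intro h2
    apply h1
    rw [cm, Matrix.of_apply, h2]; simp
  -- traces of operators acting by real scalars
  have hscal : ∀ (X : Opr V) (y : ι → ℝ), Cas b * X = X * Cas b → Sg b sz * X = X * Sg b sz →
      (∀ i, X *ᵥ u i = ((y i : ℝ) : ℂ) • u i) →
      (Matrix.trace (cm W * X)).re = ∑ i, (star (u i) ⬝ᵥ u i).re * y i := by
    intro X y h1 h2 h3
    rw [hlaw X h1 h2, Complex.re_sum]
    refine Finset.sum_congr rfl fun i _ => ?_
    rw [h3, dotProduct_smul, smul_eq_mul, Complex.re_ofReal_mul, mul_comm]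
  have hT : ∀ k φ, Matrix.trace (cm W * Tw b k φ) =
      ((Real.cosh (k / 2) ^ b.card * Matrix.trace (W * rotT b (Real.tanh (k / 2)) φ) : ℝ) : ℂ) := by
    intro k φ
    rw [Tw_eq, Matrix.mul_smul, Matrix.trace_smul, ← cm_mul, cm_trace, smul_eq_mul,
      ← Complex.ofReal_mul]
  have hAv : ∀ (k : ℝ) (w : ℝ → ℝ), Continuous w → (Matrix.trace (cm W * Av b k 0 w)).re =
      Real.cosh (k / 2) ^ b.card * ∫ φ in (0 : ℝ)..Real.pi,
        w φ * Matrix.trace (W * rotT b (Real.tanh (k / 2)) φ) := by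
    intro k w hw
    rw [trace_Av b k hw hsym']
    have : (∫ θ in (0 : ℝ)..Real.pi, ((w θ : ℝ) : ℂ) * Matrix.trace (cm W * Tw b k θ)) =
        ((Real.cosh (k / 2) ^ b.card * ∫ φ in (0 : ℝ)..Real.pi,
          w φ * Matrix.trace (W * rotT b (Real.tanh (k / 2)) φ) : ℝ) : ℂ) := by
      rw [← intervalIntegral.integral_const_mul, ← intervalIntegral.integral_ofReal]
      congr 1
      ext θ
      rw [hT]
      push_cast
      ring
    rw [this, Complex.ofReal_re]
  refine ⟨ι, hι, fun i => (star (u i) ⬝ᵥ u i).re, N, r, p, fun i => re_star_dot_nonneg _,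
    fun i => ⟨hN i, hp i⟩, ?_, ?_, ?_, ?_, ?_⟩
  · have h := hscal 1 (fun _ => 1) (by rw [mul_one, one_mul]) (by rw [mul_one, one_mul])
      (fun i => by rw [Matrix.one_mulVec]; simp)
    rw [mul_one, cm_trace, Complex.ofReal_re] at h
    rw [h]
    simp
  · have h := hscal ((((b.card : ℝ) / 2 : ℝ) : ℂ) • (1 : Opr V) - Sg b sz)
      (fun i => (r i : ℝ) + p i)
      (by rw [Matrix.mul_sub, Matrix.sub_mul, Cas_Sz, Matrix.mul_smul, Matrix.smul_mul, mul_one,
        one_mul])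
      (by rw [Matrix.mul_sub, Matrix.sub_mul, Matrix.mul_smul, Matrix.smul_mul, mul_one, one_mul])
      (fun i => by
        rw [Matrix.sub_mulVec, Matrix.smul_mulVec, Matrix.one_mulVec, hS, ← sub_smul,
          ← Complex.ofReal_sub]
        congr 2
        rw [← hN i]
        push_cast
        ring)
    rw [← h, Sz_cm]
    simp only [Matrix.mul_sum, Matrix.trace_sum, ← cm_mul, cm_trace, Complex.re_sum,
      Complex.ofReal_re]
  · have h := hscal ((((b.card : ℝ) / 2 * ((b.card : ℝ) / 2 + 1) : ℝ) : ℂ) • (1 : Opr V) - Cas b)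
      (fun i => (r i : ℝ) * ((b.card : ℝ) - r i + 1))
      (by rw [Matrix.mul_sub, Matrix.sub_mul, Matrix.mul_smul, Matrix.smul_mul, mul_one, one_mul])
      (by rw [Matrix.mul_sub, Matrix.sub_mul, Cas_Sz, Matrix.mul_smul, Matrix.smul_mul, mul_one,
        one_mul])
      (fun i => by
        rw [Matrix.sub_mulVec, Matrix.smul_mulVec, Matrix.one_mulVec, hC, ← sub_smul,
          ← Complex.ofReal_sub]
        congr 2
        rw [← hN i]
        push_cast
        ring)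
    rw [← h, Cas_eq]
    simp only [Matrix.mul_sum, Matrix.trace_sum, ← cm_mul, cm_trace, Complex.re_sum,
      Complex.ofReal_re]
  · intro k hk
    have h := hscal (opA b k) (fun i => aN k (N i))
      (comm_Av0 b k (by fun_prop) fun θ => Cas_comm_E b k θ)
      (comm_Av0 b k (by fun_prop) fun θ => Sz_comm_E b k θ)
      (fun i => (hK i k hk).1)
    rw [← h, opA, hAv k _ (by fun_prop)]
    rw [div_mul_eq_mul_div, mul_div_assoc, ← intervalIntegral.integral_div]
    congr 1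
    congr 1
    ext φ
    ring
  · intro k hk m
    have hw : Continuous fun θ : ℝ => 1 / 2 * Real.sin θ * (1 - Real.cos θ) ^ m := by fun_prop
    have h1 : (Matrix.trace (cm W * Av b k 0 fun θ =>
        1 / 2 * Real.sin θ * (1 - Real.cos θ) ^ m)).re =
        ∑ i, ∫ θ in (0 : ℝ)..Real.pi, 1 / 2 * Real.sin θ * (1 - Real.cos θ) ^ m *
          (star (u i) ⬝ᵥ (E b k 0 θ *ᵥ u i)).re := by
      rw [hlaw _ (comm_Av0 b k hw fun θ => Cas_comm_E b k θ)
        (comm_Av0 b k hw fun θ => Sz_comm_E b k θ), Complex.re_sum]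
      exact Finset.sum_congr rfl fun i _ => form_Av b k hw (u i)
    have h2 : ∑ i, (star (u i) ⬝ᵥ u i).re * (aN k (N i) * ((p i : ℝ) / N i) ^ m) ≤
        ∑ i, ∫ θ in (0 : ℝ)..Real.pi, 1 / 2 * Real.sin θ * (1 - Real.cos θ) ^ m *
          (star (u i) ⬝ᵥ (E b k 0 θ *ᵥ u i)).re :=
      Finset.sum_le_sum fun i _ => moment (hu i).2.choose_spec.choose_spec.2 hk (hp i)
        (hK i k hk).1 (hK i k hk).2 m
    rw [← h1, hAv k _ hw] at h2
    refine h2.trans (le_of_eq ?_)
    rw [div_mul_eq_mul_div, mul_div_assoc, ← intervalIntegral.integral_div]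
    congr 1
    congr 1
    ext φ
    ring

end Vale.Agent.P361.LRO.TwJ
end

section

/-!
P361, stage 3, block (D): the direction of the block spin, static Gibbs state.
-/

namespace Vale.Agent.P361.LRO.S3

open Finset Matrix Filter

noncomputable section

variable {V : Type} [Fintype V] [DecidableEq V]

/-- The data of the joint law of `(J, M)` of the block `b` in the Gibbs state: `J = N / 2`,
`M = N / 2 - p`, `|b| = N + 2 r`, with the exponential moment of the twist. -/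
structure BlockLaw (L : List (V × V)) (β : ℝ) (h : V → ℝ) (b : Finset V) (K κ : ℝ) {ι : Type}
    [Fintype ι] (μ : ι → ℝ) (N r p : ι → ℕ) : Prop where
  nonneg : ∀ i, 0 ≤ μ i
  sum_one : ∑ i, μ i = 1
  card : ∀ i, N i + 2 * r i = b.card
  le : ∀ i, p i ≤ N i
  mean : (∑ i, μ i * ((r i : ℝ) + p i)) = ∑ x ∈ b, rho L β h x
  cas : ∑ i, μ i * ((r i : ℝ) * ((b.card : ℝ) - r i + 1)) =
    ∑ x ∈ b, ∑ y ∈ b, gib L β h (hM x y)
  mom : ∑ i, μ i * (TwJ.aN (K / b.card) (N i) * Real.exp (κ * ((p i : ℝ) / N i) / 2)) ≤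
    2 * ∑ i, μ i * TwJ.aN (K / b.card) (N i)

/-- The exponential moment from the power moments of the twist. -/
theorem exp_mom_of {W : Matrix (V → Fin 2) (V → Fin 2) ℝ} {b : Finset V} {K κ : ℝ}
    {ι : Type} [Fintype ι] {μ : ι → ℝ} {N p : ι → ℕ} (hK : 0 ≤ K) (hκ : 0 ≤ κ)
    (h5 : ∀ k : ℝ, 0 ≤ k → ∑ i, μ i * TwJ.aN k (N i) =
        Real.cosh (k / 2) ^ b.card / 2 * ∫ φ in (0 : ℝ)..Real.pi,
          Real.sin φ * Matrix.trace (W * rotT b (Real.tanh (k / 2)) φ))
    (h6 : ∀ k : ℝ, 0 ≤ k → ∀ m : ℕ, ∑ i, μ i * (TwJ.aN k (N i) * ((p i : ℝ) / N i) ^ m) ≤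
        Real.cosh (k / 2) ^ b.card / 2 * ∫ φ in (0 : ℝ)..Real.pi,
          Real.sin φ * (1 - Real.cos φ) ^ m *
            Matrix.trace (W * rotT b (Real.tanh (k / 2)) φ))
    (htw : ∀ m : ℕ, κ ^ m * (∫ φ in (0 : ℝ)..Real.pi, Real.sin φ * (1 - Real.cos φ) ^ m *
        Matrix.trace (W * rotT b (Real.tanh (K / (2 * b.card))) φ)) ≤
      (m.factorial : ℝ) * ∫ φ in (0 : ℝ)..Real.pi, Real.sin φ *
        Matrix.trace (W * rotT b (Real.tanh (K / (2 * b.card))) φ)) :
    ∑ i, μ i * (TwJ.aN (K / b.card) (N i) * Real.exp (κ * ((p i : ℝ) / N i) / 2)) ≤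
      2 * ∑ i, μ i * TwJ.aN (K / b.card) (N i) := by
  have hk : 0 ≤ K / b.card := by positivity
  have e1 : K / b.card / 2 = K / (2 * b.card) := by
    rw [div_div, mul_comm (b.card : ℝ) 2]
  have h := Bloch.exp_moment (w := fun i => μ i * TwJ.aN (K / b.card) (N i))
    (x := fun i => (p i : ℝ) / N i) (κ := κ) (S := ∑ i, μ i * TwJ.aN (K / b.card) (N i)) ?_
  · simpa only [mul_assoc] using h
  · intro m
    have h7 := h6 _ hk m
    rw [h5 _ hk, e1]
    rw [e1] at h7
    have hc : 0 ≤ Real.cosh (K / (2 * b.card)) ^ b.card / 2 := by positivity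
    have h8 := mul_le_mul_of_nonneg_left h7 (pow_nonneg hκ m)
    have h9 := mul_le_mul_of_nonneg_left (htw m) hc
    calc κ ^ m * ∑ i, μ i * TwJ.aN (K / b.card) (N i) * ((p i : ℝ) / N i) ^ m
        = κ ^ m * ∑ i, μ i * (TwJ.aN (K / b.card) (N i) * ((p i : ℝ) / N i) ^ m) := by
          simp only [mul_assoc]
      _ ≤ _ := h8
      _ = Real.cosh (K / (2 * b.card)) ^ b.card / 2 * (κ ^ m *
          ∫ φ in (0 : ℝ)..Real.pi, Real.sin φ * (1 - Real.cos φ) ^ m *
            Matrix.trace (W * rotT b (Real.tanh (K / (2 * b.card))) φ)) := by ring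
      _ ≤ _ := h9
      _ = _ := by ring

theorem expH_cons' (L : List (V × V)) (β : ℝ) (h : V → ℝ) (σ τ : V → Fin 2)
    (hd : NormedSpace.exp (-β • ham L h) σ τ ≠ 0) :
    ∑ x, ((σ x : ℕ) : ℤ) = ∑ x, ((τ x : ℕ) : ℤ) := by
  have := Tw.expH_cons L β h σ τ hd
  exact_mod_cast this

/-- **The joint law in the Gibbs state.** -/
theorem exists_blockLaw (L : List (V × V)) {β : ℝ} (hβ : 0 < β) {h : V → ℝ} (hh : ∀ x, 0 ≤ h x)
    (b : Finset V) {K κ : ℝ} (hK : 0 ≤ K) (hκ : 0 ≤ κ)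
    (hf : ∃ᶠ N : ℕ in atTop, κ ≤ kap L β N h K b) :
    ∃ (ι : Type) (_ : Fintype ι) (μ : ι → ℝ) (N r p : ι → ℕ), BlockLaw L β h b K κ μ N r p := by
  obtain ⟨ι, hι, μ, N, r, p, h1, h2, h3, h4, h4', h5, h6⟩ :=
    TwJ.joint_law (Tw.expH_psd L β h) (expH_cons' L β h) b
  have hT := Tw.trace_expH_pos L β h
  set T := Matrix.trace (NormedSpace.exp (-β • ham L h)) with hTdef
  have hm := exp_mom_of (W := NormedSpace.exp (-β • ham L h)) hK hκ h5 h6
    (Bloch.twist_gibbs_pow L hβ hh hK hκ b hf)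
  refine ⟨ι, hι, fun i => μ i / T, N, r, p, ?_, ?_, fun i => (h2 i).1, fun i => (h2 i).2,
    ?_, ?_, ?_⟩
  · exact fun i => div_nonneg (h1 i) hT.le
  · rw [← Finset.sum_div, h3, div_self hT.ne']
  · have : ∑ i, μ i / T * ((r i : ℝ) + p i) = (∑ i, μ i * ((r i : ℝ) + p i)) / T := by
      rw [Finset.sum_div]
      exact Finset.sum_congr rfl fun i _ => by ring
    rw [this, h4, Finset.sum_div]
    rfl
  · have : ∑ i, μ i / T * ((r i : ℝ) * ((b.card : ℝ) - r i + 1)) =
        (∑ i, μ i * ((r i : ℝ) * ((b.card : ℝ) - r i + 1))) / T := by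
      rw [Finset.sum_div]
      exact Finset.sum_congr rfl fun i _ => by ring
    rw [this, h4', Finset.sum_div]
    refine Finset.sum_congr rfl fun x _ => ?_
    rw [Finset.sum_div]
    rfl
  · have e1 : ∑ i, μ i / T * (TwJ.aN (K / b.card) (N i) *
        Real.exp (κ * ((p i : ℝ) / N i) / 2)) =
        (∑ i, μ i * (TwJ.aN (K / b.card) (N i) * Real.exp (κ * ((p i : ℝ) / N i) / 2))) / T := by
      rw [Finset.sum_div]
      exact Finset.sum_congr rfl fun i _ => by ring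
    have e2 : 2 * ∑ i, μ i / T * TwJ.aN (K / b.card) (N i) =
        (2 * ∑ i, μ i * TwJ.aN (K / b.card) (N i)) / T := by
      rw [Finset.mul_sum, Finset.mul_sum, Finset.sum_div]
      exact Finset.sum_congr rfl fun i _ => by ring
    rw [e1, e2]
    exact div_le_div_of_nonneg_right hm hT.le

namespace BlockLaw

variable {L : List (V × V)} {β : ℝ} {h : V → ℝ} {b : Finset V} {K κ : ℝ} {ι : Type}
  [Fintype ι] {μ : ι → ℝ} {N r p : ι → ℕ}

theorem ratio_ge (H : BlockLaw L β h b K κ μ N r p) (hb : b.Nonempty) (hK : 0 ≤ K) (i : ι) :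
    Real.exp (-(K * ((r i : ℝ) / b.card))) ≤
      TwJ.aN (K / b.card) (N i) / TwJ.aN (K / b.card) b.card := by
  have hn : (0 : ℝ) < b.card := by exact_mod_cast hb.card_pos
  have hk : 0 ≤ K / b.card := by positivity
  have hc := H.card i
  have h1 := TwJ.aN_le hk (N := N i) (n := b.card) (by omega)
  have e : b.card - N i = 2 * r i := by omega
  rw [e] at h1
  rw [le_div_iff₀ (TwJ.aN_pos hk _)]
  have e2 : K / b.card / 2 * ((2 * r i : ℕ) : ℝ) = K * ((r i : ℝ) / b.card) := by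
    push_cast
    field_simp
  rw [e2] at h1
  have h2 := mul_le_mul_of_nonneg_left h1 (Real.exp_pos (-(K * ((r i : ℝ) / b.card)))).le
  rw [← mul_assoc, ← Real.exp_add, neg_add_cancel, Real.exp_zero, one_mul] at h2
  exact h2

theorem ratio_le (H : BlockLaw L β h b K κ μ N r p) (hK : 0 ≤ K) (i : ι) :
    TwJ.aN (K / b.card) (N i) / TwJ.aN (K / b.card) b.card ≤ 1 := by
  have hk : 0 ≤ K / b.card := by positivity
  have hc := H.card i
  rw [div_le_one (TwJ.aN_pos hk _)]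
  exact TwJ.aN_mono hk (by omega)

theorem mom' (H : BlockLaw L β h b K κ μ N r p) (hK : 0 < K) :
    ∑ i, μ i * (TwJ.aN (K / b.card) (N i) / TwJ.aN (K / b.card) b.card *
        Real.exp (κ / (2 * K) * K * ((p i : ℝ) / N i))) ≤
      2 * ∑ i, μ i * (TwJ.aN (K / b.card) (N i) / TwJ.aN (K / b.card) b.card) := by
  have hk : 0 ≤ K / b.card := by positivity
  have ha := TwJ.aN_pos hk b.card
  have hm := div_le_div_of_nonneg_right H.mom ha.le
  have e1 : ∑ i, μ i * (TwJ.aN (K / b.card) (N i) / TwJ.aN (K / b.card) b.card *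
        Real.exp (κ / (2 * K) * K * ((p i : ℝ) / N i))) =
      (∑ i, μ i * (TwJ.aN (K / b.card) (N i) * Real.exp (κ * ((p i : ℝ) / N i) / 2))) /
        TwJ.aN (K / b.card) b.card := by
    rw [Finset.sum_div]
    refine Finset.sum_congr rfl fun i _ => ?_
    have e : κ / (2 * K) * K * ((p i : ℝ) / N i) = κ * ((p i : ℝ) / N i) / 2 := by
      field_simp
    rw [e]
    ring
  have e2 : 2 * ∑ i, μ i * (TwJ.aN (K / b.card) (N i) / TwJ.aN (K / b.card) b.card) =
      (2 * ∑ i, μ i * TwJ.aN (K / b.card) (N i)) / TwJ.aN (K / b.card) b.card := by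
    rw [Finset.mul_sum, Finset.mul_sum, Finset.sum_div]
    exact Finset.sum_congr rfl fun i _ => by ring
  rw [e1, e2]
  exact hm

/-- `ρ̄_b = E D + E[p/|b|] ≤ E D + E[p/N]`. -/
theorem rho_le (H : BlockLaw L β h b K κ μ N r p) (hb : b.Nonempty) :
    (∑ x ∈ b, rho L β h x) / b.card ≤
      ∑ i, μ i * ((r i : ℝ) / b.card) + ∑ i, μ i * ((p i : ℝ) / N i) := by
  have hn : (0 : ℝ) < b.card := by exact_mod_cast hb.card_pos
  rw [← H.mean, Finset.sum_div, ← Finset.sum_add_distrib]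
  refine Finset.sum_le_sum fun i _ => ?_
  have h1 : (p i : ℝ) / b.card ≤ (p i : ℝ) / N i := by
    rcases Nat.eq_zero_or_pos (N i) with h0 | h0
    · have : p i = 0 := by have := H.le i; omega
      rw [this]
      simp
    · have hN0 : (0 : ℝ) < N i := by exact_mod_cast h0
      have hle : (N i : ℝ) ≤ b.card := by
        have := H.card i
        exact_mod_cast (by omega : N i ≤ b.card)
      exact div_le_div_of_nonneg_left (Nat.cast_nonneg _) hN0 hle
  have h2 := mul_le_mul_of_nonneg_left h1 (H.nonneg i)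
  calc μ i * ((r i : ℝ) + p i) / b.card = μ i * ((r i : ℝ) / b.card) + μ i * ((p i : ℝ) / b.card) := by
        ring
    _ ≤ _ := by linarith

/-- The mean of `D` is at most `Db`. -/
theorem mean_D_le (H : BlockLaw L β h b K κ μ N r p) (hb : b.Nonempty) :
    ∑ i, μ i * ((r i : ℝ) / b.card) ≤ Db L β h b := by
  have hn : (0 : ℝ) < b.card := by exact_mod_cast hb.card_pos
  have e : Db L β h b = 2 / (b.card : ℝ) ^ 2 *
      ∑ i, μ i * ((r i : ℝ) * ((b.card : ℝ) - r i + 1)) := by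
    rw [H.cas]
    unfold Db
    ring
  rw [e, Finset.mul_sum]
  refine Finset.sum_le_sum fun i _ => ?_
  have hr : 2 * (r i : ℝ) ≤ b.card := by
    have := H.card i
    exact_mod_cast (by omega : 2 * r i ≤ b.card)
  have hr0 : (0 : ℝ) ≤ r i := Nat.cast_nonneg _
  have h1 : (r i : ℝ) / b.card ≤ 2 / (b.card : ℝ) ^ 2 * ((r i : ℝ) * ((b.card : ℝ) - r i + 1)) := by
    rw [div_mul_eq_mul_div, div_le_div_iff₀ hn (by positivity)]
    have : (b.card : ℝ) ≤ 2 * ((b.card : ℝ) - r i + 1) := by linarith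
    have h3 : (r i : ℝ) * b.card * b.card ≤ (2 * ((b.card : ℝ) - r i + 1)) * r i * b.card := by
      have := mul_le_mul_of_nonneg_right this (mul_nonneg hr0 hn.le)
      linarith
    nlinarith
  calc μ i * ((r i : ℝ) / b.card) ≤ μ i * (2 / (b.card : ℝ) ^ 2 *
        ((r i : ℝ) * ((b.card : ℝ) - r i + 1))) := mul_le_mul_of_nonneg_left h1 (H.nonneg i)
    _ = _ := by ring

/-- Closure. -/
theorem closure (H : BlockLaw L β h b K κ μ N r p) (hb : b.Nonempty) (hK : 0 < K) (hκ : 0 < κ) :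
    (∑ x ∈ b, rho L β h x) / b.card ≤ (1 + 2 * K / κ) * Db L β h b + 2 / κ := by
  have h1 := dir_closure Finset.univ μ (fun i => (r i : ℝ) / b.card) (fun i => (p i : ℝ) / N i)
    (fun i => TwJ.aN (K / b.card) (N i) / TwJ.aN (K / b.card) b.card) (K := K)
    (c := κ / (2 * K)) (fun i _ => H.nonneg i) H.sum_one hK
    (fun i _ => H.ratio_ge hb hK.le i) (fun i _ => H.ratio_le hK.le i) (H.mom' hK)
  have h2 := H.rho_le hb
  have h3 := H.mean_D_le hb
  set ED := ∑ i, μ i * ((r i : ℝ) / b.card) with hED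
  set EX := ∑ i, μ i * ((p i : ℝ) / N i) with hEX
  have h4 : EX ≤ 2 * K / κ * ED + 2 / κ := by
    have h5 : 0 < 2 * K / κ := by positivity
    have h6 := mul_le_mul_of_nonneg_left h1 h5.le
    have e1 : 2 * K / κ * (κ / (2 * K) * EX) = EX := by field_simp
    have e2 : 2 * K / κ * (ED + 1 / K) = 2 * K / κ * ED + 2 / κ := by field_simp
    rw [e1, e2] at h6
    exact h6
  have h7 : 2 * K / κ * ED ≤ 2 * K / κ * Db L β h b :=
    mul_le_mul_of_nonneg_left h3 (by positivity)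
  linarith

end BlockLaw

/-- **Block (D), closure form.** -/
theorem dir_gibbs (L : List (V × V)) {β : ℝ} (hβ : 0 < β) {h : V → ℝ} (hh : ∀ x, 0 ≤ h x)
    {b : Finset V} (hb : b.Nonempty) {K κ : ℝ} (hK : 0 < K) (hκ : 0 < κ)
    (hf : ∃ᶠ N : ℕ in atTop, κ ≤ kap L β N h K b) :
    (∑ x ∈ b, rho L β h x) / b.card ≤ (1 + 2 * K / κ) * Db L β h b + 2 / κ := by
  obtain ⟨ι, hι, μ, N, r, p, H⟩ := exists_blockLaw L hβ hh b hK.le hκ.le hf
  exact H.closure hb hK hκ

end

end Vale.Agent.P361.LRO.S3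
end

section

/-!
P361, block twist, part 10: the joint law of `(J, M)` of a block, with polynomials and
exponentials of the Casimir operator and of the block spin.
-/

namespace Vale.Agent.P361.LRO.TwJ

set_option linter.all false

open Matrix Finset
open scoped ComplexOrder

variable {V : Type} [Fintype V] [DecidableEq V]

/-- `(|b|/2)(|b|/2+1) - S_b²` as a real matrix: it acts by `r (|b| - r + 1)` on
`J = |b|/2 - r`. -/
noncomputable def Om (b : Finset V) : Matrix (V → Fin 2) (V → Fin 2) ℝ := ∑ x ∈ b, ∑ y ∈ b, hM x y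

/-- The number of down spins of the block as a real matrix. -/
noncomputable def Dn (b : Finset V) : Matrix (V → Fin 2) (V → Fin 2) ℝ :=
  ∑ x ∈ b, (1 / 2 : ℝ) • (1 - szM x)

theorem cm_Om (b : Finset V) : cm (Om b) =
    (((b.card : ℝ) / 2 * ((b.card : ℝ) / 2 + 1) : ℝ) : ℂ) • (1 : Opr V) - Cas b := by
  rw [Cas_eq, Om, cm_sum]
  exact Finset.sum_congr rfl fun x _ => cm_sum _ _

theorem cm_Dn (b : Finset V) : cm (Dn b) =
    (((b.card : ℝ) / 2 : ℝ) : ℂ) • (1 : Opr V) - Sg b sz := by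
  rw [Sz_cm, Dn, cm_sum]

theorem comm_cm_aeval {Y : Opr V} {A : Matrix (V → Fin 2) (V → Fin 2) ℝ}
    (h : Y * cm A = cm A * Y) (P : Polynomial ℝ) :
    Y * cm (Polynomial.aeval A P) = cm (Polynomial.aeval A P) * Y := by
  induction P using Polynomial.induction_on with
  | C a =>
    rw [Polynomial.aeval_C, Algebra.algebraMap_eq_smul_one, cm_smul, cm_one, Matrix.mul_smul,
      Matrix.smul_mul, mul_one, one_mul]
  | add p q hp hq => rw [map_add, cm_add, mul_add, add_mul, hp, hq]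
  | monomial n a ih =>
    rw [pow_succ, ← mul_assoc, map_mul, Polynomial.aeval_X, cm_mul, ← mul_assoc, ih, mul_assoc, h,
      mul_assoc]

theorem aeval_mulVec {A : Matrix (V → Fin 2) (V → Fin 2) ℝ} {v : (V → Fin 2) → ℂ} {c : ℝ}
    (h : cm A *ᵥ v = (c : ℂ) • v) (P : Polynomial ℝ) :
    cm (Polynomial.aeval A P) *ᵥ v = ((P.eval c : ℝ) : ℂ) • v := by
  induction P using Polynomial.induction_on with
  | C a =>
    rw [Polynomial.aeval_C, Algebra.algebraMap_eq_smul_one, cm_smul, cm_one, Matrix.smul_mulVec,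
      Matrix.one_mulVec, Polynomial.eval_C]
  | add p q hp hq =>
    rw [map_add, cm_add, Matrix.add_mulVec, hp, hq, Polynomial.eval_add, ← add_smul,
      Complex.ofReal_add]
  | monomial n a ih =>
    rw [pow_succ, ← mul_assoc, map_mul, Polynomial.aeval_X, cm_mul, ← Matrix.mulVec_mulVec, h,
      Matrix.mulVec_smul, ih, smul_smul, Polynomial.eval_mul_X, Complex.ofReal_mul, mul_comm]

/-- Every function of `r` is a polynomial of `r (n - r + 1)`. -/
theorem exists_poly (n : ℕ) (g : ℕ → ℝ) :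
    ∃ P : Polynomial ℝ, ∀ r : ℕ, 2 * r ≤ n → P.eval ((r : ℝ) * ((n : ℝ) - r + 1)) = g r := by
  classical
  have hinj : Set.InjOn (fun r : ℕ => (r : ℝ) * ((n : ℝ) - r + 1))
      ((Finset.range (n / 2 + 1) : Finset ℕ) : Set ℕ) := by
    intro r hr s hs h
    have hr' : r < n / 2 + 1 := Finset.mem_range.1 hr
    have hs' : s < n / 2 + 1 := Finset.mem_range.1 hs
    have h1 : (r : ℝ) + s ≤ n := by
      have : r + s ≤ n := by omega
      exact_mod_cast this
    simp only at h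
    have h2 : ((r : ℝ) - s) * ((n : ℝ) + 1 - r - s) = 0 := by linear_combination h
    rcases mul_eq_zero.1 h2 with h3 | h3
    · exact_mod_cast sub_eq_zero.1 h3
    · exfalso; linarith
  refine ⟨Lagrange.interpolate (Finset.range (n / 2 + 1))
    (fun r : ℕ => (r : ℝ) * ((n : ℝ) - r + 1)) g, fun r hr => ?_⟩
  exact Lagrange.eval_interpolate_at_node g hinj (Finset.mem_range.2 (by omega))

/-- **The joint law with polynomials**: the law of `joint_law`, with the expectations of all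
polynomials in the Casimir operator and the block spin. -/
theorem joint_law_poly {W : Matrix (V → Fin 2) (V → Fin 2) ℝ} (hW : W.PosSemidef)
    (hsym : ∀ σ τ, W σ τ ≠ 0 → ∑ x, ((σ x : ℕ) : ℤ) = ∑ x, ((τ x : ℕ) : ℤ))
    (b : Finset V) :
    ∃ (ι : Type) (_ : Fintype ι) (μ : ι → ℝ) (N r p : ι → ℕ),
      (∀ i, 0 ≤ μ i) ∧ (∀ i, N i + 2 * r i = b.card ∧ p i ≤ N i) ∧
      (∀ P Q : Polynomial ℝ, ∑ i, μ i * (P.eval ((r i : ℝ) * ((b.card : ℝ) - r i + 1)) *
        Q.eval ((r i : ℝ) + p i)) =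
          Matrix.trace (W * (Polynomial.aeval (Om b) P * Polynomial.aeval (Dn b) Q))) ∧
      (∀ k : ℝ, 0 ≤ k → ∑ i, μ i * aN k (N i) =
        Real.cosh (k / 2) ^ b.card / 2 * ∫ φ in (0 : ℝ)..Real.pi,
          Real.sin φ * Matrix.trace (W * rotT b (Real.tanh (k / 2)) φ)) ∧
      (∀ k : ℝ, 0 ≤ k → ∀ m : ℕ, ∑ i, μ i * (aN k (N i) * ((p i : ℝ) / N i) ^ m) ≤
        Real.cosh (k / 2) ^ b.card / 2 * ∫ φ in (0 : ℝ)..Real.pi,
          Real.sin φ * (1 - Real.cos φ) ^ m *
            Matrix.trace (W * rotT b (Real.tanh (k / 2)) φ)) := by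
  obtain ⟨R, hR⟩ := cm_factor hW
  obtain ⟨ι, hι, u, hu, hlaw⟩ := law0 b R
  rw [← hR] at hlaw
  choose N r p hN hp hC hS hK using fun i => joint_all (hu i).1
    (hu i).2.choose_spec.choose_spec.1 (hu i).2.choose_spec.choose_spec.2
  have hsym' : ∀ σ τ, cm W σ τ ≠ 0 → nb univ σ = nb univ τ := by
    intro σ τ h1
    apply hsym
    intro h2
    apply h1
    rw [cm, Matrix.of_apply, h2]; simp
  -- traces of operators acting by real scalars
  have hscal : ∀ (X : Opr V) (y : ι → ℝ), Cas b * X = X * Cas b → Sg b sz * X = X * Sg b sz →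
      (∀ i, X *ᵥ u i = ((y i : ℝ) : ℂ) • u i) →
      (Matrix.trace (cm W * X)).re = ∑ i, (star (u i) ⬝ᵥ u i).re * y i := by
    intro X y h1 h2 h3
    rw [hlaw X h1 h2, Complex.re_sum]
    refine Finset.sum_congr rfl fun i _ => ?_
    rw [h3, dotProduct_smul, smul_eq_mul, Complex.re_ofReal_mul, mul_comm]
  have hT : ∀ k φ, Matrix.trace (cm W * Tw b k φ) =
      ((Real.cosh (k / 2) ^ b.card * Matrix.trace (W * rotT b (Real.tanh (k / 2)) φ) : ℝ) : ℂ) := by
    intro k φ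
    rw [Tw_eq, Matrix.mul_smul, Matrix.trace_smul, ← cm_mul, cm_trace, smul_eq_mul,
      ← Complex.ofReal_mul]
  have hAv : ∀ (k : ℝ) (w : ℝ → ℝ), Continuous w → (Matrix.trace (cm W * Av b k 0 w)).re =
      Real.cosh (k / 2) ^ b.card * ∫ φ in (0 : ℝ)..Real.pi,
        w φ * Matrix.trace (W * rotT b (Real.tanh (k / 2)) φ) := by
    intro k w hw
    rw [trace_Av b k hw hsym']
    have : (∫ θ in (0 : ℝ)..Real.pi, ((w θ : ℝ) : ℂ) * Matrix.trace (cm W * Tw b k θ)) =
        ((Real.cosh (k / 2) ^ b.card * ∫ φ in (0 : ℝ)..Real.pi,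
          w φ * Matrix.trace (W * rotT b (Real.tanh (k / 2)) φ) : ℝ) : ℂ) := by
      rw [← intervalIntegral.integral_const_mul, ← intervalIntegral.integral_ofReal]
      congr 1
      ext θ
      rw [hT]
      push_cast
      ring
    rw [this, Complex.ofReal_re]
  refine ⟨ι, hι, fun i => (star (u i) ⬝ᵥ u i).re, N, r, p, fun i => re_star_dot_nonneg _,
    fun i => ⟨hN i, hp i⟩, ?_, ?_, ?_⟩
  · intro P Q
    have c1 : Cas b * cm (Om b) = cm (Om b) * Cas b := by
      rw [cm_Om, Matrix.mul_sub, Matrix.sub_mul, Matrix.mul_smul, Matrix.smul_mul, mul_one,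
        one_mul]
    have c2 : Sg b sz * cm (Om b) = cm (Om b) * Sg b sz := by
      rw [cm_Om, Matrix.mul_sub, Matrix.sub_mul, Cas_Sz, Matrix.mul_smul, Matrix.smul_mul, mul_one,
        one_mul]
    have c3 : Cas b * cm (Dn b) = cm (Dn b) * Cas b := by
      rw [cm_Dn, Matrix.mul_sub, Matrix.sub_mul, Cas_Sz, Matrix.mul_smul, Matrix.smul_mul, mul_one,
        one_mul]
    have c4 : Sg b sz * cm (Dn b) = cm (Dn b) * Sg b sz := by
      rw [cm_Dn, Matrix.mul_sub, Matrix.sub_mul, Matrix.mul_smul, Matrix.smul_mul, mul_one,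
        one_mul]
    have e1 : ∀ i, cm (Om b) *ᵥ u i =
        (((r i : ℝ) * ((b.card : ℝ) - r i + 1) : ℝ) : ℂ) • u i := by
      intro i
      rw [cm_Om, Matrix.sub_mulVec, Matrix.smul_mulVec, Matrix.one_mulVec, hC, ← sub_smul,
          ← Complex.ofReal_sub]
      congr 2
      rw [← hN i]
      push_cast
      ring
    have e2 : ∀ i, cm (Dn b) *ᵥ u i = (((r i : ℝ) + p i : ℝ) : ℂ) • u i := by
      intro i
      rw [cm_Dn, Matrix.sub_mulVec, Matrix.smul_mulVec, Matrix.one_mulVec, hS, ← sub_smul,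
          ← Complex.ofReal_sub]
      congr 2
      rw [← hN i]
      push_cast
      ring
    have h := hscal (cm (Polynomial.aeval (Om b) P * Polynomial.aeval (Dn b) Q))
      (fun i => P.eval ((r i : ℝ) * ((b.card : ℝ) - r i + 1)) * Q.eval ((r i : ℝ) + p i))
      (by rw [cm_mul, ← mul_assoc, comm_cm_aeval c1, mul_assoc, comm_cm_aeval c3, mul_assoc])
      (by rw [cm_mul, ← mul_assoc, comm_cm_aeval c2, mul_assoc, comm_cm_aeval c4, mul_assoc])
      (fun i => by
        rw [cm_mul, ← Matrix.mulVec_mulVec, aeval_mulVec (e2 i), Matrix.mulVec_smul,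
          aeval_mulVec (e1 i), smul_smul, ← Complex.ofReal_mul, mul_comm])
    rw [← h, ← cm_mul, cm_trace, Complex.ofReal_re]
  · intro k hk
    have h := hscal (opA b k) (fun i => aN k (N i))
      (comm_Av0 b k (by fun_prop) fun θ => Cas_comm_E b k θ)
      (comm_Av0 b k (by fun_prop) fun θ => Sz_comm_E b k θ)
      (fun i => (hK i k hk).1)
    rw [← h, opA, hAv k _ (by fun_prop)]
    rw [div_mul_eq_mul_div, mul_div_assoc, ← intervalIntegral.integral_div]
    congr 1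
    congr 1
    ext φ
    ring
  · intro k hk m
    have hw : Continuous fun θ : ℝ => 1 / 2 * Real.sin θ * (1 - Real.cos θ) ^ m := by fun_prop
    have h1 : (Matrix.trace (cm W * Av b k 0 fun θ =>
        1 / 2 * Real.sin θ * (1 - Real.cos θ) ^ m)).re =
        ∑ i, ∫ θ in (0 : ℝ)..Real.pi, 1 / 2 * Real.sin θ * (1 - Real.cos θ) ^ m *
          (star (u i) ⬝ᵥ (E b k 0 θ *ᵥ u i)).re := by
      rw [hlaw _ (comm_Av0 b k hw fun θ => Cas_comm_E b k θ)
        (comm_Av0 b k hw fun θ => Sz_comm_E b k θ), Complex.re_sum]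
      exact Finset.sum_congr rfl fun i _ => form_Av b k hw (u i)
    have h2 : ∑ i, (star (u i) ⬝ᵥ u i).re * (aN k (N i) * ((p i : ℝ) / N i) ^ m) ≤
        ∑ i, ∫ θ in (0 : ℝ)..Real.pi, 1 / 2 * Real.sin θ * (1 - Real.cos θ) ^ m *
          (star (u i) ⬝ᵥ (E b k 0 θ *ᵥ u i)).re :=
      Finset.sum_le_sum fun i _ => moment (hu i).2.choose_spec.choose_spec.2 hk (hp i)
        (hK i k hk).1 (hK i k hk).2 m
    rw [← h1, hAv k _ hw] at h2
    refine h2.trans (le_of_eq ?_)
    rw [div_mul_eq_mul_div, mul_div_assoc, ← intervalIntegral.integral_div]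
    congr 1
    congr 1
    ext φ
    ring


open scoped Matrix.Norms.Operator in
theorem hasSum_exp_matrix (A : Matrix (V → Fin 2) (V → Fin 2) ℝ) :
    HasSum (fun n : ℕ => ((n.factorial : ℝ)⁻¹) • A ^ n) (NormedSpace.exp A) :=
  NormedSpace.exp_series_hasSum_exp' (𝕂 := ℝ) A

theorem law_exp {ι : Type} [Fintype ι] {μ α β' : ι → ℝ} {W A B : Matrix (V → Fin 2) (V → Fin 2) ℝ}
    (h : ∀ P Q : Polynomial ℝ, ∑ i, μ i * (P.eval (α i) * Q.eval (β' i)) =
      Matrix.trace (W * (Polynomial.aeval A P * Polynomial.aeval B Q)))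
    (P Q : Polynomial ℝ) :
    ∑ i, μ i * (Real.exp (P.eval (α i)) * Q.eval (β' i)) =
      Matrix.trace (W * (NormedSpace.exp (Polynomial.aeval A P) * Polynomial.aeval B Q)) := by
  have h1 : HasSum (fun n : ℕ => ∑ i, μ i *
      ((Polynomial.C ((n.factorial : ℝ)⁻¹) * P ^ n).eval (α i) * Q.eval (β' i)))
      (∑ i, μ i * (Real.exp (P.eval (α i)) * Q.eval (β' i))) := by
    refine hasSum_sum fun i _ => HasSum.mul_left _ (HasSum.mul_right _ ?_)
    have := NormedSpace.exp_series_hasSum_exp' (𝕂 := ℝ) (P.eval (α i))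
    rw [← Real.exp_eq_exp_ℝ] at this
    refine this.congr_fun ?_
    intro n
    simp
  have h2 : HasSum (fun n : ℕ => Matrix.trace (W * (Polynomial.aeval A
      (Polynomial.C ((n.factorial : ℝ)⁻¹) * P ^ n) * Polynomial.aeval B Q)))
      (Matrix.trace (W * (NormedSpace.exp (Polynomial.aeval A P) * Polynomial.aeval B Q))) := by
    have h3 := hasSum_exp_matrix (Polynomial.aeval A P)
    have hc : Continuous fun X : Matrix (V → Fin 2) (V → Fin 2) ℝ =>
        Matrix.trace (W * (X * Polynomial.aeval B Q)) := by fun_prop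
    have h4 := h3.map (⟨⟨fun X : Matrix (V → Fin 2) (V → Fin 2) ℝ =>
        Matrix.trace (W * (X * Polynomial.aeval B Q)), by simp⟩, by
          intro X Y
          simp [Matrix.add_mul, Matrix.mul_add]⟩ :
            Matrix (V → Fin 2) (V → Fin 2) ℝ →+ ℝ) hc
    refine h4.congr_fun ?_
    intro n
    simp [Algebra.algebraMap_eq_smul_one]
  simp only [h] at h1
  exact h1.unique h2

theorem law_exp2 {ι : Type} [Fintype ι] {μ α β' : ι → ℝ} {W A B : Matrix (V → Fin 2) (V → Fin 2) ℝ}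
    (h : ∀ P Q : Polynomial ℝ, ∑ i, μ i * (P.eval (α i) * Q.eval (β' i)) =
      Matrix.trace (W * (Polynomial.aeval A P * Polynomial.aeval B Q)))
    (P Q : Polynomial ℝ) :
    ∑ i, μ i * (Real.exp (P.eval (α i)) * Real.exp (Q.eval (β' i))) =
      Matrix.trace (W * (NormedSpace.exp (Polynomial.aeval A P) *
        NormedSpace.exp (Polynomial.aeval B Q))) := by
  have h1 : HasSum (fun n : ℕ => ∑ i, μ i *
      (Real.exp (P.eval (α i)) * (Polynomial.C ((n.factorial : ℝ)⁻¹) * Q ^ n).eval (β' i)))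
      (∑ i, μ i * (Real.exp (P.eval (α i)) * Real.exp (Q.eval (β' i)))) := by
    refine hasSum_sum fun i _ => HasSum.mul_left _ (HasSum.mul_left _ ?_)
    have := NormedSpace.exp_series_hasSum_exp' (𝕂 := ℝ) (Q.eval (β' i))
    rw [← Real.exp_eq_exp_ℝ] at this
    refine this.congr_fun ?_
    intro n
    simp
  have h2 : HasSum (fun n : ℕ => Matrix.trace (W * (NormedSpace.exp (Polynomial.aeval A P) *
      Polynomial.aeval B (Polynomial.C ((n.factorial : ℝ)⁻¹) * Q ^ n))))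
      (Matrix.trace (W * (NormedSpace.exp (Polynomial.aeval A P) *
        NormedSpace.exp (Polynomial.aeval B Q)))) := by
    have h3 := hasSum_exp_matrix (Polynomial.aeval B Q)
    have hc : Continuous fun X : Matrix (V → Fin 2) (V → Fin 2) ℝ =>
        Matrix.trace (W * (NormedSpace.exp (Polynomial.aeval A P) * X)) := by fun_prop
    have h4 := h3.map (⟨⟨fun X : Matrix (V → Fin 2) (V → Fin 2) ℝ =>
        Matrix.trace (W * (NormedSpace.exp (Polynomial.aeval A P) * X)), by simp⟩, by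
          intro X Y
          simp [Matrix.mul_add]⟩ :
            Matrix (V → Fin 2) (V → Fin 2) ℝ →+ ℝ) hc
    refine h4.congr_fun ?_
    intro n
    simp [Algebra.algebraMap_eq_smul_one]
  simp only [law_exp h] at h1
  exact h1.unique h2

/-- Functions of `r` only: for every `g` there is a polynomial `G` of the exchange operators of
the block with `E[P(g(r))] = trace (W P(G))` and `E[exp (t g(r))] = trace (W exp (t G))`. -/
theorem law_fun {ι : Type} [Fintype ι] {μ : ι → ℝ} {N r p : ι → ℕ} {b : Finset V}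
    {W : Matrix (V → Fin 2) (V → Fin 2) ℝ} (hN : ∀ i, N i + 2 * r i = b.card)
    (h : ∀ P Q : Polynomial ℝ, ∑ i, μ i * (P.eval ((r i : ℝ) * ((b.card : ℝ) - r i + 1)) *
      Q.eval ((r i : ℝ) + p i)) =
        Matrix.trace (W * (Polynomial.aeval (Om b) P * Polynomial.aeval (Dn b) Q)))
    {g : ℕ → ℝ} {G : Polynomial ℝ}
    (hG : ∀ r : ℕ, 2 * r ≤ b.card → G.eval ((r : ℝ) * ((b.card : ℝ) - r + 1)) = g r) :
    (∀ P : Polynomial ℝ, ∑ i, μ i * P.eval (g (r i)) =
      Matrix.trace (W * Polynomial.aeval (Polynomial.aeval (Om b) G) P)) ∧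
    (∀ t : ℝ, ∑ i, μ i * Real.exp (t * g (r i)) =
      Matrix.trace (W * NormedSpace.exp (t • Polynomial.aeval (Om b) G))) := by
  have hr : ∀ i, G.eval ((r i : ℝ) * ((b.card : ℝ) - r i + 1)) = g (r i) := fun i =>
    hG _ (by have := hN i; omega)
  constructor
  · intro P
    have h1 := h (P.comp G) 1
    simp only [Polynomial.eval_comp, hr, Polynomial.eval_one, mul_one, map_one,
      Polynomial.aeval_comp] at h1
    exact h1
  · intro t
    have h1 := law_exp h (Polynomial.C t * G) 1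
    simp only [Polynomial.eval_mul, Polynomial.eval_C, hr, Polynomial.eval_one, mul_one, map_one,
      map_mul, Polynomial.aeval_C, Algebra.algebraMap_eq_smul_one, Matrix.smul_mul, one_mul] at h1
    exact h1

end Vale.Agent.P361.LRO.TwJ
end

section

/-!
P361, stage 3, block (D): `DirStmt3` and `DirSharpStmt3`.
-/

namespace Vale.Agent.P361.LRO.S3

open Finset Matrix Filter

noncomputable section

/-! ### The scalar function `aN` -/

theorem dd_zero' (k : ℝ) : TwJ.dd k 0 = Real.exp (k / 2) := by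
  rw [TwJ.dd, Real.cos_zero, mul_one, Real.cosh_add_sinh]

theorem dd_pi' (k : ℝ) : TwJ.dd k Real.pi = Real.exp (-(k / 2)) := by
  rw [TwJ.dd, Real.cos_pi, Real.cosh_eq, Real.sinh_eq]
  ring

theorem aN_closed (k : ℝ) (N : ℕ) : ((N : ℝ) + 1) * (2 * Real.sinh (k / 2)) * TwJ.aN k N =
    Real.exp (k / 2) ^ (N + 1) - Real.exp (-(k / 2)) ^ (N + 1) := by
  have h1 : ∀ θ ∈ Set.uIcc (0 : ℝ) Real.pi, HasDerivAt (fun θ => -(TwJ.dd k θ ^ (N + 1)))
      (((N : ℝ) + 1) * (2 * Real.sinh (k / 2)) * (1 / 2 * Real.sin θ ^ 1 * TwJ.dd k θ ^ N)) θ := by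
    intro θ _
    have h2 := ((TwJ.hasDerivAt_dd k θ).pow (N + 1)).neg
    refine h2.congr_deriv ?_
    push_cast
    ring
  have h3 := intervalIntegral.integral_eq_sub_of_hasDerivAt h1
    (((TwJ.cont_a k N).const_mul _).intervalIntegrable _ _)
  rw [intervalIntegral.integral_const_mul] at h3
  rw [TwJ.aN, h3, dd_zero', dd_pi']
  ring

theorem aN_up_mul {k : ℝ} (hk : 0 < k) (N r : ℕ) :
    ((N : ℝ) + 1) * TwJ.aN k N ≤
      Real.exp (-(k * r)) * ((((N + 2 * r : ℕ) : ℝ) + 1) * TwJ.aN k (N + 2 * r)) := by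
  have hs : 0 < 2 * Real.sinh (k / 2) := by
    have := Real.sinh_pos_iff.2 (show 0 < k / 2 by linarith)
    linarith
  refine le_of_mul_le_mul_left ?_ hs
  have h1 := aN_closed k N
  have h2 := aN_closed k (N + 2 * r)
  have e1 : 2 * Real.sinh (k / 2) * (((N : ℝ) + 1) * TwJ.aN k N) =
      Real.exp (k / 2) ^ (N + 1) - Real.exp (-(k / 2)) ^ (N + 1) := by
    rw [← h1]; ring
  have e2 : 2 * Real.sinh (k / 2) * (Real.exp (-(k * r)) *
      ((((N + 2 * r : ℕ) : ℝ) + 1) * TwJ.aN k (N + 2 * r))) =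
      Real.exp (-(k * r)) * (Real.exp (k / 2) ^ (N + 2 * r + 1) -
        Real.exp (-(k / 2)) ^ (N + 2 * r + 1)) := by
    rw [← h2]; ring
  rw [e1, e2, mul_sub]
  have e3 : Real.exp (-(k * r)) * Real.exp (k / 2) ^ (N + 2 * r + 1) =
      Real.exp (k / 2) ^ (N + 1) := by
    rw [← Real.exp_nat_mul, ← Real.exp_nat_mul, ← Real.exp_add]
    congr 1
    push_cast
    ring
  have e4 : Real.exp (-(k * r)) * Real.exp (-(k / 2)) ^ (N + 2 * r + 1) ≤
      Real.exp (-(k / 2)) ^ (N + 1) := by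
    rw [← Real.exp_nat_mul, ← Real.exp_nat_mul, ← Real.exp_add]
    refine Real.exp_le_exp.2 ?_
    push_cast
    have : 0 ≤ k * r := by positivity
    nlinarith
  rw [e3]
  linarith

theorem aN_up {k : ℝ} (hk : 0 < k) {N r n : ℕ} (h : N + 2 * r = n) (hr : 4 * r ≤ n + 3) :
    TwJ.aN k N ≤ 4 * Real.exp (-(k * r)) * TwJ.aN k n := by
  have h1 := aN_up_mul hk N r
  rw [h] at h1
  have ha := TwJ.aN_pos hk.le n
  have h2 : ((n : ℝ) + 1) ≤ 4 * ((N : ℝ) + 1) := by
    have : n + 1 ≤ 4 * (N + 1) := by omega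
    exact_mod_cast this
  have hN : (0 : ℝ) < (N : ℝ) + 1 := by positivity
  have h3 : Real.exp (-(k * r)) * (((n : ℝ) + 1) * TwJ.aN k n) ≤
      Real.exp (-(k * r)) * ((4 * ((N : ℝ) + 1)) * TwJ.aN k n) := by
    refine mul_le_mul_of_nonneg_left ?_ (Real.exp_pos _).le
    exact mul_le_mul_of_nonneg_right h2 ha.le
  have h4 := h1.trans h3
  refine le_of_mul_le_mul_left ?_ hN
  calc _ ≤ _ := h4
    _ = _ := by ring

/-- Upper bound for the ratio. -/
theorem ratio_up {k q : ℝ} (hk : 0 < k) (hq : q ≤ 1 / 4) {N r n : ℕ} (h : N + 2 * r = n)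
    (hqr : q * n ≤ r) :
    TwJ.aN k N / TwJ.aN k n ≤ 4 * Real.exp (-(k * n * q)) := by
  have ha := TwJ.aN_pos hk.le n
  rw [div_le_iff₀ ha]
  have key : ∀ (N' r' : ℕ), N' + 2 * r' = n → 4 * r' ≤ n + 3 → q * n ≤ r' → N ≤ N' →
      TwJ.aN k N ≤ 4 * Real.exp (-(k * n * q)) * TwJ.aN k n := by
    intro N' r' h1 h2 h3 h4
    have h5 := aN_up hk h1 h2
    have h6 := TwJ.aN_mono hk.le h4
    have h7 : Real.exp (-(k * r')) ≤ Real.exp (-(k * n * q)) := by
      refine Real.exp_le_exp.2 ?_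
      have := mul_le_mul_of_nonneg_left h3 hk.le
      linarith
    have h8 : 4 * Real.exp (-(k * r')) * TwJ.aN k n ≤ 4 * Real.exp (-(k * n * q)) * TwJ.aN k n :=
      mul_le_mul_of_nonneg_right (by linarith) ha.le
    exact h6.trans (h5.trans h8)
  by_cases hr : 4 * r ≤ n + 3
  · exact key N r h hr hqr le_rfl
  · push Not at hr
    have h1 : (n - 2 * ((n + 3) / 4)) + 2 * ((n + 3) / 4) = n := by omega
    have h2 : 4 * ((n + 3) / 4) ≤ n + 3 := by omega
    have h3 : n ≤ 4 * ((n + 3) / 4) := by omega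
    have h4 : N ≤ n - 2 * ((n + 3) / 4) := by omega
    refine key _ _ h1 h2 ?_ h4
    have h5 : (n : ℝ) ≤ 4 * (((n + 3) / 4 : ℕ) : ℝ) := by exact_mod_cast h3
    have hn : (0 : ℝ) ≤ n := Nat.cast_nonneg n
    have h6 : q * n ≤ 1 / 4 * n := mul_le_mul_of_nonneg_right hq hn
    linarith

/-! ### The Gibbs expectation is linear -/

variable {V : Type} [Fintype V] [DecidableEq V]

theorem gib_CM (L : List (V × V)) (β : ℝ) (h : V → ℝ) (b : Finset V) :
    gib L β h (CM b) = ∑ x ∈ b, ∑ y ∈ b, gib L β h (hM x y) := by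
  unfold gib CM
  rw [Finset.mul_sum, Matrix.trace_sum, Finset.sum_div]
  refine Finset.sum_congr rfl fun x _ => ?_
  rw [Finset.mul_sum, Matrix.trace_sum, Finset.sum_div]

theorem Db_eq_yb (L : List (V × V)) (β : ℝ) (h : V → ℝ) (b : Finset V) :
    Db L β h b = 2 * yb L β h b := by
  unfold Db yb
  rw [gib_CM]
  ring

/-- **Block (D), closure form.** -/
theorem dirStmt3 : DirStmt3 := by
  refine ⟨4, by norm_num, ?_⟩
  intro V _ _ L β h K κ b hβ hh hK hκ hb hf
  have hK0 : 0 < K := by linarith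
  have h1 := dir_gibbs L hβ hh hb hK0 hκ hf
  obtain ⟨ι, hι, μ, N, r, p, H⟩ := exists_blockLaw L hβ hh b hK0.le hκ.le hf
  have h2 := H.mean_D_le hb
  have h3 : 0 ≤ Db L β h b := by
    refine le_trans (Finset.sum_nonneg fun i _ => mul_nonneg (H.nonneg i) ?_) h2
    positivity
  rw [Db_eq_yb] at h1 h3
  have hy : 0 ≤ yb L β h b := by linarith
  have e : (1 + 2 * K / κ) * (2 * yb L β h b) + 2 / κ ≤
      4 * (1 + K / κ) * yb L β h b + 4 / κ := by
    have e1 : 2 * K / κ = 2 * (K / κ) := by ring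
    have e2 : 4 / κ = 2 / κ + 2 / κ := by ring
    have e3 : 0 < 2 / κ := by positivity
    rw [e1, e2]
    nlinarith
  linarith

/-- **Block (D), sharp form.** -/
theorem dirSharpStmt3 : DirSharpStmt3 := by
  refine ⟨8, by norm_num, ?_⟩
  intro V _ _ L β h b hβ hh hb
  obtain ⟨ι, hι, μ, N, r, p, h1, h2, hP, h5, h6⟩ :=
    TwJ.joint_law_poly (Tw.expH_psd L β h) (expH_cons' L β h) b
  have hT := Tw.trace_expH_pos L β h
  set T := Matrix.trace (NormedSpace.exp (-β • ham L h)) with hTdef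
  have hn : (0 : ℝ) < b.card := by exact_mod_cast hb.card_pos
  have hPP : ∀ P : Polynomial ℝ, ∑ i, μ i / T * P.eval ((r i : ℝ) * ((b.card : ℝ) - r i + 1)) =
      gib L β h (Polynomial.aeval (CM b) P) := by
    intro P
    have h := hP P 1
    simp only [Polynomial.eval_one, mul_one, map_one] at h
    unfold gib
    rw [← hTdef]
    have e : ∑ i, μ i / T * P.eval ((r i : ℝ) * ((b.card : ℝ) - r i + 1)) =
        (∑ i, μ i * P.eval ((r i : ℝ) * ((b.card : ℝ) - r i + 1))) / T := by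
      rw [Finset.sum_div]
      exact Finset.sum_congr rfl fun i _ => by ring
    rw [e, h]
    rfl
  have hsum : ∑ i, μ i / T = 1 := by
    have h := hPP 1
    simp only [Polynomial.eval_one, mul_one, map_one] at h
    rw [h]
    unfold gib
    rw [mul_one, div_self hT.ne']
  refine ⟨ι, hι, fun i => μ i / T, r, fun i => div_nonneg (h1 i) hT.le,
    fun i => by have := (h2 i).1; omega, hsum, hPP, ?_⟩
  intro K κ q hK hκ hq0 hq hf
  have hK0 : 0 < K := by linarith
  have hmean : (∑ i, μ i / T * ((r i : ℝ) + p i)) = ∑ x ∈ b, rho L β h x := by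
    have h := hP 1 Polynomial.X
    simp only [Polynomial.eval_one, one_mul, map_one, Polynomial.aeval_X, Polynomial.eval_X] at h
    have e : ∑ i, μ i / T * ((r i : ℝ) + p i) = (∑ i, μ i * ((r i : ℝ) + p i)) / T := by
      rw [Finset.sum_div]
      exact Finset.sum_congr rfl fun i _ => by ring
    rw [e, h, TwJ.Dn, Finset.mul_sum, Matrix.trace_sum, Finset.sum_div]
    rfl
  have hm := exp_mom_of (W := NormedSpace.exp (-β • ham L h)) hK0.le hκ.le h5 h6
    (Bloch.twist_gibbs_pow L hβ hh hK0.le hκ.le b hf)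
  have hcas : ∑ i, μ i / T * ((r i : ℝ) * ((b.card : ℝ) - r i + 1)) =
      ∑ x ∈ b, ∑ y ∈ b, gib L β h (hM x y) := by
    have h := hPP Polynomial.X
    simp only [Polynomial.eval_X, Polynomial.aeval_X] at h
    rw [h, gib_CM]
  have H : BlockLaw L β h b K κ (fun i => μ i / T) N r p := by
    refine ⟨fun i => div_nonneg (h1 i) hT.le, hsum, fun i => (h2 i).1, fun i => (h2 i).2, hmean,
      hcas, ?_⟩
    have e1 : ∑ i, μ i / T * (TwJ.aN (K / b.card) (N i) *
        Real.exp (κ * ((p i : ℝ) / N i) / 2)) =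
        (∑ i, μ i * (TwJ.aN (K / b.card) (N i) * Real.exp (κ * ((p i : ℝ) / N i) / 2))) / T := by
      rw [Finset.sum_div]
      exact Finset.sum_congr rfl fun i _ => by ring
    have e2 : 2 * ∑ i, μ i / T * TwJ.aN (K / b.card) (N i) =
        (2 * ∑ i, μ i * TwJ.aN (K / b.card) (N i)) / T := by
      rw [Finset.mul_sum, Finset.mul_sum, Finset.sum_div]
      exact Finset.sum_congr rfl fun i _ => by ring
    rw [e1, e2]
    exact div_le_div_of_nonneg_right hm hT.le
  have hk : 0 < K / b.card := by positivity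
  have hJ := jensen_dir Finset.univ (fun i => μ i / T) (fun i => (r i : ℝ) / b.card)
    (fun i => (p i : ℝ) / N i)
    (fun i => TwJ.aN (K / b.card) (N i) / TwJ.aN (K / b.card) b.card) (K := K)
    (c := κ / (2 * K)) (fun i _ => H.nonneg i) H.sum_one hK0
    (fun i _ => H.ratio_ge hb hK0.le i) (H.mom' hK0)
  have hrho := H.rho_le hb
  have hED : ∑ i, μ i / T * ((r i : ℝ) / b.card) = (∑ i, μ i / T * (r i : ℝ)) / b.card := by
    rw [Finset.sum_div]
    exact Finset.sum_congr rfl fun i _ => by ring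
  -- the mean of the ratio
  have hR : ∑ i, μ i / T * (TwJ.aN (K / b.card) (N i) / TwJ.aN (K / b.card) b.card) ≤
      4 * ((∑ i, if (r i : ℝ) < q * b.card then μ i / T else 0) + Real.exp (-(K * q))) := by
    have h7 : ∀ i, μ i / T * (TwJ.aN (K / b.card) (N i) / TwJ.aN (K / b.card) b.card) ≤
        (if (r i : ℝ) < q * b.card then μ i / T else 0) +
          μ i / T * (4 * Real.exp (-(K * q))) := by
      intro i
      have hwi := H.nonneg i
      have he := (Real.exp_pos (-(K * q))).le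
      split_ifs with hlt
      · have := mul_le_of_le_one_right hwi (H.ratio_le hK0.le i)
        have := mul_nonneg hwi (by linarith : (0 : ℝ) ≤ 4 * Real.exp (-(K * q)))
        linarith
      · have h8 := ratio_up hk hq (h2 i).1 (not_lt.1 hlt)
        have e3 : K / (b.card : ℝ) * b.card * q = K * q := by field_simp
        rw [e3] at h8
        have := mul_le_mul_of_nonneg_left h8 hwi
        linarith
    refine (Finset.sum_le_sum fun i _ => h7 i).trans ?_
    rw [Finset.sum_add_distrib, ← Finset.sum_mul, hsum]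
    have h9 : 0 ≤ ∑ i, (if (r i : ℝ) < q * b.card then μ i / T else 0) := by
      refine Finset.sum_nonneg fun i _ => ?_
      split_ifs
      · exact H.nonneg i
      · exact le_rfl
    linarith
  have hRpos : 0 < ∑ i, μ i / T * (TwJ.aN (K / b.card) (N i) / TwJ.aN (K / b.card) b.card) := by
    obtain ⟨i, hi, hwi⟩ : ∃ i ∈ (Finset.univ : Finset ι), μ i / T ≠ 0 := by
      by_contra hcon
      push Not at hcon
      rw [Finset.sum_eq_zero hcon] at hsum
      exact zero_ne_one hsum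
    have hpos : ∀ j, 0 < TwJ.aN (K / b.card) (N j) / TwJ.aN (K / b.card) b.card := fun j =>
      div_pos (TwJ.aN_pos hk.le _) (TwJ.aN_pos hk.le _)
    exact Finset.sum_pos' (fun j _ => mul_nonneg (H.nonneg j) (hpos j).le)
      ⟨i, hi, mul_pos (lt_of_le_of_ne (H.nonneg i) hwi.symm) (hpos i)⟩
  have hlog : Real.log (2 * ∑ i, μ i / T *
      (TwJ.aN (K / b.card) (N i) / TwJ.aN (K / b.card) b.card)) ≤
      Real.log (8 * ((∑ i, if (r i : ℝ) < q * b.card then μ i / T else 0) +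
        Real.exp (-(K * q)))) :=
    Real.log_le_log (by linarith) (by linarith)
  set ED := (∑ i, μ i / T * (r i : ℝ)) / b.card with hEDdef
  set EX := ∑ i, μ i / T * ((p i : ℝ) / N i) with hEX
  set LG := Real.log (8 * ((∑ i, if (r i : ℝ) < q * b.card then μ i / T else 0) +
        Real.exp (-(K * q)))) with hLG
  rw [hED] at hJ hrho
  have hX0 : 0 ≤ EX := Finset.sum_nonneg fun i _ => mul_nonneg (H.nonneg i) (by positivity)
  have h10 : κ / (2 * K) * EX ≤ ED + 1 / K * LG := by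
    have := mul_le_mul_of_nonneg_left hlog (show 0 ≤ 1 / K by positivity)
    linarith
  have h11 : 0 ≤ ED + 1 / K * LG := le_trans (by positivity) h10
  have h12 : EX ≤ 2 * (K / κ) * (ED + 1 / K * LG) := by
    have h13 : 0 < 2 * (K / κ) := by positivity
    have h14 := mul_le_mul_of_nonneg_left h10 h13.le
    have e1 : 2 * (K / κ) * (κ / (2 * K) * EX) = EX := by field_simp
    rw [e1] at h14
    exact h14
  have h15 : 2 * (K / κ) * (ED + 1 / K * LG) ≤ 8 * (K / κ) * (ED + 1 / K * LG) := by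
    have : 0 ≤ K / κ := by positivity
    nlinarith
  linarith

end

end Vale.Agent.P361.LRO.S3
end

section

/-! # P361 LRO, stage 3: local comparison with the free region `Q` (helper348)

`⟨W⟩ ≤ log tr_Q e^{B + W} - log tr_Q e^{B} + G` for observables `W` of a region `Q`, `B` = exponent of
the free region `Q` (fields included, any fields), `G` = `β` times the number of boundary bonds. -/

namespace Vale.Agent.P361.LRO.Energy

open Matrix Finset
open scoped ComplexOrder Kronecker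

set_option linter.unusedSectionVars false

noncomputable section

variable {V : Type} [Fintype V] [DecidableEq V] {Q : Finset V}

/-- configurations inside `Q`, all up outside -/
def inQ (Q : Finset V) (q : ({x // ¬ x ∉ Q}) → Fin 2) : Cfg V := splitQ Q (0, q)

theorem inQ_in (q : ({x // ¬ x ∉ Q}) → Fin 2) {x : V} (hx : ¬ x ∉ Q) : inQ Q q x = q ⟨x, hx⟩ :=
  splitQ_in (0, q) hx

theorem inQ_injective : Function.Injective (inQ Q) := by
  intro s t h
  have := (splitQ Q).injective h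
  exact (Prod.mk.inj this).2

/-- an operator which acts on `Q` only -/
def OnQ (Q : Finset V) (A : Matrix (Cfg V) (Cfg V) ℂ) : Prop :=
  ∀ s t q q', A (splitQ Q (s, q)) (splitQ Q (t, q')) = if s = t then A (inQ Q q) (inQ Q q') else 0

theorem onQ_add {A B : Matrix (Cfg V) (Cfg V) ℂ} (hA : OnQ Q A) (hB : OnQ Q B) : OnQ Q (A + B) := by
  intro s t q q'
  simp only [Matrix.add_apply, hA s t q q', hB s t q q']
  split_ifs <;> simp

theorem onQ_smul (c : ℂ) {A : Matrix (Cfg V) (Cfg V) ℂ} (hA : OnQ Q A) : OnQ Q (c • A) := by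
  intro s t q q'
  simp only [Matrix.smul_apply, hA s t q q']
  split_ifs <;> simp

theorem onQ_sub {A B : Matrix (Cfg V) (Cfg V) ℂ} (hA : OnQ Q A) (hB : OnQ Q B) : OnQ Q (A - B) := by
  intro s t q q'
  simp only [Matrix.sub_apply, hA s t q q', hB s t q q']
  split_ifs <;> simp

theorem onQ_neg {A : Matrix (Cfg V) (Cfg V) ℂ} (hA : OnQ Q A) : OnQ Q (-A) := by
  intro s t q q'
  simp only [Matrix.neg_apply, hA s t q q']
  split_ifs <;> simp

theorem onQ_sum {κ : Type*} (s : Finset κ) {A : κ → Matrix (Cfg V) (Cfg V) ℂ} (hA : ∀ k ∈ s, OnQ Q (A k)) :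
    OnQ Q (∑ k ∈ s, A k) := by
  classical
  induction s using Finset.induction_on with
  | empty =>
    intro s t q q'
    simp
  | insert a s ha ih =>
    rw [Finset.sum_insert ha]
    exact onQ_add (hA a (Finset.mem_insert_self _ _)) (ih fun k hk => hA k (Finset.mem_insert_of_mem hk))

theorem splitQ_eq_iff' (s t : ({x // x ∉ Q}) → Fin 2) (q q' : ({x // ¬ x ∉ Q}) → Fin 2) :
    splitQ Q (s, q) = splitQ Q (t, q') ↔ s = t ∧ inQ Q q = inQ Q q' := by
  rw [(splitQ Q).injective.eq_iff, inQ_injective.eq_iff, Prod.mk.injEq]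

theorem onQ_one : OnQ Q (1 : Matrix (Cfg V) (Cfg V) ℂ) := by
  intro s t q q'
  simp only [Matrix.one_apply, splitQ_eq_iff']
  split_ifs <;> simp_all

theorem onQ_mul {A B : Matrix (Cfg V) (Cfg V) ℂ} (hA : OnQ Q A) (hB : OnQ Q B) : OnQ Q (A * B) := by
  intro s t q q'
  have key : ∀ s t q q', (A * B) (splitQ Q (s, q)) (splitQ Q (t, q')) =
      if s = t then ∑ r : ({x // ¬ x ∉ Q}) → Fin 2, A (inQ Q q) (inQ Q r) * B (inQ Q r) (inQ Q q') else 0 := by
    intro s t q q'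
    rw [Matrix.mul_apply, ← (splitQ Q).sum_comp, Fintype.sum_prod_type]
    simp only [hA s _ q _, hB _ t _ q']
    by_cases hst : s = t
    · subst hst
      rw [if_pos rfl, Finset.sum_eq_single s]
      · simp
      · intro r _ hr
        simp [Ne.symm hr]
      · intro h; exact absurd (Finset.mem_univ _) h
    · rw [if_neg hst]
      refine Finset.sum_eq_zero fun r _ => ?_
      by_cases h1 : s = r
      · subst h1; simp [hst]
      · simp [h1]
  have h0 : (A * B) (inQ Q q) (inQ Q q') =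
      ∑ r : ({x // ¬ x ∉ Q}) → Fin 2, A (inQ Q q) (inQ Q r) * B (inQ Q r) (inQ Q q') := by
    have := key 0 0 q q'
    rwa [if_pos rfl] at this
  rw [key, h0]

theorem onQ_szM {x : V} (hx : x ∈ Q) : OnQ Q (szM x) := by
  have hx' : ¬ x ∉ Q := not_not.2 hx
  intro s t q q'
  simp only [szM, Matrix.diagonal_apply, splitQ_eq_iff', inQ_in _ hx', splitQ_in _ hx']
  by_cases h1 : s = t
  · simp [h1]
  · simp [h1]

theorem swap_comp_split' {x y : V} (hx : ¬ x ∉ Q) (hy : ¬ y ∉ Q) (s : ({x // x ∉ Q}) → Fin 2)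
    (q : ({x // ¬ x ∉ Q}) → Fin 2) : splitQ Q (s, q) ∘ Equiv.swap x y =
      splitQ Q (s, q ∘ Equiv.swap ⟨x, hx⟩ ⟨y, hy⟩) := by
  funext z
  by_cases hz : z ∉ Q
  · have h1 : z ≠ x := by rintro rfl; exact hx hz
    have h2 : z ≠ y := by rintro rfl; exact hy hz
    rw [splitQ_out _ hz, Function.comp_apply, Equiv.swap_apply_of_ne_of_ne h1 h2, splitQ_out _ hz]
  · rw [splitQ_in _ hz, Function.comp_apply]
    have h1 : Equiv.swap x y z = ((Equiv.swap (⟨x, hx⟩ : {x // ¬ x ∉ Q}) ⟨y, hy⟩ ⟨z, hz⟩ : {x // ¬ x ∉ Q}) : V) := by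
      rw [Equiv.swap_apply_def, Equiv.swap_apply_def]
      simp only [Subtype.mk.injEq]
      split_ifs <;> rfl
    have h2 : ¬ Equiv.swap x y z ∉ Q := by
      rw [h1]
      exact (Equiv.swap (⟨x, hx⟩ : {x // ¬ x ∉ Q}) ⟨y, hy⟩ ⟨z, hz⟩).property
    rw [splitQ_in _ h2]
    simp only [Function.comp_apply]
    congr 1
    exact Subtype.ext h1

theorem onQ_swapM {x y : V} (hx : x ∈ Q) (hy : y ∈ Q) : OnQ Q (swapM x y) := by
  have hx' : ¬ x ∉ Q := not_not.2 hx
  have hy' : ¬ y ∉ Q := not_not.2 hy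
  intro s t q q'
  have h0 : inQ Q q ∘ Equiv.swap x y = inQ Q (q ∘ Equiv.swap ⟨x, hx'⟩ ⟨y, hy'⟩) :=
    swap_comp_split' hx' hy' 0 q
  simp only [swapM, Matrix.of_apply, h0, swap_comp_split' hx' hy', splitQ_eq_iff']
  by_cases h1 : s = t
  · simp [h1]
  · simp [h1]

theorem onQ_hM {x y : V} (hx : x ∈ Q) (hy : y ∈ Q) : OnQ Q (hM x y) :=
  onQ_smul _ (onQ_sub onQ_one (onQ_swapM hx hy))

/-- the operator of the region `Q` -/
def resQ (Q : Finset V) (B : Matrix (Cfg V) (Cfg V) ℂ) :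
    Matrix (({x // ¬ x ∉ Q}) → Fin 2) (({x // ¬ x ∉ Q}) → Fin 2) ℂ := B.submatrix (inQ Q) (inQ Q)

theorem resQ_add (A B : Matrix (Cfg V) (Cfg V) ℂ) : resQ Q (A + B) = resQ Q A + resQ Q B := rfl

theorem resQ_isHermitian {B : Matrix (Cfg V) (Cfg V) ℂ} (hB : B.IsHermitian) :
    (resQ Q B).IsHermitian := hB.submatrix _

/-- `tr exp (A + B)` factorises -/
theorem tr_exp_off_on {A B : Matrix (Cfg V) (Cfg V) ℂ} (hA : OffQ Q A) (hAh : A.IsHermitian)
    (hB : OnQ Q B) (hBh : B.IsHermitian) :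
    (trace (NormedSpace.exp (A + B))).re =
      (trace (NormedSpace.exp (A.submatrix (extQ Q) (extQ Q)))).re *
        (trace (NormedSpace.exp (resQ Q B))).re := by
  have h1 : (A + B).submatrix (splitQ Q) (splitQ Q) =
      (A.submatrix (extQ Q) (extQ Q)) ⊗ₖ (1 : Matrix (({x // ¬ x ∉ Q}) → Fin 2) (({x // ¬ x ∉ Q}) → Fin 2) ℂ) +
      (1 : Matrix (({x // x ∉ Q}) → Fin 2) (({x // x ∉ Q}) → Fin 2) ℂ) ⊗ₖ resQ Q B := by
    ext ⟨s, q⟩ ⟨t, q'⟩
    rw [Matrix.submatrix_apply, Matrix.add_apply, hA s t q q', hB s t q q', Matrix.add_apply,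
      Matrix.kroneckerMap_apply, Matrix.kroneckerMap_apply, Matrix.one_apply, Matrix.one_apply,
      Matrix.submatrix_apply, resQ, Matrix.submatrix_apply]
    split_ifs <;> simp
  rw [← trace_exp_submatrix (splitQ Q), h1,
    Vale.Agent.P361.B.trace_exp_kron (hAh.submatrix (extQ Q)) (resQ_isHermitian hBh)]
  rw [Complex.ofReal_re, trace_exp_re (hAh.submatrix (extQ Q)), trace_exp_re (resQ_isHermitian hBh),
    Fintype.sum_prod_type, Finset.sum_mul_sum]
  simp only [Real.exp_add]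

/-- **Local comparison.** -/
theorem local_cmp {A B W Y : Matrix (Cfg V) (Cfg V) ℂ} (hA : OffQ Q A) (hAh : A.IsHermitian)
    (hB : OnQ Q B) (hBh : B.IsHermitian) (hW : OnQ Q W) (hWh : W.IsHermitian)
    (hY : Y.PosSemidef) {G : ℝ} (hG : (((G : ℂ) • (1 : Matrix (Cfg V) (Cfg V) ℂ)) - Y).PosSemidef) :
    ex (A + B - Y) W ≤ Real.log (trace (NormedSpace.exp (resQ Q (B + W)))).re -
      Real.log (trace (NormedSpace.exp (resQ Q B))).re + G := by
  have hYh : Y.IsHermitian := hY.1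
  have hXh : (A + B - Y).IsHermitian := (hAh.add hBh).sub hYh
  have hPB := peierls_bogoliubov hXh hWh
  have hup : (trace (NormedSpace.exp (A + B - Y + W))).re ≤
      (trace (NormedSpace.exp (A.submatrix (extQ Q) (extQ Q)))).re *
        (trace (NormedSpace.exp (resQ Q (B + W)))).re := by
    rw [← tr_exp_off_on hA hAh (onQ_add hB hW) (hBh.add hWh)]
    refine trace_exp_mono (hXh.add hWh) (hAh.add (hBh.add hWh)) ?_
    have e : A + (B + W) - (A + B - Y + W) = Y := by abel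
    rw [e]
    exact hY
  have hlow : Real.exp (-G) * ((trace (NormedSpace.exp (A.submatrix (extQ Q) (extQ Q)))).re *
        (trace (NormedSpace.exp (resQ Q B))).re) ≤ (trace (NormedSpace.exp (A + B - Y))).re := by
    rw [← tr_exp_off_on hA hAh hB hBh, ← trace_exp_add_smul_one]
    refine trace_exp_mono ((hAh.add hBh).add (smul_real_isHermitian Matrix.isHermitian_one _)) hXh ?_
    have e : A + B - Y - (A + B + ((-G : ℝ) : ℂ) • (1 : Matrix (Cfg V) (Cfg V) ℂ)) =
        (G : ℂ) • (1 : Matrix (Cfg V) (Cfg V) ℂ) - Y := by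
      push_cast
      module
    rw [e]
    exact hG
  have p1 := trace_exp_pos (hAh.submatrix (extQ Q))
  have p2 := trace_exp_pos (resQ_isHermitian (Q := Q) hBh)
  have p3 := trace_exp_pos (resQ_isHermitian (Q := Q) (hBh.add hWh))
  have l1 := Real.log_le_log (trace_exp_pos (hXh.add hWh)) hup
  have l2 := Real.log_le_log (by positivity) hlow
  rw [Real.log_mul p1.ne' p3.ne'] at l1
  rw [Real.log_mul (Real.exp_pos _).ne' (by positivity), Real.log_exp,
    Real.log_mul p1.ne' p2.ne'] at l2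
  unfold ex
  linarith

end

end Vale.Agent.P361.LRO.Energy
end

section

/-! # P361 LRO, block (7): energy of a cube of the torus (helper348) -/

namespace Vale.Agent.P361.LRO.Energy

open Matrix Finset

set_option linter.unusedSectionVars false

noncomputable section

variable {n : ℕ} [NeZero n]

/-- second end of the edge `(x, x + e_i)` -/
def nxt (z : Tor n × Fin 3) : Tor n := z.1 + Pi.single z.2 1

theorem edges_map_sum (F : Tor n × Tor n → ℝ) :
    ((edges n).map F).sum = ∑ z : Tor n × Fin 3, F (z.1, nxt z) := by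
  rw [edges, List.map_map, ← Finset.sum_map_toList]
  rfl

theorem edges_sum (F : Tor n × Tor n → ℝ) :
    ∑ i : Fin (edges n).length, F ((edges n).get i) = ∑ z : Tor n × Fin 3, F (z.1, nxt z) := by
  rw [← edges_map_sum, ← Fin.sum_univ_fun_getElem]
  rfl

/-- bonds touching `Q` -/
def tch (Q : Finset (Tor n)) : Finset (Tor n × Fin 3) := Finset.univ.filter fun z => z.1 ∈ Q ∨ nxt z ∈ Q

/-- boundary bonds of `Q` -/
def bdy (Q : Finset (Tor n)) : Finset (Tor n × Fin 3) :=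
  Finset.univ.filter fun z => (z.1 ∈ Q ∨ nxt z ∈ Q) ∧ ¬ (z.1 ∈ Q ∧ nxt z ∈ Q)

/-- energy of a bond -/
def eb (n : ℕ) [NeZero n] (β : ℝ) (h : Tor n → ℝ) (z : Tor n × Fin 3) : ℝ :=
  gib (edges n) β h (LRO.hM z.1 (nxt z))

theorem energy_torus {β : ℝ} (hβ : 0 ≤ β) {h : Tor n → ℝ} (Q : Finset (Tor n)) (hh : ∀ x ∈ Q, 0 ≤ h x) :
    β * ∑ z ∈ tch Q, eb n β h z ≤ Q.card * Real.log 2 + β * ((bdy Q).card : ℝ) := by
  have h1 := energy_list hβ (edges n) Q hh
  have h2 : ∑ i : Fin (edges n).length with (((edges n).get i).1 ∈ Q ∨ ((edges n).get i).2 ∈ Q),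
      gib (edges n) β h (LRO.hM ((edges n).get i).1 ((edges n).get i).2) = ∑ z ∈ tch Q, eb n β h z := by
    rw [Finset.sum_filter, tch, Finset.sum_filter]
    exact edges_sum (fun e => if e.1 ∈ Q ∨ e.2 ∈ Q then gib (edges n) β h (LRO.hM e.1 e.2) else 0)
  have h3 : ((Finset.univ.filter fun i : Fin (edges n).length =>
        (((edges n).get i).1 ∈ Q ∨ ((edges n).get i).2 ∈ Q) ∧
          ¬ (((edges n).get i).1 ∈ Q ∧ ((edges n).get i).2 ∈ Q)).card : ℝ) = ((bdy Q).card : ℝ) := by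
    rw [Finset.card_filter, bdy, Finset.card_filter]
    push_cast
    exact edges_sum (fun e => if (e.1 ∈ Q ∨ e.2 ∈ Q) ∧ ¬ (e.1 ∈ Q ∧ e.2 ∈ Q) then 1 else 0)
  rw [h2, h3] at h1
  exact h1

theorem mem_cube {x y : Tor n} {l : ℕ} : y ∈ cube n x l ↔ ∃ a : Fin 3 → Fin l, y = x + fun i => ((a i : ℕ) : ZMod n) := by
  simp only [cube, Finset.mem_image, Finset.mem_univ, true_and]
  exact ⟨fun ⟨a, h⟩ => ⟨a, h.symm⟩, fun ⟨a, h⟩ => ⟨a, h.symm⟩⟩

theorem card_cube_le (x : Tor n) (l : ℕ) : (cube n x l).card ≤ l ^ 3 := by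
  refine (Finset.card_image_le).trans ?_
  rw [Finset.card_univ, Fintype.card_fun, Fintype.card_fin, Fintype.card_fin]

/-- a face: the `i`-th coordinate is fixed -/
def face (n : ℕ) [NeZero n] (x : Tor n) (l : ℕ) (i : Fin 3) (c : Fin l) : Finset (Tor n) :=
  (Finset.univ : Finset ({j : Fin 3 // j ≠ i} → Fin l)).image fun a =>
    x + fun j => (((if h : j ≠ i then a ⟨j, h⟩ else c : Fin l) : ℕ) : ZMod n)

theorem card_face_le (x : Tor n) (l : ℕ) (i : Fin 3) (c : Fin l) : (face n x l i c).card ≤ l ^ 2 := by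
  refine (Finset.card_image_le).trans ?_
  rw [Finset.card_univ, Fintype.card_fun, Fintype.card_fin]
  have : Fintype.card {j : Fin 3 // j ≠ i} = 2 := by
    rw [Fintype.card_subtype_compl, Fintype.card_fin, Fintype.card_unique]
  rw [this]

theorem mem_face {x : Tor n} {l : ℕ} {i : Fin 3} {c : Fin l} {a : Fin 3 → Fin l} (h : a i = c) :
    (x + fun j => ((a j : ℕ) : ZMod n)) ∈ face n x l i c := by
  rw [face, Finset.mem_image]
  refine ⟨fun j => a j.1, Finset.mem_univ _, ?_⟩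
  congr 1
  funext j
  by_cases hj : j ≠ i
  · rw [dif_pos hj]
  · rw [dif_neg hj]
    rw [not_not] at hj
    rw [hj, h]

theorem card_bdy_le (x : Tor n) {l : ℕ} (hl : 0 < l) : (bdy (cube n x l)).card ≤ 6 * l ^ 2 := by
  classical
  have hsub : bdy (cube n x l) ⊆
      (Finset.univ : Finset (Fin 3)).biUnion fun i =>
        ((face n x l i ⟨l - 1, by omega⟩).image fun y => (y, i)) ∪
          ((face n x l i ⟨0, hl⟩).image fun y => (y - Pi.single i 1, i)) := by
    rintro ⟨y, i⟩ hz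
    rw [bdy, Finset.mem_filter] at hz
    obtain ⟨-, hor, hnot⟩ := hz
    rw [Finset.mem_biUnion]
    refine ⟨i, Finset.mem_univ _, ?_⟩
    rw [Finset.mem_union, Finset.mem_image, Finset.mem_image]
    rcases hor with h1 | h1
    · left
      have h2 : nxt (y, i) ∉ cube n x l := fun h => hnot ⟨h1, h⟩
      obtain ⟨a, ha⟩ := mem_cube.1 h1
      have h3 : (a i : ℕ) = l - 1 := by
        by_contra hne
        have hlt : (a i : ℕ) + 1 < l := by have := (a i).2; omega
        refine h2 (mem_cube.2 ⟨Function.update a i ⟨(a i : ℕ) + 1, hlt⟩, ?_⟩)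
        simp only [nxt]
        have ha' : y = x + fun i => ((a i : ℕ) : ZMod n) := ha
        rw [ha', add_assoc]
        congr 1
        funext j
        by_cases hj : j = i
        · subst hj
          simp
        · simp [hj]
      refine ⟨y, ?_, rfl⟩
      have ha' : y = x + fun i => ((a i : ℕ) : ZMod n) := ha
      rw [ha']
      exact mem_face (Fin.ext h3)
    · right
      have h2 : y ∉ cube n x l := fun h => hnot ⟨h, h1⟩
      obtain ⟨a, ha⟩ := mem_cube.1 h1
      have ha' : y + Pi.single i 1 = x + fun i => ((a i : ℕ) : ZMod n) := ha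
      have h3 : (a i : ℕ) = 0 := by
        by_contra hne
        have hlt : (a i : ℕ) - 1 < l := by have := (a i).2; omega
        refine h2 (mem_cube.2 ⟨Function.update a i ⟨(a i : ℕ) - 1, hlt⟩, ?_⟩)
        have h4 : y = (x + fun i => ((a i : ℕ) : ZMod n)) - Pi.single i 1 := by rw [← ha']; abel
        rw [h4, add_sub_assoc]
        congr 1
        funext j
        by_cases hj : j = i
        · subst hj
          simp only [Pi.sub_apply, Pi.single_eq_same, Function.update_self]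
          rw [Nat.cast_sub (by omega)]
          simp
        · simp [hj]
      refine ⟨y + Pi.single i 1, ?_, by simp⟩
      rw [ha']
      exact mem_face (Fin.ext h3)
  refine (Finset.card_le_card hsub).trans ?_
  refine (Finset.card_biUnion_le).trans ?_
  have h1 : ∀ i : Fin 3, (((face n x l i ⟨l - 1, by omega⟩).image fun y => (y, i)) ∪
          ((face n x l i ⟨0, hl⟩).image fun y => (y - Pi.single i 1, i))).card ≤ 2 * l ^ 2 := by
    intro i
    refine (Finset.card_union_le _ _).trans ?_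
    have h1 := (Finset.card_image_le (s := face n x l i ⟨l - 1, by omega⟩) (f := fun y => (y, i))).trans
      (card_face_le x l i _)
    have h2 := (Finset.card_image_le (s := face n x l i ⟨0, hl⟩)
      (f := fun y => (y - (Pi.single i 1 : Tor n), i))).trans (card_face_le x l i _)
    omega
  refine (Finset.sum_le_sum fun i _ => h1 i).trans ?_
  simp
  omega

/-- energy of a cube -/
theorem energy_cube {β : ℝ} (hβ : 0 ≤ β) {h : Tor n → ℝ} (hh : ∀ x, 0 ≤ h x) (x : Tor n) {l : ℕ} (hl : 0 < l) :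
    β * ∑ z ∈ tch (cube n x l), eb n β h z ≤ (l : ℝ) ^ 3 + 6 * β * (l : ℝ) ^ 2 := by
  have h1 := energy_torus hβ (cube n x l) (fun y _ => hh y)
  have h2 : ((cube n x l).card : ℝ) ≤ (l : ℝ) ^ 3 := by exact_mod_cast card_cube_le x l
  have h3 : ((bdy (cube n x l)).card : ℝ) ≤ 6 * (l : ℝ) ^ 2 := by exact_mod_cast card_bdy_le x hl
  have h4 : Real.log 2 ≤ 1 := by
    have := Real.log_two_lt_d9
    linarith
  have h5 : 0 ≤ Real.log 2 := Real.log_nonneg (by norm_num)
  have h6 : ((cube n x l).card : ℝ) * Real.log 2 ≤ (l : ℝ) ^ 3 * 1 :=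
    mul_le_mul h2 h4 h5 (by positivity)
  have h7 := mul_le_mul_of_nonneg_left h3 hβ
  linarith

end

end Vale.Agent.P361.LRO.Energy
end

section

/-! # P361 LRO, block (7): the final form (helper348) -/

namespace Vale.Agent.P361.LRO.Energy

open Matrix Finset
open scoped ComplexOrder

set_option linter.unusedSectionVars false

noncomputable section

theorem gib_hM_nonneg {V : Type} [Fintype V] [DecidableEq V] (L : List (V × V)) (β : ℝ) (h : V → ℝ) (x y : V) :
    0 ≤ gib L β h (LRO.hM x y) := by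
  rw [gib_hM]
  exact div_nonneg (trace_exp_mul_nonneg (gibX_isHermitian _ _ _ _ _) (hM_posSemidef x y))
    (trace_exp_pos (gibX_isHermitian _ _ _ _ _)).le

variable {n : ℕ} [NeZero n]

theorem sum_edges_le (β : ℝ) (h : Tor n → ℝ) (Q : Finset (Tor n)) :
    ∑ e ∈ (edges n).toFinset with (e.1 ∈ Q ∧ e.2 ∈ Q), gib (edges n) β h (LRO.hM e.1 e.2) ≤
      ∑ z ∈ tch Q, eb n β h z := by
  classical
  have h1 : ((edges n).toFinset.filter fun e => e.1 ∈ Q ∧ e.2 ∈ Q) ⊆
      (tch Q).image fun z => (z.1, nxt z) := by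
    intro e he
    rw [Finset.mem_filter, List.mem_toFinset, edges, List.mem_map] at he
    obtain ⟨⟨z, -, hz⟩, h2⟩ := he
    rw [Finset.mem_image]
    refine ⟨z, ?_, hz⟩
    rw [tch, Finset.mem_filter]
    refine ⟨Finset.mem_univ _, Or.inl ?_⟩
    rw [← hz] at h2
    exact h2.1
  refine (Finset.sum_le_sum_of_subset_of_nonneg h1 fun e _ _ => gib_hM_nonneg _ _ _ _ _).trans ?_
  exact Finset.sum_image_le_of_nonneg fun z _ => gib_hM_nonneg _ _ _ _ _

/-- the tiling statement (helper351) -/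
def TileStmt (C : ℝ) : Prop := ∀ (n : ℕ) [NeZero n] (β : ℝ) (h : Tor n → ℝ) (x0 : Tor n) (w m : ℕ), 0 < w → 0 < m →
  w * m ≤ n → 3 ≤ n →
  ∑ y : Fin 3 → Fin m, ∑ x ∈ cube n (x0 + fun i => ((w * (y i : ℕ) : ℕ) : ZMod n)) w,
      ∑ x' ∈ cube n (x0 + fun i => ((w * (y i : ℕ) : ℕ) : ZMod n)) w, gib (edges n) β h (LRO.hM x x') ≤
    C * (w : ℝ) ^ 5 * ∑ e ∈ (edges n).toFinset with (e.1 ∈ cube n x0 (w * m) ∧ e.2 ∈ cube n x0 (w * m)),
      gib (edges n) β h (LRO.hM e.1 e.2)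

theorem energy_of_tile {C : ℝ} (hC : 0 ≤ C) (hT : TileStmt C) (hcard : ∀ (n : ℕ) [NeZero n] (x : Tor n) (w : ℕ), w ≤ n →
    (cube n x w).card = w ^ 3) (n : ℕ) [NeZero n] {β : ℝ} (hβ : 0 < β) (w m : ℕ) (hw : 0 < w) (hm : 0 < m)
    (hwm : w * m ≤ n) (hn : 3 ≤ n) (h : Tor n → ℝ) (hh : ∀ x, 0 ≤ h x) (x0 : Tor n) :
    ∑ y : Fin 3 → Fin m, Dst (edges n) β h (cube n (x0 + fun i => ((w * (y i : ℕ) : ℕ) : ZMod n)) w) ≤
      (m : ℝ) ^ 3 * (12 * C * (w : ℝ) ^ 2 * (1 / β + 1 / ((w : ℝ) * m))) := by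
  have hw' : (0 : ℝ) < w := by exact_mod_cast hw
  have hm' : (0 : ℝ) < m := by exact_mod_cast hm
  have hwn : w ≤ n := le_trans (Nat.le_mul_of_pos_right w hm) hwm
  have h1 := hT n β h x0 w m hw hm hwm hn
  have h2 := sum_edges_le β h (cube n x0 (w * m))
  have h3 := energy_cube hβ.le hh x0 (l := w * m) (Nat.mul_pos hw hm)
  have h4 : ∑ z ∈ tch (cube n x0 (w * m)), eb n β h z ≤
      (((w * m : ℕ) : ℝ) ^ 3 + 6 * β * ((w * m : ℕ) : ℝ) ^ 2) / β := by
    rw [le_div_iff₀ hβ, mul_comm]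
    exact h3
  have h5 : ∀ y : Fin 3 → Fin m, Dst (edges n) β h (cube n (x0 + fun i => ((w * (y i : ℕ) : ℕ) : ZMod n)) w) =
      2 / (w : ℝ) ^ 6 * ∑ x ∈ cube n (x0 + fun i => ((w * (y i : ℕ) : ℕ) : ZMod n)) w,
        ∑ x' ∈ cube n (x0 + fun i => ((w * (y i : ℕ) : ℕ) : ZMod n)) w, gib (edges n) β h (LRO.hM x x') := by
    intro y
    rw [Dst, hcard n _ w hwn]
    congr 2
    push_cast
    ring
  simp only [h5]
  rw [← Finset.mul_sum]
  have h6 : C * (w : ℝ) ^ 5 * ∑ e ∈ (edges n).toFinset with (e.1 ∈ cube n x0 (w * m) ∧ e.2 ∈ cube n x0 (w * m)),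
      gib (edges n) β h (LRO.hM e.1 e.2) ≤
      C * (w : ℝ) ^ 5 * ((((w * m : ℕ) : ℝ) ^ 3 + 6 * β * ((w * m : ℕ) : ℝ) ^ 2) / β) :=
    mul_le_mul_of_nonneg_left (h2.trans h4) (by positivity)
  calc 2 / (w : ℝ) ^ 6 * _ ≤ 2 / (w : ℝ) ^ 6 *
        (C * (w : ℝ) ^ 5 * ((((w * m : ℕ) : ℝ) ^ 3 + 6 * β * ((w * m : ℕ) : ℝ) ^ 2) / β)) :=
        mul_le_mul_of_nonneg_left (h1.trans h6) (by positivity)
    _ = (m : ℝ) ^ 3 * (2 * C * (w : ℝ) ^ 2 * (1 / β + 6 / ((w : ℝ) * m))) := by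
        push_cast
        field_simp
    _ ≤ _ := by
        refine mul_le_mul_of_nonneg_left ?_ (by positivity)
        have h7 : (0 : ℝ) < 1 / β := by positivity
        have h8 : (0 : ℝ) < 1 / ((w : ℝ) * m) := by positivity
        have h9 : 6 / ((w : ℝ) * m) = 6 * (1 / ((w : ℝ) * m)) := by ring
        rw [h9]
        have h10 : 0 ≤ C * (w : ℝ) ^ 2 := by positivity
        nlinarith [mul_nonneg h10 h7.le, mul_nonneg h10 h8.le]

end

end Vale.Agent.P361.LRO.Energy
end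

section

/-! # P361 LRO, block (7): `PEnergy 2` and `EnergyStmt` from the tiling statement (helper348) -/

namespace Vale.Agent.P361.LRO.Energy

open Matrix Finset

noncomputable section

theorem pEnergy_of_tile {C : ℝ} (hC : 0 < C) (hT : TileStmt C)
    (hcard : ∀ (n : ℕ) [NeZero n] (x : Tor n) (w : ℕ), w ≤ n → (cube n x w).card = w ^ 3) :
    PEnergy 2 := by
  refine ⟨12 * C, by positivity, ?_⟩
  intro β hβ n _ w m hw hm hwm h hh x0
  have h3 : 3 ≤ n := by nlinarith [Nat.mul_le_mul hw hm]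
  exact energy_of_tile hC.le hT hcard n (by linarith) w m hw hm (by omega) h3 h
    (fun x => (hh x).1.le) x0

theorem Db_eq_Dst {V : Type} [Fintype V] [DecidableEq V] (L : List (V × V)) (β : ℝ) (h : V → ℝ)
    (b : Finset V) : Db L β h b = Dst L β h b := by
  rw [Db, Dst]; ring

theorem energyStmt_of_tile {C : ℝ} (hC : 0 < C) (hT : TileStmt C)
    (hcard : ∀ (n : ℕ) [NeZero n] (x : Tor n) (w : ℕ), w ≤ n → (cube n x w).card = w ^ 3) :
    EnergyStmt := by
  refine ⟨12 * C, ?_⟩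
  intro n _ β h x w m hβ hh hw hm hwm
  have hm' : (0 : ℝ) < m := by exact_mod_cast hm
  have h3 : 3 ≤ n := by nlinarith [Nat.mul_le_mul hw hm]
  have h1 := energy_of_tile hC.le hT hcard n hβ w m hw hm (by omega) h3 h (fun x => (hh x).le) x
  simp only [Db_eq_Dst]
  rw [div_le_iff₀ (by positivity)]
  linarith

end

end Vale.Agent.P361.LRO.Energy
end

section

/-!
P361, stage 3, block (M), step (V2): Peierls-Bogoliubov for the torus mean (helper836).
-/

set_option linter.unusedSectionVars false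

namespace Vale.Agent.P361.LRO.S3.Mean

open Finset Matrix

noncomputable section

variable {V : Type} [Fintype V] [DecidableEq V]

/-- One-particle hopping matrix of the list of edges, `t = (1/2) ∑_e (δ_x - δ_y)(δ_x - δ_y)ᵀ`. -/
def tL (L : List (V × V)) (u v : V) : ℝ := (1 / 2 : ℝ) * (L.map fun e => pairK e.1 e.2 u v).sum

/-- One-particle matrix of the fluctuations inside the block `b`, `1_b - |1_b><1_b| / |b|`. -/
def gB (b : Finset V) (u v : V) : ℝ := (1 / (2 * (b.card : ℝ))) * ∑ x ∈ b, ∑ y ∈ b, pairK x y u v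

/-- Identity kernel. -/
def oneK (u v : V) : ℝ := if u = v then 1 else 0

/-- Pair operator of the edges. -/
def WL (L : List (V × V)) : Matrix (V → Fin 2) (V → Fin 2) ℝ :=
  (L.map fun e => nM e.1 * nM e.2).sum

theorem pairK_self (x u v : V) : pairK x x u v = 0 := by
  simp [pairK]

theorem pairK_symm (x y u v : V) : pairK x y u v = pairK x y v u := by
  simp only [pairK]; ring

theorem hM_self (x : V) : hM x x = (0 : Matrix (V → Fin 2) (V → Fin 2) ℝ) := by
  have h1 : swapM x x = (1 : Matrix (V → Fin 2) (V → Fin 2) ℝ) := by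
    ext σ τ
    simp [swapM, Matrix.one_apply]
  rw [hM, h1, sub_self, smul_zero]

theorem hcM_zero : hcM (fun _ _ : V => (0 : ℝ)) = 0 := by
  simp [hcM]

theorem hcM_tL (L : List (V × V)) (hL : ∀ e ∈ L, e.1 ≠ e.2) :
    hcM (tL L) = (L.map fun e => hM e.1 e.2).sum + WL L := by
  have h0 : tL L = fun u v => (1 / 2 : ℝ) * (L.map fun e => pairK e.1 e.2 u v).sum := rfl
  rw [h0, hcM_smul]
  clear h0
  induction L with
  | nil => simp [WL, hcM_zero]
  | cons e L ih =>
    have ih' := ih fun e' he' => hL e' (List.mem_cons_of_mem _ he')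
    simp only [List.map_cons, List.sum_cons, WL] at ih' ⊢
    rw [hcM_add (fun u v => pairK e.1 e.2 u v), smul_add, ih']
    have h1 : hcM (fun u v => pairK e.1 e.2 u v) = (2 : ℝ) • hM e.1 e.2 +
        (2 : ℝ) • (nM e.1 * nM e.2) := hcM_pairK (hL e List.mem_cons_self)
    rw [h1, smul_add, smul_smul, smul_smul]
    norm_num
    abel

/-- `(1/|b|) ∑_{x,y ∈ b} h_xy = dΓ(g_b) - (1/|b|) ∑_{x ≠ y} n_x n_y`. -/
theorem hcM_gB (b : Finset V) :
    hcM (gB b) = (1 / (b.card : ℝ)) • ∑ x ∈ b, ∑ y ∈ b, hM x y +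
      (1 / (b.card : ℝ)) • ∑ x ∈ b, ∑ y ∈ b, (if x = y then 0 else nM x * nM y) := by
  have h1 : ∀ x ∈ b, ∀ y ∈ b, hcM (pairK x y) = (2 : ℝ) • hM x y +
      (2 : ℝ) • (if x = y then 0 else nM x * nM y) := by
    intro x _ y _
    by_cases hxy : x = y
    · subst hxy
      have h2 : (pairK x x : V → V → ℝ) = fun _ _ => 0 := by
        funext u v; exact pairK_self x u v
      rw [h2, hcM_zero, hM_self, if_pos rfl, smul_zero, add_zero]
    · rw [if_neg hxy, hcM_pairK hxy]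
  have h0 : gB b = fun u v => (1 / (2 * (b.card : ℝ))) *
      ∑ x ∈ b, ∑ y ∈ b, pairK x y u v := rfl
  rw [h0, hcM_smul, hcM_sum]
  have h2 : ∀ x ∈ b, hcM (fun u v => ∑ y ∈ b, pairK x y u v) = ∑ y ∈ b, ((2 : ℝ) • hM x y +
      (2 : ℝ) • (if x = y then 0 else nM x * nM y)) := by
    intro x hx
    rw [hcM_sum]
    exact Finset.sum_congr rfl fun y hy => h1 x hx y hy
  rw [Finset.sum_congr rfl h2]
  simp only [Finset.sum_add_distrib, ← Finset.smul_sum, smul_add, smul_smul]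
  have h3 : 1 / (2 * (b.card : ℝ)) * 2 = 1 / (b.card : ℝ) := by
    rw [one_div, mul_inv, one_div]; ring
  rw [h3]

theorem szM_symm (x : V) : (szM x : Matrix (V → Fin 2) (V → Fin 2) ℝ).IsSymm := by
  rw [szM]; exact Matrix.isSymm_diagonal _

theorem nn_eq (x y : V) : nM x * nM y = Matrix.diagonal fun σ : V → Fin 2 =>
    (if σ x = 1 then (1 : ℝ) else 0) * (if σ y = 1 then 1 else 0) := by
  rw [nM, nM, Matrix.diagonal_mul_diagonal]

theorem nn_symm (x y : V) : (nM x * nM y).IsSymm := by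
  rw [nn_eq]
  exact Matrix.isSymm_diagonal _

theorem nn_posSemidef (x y : V) : (nM x * nM y).PosSemidef := by
  rw [nn_eq]
  refine Matrix.PosSemidef.diagonal fun σ => ?_
  simp only [Pi.zero_apply]
  split_ifs <;> norm_num

theorem WL_symm (L : List (V × V)) : (WL L).IsSymm := by
  induction L with
  | nil => simp [WL, Matrix.isSymm_zero]
  | cons e L ih =>
    simp only [WL, List.map_cons, List.sum_cons] at ih ⊢
    exact (nn_symm _ _).add ih

theorem swapM_symm (x y : V) : (swapM x y : Matrix (V → Fin 2) (V → Fin 2) ℝ).IsSymm := by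
  ext σ τ
  simp only [Matrix.transpose_apply, swapM, Matrix.of_apply]
  have : (τ = σ ∘ Equiv.swap x y) ↔ (σ = τ ∘ Equiv.swap x y) := by
    constructor
    · rintro rfl; funext z; simp
    · rintro rfl; funext z; simp
  simp only [this]

theorem hM_symm (x y : V) : (hM x y : Matrix (V → Fin 2) (V → Fin 2) ℝ).IsSymm := by
  rw [hM]
  exact (Matrix.isSymm_one.sub (swapM_symm x y)).smul _

theorem ham_symm (L : List (V × V)) (h : V → ℝ) : (ham L h).IsSymm := by
  rw [ham]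
  refine Matrix.IsSymm.sub ?_ ?_
  · induction L with
    | nil => simp [Matrix.isSymm_zero]
    | cons e L ih =>
      simp only [List.map_cons, List.sum_cons]
      exact (hM_symm _ _).add ih
  · rw [Matrix.IsSymm, Matrix.transpose_sum]
    exact Finset.sum_congr rfl fun x _ => by
      rw [Matrix.transpose_smul, (szM_symm x).eq]

/-- The Hamiltonian in terms of the second quantisation. -/
theorem ham_eq (L : List (V × V)) (hL : ∀ e ∈ L, e.1 ≠ e.2) (h : ℝ) :
    ham L (fun _ => h) = hcM (fun u v => tL L u v + h * oneK u v) - WL L -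
      (h * Fintype.card V / 2) • (1 : Matrix (V → Fin 2) (V → Fin 2) ℝ) := by
  have h1 : ∑ x : V, (h / 2) • szM x = (h * Fintype.card V / 2) •
      (1 : Matrix (V → Fin 2) (V → Fin 2) ℝ) - h • ∑ x, nM x := by
    have h2 : ∀ x : V, (h / 2) • szM x = (h / 2) • (1 : Matrix (V → Fin 2) (V → Fin 2) ℝ) -
        h • nM x := by
      intro x
      rw [nM_eq, smul_smul, smul_sub, show h * (1 / 2) = h / 2 by ring, sub_sub_cancel]
    rw [Finset.sum_congr rfl fun x _ => h2 x, Finset.sum_sub_distrib,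
      Finset.sum_const, Finset.card_univ, ← Nat.cast_smul_eq_nsmul ℝ, smul_smul, Finset.smul_sum]
    congr 2
    ring
  have h3 : hcM (fun u v : V => h * oneK u v) = h • ∑ x : V, nM x := by
    rw [hcM_smul]
    congr 1
    exact hcM_one
  rw [hcM_add (fun u v => tL L u v) (fun u v => h * oneK u v), h3]
  have h4 : hcM (fun u v => tL L u v) = (L.map fun e => hM e.1 e.2).sum + WL L := hcM_tL L hL
  rw [h4, ham, h1]
  abel

theorem gib_add (L : List (V × V)) (β : ℝ) (h : V → ℝ)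
    (A B : Matrix (V → Fin 2) (V → Fin 2) ℝ) :
    gib L β h (A + B) = gib L β h A + gib L β h B := by
  rw [gib, gib, gib, Matrix.mul_add, Matrix.trace_add, add_div]

theorem gib_smul (L : List (V × V)) (β : ℝ) (h : V → ℝ) (c : ℝ)
    (A : Matrix (V → Fin 2) (V → Fin 2) ℝ) :
    gib L β h (c • A) = c * gib L β h A := by
  rw [gib, gib, Matrix.mul_smul, Matrix.trace_smul, smul_eq_mul, mul_div_assoc]

theorem gib_sub (L : List (V × V)) (β : ℝ) (h : V → ℝ)
    (A B : Matrix (V → Fin 2) (V → Fin 2) ℝ) :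
    gib L β h (A - B) = gib L β h A - gib L β h B := by
  rw [gib, gib, gib, Matrix.mul_sub, Matrix.trace_sub, sub_div]

theorem gib_sum {ι : Type*} (s : Finset ι) (L : List (V × V)) (β : ℝ) (h : V → ℝ)
    (A : ι → Matrix (V → Fin 2) (V → Fin 2) ℝ) :
    gib L β h (∑ i ∈ s, A i) = ∑ i ∈ s, gib L β h (A i) := by
  simp only [gib]
  rw [Finset.mul_sum, Matrix.trace_sum, Finset.sum_div]

theorem gib_nonneg (L : List (V × V)) (β : ℝ) (h : V → ℝ)
    {A : Matrix (V → Fin 2) (V → Fin 2) ℝ} (hA : A.PosSemidef) : 0 ≤ gib L β h A := by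
  have hs : (-β • ham L h).IsSymm := (ham_symm L h).smul _
  exact div_nonneg (trace_exp_mul_nonneg_real hs hA) (trace_exp_pos_real hs).le

theorem gib_mono (L : List (V × V)) (β : ℝ) (h : V → ℝ)
    {A B : Matrix (V → Fin 2) (V → Fin 2) ℝ} (hAB : (B - A).PosSemidef) :
    gib L β h A ≤ gib L β h B := by
  have := gib_nonneg L β h hAB
  rw [gib_sub] at this
  linarith

theorem exp_add_smul_one {ι : Type} [Fintype ι] [DecidableEq ι] (A : Matrix ι ι ℝ) (c : ℝ) :
    NormedSpace.exp (A + c • (1 : Matrix ι ι ℝ)) = Real.exp c • NormedSpace.exp A := by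
  have hc : Commute A (c • (1 : Matrix ι ι ℝ)) := (Commute.one_right A).smul_right c
  rw [Matrix.exp_add_of_commute _ _ hc]
  have h1 : NormedSpace.exp (c • (1 : Matrix ι ι ℝ)) = Real.exp c • (1 : Matrix ι ι ℝ) := by
    have h2 : c • (1 : Matrix ι ι ℝ) = Matrix.diagonal fun _ => c := by
      ext i j
      by_cases hij : i = j
      · subst hij; simp
      · simp [hij]
    rw [h2, Matrix.exp_diagonal, Pi.exp_def, ← Real.exp_eq_exp_ℝ]
    ext i j
    by_cases hij : i = j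
    · subst hij
      simp
    · simp [hij]
  rw [h1, Matrix.mul_smul, Matrix.mul_one]

/-- **(V2)**: the variational inequality.  `lam * β * <dΓ(g)> ≤ log (trace of the free gas with
the one-particle matrix `β (t + h - lam g)`) - log Z̃ + β <W>`. -/
theorem mean_ineq (L : List (V × V)) (hL : ∀ e ∈ L, e.1 ≠ e.2) (β h lam : ℝ) (g : V → V → ℝ)
    (hg : ∀ u v, g u v = g v u) {F : ℝ}
    (hF : Matrix.trace (NormedSpace.exp (-(hcM fun u v =>
      β * (tL L u v + h * oneK u v - lam * g u v)))) ≤ Real.exp F) :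
    β * lam * gib L β (fun _ => h) (hcM g) ≤ F -
      (Real.log (Matrix.trace (NormedSpace.exp (-β • ham L fun _ => h))) -
        β * h * Fintype.card V / 2) + β * gib L β (fun _ => h) (WL L) := by
  set X : Matrix (V → Fin 2) (V → Fin 2) ℝ := -β • ham L fun _ => h with hX
  set Y : Matrix (V → Fin 2) (V → Fin 2) ℝ := (β * lam) • hcM g - β • WL L with hY
  have hgs : (hcM g).IsSymm := hcM_symm hg
  have hXs : X.IsSymm := (ham_symm L _).smul _
  have hYs : Y.IsSymm := (hgs.smul _).sub ((WL_symm L).smul _)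
  have h1 := peierls_bogoliubov_real hXs hYs
  have h2 : trace (NormedSpace.exp X * Y) / trace (NormedSpace.exp X) =
      β * lam * gib L β (fun _ => h) (hcM g) - β * gib L β (fun _ => h) (WL L) := by
    have : trace (NormedSpace.exp X * Y) / trace (NormedSpace.exp X) =
        gib L β (fun _ => h) Y := rfl
    rw [this, hY, gib_sub, gib_smul, gib_smul]
  have h3 : X + Y = -(hcM fun u v => β * (tL L u v + h * oneK u v - lam * g u v)) +
      (β * h * Fintype.card V / 2) • (1 : Matrix (V → Fin 2) (V → Fin 2) ℝ) := by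
    rw [hcM_smul, hcM_sub (fun u v => tL L u v + h * oneK u v) (fun u v => lam * g u v),
      hcM_smul]
    have h4 := ham_eq L hL h
    rw [hX, hY, h4]
    simp only [smul_sub, smul_smul, neg_smul]
    have h5 : -β * (h * Fintype.card V / 2) = -(β * h * Fintype.card V / 2) := by ring
    rw [h5, neg_smul]
    abel
  rw [h2, h3, exp_add_smul_one, Matrix.trace_smul, smul_eq_mul] at h1
  have hAs : (-(hcM fun u v => β * (tL L u v + h * oneK u v - lam * g u v))).IsSymm := by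
    refine Matrix.IsSymm.neg (hcM_symm fun u v => ?_)
    have e1 : tL L u v = tL L v u := by
      simp only [tL, pairK_symm _ _ u v]
    have e2 : (oneK u v : ℝ) = oneK v u := by
      simp only [oneK, eq_comm]
    rw [e1, e2, hg u v]
  have hpos := trace_exp_pos_real hAs
  rw [Real.log_mul (Real.exp_pos _).ne' hpos.ne', Real.log_exp] at h1
  have h6 : Real.log (trace (NormedSpace.exp (-(hcM fun u v =>
      β * (tL L u v + h * oneK u v - lam * g u v))))) ≤ F := by
    calc _ ≤ Real.log (Real.exp F) := Real.log_le_log hpos hF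
      _ = F := Real.log_exp F
  linarith

end

end Vale.Agent.P361.LRO.S3.Mean
end

section

/-!
P361 stage 3: one-particle part on the torus (Hartley basis, the form of the block average).
-/

namespace Vale.Agent.P361.LRO.S3.OB

open Finset

noncomputable section

variable {n : ℕ} [NeZero n]

/-- The character `e^{2πi k·x/n}`. -/
def chi (k x : Tor n) : ℂ := ZMod.stdAddChar (∑ j, k j * x j)

lemma chi_add (k x y : Tor n) : chi k (x + y) = chi k x * chi k y := by
  unfold chi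
  rw [← AddChar.map_add_eq_mul]
  congr 1
  rw [← Finset.sum_add_distrib]
  exact Finset.sum_congr rfl fun j _ => by rw [Pi.add_apply]; ring

lemma chi_comm (k x : Tor n) : chi k x = chi x k := by
  unfold chi
  congr 1
  exact Finset.sum_congr rfl fun j _ => by ring

lemma chi_add_left (k l x : Tor n) : chi (k + l) x = chi k x * chi l x := by
  rw [chi_comm, chi_add, chi_comm x, chi_comm x]

lemma norm_chi (k x : Tor n) : ‖chi k x‖ = 1 := by
  unfold chi
  rw [ZMod.stdAddChar_apply]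
  exact Circle.norm_coe _

lemma chi_neg (k x : Tor n) : chi k (-x) = (starRingEnd ℂ) (chi k x) := by
  unfold chi
  have : (∑ j, k j * (-x) j) = -(∑ j, k j * x j) := by
    rw [← Finset.sum_neg_distrib]
    exact Finset.sum_congr rfl fun j _ => by rw [Pi.neg_apply]; ring
  rw [this, ZMod.stdAddChar_apply, ZMod.stdAddChar_apply, AddChar.map_neg_eq_inv,
    Circle.coe_inv_eq_conj]

lemma chi_neg_left (k x : Tor n) : chi (-k) x = (starRingEnd ℂ) (chi k x) := by
  rw [chi_comm, chi_neg, chi_comm]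

lemma chi_zero_left (x : Tor n) : chi (0 : Tor n) x = 1 := by
  unfold chi
  simp

lemma chi_zero (k : Tor n) : chi k (0 : Tor n) = 1 := by
  rw [chi_comm, chi_zero_left]

lemma chi_sum (m : Tor n) : ∑ x, chi m x = if m = 0 then (n : ℂ) ^ 3 else 0 := by
  have h1 : ∀ x : Tor n, chi m x = ∏ j, (ZMod.stdAddChar (x j * m j) : ℂ) := by
    intro x
    unfold chi
    rw [Fin.sum_univ_three, Fin.prod_univ_three, AddChar.map_add_eq_mul, AddChar.map_add_eq_mul,
      mul_comm (m 0), mul_comm (m 1), mul_comm (m 2)]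
  simp only [h1]
  have h2 : ∑ x : Tor n, ∏ j, (ZMod.stdAddChar (x j * m j) : ℂ) =
      ∏ j : Fin 3, ∑ a : ZMod n, (ZMod.stdAddChar (a * m j) : ℂ) := by
    rw [Finset.prod_univ_sum]
    rw [Fintype.piFinset_univ]
  rw [h2]
  have h3 : ∀ b : ZMod n, ∑ a : ZMod n, (ZMod.stdAddChar (a * b) : ℂ) =
      if b = 0 then (n : ℂ) else 0 := by
    intro b
    rw [AddChar.sum_mulShift b (ZMod.isPrimitive_stdAddChar n)]
    simp [ZMod.card]
  simp only [h3]
  by_cases hm : m = 0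
  · subst hm
    simp
  · rw [if_neg hm]
    obtain ⟨j, hj⟩ := Function.ne_iff.1 hm
    exact Finset.prod_eq_zero (Finset.mem_univ j) (if_neg hj)

/-- Hartley basis. -/
def hb (k x : Tor n) : ℝ := ((chi k x).re + (chi k x).im) / Real.sqrt ((n : ℝ) ^ 3)

lemma hb_symm (k x : Tor n) : hb k x = hb x k := by
  unfold hb
  rw [chi_comm]

lemma hb_orth (k l : Tor n) : ∑ x, hb k x * hb l x = if k = l then 1 else 0 := by
  have hn : (0 : ℝ) < (n : ℝ) ^ 3 := by
    have : (0 : ℝ) < n := by exact_mod_cast Nat.pos_of_ne_zero (NeZero.ne n)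
    positivity
  have h1 : ∀ x, hb k x * hb l x =
      ((chi (k - l) x).re + (chi (k + l) x).im) / (n : ℝ) ^ 3 := by
    intro x
    unfold hb
    rw [div_mul_div_comm, Real.mul_self_sqrt hn.le, sub_eq_add_neg, chi_add_left, chi_add_left,
      chi_neg_left]
    congr 1
    simp only [Complex.mul_re, Complex.mul_im, Complex.conj_re, Complex.conj_im]
    ring
  simp only [h1]
  rw [← Finset.sum_div, Finset.sum_add_distrib]
  have e1 : ∑ x, (chi (k - l) x).re = (∑ x, chi (k - l) x).re := by rw [Complex.re_sum]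
  have e2 : ∑ x, (chi (k + l) x).im = (∑ x, chi (k + l) x).im := by rw [Complex.im_sum]
  rw [e1, e2, chi_sum, chi_sum]
  have e3 : ((n : ℂ) ^ 3) = (((n : ℝ) ^ 3 : ℝ) : ℂ) := by push_cast; ring
  by_cases hkl : k = l
  · subst hkl
    rw [if_pos rfl, sub_self, if_pos rfl, e3]
    split_ifs
    · rw [Complex.ofReal_re, Complex.ofReal_im, add_zero, div_self hn.ne']
    · simp only [Complex.ofReal_re, Complex.zero_im, add_zero]
      rw [div_self hn.ne']
  · rw [if_neg hkl, if_neg (sub_ne_zero.2 hkl), e3]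
    split_ifs
    · rw [Complex.zero_re, Complex.ofReal_im, add_zero, zero_div]
    · rw [Complex.zero_re, Complex.zero_im, add_zero, zero_div]

lemma hb_compl (x y : Tor n) : ∑ k, hb k x * hb k y = if x = y then 1 else 0 := by
  simp only [hb_symm _ x, hb_symm _ y]
  exact hb_orth x y

/-- Convolution with an even kernel. -/
lemma conv_hb (c : Tor n → ℝ) (hc : ∀ d, c (-d) = c d) (k x : Tor n) :
    ∑ y, c (x - y) * hb k y = (∑ d, c d * (chi k d).re) * hb k x := by
  have h1 : ∑ y, c (x - y) * hb k y = ∑ d, c d * hb k (x - d) := by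
    refine Fintype.sum_equiv (Equiv.subLeft x) _ _ fun y => ?_
    simp [Equiv.subLeft]
  rw [h1]
  have h2 : ∀ d, c d * hb k (x - d) = c d * (chi k d).re * hb k x +
      c d * (chi k d).im * (((chi k x).im - (chi k x).re) / Real.sqrt ((n : ℝ) ^ 3)) := by
    intro d
    unfold hb
    rw [sub_eq_add_neg, chi_add, chi_neg]
    simp only [Complex.mul_re, Complex.mul_im, Complex.conj_re, Complex.conj_im]
    ring
  simp only [h2]
  rw [Finset.sum_add_distrib, ← Finset.sum_mul, ← Finset.sum_mul]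
  have h3 : ∑ d, c d * (chi k d).im = 0 := by
    have : ∑ d, c d * (chi k d).im = ∑ d, -(c d * (chi k d).im) := by
      refine Fintype.sum_equiv (Equiv.neg (Tor n)) _ _ fun d => ?_
      simp only [Equiv.neg_apply]
      rw [hc, chi_neg, Complex.conj_im]
      ring
    rw [Finset.sum_neg_distrib] at this
    linarith
  rw [h3]
  ring

lemma hb_avg (k u d : Tor n) : hb k (u + d) + hb k (u - d) = 2 * (chi k d).re * hb k u := by
  unfold hb
  rw [sub_eq_add_neg, chi_add, chi_add, chi_neg]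
  simp only [Complex.mul_re, Complex.mul_im, Complex.conj_re, Complex.conj_im]
  ring

/-- `|δ_x - δ_y⟩⟨δ_x - δ_y|`. -/
def dd {V : Type} [DecidableEq V] (x y u v : V) : ℝ :=
  ((if u = x then 1 else 0) - (if u = y then 1 else 0)) *
    ((if v = x then 1 else 0) - (if v = y then 1 else 0))

lemma dd_apply {V : Type} [Fintype V] [DecidableEq V] (x y u : V) (f : V → ℝ) :
    ∑ v, dd x y u v * f v = ((if u = x then 1 else 0) - (if u = y then 1 else 0)) * (f x - f y) := by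
  unfold dd
  have : ∀ v, ((if u = x then (1 : ℝ) else 0) - (if u = y then 1 else 0)) *
    ((if v = x then 1 else 0) - (if v = y then 1 else 0)) * f v =
    ((if u = x then (1 : ℝ) else 0) - (if u = y then 1 else 0)) *
      ((if v = x then f v else 0) - (if v = y then f v else 0)) := by
    intro v
    split_ifs <;> ring
  simp only [this]
  rw [← Finset.mul_sum, Finset.sum_sub_distrib]
  simp

lemma dd_shift (k u a b : Tor n) :
    ∑ z, ∑ v, dd (z + a) (z + b) u v * hb k v = 2 * (1 - (chi k (a - b)).re) * hb k u := by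
  simp only [dd_apply]
  have h1 : ∀ z, ((if u = z + a then (1 : ℝ) else 0) - (if u = z + b then 1 else 0)) *
      (hb k (z + a) - hb k (z + b)) =
      (if z = u - a then hb k (z + a) - hb k (z + b) else 0) -
        (if z = u - b then hb k (z + a) - hb k (z + b) else 0) := by
    intro z
    have e1 : (u = z + a) ↔ (z = u - a) := ⟨fun h => by rw [h]; abel, fun h => by rw [h]; abel⟩
    have e2 : (u = z + b) ↔ (z = u - b) := ⟨fun h => by rw [h]; abel, fun h => by rw [h]; abel⟩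
    simp only [e1, e2]
    split_ifs <;> ring
  simp only [h1]
  rw [Finset.sum_sub_distrib, Finset.sum_ite_eq' Finset.univ, Finset.sum_ite_eq' Finset.univ,
    if_pos (Finset.mem_univ _), if_pos (Finset.mem_univ _)]
  have h2 := hb_avg k u (a - b)
  have e1 : u - a + a = u := by abel
  have e2 : u - a + b = u - (a - b) := by abel
  have e3 : u - b + a = u + (a - b) := by abel
  have e4 : u - b + b = u := by abel
  rw [e1, e2, e3, e4]
  linarith

/-- The one-particle kinetic matrix. -/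
def tmat (n : ℕ) [NeZero n] (u v : Tor n) : ℝ :=
  ((edges n).map fun e => dd e.1 e.2 u v).sum / 2

/-- Its eigenvalues `∑_j (1 - cos (2π k_j / n))`. -/
def tq (k : Tor n) : ℝ := ∑ j : Fin 3, (1 - (chi k (Pi.single j 1)).re)

lemma tmat_eq (u v : Tor n) :
    tmat n u v = (∑ j : Fin 3, ∑ z : Tor n, dd z (z + Pi.single j 1) u v) / 2 := by
  unfold tmat edges
  rw [List.map_map]
  congr 1
  have h1 := Finset.sum_map_toList (Finset.univ : Finset (Tor n × Fin 3))
    (fun z => dd z.1 (z.1 + Pi.single z.2 1) u v)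
  have h2 : ((fun e : Tor n × Tor n => dd e.1 e.2 u v) ∘
      fun z : Tor n × Fin 3 => (z.1, z.1 + Pi.single z.2 1)) =
      fun z => dd z.1 (z.1 + Pi.single z.2 1) u v := rfl
  rw [h2, h1, Fintype.sum_prod_type, Finset.sum_comm]

lemma tmat_hb (k u : Tor n) : ∑ v, tmat n u v * hb k v = tq k * hb k u := by
  simp only [tmat_eq]
  have h1 : ∀ v, (∑ j : Fin 3, ∑ z : Tor n, dd z (z + Pi.single j 1) u v) / 2 * hb k v =
      ∑ j : Fin 3, ∑ z : Tor n, (dd z (z + Pi.single j 1) u v * hb k v) / 2 := by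
    intro v
    rw [div_mul_eq_mul_div, Finset.sum_mul, Finset.sum_div]
    refine Finset.sum_congr rfl fun j _ => ?_
    rw [Finset.sum_mul, Finset.sum_div]
  simp only [h1]
  rw [Finset.sum_comm, tq, Finset.sum_mul]
  refine Finset.sum_congr rfl fun j _ => ?_
  rw [Finset.sum_comm]
  have h2 := dd_shift k u 0 (Pi.single j 1)
  simp only [add_zero] at h2
  have h3 : (chi k (0 - Pi.single j 1)).re = (chi k (Pi.single j 1)).re := by
    rw [zero_sub, chi_neg, Complex.conj_re]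
  rw [h3] at h2
  have h4 : ∑ z, ∑ v, dd z (z + Pi.single j 1) u v * hb k v / 2 =
      (∑ z, ∑ v, dd z (z + Pi.single j 1) u v * hb k v) / 2 := by
    rw [Finset.sum_div]
    exact Finset.sum_congr rfl fun z _ => by rw [Finset.sum_div]
  rw [h4, h2]
  ring

/-- The offset of a site of the cube. -/
def io (n : ℕ) {w : ℕ} (a : Fin 3 → Fin w) : Tor n := fun i => ((a i : ℕ) : ZMod n)

/-- The one-particle matrix of the block reward, averaged over all translates of the cube. -/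
def gmat (n : ℕ) [NeZero n] (w : ℕ) (u v : Tor n) : ℝ :=
  (∑ z : Tor n, ∑ a : Fin 3 → Fin w, ∑ b : Fin 3 → Fin w, dd (z + io n a) (z + io n b) u v) /
    (2 * (w : ℝ) ^ 6)

/-- Its eigenvalues. -/
def gq (w : ℕ) (k : Tor n) : ℝ :=
  (∑ a : Fin 3 → Fin w, ∑ b : Fin 3 → Fin w, (1 - (chi k (io n a - io n b)).re)) / (w : ℝ) ^ 6

lemma gmat_hb (w : ℕ) (k u : Tor n) : ∑ v, gmat n w u v * hb k v = gq w k * hb k u := by
  unfold gmat gq
  have h1 : ∀ v, (∑ z : Tor n, ∑ a : Fin 3 → Fin w, ∑ b : Fin 3 → Fin w,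
      dd (z + io n a) (z + io n b) u v) / (2 * (w : ℝ) ^ 6) * hb k v =
      (∑ a : Fin 3 → Fin w, ∑ b : Fin 3 → Fin w, ∑ z : Tor n,
        dd (z + io n a) (z + io n b) u v * hb k v) / (2 * (w : ℝ) ^ 6) := by
    intro v
    rw [div_mul_eq_mul_div, Finset.sum_mul]
    congr 1
    rw [Finset.sum_congr rfl fun z _ => Finset.sum_mul _ _ _, Finset.sum_comm]
    refine Finset.sum_congr rfl fun a _ => ?_
    rw [Finset.sum_congr rfl fun z _ => Finset.sum_mul _ _ _, Finset.sum_comm]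
  simp only [h1]
  rw [← Finset.sum_div, Finset.sum_comm]
  have h2 : ∀ a : Fin 3 → Fin w, ∑ v : Tor n, ∑ b : Fin 3 → Fin w, ∑ z : Tor n,
      dd (z + io n a) (z + io n b) u v * hb k v =
      ∑ b : Fin 3 → Fin w, 2 * (1 - (chi k (io n a - io n b)).re) * hb k u := by
    intro a
    rw [Finset.sum_comm]
    refine Finset.sum_congr rfl fun b _ => ?_
    rw [Finset.sum_comm]
    exact dd_shift k u _ _
  simp only [h2]
  rw [div_mul_eq_mul_div]
  rw [mul_comm 2 ((w : ℝ) ^ 6), ← div_div, div_right_comm]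
  congr 1
  rw [Finset.sum_div, Finset.sum_mul]
  refine Finset.sum_congr rfl fun a _ => ?_
  rw [Finset.sum_div, Finset.sum_mul]
  refine Finset.sum_congr rfl fun b _ => ?_
  ring

lemma re_chi_le (k x : Tor n) : (chi k x).re ≤ 1 := by
  rw [← norm_chi k x]
  exact Complex.re_le_norm _

lemma tq_nonneg (k : Tor n) : 0 ≤ tq k :=
  Finset.sum_nonneg fun j _ => sub_nonneg.2 (re_chi_le _ _)

lemma gq_nonneg (w : ℕ) (k : Tor n) : 0 ≤ gq w k :=
  div_nonneg (Finset.sum_nonneg fun a _ => Finset.sum_nonneg fun b _ =>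
    sub_nonneg.2 (re_chi_le _ _)) (by positivity)

lemma gq_le_one (w : ℕ) (k : Tor n) : gq w k ≤ 1 := by
  unfold gq
  rcases Nat.eq_zero_or_pos w with hw | hw
  · subst hw; simp
  have hw' : (0 : ℝ) < (w : ℝ) ^ 6 := by positivity
  rw [div_le_one hw']
  have h1 : ∑ a : Fin 3 → Fin w, ∑ b : Fin 3 → Fin w, (chi k (io n a - io n b)).re =
      ‖∑ a : Fin 3 → Fin w, chi k (io n a)‖ ^ 2 := by
    have h2 : ((‖∑ a : Fin 3 → Fin w, chi k (io n a)‖ ^ 2 : ℝ) : ℂ) =
        (∑ a : Fin 3 → Fin w, chi k (io n a)) *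
          (starRingEnd ℂ) (∑ a : Fin 3 → Fin w, chi k (io n a)) := by
      rw [Complex.mul_conj, Complex.normSq_eq_norm_sq]
    have h3 : ((‖∑ a : Fin 3 → Fin w, chi k (io n a)‖ ^ 2 : ℝ) : ℂ).re =
        (∑ a : Fin 3 → Fin w, ∑ b : Fin 3 → Fin w, chi k (io n a - io n b)).re := by
      rw [h2, map_sum, Finset.sum_mul_sum]
      congr 1
      refine Finset.sum_congr rfl fun a _ => Finset.sum_congr rfl fun b _ => ?_
      rw [sub_eq_add_neg, chi_add, chi_neg]
    rw [Complex.ofReal_re] at h3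
    rw [h3, Complex.re_sum]
    exact Finset.sum_congr rfl fun a _ => (Complex.re_sum _ _).symm
  have h4 : ∑ a : Fin 3 → Fin w, ∑ b : Fin 3 → Fin w, (1 - (chi k (io n a - io n b)).re) =
      (w : ℝ) ^ 6 - ‖∑ a : Fin 3 → Fin w, chi k (io n a)‖ ^ 2 := by
    rw [← h1]
    simp only [Finset.sum_sub_distrib]
    congr 1
    simp
    ring
  rw [h4]
  have := sq_nonneg ‖∑ a : Fin 3 → Fin w, chi k (io n a)‖
  linarith

lemma norm_one_sub_mul {x y : ℂ} (hx : ‖x‖ = 1) : ‖1 - x * y‖ ≤ ‖1 - x‖ + ‖1 - y‖ := by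
  have h1 : 1 - x * y = (1 - x) + x * (1 - y) := by ring
  rw [h1]
  refine (norm_add_le _ _).trans ?_
  rw [norm_mul, hx, one_mul]

lemma norm_one_sub_pow {x : ℂ} (hx : ‖x‖ = 1) (m : ℕ) : ‖1 - x ^ m‖ ≤ m * ‖1 - x‖ := by
  induction m with
  | zero => simp
  | succ m ih =>
    rw [pow_succ']
    refine (norm_one_sub_mul hx).trans ?_
    push_cast
    linarith

lemma chi_io (k : Tor n) {w : ℕ} (a : Fin 3 → Fin w) :
    chi k (io n a) = ∏ j : Fin 3, chi k (Pi.single j 1) ^ (a j : ℕ) := by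
  have h1 : ∀ (j : Fin 3) (m : ℕ), chi k (Pi.single j 1) ^ m = ZMod.stdAddChar (k j * (m : ZMod n)) := by
    intro j m
    unfold chi
    rw [← AddChar.map_nsmul_eq_pow]
    congr 1
    rw [Finset.sum_eq_single j]
    · simp [mul_comm]
    · intro i _ hi
      rw [Pi.single_eq_of_ne hi, mul_zero]
    · intro h
      exact absurd (Finset.mem_univ _) h
  simp only [h1]
  unfold chi io
  rw [Fin.sum_univ_three, Fin.prod_univ_three, AddChar.map_add_eq_mul, AddChar.map_add_eq_mul]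

lemma norm_one_sub_sq (k x : Tor n) : ‖1 - chi k x‖ ^ 2 = 2 * (1 - (chi k x).re) := by
  have h1 := norm_chi k x
  have h2 : (chi k x).re ^ 2 + (chi k x).im ^ 2 = 1 := by
    have := Complex.normSq_eq_norm_sq (chi k x)
    rw [h1, Complex.normSq_apply] at this
    nlinarith
  rw [← Complex.normSq_eq_norm_sq, Complex.normSq_apply]
  simp only [Complex.sub_re, Complex.sub_im, Complex.one_re, Complex.one_im]
  nlinarith

lemma norm_one_sub_io (k : Tor n) {w : ℕ} (a : Fin 3 → Fin w) :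
    ‖1 - chi k (io n a)‖ ≤ w * ∑ j : Fin 3, ‖1 - chi k (Pi.single j 1)‖ := by
  have hp : ∀ (j : Fin 3) (m : ℕ), ‖chi k (Pi.single j 1) ^ m‖ = 1 := by
    intro j m
    rw [norm_pow, norm_chi, one_pow]
  have hq : ∀ (j : Fin 3), ‖1 - chi k (Pi.single j 1) ^ (a j : ℕ)‖ ≤
      w * ‖1 - chi k (Pi.single j 1)‖ := by
    intro j
    refine (norm_one_sub_pow (norm_chi _ _) _).trans ?_
    refine mul_le_mul_of_nonneg_right ?_ (norm_nonneg _)
    exact_mod_cast (a j).2.le
  rw [chi_io, Fin.prod_univ_three, Fin.sum_univ_three, mul_assoc]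
  have h1 := norm_one_sub_mul (x := chi k (Pi.single 0 1) ^ (a 0 : ℕ))
    (y := chi k (Pi.single 1 1) ^ (a 1 : ℕ) * chi k (Pi.single 2 1) ^ (a 2 : ℕ)) (hp 0 _)
  have h2 := norm_one_sub_mul (x := chi k (Pi.single 1 1) ^ (a 1 : ℕ))
    (y := chi k (Pi.single 2 1) ^ (a 2 : ℕ)) (hp 1 _)
  have h3 := hq 0
  have h4 := hq 1
  have h5 := hq 2
  linarith

lemma gq_le (w : ℕ) (k : Tor n) : gq w k ≤ 12 * (w : ℝ) ^ 2 * tq k := by
  rcases Nat.eq_zero_or_pos w with hw | hw
  · subst hw; simp [gq]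
  have hw' : (0 : ℝ) < (w : ℝ) ^ 6 := by positivity
  have key : ∀ a b : Fin 3 → Fin w, 1 - (chi k (io n a - io n b)).re ≤
      12 * (w : ℝ) ^ 2 * tq k := by
    intro a b
    set s : ℝ := ∑ j : Fin 3, ‖1 - chi k (Pi.single j 1)‖ with hs
    have h1 := norm_one_sub_io k a
    have h2 := norm_one_sub_io k b
    rw [← hs] at h1 h2
    have h3 : ‖1 - chi k (io n a - io n b)‖ ≤ 2 * w * s := by
      rw [sub_eq_add_neg (io n a), chi_add]
      refine (norm_one_sub_mul (norm_chi _ _)).trans ?_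
      have h4 : ‖1 - chi k (-io n b)‖ = ‖1 - chi k (io n b)‖ := by
        rw [chi_neg]
        have : 1 - (starRingEnd ℂ) (chi k (io n b)) = (starRingEnd ℂ) (1 - chi k (io n b)) := by
          rw [map_sub, map_one]
        rw [this, Complex.norm_conj]
      rw [h4]
      linarith
    have h5 := norm_one_sub_sq k (io n a - io n b)
    have h6 : ‖1 - chi k (io n a - io n b)‖ ^ 2 ≤ (2 * w * s) ^ 2 :=
      pow_le_pow_left₀ (norm_nonneg _) h3 2
    have h7 : s ^ 2 ≤ 3 * ∑ j : Fin 3, ‖1 - chi k (Pi.single j 1)‖ ^ 2 := by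
      rw [hs, Fin.sum_univ_three, Fin.sum_univ_three]
      nlinarith [sq_nonneg (‖1 - chi k (Pi.single 0 1)‖ - ‖1 - chi k (Pi.single 1 1)‖),
        sq_nonneg (‖1 - chi k (Pi.single 1 1)‖ - ‖1 - chi k (Pi.single 2 1)‖),
        sq_nonneg (‖1 - chi k (Pi.single 0 1)‖ - ‖1 - chi k (Pi.single 2 1)‖)]
    have h8 : ∑ j : Fin 3, ‖1 - chi k (Pi.single j 1)‖ ^ 2 = 2 * tq k := by
      rw [tq, Finset.mul_sum]
      exact Finset.sum_congr rfl fun j _ => norm_one_sub_sq _ _
    rw [h8] at h7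
    have h9 : (2 * (w : ℝ) * s) ^ 2 = 4 * (w : ℝ) ^ 2 * s ^ 2 := by ring
    rw [h9] at h6
    have hw2 : (0 : ℝ) ≤ (w : ℝ) ^ 2 := by positivity
    nlinarith [mul_le_mul_of_nonneg_left h7 hw2]
  unfold gq
  rw [div_le_iff₀ hw']
  calc _ ≤ ∑ _a : Fin 3 → Fin w, ∑ _b : Fin 3 → Fin w, 12 * (w : ℝ) ^ 2 * tq k :=
        Finset.sum_le_sum fun a _ => Finset.sum_le_sum fun b _ => key a b
    _ = _ := by
        simp
        ring


lemma tq_eq (k : Tor n) :
    tq k = ∑ j : Fin 3, (1 - Real.cos (2 * Real.pi * ((k j).val : ℝ) / n)) := by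
  unfold tq
  refine Finset.sum_congr rfl fun j _ => ?_
  congr 1
  have h1 : chi k (Pi.single j 1) = ZMod.stdAddChar (((k j).val : ℤ) : ZMod n) := by
    unfold chi
    congr 1
    rw [Finset.sum_eq_single j]
    · rw [Pi.single_eq_same, mul_one]
      push_cast
      exact (ZMod.natCast_zmod_val (k j)).symm
    · intro i _ hi
      rw [Pi.single_eq_of_ne hi, mul_zero]
    · intro h
      exact absurd (Finset.mem_univ _) h
  rw [h1, ZMod.stdAddChar_coe]
  have h2 : (2 * (Real.pi : ℂ) * Complex.I * (((k j).val : ℤ) : ℂ) / n) =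
      ((2 * Real.pi * ((k j).val : ℝ) / n : ℝ) : ℂ) * Complex.I := by
    push_cast
    ring
  rw [h2, Complex.exp_ofReal_mul_I_re]

/-- Convexity of `-log (1 - e^{-x})`. -/
lemma neg_log_shift {x d : ℝ} (hd : 0 ≤ d) (hx : d < x) :
    -Real.log (1 - Real.exp (-(x - d))) ≤
      -Real.log (1 - Real.exp (-x)) + d * (1 / (Real.exp (x - d) - 1)) := by
  have h1 : 0 < x - d := by linarith
  have hx0 : 0 < x := by linarith
  have e1 : 0 < 1 - Real.exp (-(x - d)) := by
    have : Real.exp (-(x - d)) < 1 := by rw [Real.exp_lt_one_iff]; linarith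
    linarith
  have e2 : 0 < 1 - Real.exp (-x) := by
    have : Real.exp (-x) < 1 := by rw [Real.exp_lt_one_iff]; linarith
    linarith
  have e3 : 0 < Real.exp (x - d) - 1 := by
    have : 1 < Real.exp (x - d) := by rw [Real.one_lt_exp_iff]; exact h1
    linarith
  have h2 : Real.log (1 - Real.exp (-x)) - Real.log (1 - Real.exp (-(x - d))) ≤
      (1 - Real.exp (-x)) / (1 - Real.exp (-(x - d))) - 1 := by
    rw [← Real.log_div e2.ne' e1.ne']
    exact Real.log_le_sub_one_of_pos (div_pos e2 e1)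
  have h3 : (1 - Real.exp (-x)) / (1 - Real.exp (-(x - d))) - 1 ≤
      d * (1 / (Real.exp (x - d) - 1)) := by
    rw [div_sub_one e1.ne']
    have h4 : 1 - Real.exp (-x) - (1 - Real.exp (-(x - d))) =
        Real.exp (-(x - d)) * (1 - Real.exp (-d)) := by
      have : Real.exp (-x) = Real.exp (-(x - d)) * Real.exp (-d) := by
        rw [← Real.exp_add]; congr 1; ring
      rw [this]; ring
    have h5 : 1 - Real.exp (-d) ≤ d := by
      have := Real.add_one_le_exp (-d)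
      linarith
    have h6 : 1 - Real.exp (-(x - d)) = Real.exp (-(x - d)) * (Real.exp (x - d) - 1) := by
      have : Real.exp (-(x - d)) * Real.exp (x - d) = 1 := by
        rw [← Real.exp_add]; simp
      rw [mul_sub, this, mul_one]
    rw [h4, h6, mul_div_mul_left _ _ (Real.exp_pos _).ne', mul_one_div]
    exact div_le_div_of_nonneg_right h5 e3.le
  linarith

lemma bose_anti {x y : ℝ} (hx : 0 < x) (hxy : x ≤ y) :
    1 / (Real.exp y - 1) ≤ 1 / (Real.exp x - 1) := by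
  have e3 : 0 < Real.exp x - 1 := by
    have : 1 < Real.exp x := by rw [Real.one_lt_exp_iff]; exact hx
    linarith
  refine one_div_le_one_div_of_le e3 ?_
  have := Real.exp_le_exp.2 hxy
  linarith

/-- The eigenvalues stay positive. -/
lemma eig_pos {w : ℕ} {β h lam μ : ℝ} (hβ : 0 < β) (hh : 0 < h) (hlam : 0 ≤ lam)
    (hμ : 12 * lam * (w : ℝ) ^ 2 ≤ μ) (hμ1 : μ ≤ 1) (k : Tor n) :
    β * ((1 - μ) * tq k + h) ≤ β * (tq k + h - lam * gq w k) ∧
      0 < β * ((1 - μ) * tq k + h) := by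
  have h1 := tq_nonneg k
  have h2 := mul_le_mul_of_nonneg_left (gq_le w k) hlam
  constructor
  · refine mul_le_mul_of_nonneg_left ?_ hβ.le
    have h3 : lam * (12 * (w : ℝ) ^ 2 * tq k) ≤ μ * tq k := by
      have := mul_le_mul_of_nonneg_right hμ h1
      linarith
    linarith
  · have : 0 ≤ (1 - μ) * tq k := mul_nonneg (by linarith) h1
    positivity

/-- (S1): the free gas with the block reward. -/
theorem sum_log_le {w : ℕ} {β h lam μ : ℝ} (hβ : 0 < β) (hh : 0 < h) (hlam : 0 ≤ lam)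
    (hμ : 12 * lam * (w : ℝ) ^ 2 ≤ μ) (hμ1 : μ ≤ 1) :
    ∑ k : Tor n, -Real.log (1 - Real.exp (-(β * (tq k + h - lam * gq w k)))) ≤
      ∑ k : Tor n, -Real.log (1 - Real.exp (-(β * (tq k + h)))) +
        β * lam * ∑ k : Tor n, 1 / (Real.exp (β * ((1 - μ) * tq k + h)) - 1) := by
  rw [Finset.mul_sum, ← Finset.sum_add_distrib]
  refine Finset.sum_le_sum fun k _ => ?_
  obtain ⟨h1, h2⟩ := eig_pos (w := w) hβ hh hlam hμ hμ1 k
  have hg0 := gq_nonneg w k
  have hg1 := gq_le_one w k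
  have hd : 0 ≤ β * (lam * gq w k) := mul_nonneg hβ.le (mul_nonneg hlam hg0)
  have e1 : β * (tq k + h - lam * gq w k) = β * (tq k + h) - β * (lam * gq w k) := by ring
  have h3 := neg_log_shift (x := β * (tq k + h)) hd (by linarith)
  rw [← e1] at h3
  refine h3.trans (add_le_add le_rfl ?_)
  have h4 := bose_anti h2 h1
  have h5 : β * (lam * gq w k) ≤ β * lam := by
    rw [← mul_assoc]
    exact mul_le_of_le_one_right (mul_nonneg hβ.le hlam) hg1
  have h6 : 0 ≤ 1 / (Real.exp (β * ((1 - μ) * tq k + h)) - 1) := by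
    have : 1 < Real.exp (β * ((1 - μ) * tq k + h)) := by
      rw [Real.one_lt_exp_iff]; exact h2
    exact one_div_nonneg.2 (by linarith)
  exact (mul_le_mul_of_nonneg_left h4 hd).trans (mul_le_mul_of_nonneg_right h5 h6)

end

end Vale.Agent.P361.LRO.S3.OB
end

section

/-!
P361, stage 3, block (T): lower tail of `N_b`. Assembly (helper260).
-/

namespace Vale.Agent.P361.LRO.S3T

open Finset Matrix Filter Topology
open Vale.Agent.P361.LRO Vale.Agent.P361.LRO.S3

/-- (T0) + (T1): Peierls-Bogoliubov, tiling, comparison with the landed partition function. -/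
def LT01Stmt : Prop :=
  ∀ β h : ℝ, 0 < β → 0 < h → ∀ w : ℕ, 0 < w → ∀ ε : ℝ, 0 < ε →
    ∃ n0 : ℕ, ∀ (n : ℕ) [NeZero n], n0 ≤ n → Odd n →
    ∀ (x : Tor n) (G : Polynomial ℝ) (τ1 τ2 c1 c2 : ℝ), 0 < τ1 → 0 < τ2 → 0 ≤ c1 → 0 ≤ c2 →
    (∀ r : ℕ, 2 * r ≤ w ^ 3 → Real.exp (G.eval ((r : ℝ) * ((w : ℝ) ^ 3 - r + 1))) ≤
      c1 * Real.exp (-(τ1 * r)) + c2 * Real.exp (-(τ2 * r))) →
    gib (edges n) β (fun _ => h) (Polynomial.aeval (CM (cube n x w)) G) ≤
      Real.log (((w : ℝ) ^ 3 + 1) *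
        (c1 * B.Zt 1 (B.cube w) β τ1 + c2 * B.Zt 1 (B.cube w) β τ2)) -
      (w : ℝ) ^ 3 * B.gRed 1 β h + ε

/-- (T2): the partition function of the block at a fixed field `τ / β`. -/
def LT2Stmt : Prop :=
  ∀ d : ℝ, 0 < d → d ≤ 1 / 100 → ∀ τ ε : ℝ, 0 < τ → 0 < ε → ∃ β0 : ℝ, ∀ β : ℝ, β0 ≤ β →
    ∀ a : ℕ, β ^ (1 / 2 + d) ≤ (3 : ℝ) ^ a → (3 : ℝ) ^ a ≤ 3 * β ^ (1 / 2 + d) →
    Real.sqrt β ^ 3 / ((3 : ℝ) ^ a) ^ 3 * Real.log (B.Zt 1 (B.cube (3 ^ a)) β τ) ≤
      B.FS (1 / 2) τ + ε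

theorem BC_eq : BC = B.aS (1 / 2) := by
  unfold BC B.aS
  have h1 : Real.sqrt (4 * Real.pi * (1 / 2)) ^ 3 =
      8 * Real.pi ^ (3 / 2 : ℝ) * (1 / 2 : ℝ) ^ (3 / 2 : ℝ) := by
    have hpi := Real.pi_pos
    have e1 : Real.sqrt (4 * Real.pi * (1 / 2)) ^ 3 = (4 * Real.pi * (1 / 2)) ^ (3 / 2 : ℝ) := by
      rw [Real.sqrt_eq_rpow, ← Real.rpow_natCast, ← Real.rpow_mul (by positivity)]
      norm_num
    rw [e1, Real.mul_rpow (by positivity) (by norm_num), Real.mul_rpow (by norm_num) hpi.le]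
    have e2 : (4 : ℝ) ^ (3 / 2 : ℝ) = 8 := by
      rw [show (4 : ℝ) = 2 ^ (2 : ℝ) by norm_num, ← Real.rpow_mul (by norm_num)]
      norm_num
    rw [e2]
  rw [h1, div_eq_inv_mul]

theorem aS_pos : 0 < B.aS (1 / 2) := by
  refine lt_of_lt_of_le ?_ (B.fR_le (1 / 2) 1 (t := 0) le_rfl)
  unfold B.fR
  have hpi := Real.pi_pos
  simp only [Finset.range_one, Finset.sum_singleton]
  positivity

/-- `F(0) - F(τ) ≥ τ f(τ)`. -/
theorem FS_sub_ge (S : ℝ) {τ : ℝ} (hτ : 0 ≤ τ) : τ * B.fS S τ ≤ B.FS S 0 - B.FS S τ := by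
  unfold B.FS B.fS
  rw [← mul_sub, ← (B.summable_F le_rfl).tsum_sub (B.summable_F hτ), mul_left_comm τ]
  refine mul_le_mul_of_nonneg_left ?_ (by positivity)
  rw [← tsum_mul_left]
  refine Summable.tsum_le_tsum (fun r => ?_) ((B.summable_f hτ).mul_left τ)
    ((B.summable_F le_rfl).sub (B.summable_F hτ))
  rw [← sub_div, le_div_iff₀ (by positivity)]
  have h3 : τ * (Real.exp (-(((r : ℝ) + 1) * τ)) / Real.sqrt ((r : ℝ) + 1) ^ 3) *
      (((r : ℝ) + 1) * Real.sqrt ((r : ℝ) + 1) ^ 3) =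
      Real.exp (-(((r : ℝ) + 1) * τ)) * (((r : ℝ) + 1) * τ) := by
    have : 0 < Real.sqrt ((r : ℝ) + 1) := Real.sqrt_pos.2 (by positivity)
    field_simp
  rw [h3]
  have h4 : Real.exp (-(((r : ℝ) + 1) * 0)) = 1 := by simp
  rw [h4]
  have h5 := Real.add_one_le_exp (((r : ℝ) + 1) * τ)
  have h6 : Real.exp (-(((r : ℝ) + 1) * τ)) * Real.exp (((r : ℝ) + 1) * τ) = 1 := by
    rw [← Real.exp_add]; simp
  have h7 := Real.exp_pos (-(((r : ℝ) + 1) * τ))
  nlinarith

theorem FS_anti (S : ℝ) {τ : ℝ} (hτ : 0 ≤ τ) : B.FS S τ ≤ B.FS S 0 := by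
  have h := FS_sub_ge S hτ
  have := mul_nonneg hτ (B.fS_nonneg S τ)
  linarith

/-- The law of `r = J_max - J` of a block. -/
theorem gib_law {V : Type} [Fintype V] [DecidableEq V] (L : List (V × V)) (β : ℝ) (h : V → ℝ)
    (b : Finset V) :
    ∃ (ι : Type) (_ : Fintype ι) (μ : ι → ℝ) (r : ι → ℕ), (∀ i, 0 ≤ μ i) ∧
      (∀ i, 2 * r i ≤ b.card) ∧ ∑ i, μ i = 1 ∧
      (∀ P : Polynomial ℝ, ∑ i, μ i * P.eval ((r i : ℝ) * ((b.card : ℝ) - r i + 1)) =
        gib L β h (Polynomial.aeval (CM b) P)) ∧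
      ∑ i, μ i * (r i : ℝ) ≤ ∑ x ∈ b, rho L β h x := by
  obtain ⟨ι, hι, μ, N, r, p, h1, h2, h3, -, -⟩ :=
    TwJ.joint_law_poly (Tw.expH_psd L β h) (fun σ τ hd => by
      have := Tw.expH_cons L β h σ τ hd
      exact_mod_cast this) b
  have hT := Tw.trace_expH_pos L β h
  set T := Matrix.trace (NormedSpace.exp (-β • ham L h)) with hTdef
  have key : ∀ P Q : Polynomial ℝ, ∑ i, μ i / T *
      (P.eval ((r i : ℝ) * ((b.card : ℝ) - r i + 1)) * Q.eval ((r i : ℝ) + p i)) =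
      gib L β h (Polynomial.aeval (CM b) P * Polynomial.aeval (TwJ.Dn b) Q) := by
    intro P Q
    have e : ∑ i, μ i / T *
        (P.eval ((r i : ℝ) * ((b.card : ℝ) - r i + 1)) * Q.eval ((r i : ℝ) + p i)) =
        (∑ i, μ i * (P.eval ((r i : ℝ) * ((b.card : ℝ) - r i + 1)) *
          Q.eval ((r i : ℝ) + p i))) / T := by
      rw [Finset.sum_div]
      exact Finset.sum_congr rfl fun i _ => by ring
    rw [e, h3]
    rfl
  refine ⟨ι, hι, fun i => μ i / T, r, fun i => div_nonneg (h1 i) hT.le,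
    fun i => by have := (h2 i).1; omega, ?_, ?_, ?_⟩
  · have hk := key 1 1
    simp only [Polynomial.eval_one, mul_one, map_one] at hk
    rw [hk]
    unfold gib
    rw [mul_one, ← hTdef, div_self hT.ne']
  · intro P
    have hk := key P 1
    simpa only [Polynomial.eval_one, mul_one, map_one] using hk
  · have hk := key 1 Polynomial.X
    simp only [Polynomial.eval_one, one_mul, map_one, Polynomial.eval_X,
      Polynomial.aeval_X] at hk
    have e2 : gib L β h (TwJ.Dn b) = ∑ x ∈ b, rho L β h x := by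
      unfold rho gib TwJ.Dn
      rw [Finset.mul_sum, Matrix.trace_sum, Finset.sum_div]
    rw [← e2, ← hk]
    refine Finset.sum_le_sum fun i _ => ?_
    refine mul_le_mul_of_nonneg_left ?_ (div_nonneg (h1 i) hT.le)
    have : (0 : ℝ) ≤ p i := Nat.cast_nonneg _
    linarith

/-- Scalar core for one value of `β`: `v = w³ β^{-3/2}`. -/
theorem core {ι : Type} [Fintype ι] (μ : ι → ℝ) (r : ι → ℕ)
    {q s t' X R : ℝ} {g : ι → ℝ} (ht' : 0 ≤ t')
    (hg : ∀ i, g i = (if (r i : ℝ) < q then s else 0) - t' * r i)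
    (hX : ∑ i, μ i * g i ≤ X) (hR : ∑ i, μ i * (r i : ℝ) ≤ R) :
    s * ∑ i, (if (r i : ℝ) < q then μ i else 0) ≤ X + t' * R := by
  have e : ∑ i, μ i * g i = s * ∑ i, (if (r i : ℝ) < q then μ i else 0) -
      t' * ∑ i, μ i * (r i : ℝ) := by
    rw [Finset.mul_sum, Finset.mul_sum, ← Finset.sum_sub_distrib]
    refine Finset.sum_congr rfl fun i _ => ?_
    rw [hg]
    split_ifs <;> ring
  rw [e] at hX
  have := mul_le_mul_of_nonneg_left hR ht'
  linarith

/-- Eventual lower bound of the reduced pressure at tiny fields. -/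
theorem gRed_ge {ε : ℝ} (hε : 0 < ε) : ∃ β0 : ℝ, ∀ β : ℝ, β0 ≤ β → ∀ h : ℝ, 0 < h →
    h ≤ β ^ (-(10 : ℝ)) → B.FS (1 / 2) 0 - ε ≤ Real.sqrt β ^ 3 * B.gRed 1 β h := by
  obtain ⟨K, hK1, hK⟩ := B.gRed_lower (n := 1) le_rfl
  have e12 : ((1 : ℕ) : ℝ) / 2 = 1 / 2 := by norm_num
  rw [e12] at hK
  obtain ⟨R, hR⟩ := ((B.FR_tendsto (1 / 2) (t := 0) le_rfl).eventually
    (lt_mem_nhds (show B.FS (1 / 2) 0 - ε / 3 < B.FS (1 / 2) 0 by linarith))).exists
  have hcont : Tendsto (fun t : ℝ => B.FR (1 / 2) R t) (𝓝 0) (𝓝 (B.FR (1 / 2) R 0)) :=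
    (B.hasDerivAt_FR (1 / 2) R 0).continuousAt
  have hsmall : Tendsto (fun β : ℝ => β ^ (-(9 : ℝ))) atTop (𝓝 0) :=
    tendsto_rpow_neg_atTop (by norm_num)
  have h1 : ∀ᶠ t in 𝓝 (0 : ℝ), B.FS (1 / 2) 0 - 2 * ε / 3 < B.FR (1 / 2) R t :=
    hcont.eventually (lt_mem_nhds (by linarith))
  obtain ⟨δ', hδ', hball⟩ := Metric.eventually_nhds_iff.1 h1
  set X : ℝ := B.FS (1 / 2) 0 - 2 * ε / 3 with hX
  have h2 : Tendsto (fun β : ℝ => (1 - K / β) * X) atTop (𝓝 ((1 - 0) * X)) :=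
    (tendsto_const_nhds.sub (tendsto_const_nhds.div_atTop tendsto_id)).mul_const X
  have h3 : ∀ᶠ β : ℝ in atTop, X - ε / 3 < (1 - K / β) * X :=
    h2.eventually (lt_mem_nhds (by linarith))
  have h4 : ∀ᶠ β : ℝ in atTop, β ^ (-(9 : ℝ)) < δ' := hsmall.eventually (gt_mem_nhds hδ')
  obtain ⟨β0, hβ0⟩ := eventually_atTop.1 (h3.and (h4.and (eventually_ge_atTop (max K 1))))
  refine ⟨β0, fun β hβ h hh0 hh => ?_⟩
  obtain ⟨h5, h6, h7⟩ := hβ0 β hβ
  have hβK : K ≤ β := (le_max_left _ _).trans h7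
  have hβ1 : 1 ≤ β := (le_max_right _ _).trans h7
  have hβ : 0 < β := by linarith
  refine le_trans ?_ (hK β hβK h hh0.le R)
  have h8 : β * h < δ' := by
    refine lt_of_le_of_lt ?_ h6
    calc β * h ≤ β * β ^ (-(10 : ℝ)) := mul_le_mul_of_nonneg_left hh hβ.le
      _ = β ^ (-(9 : ℝ)) := by
        nth_rewrite 1 [← Real.rpow_one β]
        rw [← Real.rpow_add hβ]
        norm_num
  have h9 : X < B.FR (1 / 2) R (β * h) := by
    refine hball ?_
    rw [Real.dist_eq, sub_zero, abs_of_nonneg (by positivity)]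
    exact h8
  have h10 : 0 ≤ 1 - K / β := by
    rw [sub_nonneg, div_le_one hβ]; exact hβK
  have h11 := mul_le_mul_of_nonneg_left h9.le h10
  linarith

/-- The upper bound `X` for the exponent. -/
theorem log_bound {v W A FS0 FSt FSτ s0 s q τ δ ε z1 z2 : ℝ} (hv : 0 < v) (hW : 0 ≤ W)
    (hs : s = s0 * v) (hq : q = (1 - δ) * A * v) (hs0 : s0 = 3 / 4 * δ * τ * A)
    (hF1 : FSt ≤ FS0) (hF2 : τ * ((1 - δ / 4) * A) ≤ FS0 - FSτ) (hz1 : 0 < z1) (hz2 : 0 < z2)
    (h1 : Real.log z1 ≤ v * (FSt + ε)) (h2 : Real.log z2 ≤ v * (FSτ + ε)) :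
    Real.log ((W + 1) * (1 * z1 + Real.exp (s + τ * q) * z2)) ≤
      Real.log (2 * (W + 1)) + v * (FS0 + ε) := by
  have e1 : z1 ≤ Real.exp (v * (FS0 + ε)) := by
    rw [← Real.log_le_iff_le_exp hz1]
    refine h1.trans (mul_le_mul_of_nonneg_left (by linarith) hv.le)
  have e2 : Real.exp (s + τ * q) * z2 ≤ Real.exp (v * (FS0 + ε)) := by
    have e3 : z2 ≤ Real.exp (v * (FSτ + ε)) := by
      rw [← Real.log_le_iff_le_exp hz2]
      exact h2
    refine (mul_le_mul_of_nonneg_left e3 (Real.exp_pos _).le).trans ?_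
    rw [← Real.exp_add]
    refine Real.exp_le_exp.2 ?_
    rw [hs, hq, hs0]
    have e4 : 3 / 4 * δ * τ * A * v + τ * ((1 - δ) * A * v) + v * (FSτ + ε) =
        v * (τ * ((1 - δ / 4) * A) + FSτ + ε) := by ring
    rw [e4]
    exact mul_le_mul_of_nonneg_left (by linarith) hv.le
  have hpos : 0 < (W + 1) * (1 * z1 + Real.exp (s + τ * q) * z2) := by
    have := Real.exp_pos (s + τ * q)
    positivity
  have e5 : (W + 1) * (1 * z1 + Real.exp (s + τ * q) * z2) ≤
      2 * (W + 1) * Real.exp (v * (FS0 + ε)) := by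
    calc (W + 1) * (1 * z1 + Real.exp (s + τ * q) * z2) ≤
        (W + 1) * (Real.exp (v * (FS0 + ε)) + Real.exp (v * (FS0 + ε))) :=
          mul_le_mul_of_nonneg_left (by linarith) (by linarith)
      _ = _ := by ring
  have e6 := Real.log_le_log hpos e5
  rwa [Real.log_mul (by positivity) (Real.exp_pos _).ne', Real.log_exp] at e6

theorem num_log {β d W v c : ℝ} (hβ1 : 1 ≤ β) (hd1 : d ≤ 1 / 100) (hWp : 0 < W)
    (ha1 : β ^ (1 / 2 + d) ≤ W) (ha2 : W ≤ 3 * β ^ (1 / 2 + d)) (hv : v = W ^ 3 / Real.sqrt β ^ 3)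
    (hc : 0 < c) (k1 : Real.log 56 + 3 * Real.log β ≤ c * β ^ (3 * d)) :
    Real.log (2 * (W ^ 3 + 1)) ≤ c * v := by
  have hβ0 : 0 < β := by linarith
  have hsb : 0 < Real.sqrt β ^ 3 := by
    have := Real.sqrt_pos.2 hβ0
    positivity
  have a1 : W ≤ 3 * β := by
    refine ha2.trans ?_
    refine mul_le_mul_of_nonneg_left ?_ (by norm_num)
    calc β ^ (1 / 2 + d) ≤ β ^ (1 : ℝ) :=
          Real.rpow_le_rpow_of_exponent_le hβ1 (by linarith)
      _ = β := Real.rpow_one β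
  have a2 : 2 * (W ^ 3 + 1) ≤ 56 * β ^ 3 := by
    have b1 : W ^ 3 ≤ (3 * β) ^ 3 := pow_le_pow_left₀ hWp.le a1 3
    have b2 : 1 ≤ β ^ 3 := one_le_pow₀ hβ1
    have b3 : (3 * β) ^ 3 = 27 * β ^ 3 := by ring
    rw [b3] at b1
    linarith
  have a3 := Real.log_le_log (by positivity) a2
  rw [Real.log_mul (x := 56) (by norm_num) (by positivity), Real.log_pow] at a3
  have a4 : β ^ (3 * d) ≤ v := by
    rw [hv, le_div_iff₀ hsb]
    have b1 : Real.sqrt β ^ 3 = β ^ (3 / 2 : ℝ) := by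
      rw [Real.sqrt_eq_rpow, ← Real.rpow_natCast, ← Real.rpow_mul hβ0.le]
      norm_num
    have b2 : (β ^ (1 / 2 + d)) ^ 3 ≤ W ^ 3 :=
      pow_le_pow_left₀ (Real.rpow_nonneg hβ0.le _) ha1 3
    refine le_trans (le_of_eq ?_) b2
    rw [b1, ← Real.rpow_natCast (β ^ (1 / 2 + d)) 3, ← Real.rpow_mul hβ0.le,
      ← Real.rpow_add hβ0]
    congr 1
    push_cast
    ring
  have a5 := mul_le_mul_of_nonneg_left a4 hc.le
  push_cast at a3
  linarith

theorem num_fin {s0 δ v t' C7 Z L2 F g ε : ℝ} (hC7 : 0 < C7) (ht' : t' = s0 * δ / (4 * C7))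
    (hε : ε = s0 * δ / 16) (q3 : Z ≤ L2 + v * (F + ε)) (q5 : v * (F - ε) ≤ g)
    (q6 : L2 ≤ s0 * δ / 8 * v) (hvp : 0 < v) (hs : 0 < s0 * δ) :
    Z - g + s0 * δ / 8 * v + t' * (C7 * v) ≤ s0 * v * δ := by
  have e1 : t' * (C7 * v) = s0 * δ / 4 * v := by
    rw [ht']; field_simp
  rw [e1]
  have e3 : v * (F + ε) - v * (F - ε) = 2 * (v * ε) := by ring
  have e4 : v * ε = s0 * δ * v / 16 := by rw [hε]; ring
  have e5 : 0 < s0 * δ * v := by positivity
  have e6 : s0 * δ / 8 * v = s0 * δ * v / 8 := by ring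
  have e7 : s0 * δ / 4 * v = s0 * δ * v / 4 := by ring
  have e8 : s0 * v * δ = s0 * δ * v := by ring
  rw [e6, e7, e8]
  rw [e6] at q6
  rw [e4] at e3
  linarith

theorem exp_G {s t' τ q c : ℝ} {r : ℕ} (ht' : 0 ≤ t') (hτ : 0 ≤ τ)
    (hc : c = (if (r : ℝ) < q then s else 0) - t' * r) :
    Real.exp c ≤ 1 * Real.exp (-(t' * r)) + Real.exp (s + τ * q) * Real.exp (-(τ * r)) := by
  rw [hc]
  split_ifs with hlt
  · rw [← Real.exp_add]
    have e4 : Real.exp (s - t' * r) ≤ Real.exp (s + τ * q + -(τ * r)) := by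
      refine Real.exp_le_exp.2 ?_
      have e5 : 0 ≤ t' * r := by positivity
      have e6 : τ * r ≤ τ * q := mul_le_mul_of_nonneg_left hlt.le hτ
      linarith
    have := Real.exp_pos (-(t' * r))
    linarith
  · rw [zero_sub]
    have := Real.exp_pos (s + τ * q)
    have h7 := Real.exp_pos (-(τ * r))
    have := mul_pos this h7
    linarith

theorem fam_const {n : ℕ} [NeZero n] {g0 lam : ℝ} (hg : 0 ≤ g0) (hg1 : g0 ≤ 1) (hlam : 0 ≤ lam) :
    Fam n g0 lam (fun _ => g0) := by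
  refine ⟨fun x => ⟨le_rfl, hg1⟩, fun x i => ?_⟩
  have h1 : 1 ≤ Real.exp lam := Real.one_le_exp hlam
  constructor <;> nlinarith

theorem tailStmt3_of (h01 : LT01Stmt) (h2 : LT2Stmt) (hB : BootStmt3) : TailStmt3 := by
  intro d hd0 hd1 δ hδ
  obtain ⟨C7, βB, hC7, hB⟩ := hB
  rcases le_or_gt 1 δ with hδ1 | hδ1
  · refine ⟨1, fun β hβ a _ _ h _ _ => ⟨0, fun n _ _ _ x P hP => ?_⟩⟩
    obtain ⟨ι, hι, μ, r, hμ0, hr, hμ1, hlaw, -⟩ :=
      gib_law (edges n) β (fun _ => h) (cube n x (3 ^ a))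
    rw [← hlaw P]
    calc _ ≤ ∑ i, μ i * 1 := Finset.sum_le_sum fun i _ =>
          mul_le_mul_of_nonneg_left ((hP _ (hr i)).trans (by split_ifs <;> norm_num)) (hμ0 i)
      _ = 1 := by simp [hμ1]
      _ ≤ δ := hδ1
  set A : ℝ := B.aS (1 / 2) with hA
  have hA0 : 0 < A := aS_pos
  obtain ⟨τ, hτ0, hτ⟩ : ∃ τ : ℝ, 0 < τ ∧ (1 - δ / 4) * A ≤ B.fS (1 / 2) τ := by
    have h1 := B.fS_tendsto_zero (1 / 2)
    rw [B.fS_zero] at h1
    have h2 : ∀ᶠ t in 𝓝[≥] (0 : ℝ), (1 - δ / 4) * A < B.fS (1 / 2) t :=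
      h1.eventually (lt_mem_nhds (by nlinarith))
    have h3 : ∀ᶠ t in 𝓝[>] (0 : ℝ), (1 - δ / 4) * A < B.fS (1 / 2) t :=
      h2.filter_mono (nhdsWithin_mono _ Set.Ioi_subset_Ici_self)
    obtain ⟨t, ht1, ht2⟩ := (h3.and self_mem_nhdsWithin).exists
    exact ⟨t, ht2, ht1.le⟩
  obtain ⟨s0, hs0⟩ : ∃ s0 : ℝ, s0 = 3 / 4 * δ * τ * A := ⟨_, rfl⟩
  have hs0p : 0 < s0 := by rw [hs0]; positivity
  obtain ⟨t', ht'⟩ : ∃ t' : ℝ, t' = s0 * δ / (4 * C7) := ⟨_, rfl⟩
  have ht'p : 0 < t' := by rw [ht']; positivity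
  obtain ⟨ε, hε⟩ : ∃ ε : ℝ, ε = s0 * δ / 16 := ⟨_, rfl⟩
  have hεp : 0 < ε := by rw [hε]; positivity
  obtain ⟨β1, hβ1⟩ := h2 d hd0 hd1 t' ε ht'p hεp
  obtain ⟨β2, hβ2⟩ := h2 d hd0 hd1 τ ε hτ0 hεp
  obtain ⟨β3, hβ3⟩ := gRed_ge hεp
  have hc : 0 < s0 * δ / 8 := by positivity
  have hl : ∀ᶠ β : ℝ in atTop, Real.log 56 + 3 * Real.log β ≤ s0 * δ / 8 * β ^ (3 * d) := by
    have l1 := (isLittleO_log_rpow_atTop (show 0 < 3 * d by linarith)).bound
      (show 0 < s0 * δ / 8 / 6 by positivity)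
    have l2 : ∀ᶠ β : ℝ in atTop, Real.log 56 / (s0 * δ / 8 / 2) ≤ β ^ (3 * d) :=
      (tendsto_rpow_atTop (by linarith)).eventually_ge_atTop _
    filter_upwards [l1, l2, eventually_ge_atTop 1] with β l1 l2 l3
    rw [Real.norm_of_nonneg (Real.log_nonneg l3),
      Real.norm_of_nonneg (Real.rpow_nonneg (by linarith) _)] at l1
    rw [div_le_iff₀ (by positivity)] at l2
    nlinarith
  have hl2 : ∀ᶠ β : ℝ in atTop, 6 * β ^ (-(1 / 2) : ℝ) ≤ s0 * δ / 8 := by
    have l1 : Tendsto (fun β : ℝ => 6 * β ^ (-(1 / 2) : ℝ)) atTop (𝓝 (6 * 0)) :=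
      (tendsto_rpow_neg_atTop (by norm_num)).const_mul 6
    rw [mul_zero] at l1
    filter_upwards [l1.eventually (gt_mem_nhds hc)] with β l2 using l2.le
  obtain ⟨β4, hβ4⟩ := eventually_atTop.1 (hl.and (hl2.and (eventually_ge_atTop (max 1 βB))))
  refine ⟨max (max β1 β2) (max β3 β4), fun β hβ a ha1 ha2 h hh0 hh => ?_⟩
  have hb1 : β1 ≤ β := (le_max_left _ _).trans ((le_max_left _ _).trans hβ)
  have hb2 : β2 ≤ β := (le_max_right _ _).trans ((le_max_left _ _).trans hβ)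
  have hb3 : β3 ≤ β := (le_max_left _ _).trans ((le_max_right _ _).trans hβ)
  have hb4 : β4 ≤ β := (le_max_right _ _).trans ((le_max_right _ _).trans hβ)
  obtain ⟨k1, k2, k3⟩ := hβ4 β hb4
  have hβ1' : 1 ≤ β := (le_max_left _ _).trans k3
  have hβB : βB ≤ β := (le_max_right _ _).trans k3
  have hβ0 : 0 < β := by linarith
  obtain ⟨nB, hnB⟩ := hB β hβB
  have hw0 : 0 < 3 ^ a := by positivity
  obtain ⟨W, hW⟩ : ∃ W : ℝ, W = (3 : ℝ) ^ a := ⟨_, rfl⟩
  have hW1 : 1 ≤ W := by rw [hW]; exact one_le_pow₀ (by norm_num)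
  have hWp : 0 < W := by linarith
  have hsb : 0 < Real.sqrt β ^ 3 := by
    have := Real.sqrt_pos.2 hβ0
    positivity
  obtain ⟨v, hv⟩ : ∃ v : ℝ, v = W ^ 3 / Real.sqrt β ^ 3 := ⟨_, rfl⟩
  have hvp : 0 < v := by rw [hv]; positivity
  obtain ⟨n1, hn1⟩ := h01 β h hβ0 hh0 (3 ^ a) hw0 (s0 * δ / 8 * v) (by positivity)
  obtain ⟨nh, hnh⟩ : ∃ nh : ℕ, ∀ n : ℕ, nh ≤ n → (n : ℝ) ^ (-(1 / 4) : ℝ) ≤ β * h := by
    have l1 : Tendsto (fun n : ℕ => (n : ℝ) ^ (-(1 / 4) : ℝ)) atTop (𝓝 0) :=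
      (tendsto_rpow_neg_atTop (by norm_num)).comp tendsto_natCast_atTop_atTop
    obtain ⟨N, hN⟩ := eventually_atTop.1
      (l1.eventually (gt_mem_nhds (show 0 < β * h by positivity)))
    exact ⟨N, fun n hn => (hN n hn).le⟩
  have hhβ : β * h ≤ 1 := by
    calc β * h ≤ β * β ^ (-(10 : ℝ)) := mul_le_mul_of_nonneg_left hh hβ0.le
      _ = β ^ (-(9 : ℝ)) := by
        nth_rewrite 1 [← Real.rpow_one β]
        rw [← Real.rpow_add hβ0]
        norm_num
      _ ≤ 1 := Real.rpow_le_one_of_one_le_of_nonpos hβ1' (by norm_num)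
  refine ⟨max (max n1 (3 ^ a)) (max nB nh), fun n _ hn hodd x P hP => ?_⟩
  have hn1' : n1 ≤ n := (le_max_left _ _).trans ((le_max_left _ _).trans hn)
  have hwn : 3 ^ a ≤ n := (le_max_right _ _).trans ((le_max_left _ _).trans hn)
  have hnB' : nB ≤ n := (le_max_left _ _).trans ((le_max_right _ _).trans hn)
  have hnh' : nh ≤ n := (le_max_right _ _).trans ((le_max_right _ _).trans hn)
  have hcard : (cube n x (3 ^ a)).card = (3 ^ a) ^ 3 := EnR.card_cube x hwn
  have hcardR : ((cube n x (3 ^ a)).card : ℝ) = W ^ 3 := by rw [hcard, hW]; push_cast; ring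
  obtain ⟨ι, hι, μ, r, hμ0, hr, hμ1, hlaw, hmean⟩ :=
    gib_law (edges n) β (fun _ => h) (cube n x (3 ^ a))
  rw [← hlaw P]
  obtain ⟨q, hq⟩ : ∃ q : ℝ, q = (1 - δ) * A * v := ⟨_, rfl⟩
  have hpow : β ^ (-(3 / 2) : ℝ) = 1 / Real.sqrt β ^ 3 := by
    rw [Real.rpow_neg hβ0.le, Real.sqrt_eq_rpow, ← Real.rpow_natCast, ← Real.rpow_mul hβ0.le,
      one_div]
    norm_num
  have hq' : (1 - δ) * BC * β ^ (-(3 / 2) : ℝ) * (cube n x (3 ^ a)).card = q := by
    rw [hq, BC_eq, hcardR, hpow, hv]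
    ring
  rw [hq'] at hP
  obtain ⟨s, hs⟩ : ∃ s : ℝ, s = s0 * v := ⟨_, rfl⟩
  have hsp : 0 < s := by rw [hs]; positivity
  obtain ⟨G, hG⟩ := TwJ.exists_poly ((3 ^ a) ^ 3)
    (fun r : ℕ => (if (r : ℝ) < q then s else 0) - t' * r)
  -- mean of `r`
  have hrho : ∀ z, rho (edges n) β (fun _ => h) z ≤ C7 * β ^ (-(3 / 2) : ℝ) := by
    intro z
    have h1 := hnB n hnB' hodd (β * h) (hnh n hnh') hhβ (fun _ => β * h)
      (fam_const (by positivity) hhβ (by positivity)) z
    have e1 : (fun _ : Tor n => β * h / β) = fun _ => h := by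
      funext _
      rw [mul_div_cancel_left₀ _ hβ0.ne']
    simp only [e1] at h1
    exact h1
  have hmean' : ∑ i, μ i * (r i : ℝ) ≤ C7 * v := by
    refine hmean.trans ((Finset.sum_le_card_nsmul _ _ _ fun z _ => hrho z).trans ?_)
    rw [nsmul_eq_mul, hcardR, hpow, hv]
    refine le_of_eq ?_
    ring
  -- the exponent
  have hFt := FS_anti (1 / 2) ht'p.le
  have hFτ := FS_sub_ge (1 / 2) hτ0.le
  have hFτ' : τ * ((1 - δ / 4) * A) ≤ B.FS (1 / 2) 0 - B.FS (1 / 2) τ :=
    (mul_le_mul_of_nonneg_left hτ hτ0.le).trans hFτ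
  have hz1 := B.Zt_pos (n := 1) (Λ := B.cube (3 ^ a)) β t'
  have hz2 := B.Zt_pos (n := 1) (Λ := B.cube (3 ^ a)) β τ
  have hvv : v * (Real.sqrt β ^ 3 / W ^ 3) = 1 := by
    rw [hv]; field_simp
  have q1 : Real.log (B.Zt 1 (B.cube (3 ^ a)) β t') ≤ v * (B.FS (1 / 2) t' + ε) := by
    have e := hβ1 β hb1 a (by rw [← hW]; exact hW ▸ ha1) (by rw [← hW]; exact hW ▸ ha2)
    rw [← hW] at e
    have e2 := mul_le_mul_of_nonneg_left e hvp.le
    rwa [← mul_assoc, hvv, one_mul] at e2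
  have q2 : Real.log (B.Zt 1 (B.cube (3 ^ a)) β τ) ≤ v * (B.FS (1 / 2) τ + ε) := by
    have e := hβ2 β hb2 a (by rw [← hW]; exact hW ▸ ha1) (by rw [← hW]; exact hW ▸ ha2)
    rw [← hW] at e
    have e2 := mul_le_mul_of_nonneg_left e hvp.le
    rwa [← mul_assoc, hvv, one_mul] at e2
  have q3 := log_bound (W := W ^ 3) hvp (by positivity) hs hq hs0 hFt hFτ' hz1 hz2 q1 q2
  have q4 := hβ3 β hb3 h hh0 hh
  have q5 : v * (B.FS (1 / 2) 0 - ε) ≤ W ^ 3 * B.gRed 1 β h := by
    have e := mul_le_mul_of_nonneg_left q4 hvp.le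
    have e2 : v * (Real.sqrt β ^ 3 * B.gRed 1 β h) = W ^ 3 * B.gRed 1 β h := by
      rw [hv]; field_simp
    rwa [e2] at e
  have hcast : ((3 ^ a : ℕ) : ℝ) = W := by rw [hW]; push_cast; rfl
  have hX := hn1 n hn1' hodd x G t' τ 1 (Real.exp (s + τ * q)) ht'p hτ0 zero_le_one
    (Real.exp_pos _).le ?_
  · rw [hcast, ← hlaw G] at hX
    have hGi : ∀ i, G.eval ((r i : ℝ) * (((cube n x (3 ^ a)).card : ℝ) - r i + 1)) =
        (if (r i : ℝ) < q then s else 0) - t' * r i := by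
      intro i
      have := hG (r i) (by have := hr i; rwa [hcard] at this)
      rw [hcard]
      exact this
    have hcore := core μ r (g := fun i =>
      G.eval ((r i : ℝ) * (((cube n x (3 ^ a)).card : ℝ) - r i + 1))) ht'p.le hGi
      hX hmean'
    -- log term
    have q6 : Real.log (2 * (W ^ 3 + 1)) ≤ s0 * δ / 8 * v :=
      num_log hβ1' hd1 hWp (hW ▸ ha1) (hW ▸ ha2) hv hc k1
    have q7 : ∑ i, μ i * P.eval ((r i : ℝ) * (((cube n x (3 ^ a)).card : ℝ) - r i + 1)) ≤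
        ∑ i, (if (r i : ℝ) < q then μ i else 0) := by
      refine Finset.sum_le_sum fun i _ => ?_
      have e := mul_le_mul_of_nonneg_left (hP (r i) (hr i)) (hμ0 i)
      refine e.trans (le_of_eq ?_)
      split_ifs <;> ring
    refine q7.trans ?_
    have q8 : s0 * v * ∑ i, (if (r i : ℝ) < q then μ i else 0) ≤ s0 * v * δ := by
      refine le_trans (le_trans (le_of_eq (by rw [hs])) hcore) ?_
      exact num_fin hC7 ht' hε q3 q5 q6 hvp (by positivity)
    exact le_of_mul_le_mul_left q8 (by positivity)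
  · intro r' hr'
    rw [hcast]
    have e := hG r' hr'
    have e3 : (((3 ^ a) ^ 3 : ℕ) : ℝ) = W ^ 3 := by rw [hW]; push_cast; rfl
    rw [e3] at e
    exact exp_G ht'p.le hτ0.le e

end Vale.Agent.P361.LRO.S3T
end

section

/-!
# P361 LRO, stage 3, cells, S1: the top step (helper442)
-/

namespace Vale.Agent.P361.LRO.Ind3

open Finset Vale.Agent.P361.LRO _root_.P361.LRO Vale.Agent.P361.LRO.Ind

/-- a sum over a cube of side `S * T`, cell by cell -/
theorem st3_cells (S T : ℕ) (F : ℕ → ℕ → ℕ → ℝ) :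
    ∑ x ∈ range (S * T), ∑ y ∈ range (S * T), ∑ z ∈ range (S * T), F x y z =
    ∑ x ∈ range S, ∑ y ∈ range S, ∑ z ∈ range S, ∑ i ∈ range T, ∑ j ∈ range T, ∑ k ∈ range T,
      F (T * x + i) (T * y + j) (T * z + k) := by
  simp only [st_blocks]
  refine Finset.sum_congr rfl fun x _ => ?_
  rw [Finset.sum_comm]
  refine Finset.sum_congr rfl fun y _ => ?_
  rw [Finset.sum_comm (s := range S) (t := range T)]
  refine Finset.sum_congr rfl fun i _ => ?_
  rw [Finset.sum_comm (s := range S) (t := range T)]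
  refine Finset.sum_congr rfl fun j _ => ?_
  refine Finset.sum_congr rfl fun z _ => ?_
  refine Finset.sum_congr rfl fun k _ => ?_
  rw [mul_comm x, mul_comm y, mul_comm z]

/-- sum over the physical layers -/
theorem st3_layers {N : ℕ} (f : Fin (N + 1) → ℝ) :
    ∑ k ∈ univ.filter (fun k => k ≠ 0), f k = ∑ t ∈ range N, f (lay N N 0 t) := by
  rw [st_layers (N := N) (W := N) (m := 1) (one_mul N).symm f, Finset.sum_range_one]

/-- top: resistance to the uniform charge on the ground cube in the field `1`, on cells. -/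
theorem step_top3 (c1 : ℝ) (hc1 : 0 < c1) : ∃ C : ℝ, 0 < C ∧ ∀ (n N W e : ℕ) [NeZero n]
    (K : ℝ) (o : Tor n) (b : Finset (Tor n)) (c : Nd n N → Nd n N → ℝ) (s : ℕ),
    0 < W → N = 4 * W → e ≤ s → 8 * 3 ^ s < n →
    Local3 n N W e K c1 b (fun _ => 1) c →
    RBn c (EE6 n N o b (3 ^ s))
      (fun z => if z ∈ GG6 n N o (3 ^ s) then 1 / ((N : ℝ) * (3 ^ s) ^ 3) else 0)
      (C / (9 ^ e * 3 ^ s)) := by
  refine ⟨64 / c1, by positivity, ?_⟩
  intro n N W e _ K o b c s hW hN hes hn hc a ha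
  obtain ⟨d, rfl⟩ := Nat.exists_eq_add_of_le hes
  have hN0 : 0 < N := by omega
  have hNR : (0 : ℝ) < N := by exact_mod_cast hN0
  have hd : (0 : ℕ) < 3 ^ d := by positivity
  have hsT : 3 ^ d * 3 ^ e = 3 ^ (e + d) := by rw [pow_add, mul_comm]
  have hE := E4_le3 (h := fun _ => (1 : ℝ)) hW hN hc1 hc o (5 * 3 ^ d) (by
    have : 3 ^ e * (5 * 3 ^ d) = 5 * 3 ^ (e + d) := by rw [← hsT]; ring
    omega) (fun _ _ => rfl) a
  have hL := lines (3 ^ d) 1 hd one_pos (UT n N e o a) ?_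
  · have h27 : (27 : ℝ) ^ e = (3 ^ e) ^ 3 := by
      rw [← pow_mul, mul_comm e 3, pow_mul]; norm_num
    have hq : ∑ z, (if z ∈ GG6 n N o (3 ^ (e + d)) then
        1 / ((N : ℝ) * (3 ^ (e + d)) ^ 3) else 0) * a z =
        (1 / (((3 ^ d : ℕ) : ℝ) ^ 3 * (1 : ℕ))) * ∑ x ∈ range (3 ^ d), ∑ y ∈ range (3 ^ d),
          ∑ z ∈ range (3 ^ d), ∑ w ∈ range 1, UT n N e o a (x + 4 * 3 ^ d) y z w := by
      have e1 : ∑ z, (if z ∈ GG6 n N o (3 ^ (e + d)) then
          1 / ((N : ℝ) * (3 ^ (e + d)) ^ 3) else 0) * a z =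
          1 / ((N : ℝ) * (3 ^ (e + d)) ^ 3) * ∑ z ∈ GG6 n N o (3 ^ (e + d)), a z := by
        rw [Finset.mul_sum,
          ← Finset.sum_filter_add_sum_filter_not univ (fun z => z ∈ GG6 n N o (3 ^ (e + d)))]
        rw [Finset.sum_eq_zero (s := univ.filter fun z => ¬ z ∈ GG6 n N o (3 ^ (e + d))), add_zero]
        · rw [Finset.filter_mem_eq_inter, Finset.univ_inter]
          exact Finset.sum_congr rfl fun z hz => by rw [if_pos hz]
        · intro z hz
          rw [if_neg (Finset.mem_filter.1 hz).2, zero_mul]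
      have e2 : ∑ z ∈ GG6 n N o (3 ^ (e + d)), a z = ∑ x ∈ range (3 ^ d), ∑ y ∈ range (3 ^ d),
          ∑ z ∈ range (3 ^ d), ((N : ℝ) * 27 ^ e) * UC n N e o a (x + 4 * 3 ^ d) y z := by
        unfold GG6
        rw [Finset.sum_product_right, sum_cube _ (3 ^ (e + d)) (by omega), ← hsT, st3_cells]
        refine Finset.sum_congr rfl fun x _ => Finset.sum_congr rfl fun y _ =>
          Finset.sum_congr rfl fun z _ => ?_
        unfold UC
        have hne : ((N : ℝ) * 27 ^ e) ≠ 0 := by positivity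
        rw [← mul_assoc ((N : ℝ) * 27 ^ e), mul_one_div_cancel hne, one_mul]
        refine Finset.sum_congr rfl fun i _ => Finset.sum_congr rfl fun j _ =>
          Finset.sum_congr rfl fun k _ => ?_
        rw [st3_layers (fun l => a (l, pt n (pt n o (4 * (3 ^ d * 3 ^ e)) 0 0) (3 ^ e * x + i)
          (3 ^ e * y + j) (3 ^ e * z + k))), pt_pt]
        refine Finset.sum_congr rfl fun t _ => ?_
        congr 2
        have q1 : 4 * (3 ^ d * 3 ^ e) + (3 ^ e * x + i) = 3 ^ e * (x + 4 * 3 ^ d) + i := by ring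
        rw [q1, zero_add, zero_add]
      rw [e1, e2]
      simp only [← Finset.mul_sum, Finset.sum_range_one, UT]
      rw [← mul_assoc, pow_add, h27]
      push_cast
      congr 1
      field_simp
    rw [hq]
    refine hL.trans ?_
    have h39 : (27 : ℝ) ^ e = 9 ^ e * 3 ^ e := by rw [← mul_pow]; norm_num
    have h3 : (3 : ℝ) ^ (e + d) = 3 ^ e * 3 ^ d := pow_add _ _ _
    have hE' : E4 (5 * 3 ^ d) 1 (UT n N e o a) ≤ 16 / (c1 * 27 ^ e) * netK c a := by
      rw [div_mul_eq_mul_div, le_div_iff₀ (by positivity)]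
      linarith
    calc 4 / (((3 ^ d : ℕ) : ℝ) * (1 : ℕ)) * E4 (5 * 3 ^ d) 1 (UT n N e o a)
        ≤ 4 / (((3 ^ d : ℕ) : ℝ) * (1 : ℕ)) * (16 / (c1 * 27 ^ e) * netK c a) :=
          mul_le_mul_of_nonneg_left hE' (by positivity)
      _ = 64 / c1 / (9 ^ e * 3 ^ (e + d)) * netK c a := by
          rw [h39, h3]
          push_cast
          field_simp
          ring
  · intro x hx y hy z hz w hw
    unfold UT UC
    have h1 : ∀ i ∈ range (3 ^ e), ∀ j ∈ range (3 ^ e), ∀ k ∈ range (3 ^ e), ∀ t ∈ range N,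
        a (lay N N 0 t, pt n o (3 ^ e * x + i) (3 ^ e * y + j) (3 ^ e * z + k)) = 1 := by
      intro i hi j hj k hk t ht
      refine ha _ ?_
      unfold EE6
      rw [Finset.mem_union]
      right
      rw [Finset.mem_product]
      have key : ∀ {x i : ℕ}, x < 3 ^ d → i ∈ range (3 ^ e) → 3 ^ e * x + i < 3 ^ (e + d) := by
        intro x i hx hi
        rw [← hsT, mul_comm (3 ^ d) (3 ^ e)]
        have h1 := Finset.mem_range.1 hi
        calc 3 ^ e * x + i < 3 ^ e * x + 3 ^ e := by omega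
          _ = 3 ^ e * (x + 1) := by ring
          _ ≤ 3 ^ e * 3 ^ d := Nat.mul_le_mul_left _ hx
      refine ⟨?_, ?_⟩
      · rw [Finset.mem_filter]
        exact ⟨Finset.mem_univ _, st_lay_ne (m := 1) (one_mul N).symm one_pos
          (Finset.mem_range.1 ht)⟩
      · exact (mem_cube_iff o _ _).2 ⟨_, key hx hi, _, key hy hj, _, key hz hk, rfl⟩
    rw [Finset.sum_congr rfl fun i hi => Finset.sum_congr rfl fun j hj =>
      Finset.sum_congr rfl fun k hk => Finset.sum_congr rfl fun t ht => h1 i hi j hj k hk t ht]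
    simp only [Finset.sum_const, Finset.card_range, nsmul_eq_mul, mul_one]
    push_cast
    rw [show (27 : ℝ) ^ e = 3 ^ e * 3 ^ e * 3 ^ e by rw [← mul_pow, ← mul_pow]; norm_num]
    field_simp

end Vale.Agent.P361.LRO.Ind3
end

section

/-!
P361 LRO, stage 3, network chapter, package L1: the top of the ladder (port of Ind/LadTop.lean).
-/

namespace Vale.Agent.P361.LRO.Ind3

open Finset Vale.Agent.P361.LRO _root_.P361.LRO Vale.Agent.P361.LRO.Ind

private theorem lt3_card_GG {n N : ℕ} [NeZero n] (o : Tor n) (s : ℕ) (hs : s ≤ n) :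
    ((GG6 n N o s).card : ℝ) = N * (s : ℝ) ^ 3 := by
  unfold GG6
  rw [Finset.card_product, Vale.Agent.P361.LRO.Ind.card_cube _ _ hs]
  have h1 : (univ.filter fun k : Fin (N + 1) => k ≠ 0).card = N := by
    rw [Finset.filter_ne', Finset.card_erase_of_mem (Finset.mem_univ _), Finset.card_univ,
      Fintype.card_fin]
    rfl
  rw [h1]
  push_cast
  rfl

private theorem lt3_sum_q {n N : ℕ} [NeZero n] (o : Tor n) (s : ℕ) (hs : s ≤ n) (t : ℝ) :
    ∑ z : Nd n N, (if z ∈ GG6 n N o s then t else 0) = N * (s : ℝ) ^ 3 * t := by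
  rw [Finset.sum_ite_mem, Finset.univ_inter, Finset.sum_const, nsmul_eq_mul, lt3_card_GG o s hs]

private theorem lt3_LBn_mono {X : Type} [Fintype X] {c : X → X → ℝ} {E G : Finset X} {A B : ℝ}
    (hAB : B ≤ A) (h : LBn c E G A) : LBn c E G B := fun a h1 h2 => hAB.trans (h a h1 h2)

/-- The numbers. -/
private theorem lt3_num {C ρ h0 ε : ℝ} {e : ℕ} (hC : 0 < C) (he : C + 8 ≤ 3 ^ e)
    (hρ : 3 ^ (100 * e) ≤ ρ) (hh0 : 0 < h0) (hh : h0⁻¹ ≤ ρ ^ (5 / 2 : ℝ)) (hε : 0 ≤ ε)
    (hε1 : ε ≤ 1 / 1000) :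
    0 < h0 ^ (-(4 * ε)) * (C / (9 ^ e * ρ) + 8 / (h0 * ρ ^ 3)) ∧
    ρ ^ (1 / 3 : ℝ) ≤ 1 / (h0 ^ (-(4 * ε)) * (C / (9 ^ e * ρ) + 8 / (h0 * ρ ^ 3))) := by
  have h31 : (1 : ℝ) ≤ 3 ^ (100 * e) := one_le_pow₀ (by norm_num)
  have hρ1 : 1 ≤ ρ := h31.trans hρ
  have hρ0 : 0 < ρ := by linarith
  have h9 : (1 : ℝ) ≤ 9 ^ e := one_le_pow₀ (by norm_num)
  have h90 : (0 : ℝ) < 9 ^ e := by positivity
  have hpos : 0 < h0 ^ (-(4 * ε)) * (C / (9 ^ e * ρ) + 8 / (h0 * ρ ^ 3)) := by positivity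
  refine ⟨hpos, ?_⟩
  rw [le_div_iff₀ hpos]
  have e1 : h0 ^ (-(4 * ε)) ≤ ρ ^ (1 / 100 : ℝ) := by
    rw [Real.rpow_neg hh0.le, ← Real.inv_rpow hh0.le]
    calc (h0⁻¹) ^ (4 * ε) ≤ (ρ ^ (5 / 2 : ℝ)) ^ (4 * ε) :=
          Real.rpow_le_rpow (by positivity) hh (by positivity)
      _ = ρ ^ ((5 / 2 : ℝ) * (4 * ε)) := by rw [← Real.rpow_mul hρ0.le]
      _ ≤ ρ ^ (1 / 100 : ℝ) := Real.rpow_le_rpow_of_exponent_le hρ1 (by linarith)
  have e2 : C / (9 ^ e * ρ) + 8 / (h0 * ρ ^ 3) ≤ (C + 8) * ρ ^ (-(1 / 2) : ℝ) := by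
    have f1 : C / (9 ^ e * ρ) ≤ C * ρ ^ (-(1 / 2) : ℝ) := by
      have g1 : C / (9 ^ e * ρ) ≤ C * ρ ^ (-1 : ℝ) := by
        rw [Real.rpow_neg_one, ← div_eq_mul_inv]
        refine div_le_div_of_nonneg_left hC.le hρ0 ?_
        exact le_mul_of_one_le_left hρ0.le h9
      refine g1.trans ?_
      have := Real.rpow_le_rpow_of_exponent_le hρ1 (show (-1 : ℝ) ≤ -(1 / 2) by norm_num)
      gcongr
    have f2 : 8 / (h0 * ρ ^ 3) ≤ 8 * ρ ^ (-(1 / 2) : ℝ) := by
      have g1 : 8 / (h0 * ρ ^ 3) = 8 * (h0⁻¹ * ρ ^ (-3 : ℝ)) := by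
        rw [Real.rpow_neg hρ0.le, show (3 : ℝ) = ((3 : ℕ) : ℝ) by norm_num, Real.rpow_natCast]
        field_simp
      have g2 : h0⁻¹ * ρ ^ (-3 : ℝ) ≤ ρ ^ (5 / 2 : ℝ) * ρ ^ (-3 : ℝ) := by gcongr
      have g3 : ρ ^ (5 / 2 : ℝ) * ρ ^ (-3 : ℝ) = ρ ^ (-(1 / 2) : ℝ) := by
        rw [← Real.rpow_add hρ0]; norm_num
      rw [g3] at g2
      rw [g1]
      gcongr
    have f3 : (C + 8) * ρ ^ (-(1 / 2) : ℝ) =
        C * ρ ^ (-(1 / 2) : ℝ) + 8 * ρ ^ (-(1 / 2) : ℝ) := by ring
    rw [f3]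
    exact add_le_add f1 f2
  have e3 : C + 8 ≤ ρ ^ (47 / 300 : ℝ) := by
    calc C + 8 ≤ (3 : ℝ) ^ e := he
      _ = (3 : ℝ) ^ (e : ℝ) := (Real.rpow_natCast 3 e).symm
      _ ≤ (3 : ℝ) ^ (((100 * e : ℕ) : ℝ) * (47 / 300)) := by
          refine Real.rpow_le_rpow_of_exponent_le (by norm_num) ?_
          push_cast
          have : (0 : ℝ) ≤ e := Nat.cast_nonneg e
          linarith
      _ = ((3 : ℝ) ^ (100 * e)) ^ (47 / 300 : ℝ) := by
          rw [Real.rpow_mul (by norm_num), Real.rpow_natCast]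
      _ ≤ ρ ^ (47 / 300 : ℝ) := Real.rpow_le_rpow (by positivity) hρ (by norm_num)
  calc ρ ^ (1 / 3 : ℝ) * (h0 ^ (-(4 * ε)) * (C / (9 ^ e * ρ) + 8 / (h0 * ρ ^ 3)))
      ≤ ρ ^ (1 / 3 : ℝ) * (ρ ^ (1 / 100 : ℝ) * (ρ ^ (47 / 300 : ℝ) * ρ ^ (-(1 / 2) : ℝ))) := by
        have e4 : C / (9 ^ e * ρ) + 8 / (h0 * ρ ^ 3) ≤
            ρ ^ (47 / 300 : ℝ) * ρ ^ (-(1 / 2) : ℝ) := by
          refine e2.trans ?_
          gcongr
        have : (0 : ℝ) ≤ C / (9 ^ e * ρ) + 8 / (h0 * ρ ^ 3) := by positivity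
        gcongr
    _ = (ρ ^ (1 / 3 : ℝ) * ρ ^ (1 / 100 : ℝ)) * (ρ ^ (47 / 300 : ℝ) * ρ ^ (-(1 / 2) : ℝ)) := by
        ring
    _ = 1 := by
        rw [← Real.rpow_add hρ0, ← Real.rpow_add hρ0, ← Real.rpow_add hρ0]
        norm_num

/-- The top of the ladder, from the statement of `step_top3`. `Low` is used with `β = 1`
(scaled fields). -/
theorem lad_top3_of (c1 : ℝ)
    (hs3 : ∃ C : ℝ, 0 < C ∧ ∀ (n N W e : ℕ) [NeZero n]
    (K : ℝ) (o : Tor n) (b : Finset (Tor n)) (c : Nd n N → Nd n N → ℝ) (s : ℕ),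
    0 < W → N = 4 * W → e ≤ s → 8 * 3 ^ s < n →
    Local3 n N W e K c1 b (fun _ => 1) c →
    RBn c (EE6 n N o b (3 ^ s))
      (fun z => if z ∈ GG6 n N o (3 ^ s) then 1 / ((N : ℝ) * (3 ^ s) ^ 3) else 0)
      (C / (9 ^ e * 3 ^ s))) :
    ∃ e0 : ℕ, 1 ≤ e0 ∧ ∀ (n N W e : ℕ) [NeZero n]
    (K h0 lam ε : ℝ) (o : Tor n) (b : Finset (Tor n)) (h : Tor n → ℝ)
    (c : (Tor n → ℝ) → Nd n N → Nd n N → ℝ) (s : ℕ),
    e0 ≤ e → 0 < W → N = 4 * W → 8 * 3 ^ s < n →
    0 < h0 → h0 ≤ 1 → 1 / 3 ^ (10 * e) ≤ lam → 0 ≤ ε → ε ≤ 1 / 1000 →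
    100 * e ≤ s → h0⁻¹ ≤ ((3 : ℝ) ^ s) ^ (5 / 2 : ℝ) →
    (∀ g, Fam n h0 lam g → Local3 n N W e K c1 b g (c g)) → Low n N 1 h0 lam ε c →
    Fam n h0 lam h →
    LBn (c (HH n lam o (3 ^ s) h)) (EE6 n N o b (3 ^ s)) (GG6 n N o (3 ^ s))
      (((3 : ℝ) ^ s) ^ (1 / 3 : ℝ)) := by
  obtain ⟨C, hC, hstep⟩ := hs3
  obtain ⟨e0, he0⟩ := pow_unbounded_of_one_lt (C + 8) (show (1 : ℝ) < 3 by norm_num)
  refine ⟨max 1 e0, le_max_left _ _, ?_⟩
  intro n N W e _ K h0 lam ε o b h c s he hW hN hn hh0 hh1 hlam hε hε1 hs hh0s hLoc hLow hh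
  have heC : C + 8 ≤ (3 : ℝ) ^ e :=
    he0.le.trans (pow_le_pow_right₀ (by norm_num) ((le_max_right _ _).trans he))
  have hlam0 : 0 ≤ lam := le_trans (by positivity) hlam
  have h3s : 0 < 3 ^ s := by positivity
  have hsn : 3 ^ s ≤ n := by omega
  have hN0 : 0 < N := by omega
  have hN0' : (0 : ℝ) < N := by exact_mod_cast hN0
  have h3s' : (0 : ℝ) < (3 : ℝ) ^ s := by positivity
  have e3 : ((3 ^ s : ℕ) : ℝ) = (3 : ℝ) ^ s := by push_cast; rfl
  have hH := Fam_HH (h := h) hlam0 o h3s hh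
  have h1 := Fam_one (n := n) (h0 := h0) (lam := lam) hh1 hlam0
  have hR := hstep n N W e K o b (c fun _ => 1) s hW hN (by omega) hn (hLoc _ h1)
  set q : Nd n N → ℝ :=
    fun z => if z ∈ GG6 n N o (3 ^ s) then 1 / ((N : ℝ) * ((3 : ℝ) ^ s) ^ 3) else 0 with hq
  have hdisj := disj_EG (N := N) o b (le_refl (3 ^ s)) (by omega : 8 * 3 ^ s ≤ n)
  have hq1 : ∑ z, q z = 1 := by
    rw [hq, lt3_sum_q o (3 ^ s) hsn, e3]
    field_simp
  have hq2 : ∑ z, q z ^ 2 = 1 / ((N : ℝ) * ((3 : ℝ) ^ s) ^ 3) := by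
    have e : ∀ z, q z ^ 2 =
        if z ∈ GG6 n N o (3 ^ s) then (1 / ((N : ℝ) * ((3 : ℝ) ^ s) ^ 3)) ^ 2 else 0 := by
      intro z
      rw [hq]
      dsimp only
      split_ifs <;> simp
    rw [Finset.sum_congr rfl fun z _ => e z, lt3_sum_q o (3 ^ s) hsn, e3]
    field_simp
  have hdual := hLow.dual hh0 hh1 (HH n lam o (3 ^ s) h) hH (EE6 n N o b (3 ^ s)) q
    (by
      intro z hz hz0
      unfold EE6 at hz
      rw [Finset.mem_union] at hz
      rcases hz with hz | hz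
      · unfold hatb at hz
        rw [Finset.mem_product, Finset.mem_singleton] at hz
        exact absurd hz.1 hz0
      · rw [Finset.mem_product] at hz
        exact HH_one hlam0 o hsn hh hz.2)
    (by
      intro z hz
      have := Finset.disjoint_left.1 hdisj hz
      rw [hq]
      dsimp only
      rw [if_neg this])
    (by
      intro x
      rw [hq]
      dsimp only
      rw [if_neg]
      unfold GG6
      rw [Finset.mem_product, Finset.mem_filter]
      rintro ⟨⟨_, h0⟩, _⟩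
      exact h0 rfl)
    (by
      intro z
      rw [hq]
      dsimp only
      split_ifs <;> positivity)
    hq1 (C / (9 ^ e * 3 ^ s)) (by positivity) hR
  rw [hq2] at hdual
  have hnum := lt3_num (ρ := (3 : ℝ) ^ s) (e := e) hC heC
    (pow_le_pow_right₀ (by norm_num) hs) hh0 hh0s hε hε1
  have e4 : 8 * (N : ℝ) / (1 * h0) * (1 / ((N : ℝ) * ((3 : ℝ) ^ s) ^ 3)) =
      8 / (h0 * ((3 : ℝ) ^ s) ^ 3) := by
    field_simp
  rw [e4] at hdual
  refine lt3_LBn_mono hnum.2 (LBn_of_RBn hnum.1 ?_ hdual)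
  intro x hx
  rw [hq]
  dsimp only
  rw [if_neg hx]

/-- The top of the ladder. `Low` is used with `β = 1` (scaled fields). -/
theorem lad_top3 (c1 : ℝ) (hc1 : 0 < c1) : ∃ e0 : ℕ, 1 ≤ e0 ∧ ∀ (n N W e : ℕ) [NeZero n]
    (K h0 lam ε : ℝ) (o : Tor n) (b : Finset (Tor n)) (h : Tor n → ℝ)
    (c : (Tor n → ℝ) → Nd n N → Nd n N → ℝ) (s : ℕ),
    e0 ≤ e → 0 < W → N = 4 * W → 8 * 3 ^ s < n →
    0 < h0 → h0 ≤ 1 → 1 / 3 ^ (10 * e) ≤ lam → 0 ≤ ε → ε ≤ 1 / 1000 →
    100 * e ≤ s → h0⁻¹ ≤ ((3 : ℝ) ^ s) ^ (5 / 2 : ℝ) →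
    (∀ g, Fam n h0 lam g → Local3 n N W e K c1 b g (c g)) → Low n N 1 h0 lam ε c →
    Fam n h0 lam h →
    LBn (c (HH n lam o (3 ^ s) h)) (EE6 n N o b (3 ^ s)) (GG6 n N o (3 ^ s))
      (((3 : ℝ) ^ s) ^ (1 / 3 : ℝ)) :=
  lad_top3_of c1 (step_top3 c1 hc1)

end Vale.Agent.P361.LRO.Ind3
end
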