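import Mathlib
import Vale.Agent.P361.Bdl.B8
import Vale.Agent.P361.Bdl.B4
import Vale.Agent.P361.Bdl.B1
import Vale.Agent.P361.Bdl.B10
import Vale.Agent.P361.Bdl.B9
import Vale.Agent.P361.Bdl.B2
import Vale.Agent.P361.Bdl.B7
import Vale.Agent.P361.Bdl.B5
import Vale.Agent.P361.Bdl.B11
import Vale.Agent.P361.Bdl.B3
import Vale.Agent.P361.Bdl.B12

set_option linter.all false

section

/-!
Part B: final theorems.
-/

namespace Vale.Agent.P361.B

open Filter Topology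

/-- Two-sided Bloch law, uniform for fields `h ≥ β^{-1-κ}`, `κ < 1/21`. -/
theorem bloch_uniform {n : ℕ} (hn : 1 ≤ n) {κ : ℝ} (hκ2 : κ < 1 / 21) {ε : ℝ} (hε : 0 < ε) :
    ∀ᶠ β : ℝ in atTop, ∀ h : ℝ, β ^ (-1 - κ) ≤ h →
      |β ^ (3 / 2 : ℝ) * ((n : ℝ) / 2 - H.magAt n β h) - fS ((n : ℝ) / 2) (β * h)| ≤ ε := by
  -- reduce to positive exponent
  obtain ⟨κ₁, h1, h2, h3⟩ : ∃ κ₁ : ℝ, κ ≤ κ₁ ∧ 0 < κ₁ ∧ κ₁ < 1 / 21 := by
    rcases le_or_gt κ 0 with h | h
    · exact ⟨1 / 42, by linarith, by norm_num, by norm_num⟩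
    · exact ⟨κ, le_rfl, h, hκ2⟩
  obtain ⟨κ₂, h4, h5⟩ := exists_between h3
  have hU := gRed_upper hn (by linarith : 0 < κ₂) h5
  have h6 := deficit_uniform hn h2 h4 (by linarith) hU ε hε
  filter_upwards [h6, eventually_ge_atTop 1] with β h7 hβ1 h hh
  have hβ0 : 0 < β := by linarith
  have h8 := h7 (β * h) (by
    have h9 : β ^ (-κ₁) ≤ β * β ^ (-1 - κ) := by
      nth_rewrite 2 [← Real.rpow_one β]
      rw [← Real.rpow_add hβ0]
      exact Real.rpow_le_rpow_of_exponent_le hβ1 (by linarith)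
    exact h9.trans (mul_le_mul_of_nonneg_left hh hβ0.le))
  rw [mul_div_cancel_left₀ h hβ0.ne'] at h8
  rwa [H.rpow_three_half hβ0.le]

/-- Crude bound valid for every positive field. -/
theorem crude_deficit {n : ℕ} (hn : 1 ≤ n) {ε : ℝ} (hε : 0 < ε) :
    ∀ᶠ β : ℝ in atTop, ∀ h : ℝ, 0 < h →
      (n : ℝ) / 2 - H.magAt n β h ≤ β ^ (-(5 / 2) + ε) / h := by
  obtain ⟨η, h1, h2, h3⟩ : ∃ η : ℝ, 0 < η ∧ η < 1 / 2 ∧ 5 * η ≤ ε :=
    ⟨min (1 / 4) (ε / 5), by positivity, by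
      have := min_le_left (1 / 4 : ℝ) (ε / 5); linarith, by
      have := min_le_right (1 / 4 : ℝ) (ε / 5); linarith⟩
  have l1 : ∀ᶠ β : ℝ in atTop, 2 ≤ β ^ (1 / 2 - η) :=
    (tendsto_rpow_atTop (by linarith)).eventually_ge_atTop 2
  have l2 : ∀ᶠ β : ℝ in atTop, 8 ≤ β ^ η := (tendsto_rpow_atTop h1).eventually_ge_atTop 8
  filter_upwards [crude_log hn h1 h2, l1, l2, eventually_ge_atTop 1] with β hcr h2X h8 hβ1 h hh
  have hβ0 : 0 < β := by linarith
  have pp : ∀ a : ℝ, 0 < β ^ a := fun a => Real.rpow_pos_of_pos hβ0 a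
  have hX0 := pp (1 / 2 - η)
  obtain ⟨L, hLa, hLb⟩ : ∃ L : ℕ, (L : ℝ) ≤ β ^ (1 / 2 - η) ∧ β ^ (1 / 2 - η) / 2 ≤ L := by
    refine ⟨⌊β ^ (1 / 2 - η)⌋₊, Nat.floor_le hX0.le, ?_⟩
    have := Nat.lt_floor_add_one (β ^ (1 / 2 - η))
    linarith
  have hLR : (0 : ℝ) < L := by linarith
  have hLpos : 0 < L := by exact_mod_cast hLR
  have hz := hcr L hLpos hLa
  have hz2 : Real.log (Zt n (cube L) β (β * 0)) ≤ β ^ η := by
    rw [mul_zero]
    exact (Real.log_le_log (Zt_pos β 0) (Zt_anti (by linarith) le_rfl)).trans hz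
  have hg := gRed_le (n := n) (β := β) (h := 0) hβ0 le_rfl hLpos
  have hg2 : gRed n β 0 ≤ 8 * β ^ (-(3 / 2) + 4 * η) := by
    refine hg.trans ?_
    rw [div_le_iff₀ (by positivity)]
    refine hz2.trans ?_
    have h4 : (β ^ (1 / 2 - η) / 2) ^ 3 ≤ (L : ℝ) ^ 3 :=
      pow_le_pow_left₀ (by positivity) hLb 3
    have h5 : (β ^ (1 / 2 - η) / 2) ^ 3 = β ^ (3 / 2 - 3 * η) / 8 := by
      rw [div_pow, ← Real.rpow_natCast, ← Real.rpow_mul hβ0.le]
      norm_num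
      congr 1
      ring
    rw [h5] at h4
    have h6 : β ^ (-(3 / 2) + 4 * η) * β ^ (3 / 2 - 3 * η) = β ^ η := by
      rw [← Real.rpow_add hβ0]; congr 1; ring
    have h7 := mul_le_mul_of_nonneg_left h4 (pp (-(3 / 2) + 4 * η)).le
    nlinarith
  have sl := mag_le_slope (n := n) hβ0 (h₁ := 0) (h₀ := h) hh
  have hg3 := gRed_nonneg (n := n) hβ0 h
  refine sl.trans ?_
  rw [sub_zero, div_le_div_iff₀ (by positivity) hh]
  have h9 : gRed n β 0 - gRed n β h ≤ β * β ^ (-(5 / 2) + ε) := by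
    have h10 : 8 * β ^ (-(3 / 2) + 4 * η) ≤ β * β ^ (-(5 / 2) + ε) := by
      calc 8 * β ^ (-(3 / 2) + 4 * η) ≤ β ^ η * β ^ (-(3 / 2) + 4 * η) :=
            mul_le_mul_of_nonneg_right h8 (pp _).le
        _ = β ^ (-(3 / 2) + 5 * η) := by rw [← Real.rpow_add hβ0]; congr 1; ring
        _ ≤ β ^ (-(3 / 2) + ε) := Real.rpow_le_rpow_of_exponent_le hβ1 (by linarith)
        _ = β * β ^ (-(5 / 2) + ε) := by
          nth_rewrite 2 [← Real.rpow_one β]
          rw [← Real.rpow_add hβ0]; congr 1; ring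
    linarith
  calc (gRed n β 0 - gRed n β h) * h ≤ β * β ^ (-(5 / 2) + ε) * h :=
        mul_le_mul_of_nonneg_right h9 hh.le
    _ = _ := by ring

/-- Limit at fixed scaled field. -/
theorem bloch_scaled {n : ℕ} (hn : 1 ≤ n) {t : ℝ} (ht : 0 < t) :
    Tendsto (fun β : ℝ => β ^ (3 / 2 : ℝ) * ((n : ℝ) / 2 - H.magAt n β (t / β))) atTop
      (𝓝 (fS ((n : ℝ) / 2) t)) := by
  rw [Metric.tendsto_nhds]
  intro ε hε
  have l1 : ∀ᶠ β : ℝ in atTop, t⁻¹ ≤ β ^ (1 / 42 : ℝ) :=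
    (tendsto_rpow_atTop (by norm_num)).eventually_ge_atTop _
  filter_upwards [bloch_uniform hn (κ := 1 / 42) (by norm_num) (half_pos hε), l1,
    eventually_ge_atTop 1] with β h1 h2 hβ1
  have hβ0 : 0 < β := by linarith
  have h3 := h1 (t / β) (by
    rw [le_div_iff₀ hβ0]
    have e : β ^ (-1 - 1 / 42 : ℝ) * β = (β ^ (1 / 42 : ℝ))⁻¹ := by
      nth_rewrite 2 [← Real.rpow_one β]
      rw [← Real.rpow_add hβ0, ← Real.rpow_neg hβ0.le]
      congr 1; ring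
    rw [e]
    exact inv_le_of_inv_le₀ ht h2)
  rw [mul_div_cancel₀ t hβ0.ne'] at h3
  rw [Real.dist_eq]
  linarith

/-- Bloch's law along `h = β^{-1-κ}`, `0 < κ < 1/21`. -/
theorem bloch_vanishing {n : ℕ} (hn : 1 ≤ n) {κ : ℝ} (hκ : 0 < κ) (hκ2 : κ < 1 / 21) :
    Tendsto (fun β : ℝ => β ^ (3 / 2 : ℝ) * ((n : ℝ) / 2 - H.magAt n β (β ^ (-1 - κ)))) atTop
      (𝓝 (H.blochCoeff ((n : ℝ) / 2))) := by
  have hnR : (1 : ℝ) ≤ n := by exact_mod_cast hn
  have e0 : H.blochCoeff ((n : ℝ) / 2) = fS ((n : ℝ) / 2) 0 := by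
    rw [fS_zero, aS, H.blochCoeff, H.rpow_three_half Real.pi_pos.le,
      H.rpow_three_half (by positivity)]
    have e : Real.sqrt (4 * Real.pi * ((n : ℝ) / 2)) ^ 3 =
        8 * Real.sqrt Real.pi ^ 3 * Real.sqrt ((n : ℝ) / 2) ^ 3 := by
      rw [mul_assoc, Real.sqrt_mul (by norm_num), Real.sqrt_mul Real.pi_pos.le,
        show (4 : ℝ) = 2 ^ 2 by norm_num, Real.sqrt_sq (by norm_num)]
      ring
    rw [e]
    ring
  rw [e0]
  have h0 : Tendsto (fun β : ℝ => fS ((n : ℝ) / 2) (β * β ^ (-1 - κ))) atTop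
      (𝓝 (fS ((n : ℝ) / 2) 0)) := by
    refine (fS_tendsto_zero _).comp (tendsto_nhdsWithin_iff.2 ⟨?_, ?_⟩)
    · refine (tendsto_rpow_neg_atTop hκ).congr' ?_
      filter_upwards [eventually_gt_atTop 0] with β hβ
      nth_rewrite 2 [← Real.rpow_one β]
      rw [← Real.rpow_add hβ]; congr 1; ring
    · filter_upwards [eventually_gt_atTop 0] with β hβ
      exact Set.mem_Ici.2 (by positivity)
  have h1 : Tendsto (fun β : ℝ => β ^ (3 / 2 : ℝ) * ((n : ℝ) / 2 -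
      H.magAt n β (β ^ (-1 - κ))) - fS ((n : ℝ) / 2) (β * β ^ (-1 - κ))) atTop (𝓝 0) := by
    rw [Metric.tendsto_nhds]
    intro ε hε
    filter_upwards [bloch_uniform hn hκ2 (half_pos hε)] with β h1
    have h2 := h1 (β ^ (-1 - κ)) le_rfl
    rw [Real.dist_eq, sub_zero]
    linarith
  have h2 := h1.add h0
  simpa using h2

end Vale.Agent.P361.B
end

section

/-!
Model-level forms of the results on the magnetization in a field.
-/

namespace Vale.Agent.P361.BridgeB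

open Filter Topology MeasureTheory

theorem mag_deriv (n : ℕ) (hn : 1 ≤ n) (β : ℝ) (hβ : 0 < β) (h : ℝ) (hh : 0 ≤ h) :
    HasDerivWithinAt (Model.pressure n β) (Model.mag n β h) (Set.Ioi h) h ∧
      Model.mag n β h ≤ (n : ℝ) / 2 :=
  ⟨pressure_hasRightDeriv n hβ h, B.magAt_le hn hβ hh⟩

theorem mag_int (n : ℕ) (hn : 1 ≤ n) (β h : ℝ) (hβ : 0 < β) (hh : 0 ≤ h)
    (hm : 0 < Model.mag n β h) :
    IntegrableOn
      (fun k => 1 / (Real.exp (β * ((n : ℝ) / 2 / Model.mag n β h *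
        Model.magnon ((n : ℝ) / 2) k + h)) - 1))
      (Set.univ.pi fun _ => Set.Icc (-Real.pi) Real.pi) ∧
    Model.mag n β h / ((n : ℝ) / 2) *
      Model.boseInt (fun k => β * ((n : ℝ) / 2 / Model.mag n β h *
        Model.magnon ((n : ℝ) / 2) k + h)) ≤
      (n : ℝ) / 2 - Model.mag n β h :=
  H.magAt_integral hn hβ hh hm

theorem mag_uniform (n : ℕ) (hn : 1 ≤ n) (κ : ℝ) (hκ2 : κ < 1 / 21) (ε : ℝ) (hε : 0 < ε) :
    ∀ᶠ β : ℝ in atTop, ∀ h : ℝ, β ^ (-1 - κ) ≤ h →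
      |β ^ (3 / 2 : ℝ) * ((n : ℝ) / 2 - Model.mag n β h) -
        Model.idealDeficit ((n : ℝ) / 2) (β * h)| ≤ ε := by
  have hS : 0 < (n : ℝ) / 2 := by
    have : (1 : ℝ) ≤ n := by exact_mod_cast hn
    linarith
  simp only [mag_eq, ideal_eq hS]
  exact B.bloch_uniform hn hκ2 hε

theorem mag_vanishing (n : ℕ) (hn : 1 ≤ n) (κ : ℝ) (hκ : 0 < κ) (hκ2 : κ < 1 / 21) :
    Tendsto (fun β : ℝ => β ^ (3 / 2 : ℝ) * ((n : ℝ) / 2 - Model.mag n β (β ^ (-1 - κ)))) atTop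
      (𝓝 ((riemannZeta (3 / 2)).re /
        (8 * Real.pi ^ (3 / 2 : ℝ) * ((n : ℝ) / 2) ^ (3 / 2 : ℝ)))) :=
  B.bloch_vanishing hn hκ hκ2

theorem mag_crude (n : ℕ) (hn : 1 ≤ n) (ε : ℝ) (hε : 0 < ε) :
    ∀ᶠ β : ℝ in atTop, ∀ h : ℝ, 0 < h →
      (n : ℝ) / 2 - Model.mag n β h ≤ β ^ (-(5 / 2) + ε) / h :=
  B.crude_deficit hn hε

end Vale.Agent.P361.BridgeB
end

section

/-! # Bloch's law: final form of the statement (all spins) -/

namespace Vale.Agent.P361.LRO.S3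

open Filter Topology

/-- Everything about the zero-field limit for spin `n/2`, given Bloch's law. -/
theorem answer_bloch {n : ℕ} (hn : 1 ≤ n) {c : ℝ}
    (H : Tendsto (fun β : ℝ => β ^ (3 / 2 : ℝ) * ((n : ℝ) / 2 - Model.spontMag n β)) atTop (𝓝 c)) :
    (∀ β : ℝ, 0 < β →
      (∀ h : ℝ, Tendsto (fun N : ℕ => Model.finPressure n N β h) atTop (𝓝 (Model.pressure n β h))) ∧
      ConvexOn ℝ Set.univ (Model.pressure n β) ∧
      HasDerivWithinAt (Model.pressure n β) (Model.spontMag n β) (Set.Ioi 0) 0 ∧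
      Model.spontMag n β ≤ (n : ℝ) / 2) ∧
    (∃ β₀ : ℝ, 0 < β₀ ∧ ∀ β : ℝ, β₀ ≤ β → 0 < Model.spontMag n β) ∧
    Tendsto (fun β : ℝ => Model.spontMag n β) atTop (𝓝 ((n : ℝ) / 2)) ∧
    Tendsto (fun β : ℝ => β ^ (3 / 2 : ℝ) * ((n : ℝ) / 2 - Model.spontMag n β)) atTop (𝓝 c) := by
  have hT : Tendsto (fun β : ℝ => Model.spontMag n β) atTop (𝓝 ((n : ℝ) / 2)) := by
    have h1 : Tendsto (fun β : ℝ => β ^ (-(3 / 2) : ℝ)) atTop (𝓝 0) :=
      tendsto_rpow_neg_atTop (by norm_num)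
    have h2 := h1.mul H
    rw [zero_mul] at h2
    have h3 : Tendsto (fun β : ℝ => (n : ℝ) / 2 - Model.spontMag n β) atTop (𝓝 0) := by
      refine h2.congr' ?_
      filter_upwards [eventually_gt_atTop (0 : ℝ)] with β hβ
      rw [← mul_assoc, ← Real.rpow_add hβ]
      norm_num
    have h4 := (tendsto_const_nhds (x := (n : ℝ) / 2)).sub h3
    simpa using h4
  have hn' : (0 : ℝ) < (n : ℝ) / 2 := by
    have : (1 : ℝ) ≤ n := by exact_mod_cast hn
    linarith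
  obtain ⟨β₁, h1⟩ := eventually_atTop.1 ((tendsto_order.1 hT).1 0 hn')
  exact ⟨fun β hβ => Vale.Agent.P361.Bridge.main_thermo n hn β hβ,
    ⟨max 1 β₁, lt_of_lt_of_le one_pos (le_max_left _ _), fun β hβ =>
      h1 β (le_trans (le_max_right _ _) hβ)⟩, hT, H⟩

/-- Bloch's law for spin `1/2` in the form of the problem. -/
theorem answer_half
    (H : Tendsto (fun β : ℝ => β ^ (3 / 2 : ℝ) * (1 / 2 - Model.spontMag 1 β)) atTop
      (𝓝 ((riemannZeta (3 / 2)).re / (8 * Real.pi ^ (3 / 2 : ℝ) * (1 / 2 : ℝ) ^ (3 / 2 : ℝ))))) :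
    (∀ β : ℝ, 0 < β →
      (∀ h : ℝ, Tendsto (fun N : ℕ => Model.finPressure 1 N β h) atTop (𝓝 (Model.pressure 1 β h))) ∧
      ConvexOn ℝ Set.univ (Model.pressure 1 β) ∧
      HasDerivWithinAt (Model.pressure 1 β) (Model.spontMag 1 β) (Set.Ioi 0) 0 ∧
      Model.spontMag 1 β ≤ 1 / 2) ∧
    (∃ β₀ : ℝ, 0 < β₀ ∧ ∀ β : ℝ, β₀ ≤ β → 0 < Model.spontMag 1 β) ∧
    Tendsto (fun β : ℝ => Model.spontMag 1 β) atTop (𝓝 (1 / 2)) ∧
    Tendsto (fun β : ℝ => β ^ (3 / 2 : ℝ) * (1 / 2 - Model.spontMag 1 β)) atTop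
      (𝓝 ((riemannZeta (3 / 2)).re / (8 * Real.pi ^ (3 / 2 : ℝ) * (1 / 2 : ℝ) ^ (3 / 2 : ℝ)))) := by
  have h := answer_bloch (n := 1) le_rfl (by simpa only [Nat.cast_one] using H)
  simpa only [Nat.cast_one] using h

end Vale.Agent.P361.LRO.S3
end

section

/-!
P361, stage 3, LIM: from the densities on the torus at small uniform fields (`FinalStmt3`) and
Bloch's law as a lower bound (`main_bloch`) to the limit
`β^{3/2} (1/2 - spontMag 1 β) → BC`.
-/

namespace Vale.Agent.P361.LRO.S3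

open Finset Matrix Filter Topology

/-- As `spontMag_ge`, pointwise in the field: for every small field `h` the torus magnetization
per site is at least `m₀` for all large `N` (depending on `h`). -/
theorem spontMag_ge_ptwise (n : ℕ) {β : ℝ} (hβ : 0 < β) {m₀ h₀ : ℝ} (hh₀ : 0 < h₀)
    (H : ∀ h : ℝ, 0 < h → h ≤ h₀ → ∀ᶠ N : ℕ in atTop,
      m₀ ≤ gibbsMagV n (torusAdj (2 * N + 1)) β h / (2 * N + 1) ^ 3) :
    m₀ ≤ Model.spontMag n β := by
  have key : ∀ h₁ h₂ : ℝ, 0 < h₁ → h₁ ≤ h₂ → h₂ ≤ h₀ →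
      Model.pressure n β h₁ + (h₂ - h₁) * m₀ ≤ Model.pressure n β h₂ := by
    intro h₁ h₂ h0 h12 h21
    have t1 := (pressTorus_tendsto n hβ h₁).add_const ((h₂ - h₁) * m₀)
    have t2 := pressTorus_tendsto n hβ h₂
    refine le_of_tendsto_of_tendsto t1 t2 ?_
    filter_upwards [H h₁ h0 (h12.trans h21), eventually_ge_atTop 1] with N h4 hN1
    have h3 := pressTorus_support n N hN1 hβ h₁ h₂
    have h5 := mul_le_mul_of_nonneg_left h4 (by linarith : (0 : ℝ) ≤ h₂ - h₁)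
    linarith
  have hconv : ConvexOn ℝ Set.univ (Model.pressure n β) := pressure_convex n hβ
  have hcont : Continuous (Model.pressure n β) := by
    have := hconv.continuousOn isOpen_univ
    rwa [continuousOn_univ] at this
  have key0 : ∀ h₂ : ℝ, 0 < h₂ → h₂ ≤ h₀ →
      Model.pressure n β 0 + h₂ * m₀ ≤ Model.pressure n β h₂ := by
    intro h₂ h20 h21
    have t1 : Tendsto (fun h₁ => Model.pressure n β h₁ + (h₂ - h₁) * m₀) (𝓝[>] 0)
        (𝓝 (Model.pressure n β 0 + (h₂ - 0) * m₀)) := by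
      have : Continuous fun h₁ => Model.pressure n β h₁ + (h₂ - h₁) * m₀ := by fun_prop
      exact this.continuousWithinAt.tendsto
    rw [sub_zero] at t1
    refine le_of_tendsto t1 ?_
    filter_upwards [Ioc_mem_nhdsGT h20] with h₁ hh
    exact key h₁ h₂ hh.1 hh.2 h21
  have hder : HasDerivWithinAt (Model.pressure n β) (Model.spontMag n β) (Set.Ioi 0) 0 :=
    spontMag_hasDeriv n hβ
  rw [hasDerivWithinAt_iff_tendsto_slope' (by simp)] at hder
  refine ge_of_tendsto hder ?_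
  filter_upwards [Ioc_mem_nhdsGT hh₀] with h hh
  rw [slope_def_field, sub_zero, le_div_iff₀ hh.1]
  linarith [key0 h hh.1 hh.2]

/-- Small densities on large tori at every field `0 < h ≤ h₀` (the size of the torus may depend
on the field). -/
theorem spontMag_ge_of_rho_ptwise {β η h₀ : ℝ} (hβ : 0 < β) (hh₀ : 0 < h₀)
    (H : ∀ h : ℝ, 0 < h → h ≤ h₀ → ∃ n0 : ℕ, ∀ (n : ℕ) [NeZero n], n0 ≤ n → Odd n →
      ∀ x : Tor n, rho (edges n) β (fun _ => h) x ≤ η) :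
    1 / 2 - η ≤ Model.spontMag 1 β := by
  refine spontMag_ge_ptwise 1 hβ hh₀ fun h hh hh1 => ?_
  obtain ⟨n0, hn0⟩ := H h hh hh1
  filter_upwards [eventually_ge_atTop (max n0 1)] with N hN
  have hN1 : 1 ≤ N := le_trans (le_max_right _ _) hN
  have hN0 : n0 ≤ 2 * N + 1 := by
    have := le_trans (le_max_left _ _) hN
    omega
  have hodd : Odd (2 * N + 1) := ⟨N, rfl⟩
  have h2 := hn0 (2 * N + 1) hN0 hodd
  rw [gibbsMagV_eq (by omega) β h]
  have hcard : (Fintype.card (Tor (2 * N + 1)) : ℝ) = (2 * (N : ℝ) + 1) ^ 3 := by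
    rw [Fintype.card_fun, ZMod.card, Fintype.card_fin]
    push_cast
    ring
  rw [le_div_iff₀ (by positivity), ← hcard, mul_comm, ← nsmul_eq_mul, ← Finset.card_univ]
  refine Finset.card_nsmul_le_sum _ _ _ fun x _ => ?_
  linarith [h2 x]

/-- The upper bound of Bloch's law. -/
theorem bloch_upper_of_final (hF : FinalStmt3) (ε : ℝ) (hε : 0 < ε) :
    ∀ᶠ β : ℝ in atTop,
      β ^ (3 / 2 : ℝ) * (1 / 2 - Model.spontMag 1 β) ≤ (1 + ε) * BC := by
  obtain ⟨β0, H⟩ := hF ε hε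
  filter_upwards [eventually_ge_atTop β0, eventually_gt_atTop (0 : ℝ)] with β hβ hβp
  have h1 : 1 / 2 - (1 + ε) * BC * β ^ (-(3 / 2) : ℝ) ≤ Model.spontMag 1 β :=
    spontMag_ge_of_rho_ptwise hβp (Real.rpow_pos_of_pos hβp (-(10 : ℝ)))
      fun h hh hh1 => H β hβ h hh hh1
  have h2 : 1 / 2 - Model.spontMag 1 β ≤ (1 + ε) * BC * β ^ (-(3 / 2) : ℝ) := by linarith
  have h3 := mul_le_mul_of_nonneg_left h2 (Real.rpow_pos_of_pos hβp (3 / 2 : ℝ)).le
  refine h3.trans (le_of_eq ?_)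
  have h4 : β ^ (3 / 2 : ℝ) * β ^ (-(3 / 2) : ℝ) = 1 := by
    rw [← Real.rpow_add hβp]
    norm_num
  calc β ^ (3 / 2 : ℝ) * ((1 + ε) * BC * β ^ (-(3 / 2) : ℝ))
      = (1 + ε) * BC * (β ^ (3 / 2 : ℝ) * β ^ (-(3 / 2) : ℝ)) := by ring
    _ = (1 + ε) * BC := by rw [h4, mul_one]

/-- **LIM**: Bloch's law for spin `1/2` from `FinalStmt3`. -/
theorem bloch_of_final (hF : FinalStmt3) :
    Tendsto (fun β : ℝ => β ^ (3 / 2 : ℝ) * (1 / 2 - Model.spontMag 1 β)) atTop (𝓝 BC) := by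
  refine tendsto_order.2 ⟨fun c hc => ?_, fun c hc => ?_⟩
  · have h1 := Bridge.main_bloch 1 le_rfl c (by
      simpa only [BC, Nat.cast_one] using hc)
    simpa only [Nat.cast_one] using h1
  · have hd : 0 < c - BC := sub_pos.2 hc
    have hp : 0 < 2 * (|BC| + 1) := by positivity
    have hε : 0 < (c - BC) / (2 * (|BC| + 1)) := div_pos hd hp
    filter_upwards [bloch_upper_of_final hF _ hε] with β hβ
    refine hβ.trans_lt ?_
    have h1 : (c - BC) / (2 * (|BC| + 1)) * BC ≤ (c - BC) / 2 := by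
      have h2 : BC ≤ |BC| + 1 := (le_abs_self _).trans (by linarith)
      calc (c - BC) / (2 * (|BC| + 1)) * BC ≤ (c - BC) / (2 * (|BC| + 1)) * (|BC| + 1) :=
            mul_le_mul_of_nonneg_left h2 hε.le
        _ = (c - BC) / 2 := by
            have : |BC| + 1 ≠ 0 := by positivity
            field_simp
    linarith

/-- Everything about the zero-field limit for spin `1/2`, given `FinalStmt3`. -/
theorem result_of_final (hF : FinalStmt3) :
    Tendsto (fun β : ℝ => β ^ (3 / 2 : ℝ) * (1 / 2 - Model.spontMag 1 β)) atTop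
      (𝓝 ((riemannZeta (3 / 2)).re / (8 * Real.pi ^ (3 / 2 : ℝ) * (1 / 2 : ℝ) ^ (3 / 2 : ℝ)))) :=
  bloch_of_final hF

end Vale.Agent.P361.LRO.S3
end

section

/-! P361, stage 3, block (B0): the start of the bootstrap (helper10). -/

namespace Vale.Agent.P361.LRO.S3

theorem startStmt3 : StartStmt3 :=
  start3_of fun κ hκ ε hε => Vale.Agent.P361.BridgeB.mag_uniform 1 le_rfl κ hκ ε hε

end Vale.Agent.P361.LRO.S3
end

section

/-! # P361 LRO, stage 3 (7'): energy bound with half of the coupling (helper348)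

`(1/2) β ∑_{e ⊆ Q} c_e ⟨h_e⟩ ≤ log tr_Q e^{-(β/2) H_Q} + β |∂Q|` for fields `≥ 0` on `Q`. -/

namespace Vale.Agent.P361.LRO.Energy

open Matrix Finset
open scoped ComplexOrder Kronecker

set_option linter.unusedSectionVars false

noncomputable section

variable {V : Type} [Fintype V] [DecidableEq V] {ι : Type*} [Fintype ι] [DecidableEq ι]

/-- the exponent outside `Q` -/
def offX (Q : Finset V) (β : ℝ) (h : V → ℝ) (a b : ι → V) (c : ι → ℝ) : Matrix (Cfg V) (Cfg V) ℂ :=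
  ∑ x with x ∉ Q, ((β * h x : ℝ) : ℂ) • szM x -
    ∑ e with ¬ (a e ∈ Q ∨ b e ∈ Q), ((β * c e : ℝ) : ℂ) • hM (a e) (b e)

/-- the fields in `Q` -/
def fldX (Q : Finset V) (β : ℝ) (h : V → ℝ) : Matrix (Cfg V) (Cfg V) ℂ :=
  ∑ x ∈ Q, ((β * h x : ℝ) : ℂ) • szM x

/-- `β` times the Hamiltonian of the bonds inside `Q` -/
def inX (Q : Finset V) (β : ℝ) (a b : ι → V) (c : ι → ℝ) : Matrix (Cfg V) (Cfg V) ℂ :=
  ∑ e with (a e ∈ Q ∧ b e ∈ Q), ((β * c e : ℝ) : ℂ) • hM (a e) (b e)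

/-- the boundary bonds -/
def bdX (Q : Finset V) (β : ℝ) (a b : ι → V) (c : ι → ℝ) : Matrix (Cfg V) (Cfg V) ℂ :=
  ∑ e with ((a e ∈ Q ∨ b e ∈ Q) ∧ ¬ (a e ∈ Q ∧ b e ∈ Q)), ((β * c e : ℝ) : ℂ) • hM (a e) (b e)

variable (Q : Finset V) (β : ℝ) (h : V → ℝ) (a b : ι → V) (c : ι → ℝ)

theorem gibX_split : gibX β h a b c = offX Q β h a b c + (fldX Q β h - inX Q β a b c) - bdX Q β a b c := by
  classical
  rw [gibX, offX, fldX, inX, bdX]
  rw [← Finset.sum_filter_add_sum_filter_not Finset.univ (fun x => x ∉ Q)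
      (fun x => ((β * h x : ℝ) : ℂ) • (szM x : Matrix (Cfg V) (Cfg V) ℂ)),
      ← Finset.sum_filter_add_sum_filter_not Finset.univ (fun e => a e ∈ Q ∨ b e ∈ Q)
      (fun e => ((β * c e : ℝ) : ℂ) • (hM (a e) (b e) : Matrix (Cfg V) (Cfg V) ℂ)),
      ← Finset.sum_filter_add_sum_filter_not (Finset.univ.filter fun e => a e ∈ Q ∨ b e ∈ Q)
      (fun e => a e ∈ Q ∧ b e ∈ Q)
      (fun e => ((β * c e : ℝ) : ℂ) • (hM (a e) (b e) : Matrix (Cfg V) (Cfg V) ℂ))]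
  have h3 : (Finset.univ.filter fun x => ¬ x ∉ Q) = Q := by
    ext x; simp
  have h4 : ((Finset.univ.filter fun e => a e ∈ Q ∨ b e ∈ Q).filter fun e => a e ∈ Q ∧ b e ∈ Q) =
      Finset.univ.filter fun e => a e ∈ Q ∧ b e ∈ Q := by
    ext e
    simp only [Finset.mem_filter, Finset.mem_univ, true_and]
    tauto
  have h5 : ((Finset.univ.filter fun e => a e ∈ Q ∨ b e ∈ Q).filter fun e => ¬ (a e ∈ Q ∧ b e ∈ Q)) =
      Finset.univ.filter fun e => (a e ∈ Q ∨ b e ∈ Q) ∧ ¬ (a e ∈ Q ∧ b e ∈ Q) := by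
    rw [Finset.filter_filter]
  rw [h3, h4, h5]
  abel

theorem offX_offQ : OffQ Q (offX Q β h a b c) := by
  refine offQ_sub (offQ_sum _ fun x hx => offQ_smul _ (offQ_szM (Finset.mem_filter.1 hx).2))
    (offQ_sum _ fun e he => offQ_smul _ ?_)
  have h2 := (Finset.mem_filter.1 he).2
  rw [not_or] at h2
  exact offQ_hM h2.1 h2.2

theorem offX_isHermitian : (offX Q β h a b c).IsHermitian :=
  (sum_isHermitian _ fun _ _ => smul_real_isHermitian (szM_isHermitian _) _).sub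
    (sum_isHermitian _ fun _ _ => smul_real_isHermitian (hM_isHermitian _ _) _)

theorem fldX_onQ : OnQ Q (fldX Q β h) := onQ_sum _ fun _ hx => onQ_smul _ (onQ_szM hx)

theorem fldX_isHermitian : (fldX Q β h).IsHermitian :=
  sum_isHermitian _ fun _ _ => smul_real_isHermitian (szM_isHermitian _) _

theorem inX_onQ : OnQ Q (inX Q β a b c) :=
  onQ_sum _ fun _ he => onQ_smul _ (onQ_hM (Finset.mem_filter.1 he).2.1 (Finset.mem_filter.1 he).2.2)

theorem inX_isHermitian : (inX Q β a b c).IsHermitian :=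
  sum_isHermitian _ fun _ _ => smul_real_isHermitian (hM_isHermitian _ _) _

variable {β c}

theorem inX_posSemidef (hβ : 0 ≤ β) (hc : ∀ e, 0 ≤ c e) : (inX Q β a b c).PosSemidef :=
  Matrix.posSemidef_sum _ fun e _ => smul_real_posSemidef (hM_posSemidef _ _) (mul_nonneg hβ (hc e))

theorem bdX_posSemidef (hβ : 0 ≤ β) (hc : ∀ e, 0 ≤ c e) : (bdX Q β a b c).PosSemidef :=
  Matrix.posSemidef_sum _ fun e _ => smul_real_posSemidef (hM_posSemidef _ _) (mul_nonneg hβ (hc e))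

theorem bdX_le (hβ : 0 ≤ β) (hc : ∀ e, 0 ≤ c e) :
    ((((β * ∑ e with ((a e ∈ Q ∨ b e ∈ Q) ∧ ¬ (a e ∈ Q ∧ b e ∈ Q)), c e : ℝ) : ℂ) •
      (1 : Matrix (Cfg V) (Cfg V) ℂ)) - bdX Q β a b c).PosSemidef := by
  have e1 : ((((β * ∑ e with ((a e ∈ Q ∨ b e ∈ Q) ∧ ¬ (a e ∈ Q ∧ b e ∈ Q)), c e : ℝ) : ℂ) •
      (1 : Matrix (Cfg V) (Cfg V) ℂ)) - bdX Q β a b c) =
      ∑ e with ((a e ∈ Q ∨ b e ∈ Q) ∧ ¬ (a e ∈ Q ∧ b e ∈ Q)), ((β * c e : ℝ) : ℂ) •
        ((1 : Matrix (Cfg V) (Cfg V) ℂ) - hM (a e) (b e)) := by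
    simp only [smul_sub, Finset.sum_sub_distrib, bdX]
    rw [← Finset.sum_smul, Finset.mul_sum]
    push_cast
    rfl
  rw [e1]
  exact Matrix.posSemidef_sum _ fun e _ => smul_real_posSemidef (one_sub_hM_posSemidef _ _)
    (mul_nonneg hβ (hc e))

/-- **Local comparison** for the Gibbs state: observables of `Q` against the free region `Q`. -/
theorem gib_local_cmp (hβ : 0 ≤ β) (hc : ∀ e, 0 ≤ c e) {W : Matrix (Cfg V) (Cfg V) ℂ} (hW : OnQ Q W)
    (hWh : W.IsHermitian) :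
    ex (gibX β h a b c) W ≤
      Real.log (trace (NormedSpace.exp (resQ Q (fldX Q β h - inX Q β a b c + W)))).re -
      Real.log (trace (NormedSpace.exp (resQ Q (fldX Q β h - inX Q β a b c)))).re +
      β * ∑ e with ((a e ∈ Q ∨ b e ∈ Q) ∧ ¬ (a e ∈ Q ∧ b e ∈ Q)), c e := by
  rw [gibX_split Q β h a b c]
  exact local_cmp (offX_offQ Q β h a b c) (offX_isHermitian Q β h a b c)
    (onQ_sub (fldX_onQ Q β h) (inX_onQ Q β a b c))
    ((fldX_isHermitian Q β h).sub (inX_isHermitian Q β a b c)) hW hWh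
    (bdX_posSemidef Q a b hβ hc) (bdX_le Q a b hβ hc)

theorem inQ_zero : inQ Q 0 = (0 : Cfg V) := by
  funext x
  by_cases hx : x ∉ Q
  · rw [inQ, splitQ_out _ hx]; rfl
  · rw [inQ, splitQ_in _ hx]; rfl

/-- `tr e^X ≥ e^{X_ii}` -/
theorem exp_diag_le {κ : Type*} [Fintype κ] [DecidableEq κ] {X : Matrix κ κ ℂ} (hX : X.IsHermitian) (i : κ) :
    Real.exp (X i i).re ≤ (trace (NormedSpace.exp X)).re := by
  have h1 := tr_exp_submatrix_le hX (f := fun _ : Unit => i) (fun _ _ _ => rfl)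
  refine le_trans (le_of_eq ?_) h1
  have h2 : X.submatrix (fun _ : Unit => i) (fun _ : Unit => i) =
      (0 : Matrix Unit Unit ℂ) + (((X i i).re : ℝ) : ℂ) • (1 : Matrix Unit Unit ℂ) := by
    ext u v
    simp only [Matrix.submatrix_apply, Matrix.add_apply, Matrix.zero_apply, Matrix.smul_apply,
      Matrix.one_apply_eq, smul_eq_mul, mul_one, zero_add]
    have h3 := congrFun (congrFun hX i) i
    rw [Matrix.conjTranspose_apply] at h3
    exact (Complex.conj_eq_iff_re.1 h3).symm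
  rw [h2, trace_exp_add_smul_one]
  simp

theorem hM_zero_zero (x y : V) : (hM x y : Matrix (Cfg V) (Cfg V) ℂ) 0 0 = 0 := by
  have h0 : (0 : Cfg V) ∘ Equiv.swap x y = 0 := rfl
  simp [hM, swapM, h0]

theorem szM_zero_zero (x : V) : (szM x : Matrix (Cfg V) (Cfg V) ℂ) 0 0 = 1 / 2 := by
  simp [szM]

/-- **Local bound**: `⟨W⟩ ≤ log tr_Q e^{-β H_Q + W} + β |∂Q|` for fields `≥ 0` on `Q` (free region `Q`
without field). -/
theorem gib_local_le (hβ : 0 ≤ β) (hc : ∀ e, 0 ≤ c e) (hh : ∀ x ∈ Q, 0 ≤ h x)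
    {W : Matrix (Cfg V) (Cfg V) ℂ} (hW : OnQ Q W) (hWh : W.IsHermitian) :
    ex (gibX β h a b c) W ≤
      Real.log (trace (NormedSpace.exp (resQ Q (W - inX Q β a b c)))).re +
      β * ∑ e with ((a e ∈ Q ∨ b e ∈ Q) ∧ ¬ (a e ∈ Q ∧ b e ∈ Q)), c e := by
  have hin := inX_isHermitian Q β a b c
  have h1 := gib_local_cmp Q h a b hβ hc hW hWh
  set H : ℝ := ∑ x ∈ Q, β * h x / 2 with hH
  have hD := fldX_isHermitian Q β h
  -- upper bound
  have hup : (trace (NormedSpace.exp (resQ Q (fldX Q β h - inX Q β a b c + W)))).re ≤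
      Real.exp H * (trace (NormedSpace.exp (resQ Q (W - inX Q β a b c)))).re := by
    rw [← trace_exp_add_smul_one]
    refine trace_exp_mono (resQ_isHermitian ((hD.sub hin).add hWh))
      ((resQ_isHermitian (hWh.sub hin)).add
        (smul_real_isHermitian Matrix.isHermitian_one H)) ?_
    have h1r : resQ Q (1 : Matrix (Cfg V) (Cfg V) ℂ) = 1 :=
      Matrix.submatrix_one (inQ Q) inQ_injective
    have e2 : resQ Q (W - inX Q β a b c) +
        (H : ℂ) • (1 : Matrix (({x // ¬ x ∉ Q}) → Fin 2) (({x // ¬ x ∉ Q}) → Fin 2) ℂ) -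
        resQ Q (fldX Q β h - inX Q β a b c + W) =
        resQ Q (∑ x ∈ Q, ((β * h x : ℝ) : ℂ) •
          ((1 / 2 : ℂ) • (1 : Matrix (Cfg V) (Cfg V) ℂ) - szM x)) := by
      rw [← h1r]
      have e3 : (∑ x ∈ Q, ((β * h x : ℝ) : ℂ) •
          ((1 / 2 : ℂ) • (1 : Matrix (Cfg V) (Cfg V) ℂ) - szM x)) =
          (H : ℂ) • (1 : Matrix (Cfg V) (Cfg V) ℂ) - fldX Q β h := by
        simp only [smul_sub, Finset.sum_sub_distrib, smul_smul, ← Finset.sum_smul, fldX]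
        rw [hH]
        push_cast
        have h4 : (∑ x ∈ Q, (β : ℂ) * (h x : ℂ) * (1 / 2)) = ∑ x ∈ Q, (β : ℂ) * (h x : ℂ) / 2 :=
          Finset.sum_congr rfl fun x _ => by ring
        rw [h4]
      rw [e3]
      unfold resQ
      simp only [Matrix.submatrix_smul, Matrix.submatrix_add, Matrix.submatrix_sub, Pi.add_apply,
        Pi.sub_apply, Pi.smul_apply]
      abel
    rw [e2]
    exact (Matrix.posSemidef_sum _ fun x hx =>
      smul_real_posSemidef (half_sub_szM_posSemidef x) (mul_nonneg hβ (hh x hx))).submatrix _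
  -- lower bound
  have hlow : Real.exp H ≤ (trace (NormedSpace.exp (resQ Q (fldX Q β h - inX Q β a b c)))).re := by
    have h2 := exp_diag_le (resQ_isHermitian (Q := Q) (hD.sub hin)) 0
    refine le_trans (le_of_eq ?_) h2
    congr 1
    rw [resQ, Matrix.submatrix_apply, inQ_zero, Matrix.sub_apply, fldX, inX, Matrix.sum_apply,
      Matrix.sum_apply]
    simp only [Matrix.smul_apply, hM_zero_zero, szM_zero_zero, smul_eq_mul, mul_zero,
      Finset.sum_const_zero, sub_zero]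
    rw [Complex.re_sum, hH]
    refine Finset.sum_congr rfl fun x _ => ?_
    rw [Complex.re_ofReal_mul]
    norm_num
    ring
  have p1 := trace_exp_pos (resQ_isHermitian (Q := Q) (hWh.sub hin))
  have p2 := trace_exp_pos (resQ_isHermitian (Q := Q) ((hD.sub hin).add hWh))
  have l1 := Real.log_le_log p2 hup
  rw [Real.log_mul (Real.exp_pos _).ne' p1.ne', Real.log_exp] at l1
  have l2 := Real.log_le_log (Real.exp_pos _) hlow
  rw [Real.log_exp] at l2
  linarith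

/-- **(7')** half of the energy. -/
theorem energy_half (hβ : 0 ≤ β) (hc : ∀ e, 0 ≤ c e) (hh : ∀ x ∈ Q, 0 ≤ h x) :
    (1 / 2) * (β * ∑ e with (a e ∈ Q ∧ b e ∈ Q), c e * ex (gibX β h a b c) (hM (a e) (b e))) ≤
      Real.log (trace (NormedSpace.exp (resQ Q (((-(1 / 2) : ℝ) : ℂ) • inX Q β a b c)))).re +
      β * ∑ e with ((a e ∈ Q ∨ b e ∈ Q) ∧ ¬ (a e ∈ Q ∧ b e ∈ Q)), c e := by
  have hin := inX_isHermitian Q β a b c
  have h1 := gib_local_le Q h a b hβ hc hh (onQ_smul ((1 / 2 : ℝ) : ℂ) (inX_onQ Q β a b c))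
    (smul_real_isHermitian hin _)
  rw [ex_smul, inX, ex_sum] at h1
  have e1 : ∑ k with (a k ∈ Q ∧ b k ∈ Q), ex (gibX β h a b c) (((β * c k : ℝ) : ℂ) • hM (a k) (b k)) =
      β * ∑ e with (a e ∈ Q ∧ b e ∈ Q), c e * ex (gibX β h a b c) (hM (a e) (b e)) := by
    rw [Finset.mul_sum]
    refine Finset.sum_congr rfl fun e _ => ?_
    rw [ex_smul]
    ring
  have e2 : ((1 / 2 : ℝ) : ℂ) • inX Q β a b c - inX Q β a b c =
      ((-(1 / 2) : ℝ) : ℂ) • inX Q β a b c := by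
    push_cast
    module
  rw [e1, ← inX, e2] at h1
  exact h1

end

end Vale.Agent.P361.LRO.Energy
end

section

/-!
P361, stage 3, lower tail: the free region `Λ ⊂ ℤ³` in the real swap model (spin 1/2).
-/

namespace Vale.Agent.P361.LRO.S3

open Matrix Finset
open Vale.Agent.P361.LRO.TwJ

set_option linter.all false

noncomputable section

variable {Λ : Finset Site}

theorem siteOp_eq_st (x : Λ) (A : Matrix (Fin 2) (Fin 2) ℂ) :
    (siteOp (n := 1) x A : Matrix (Λ → Fin 2) (Λ → Fin 2) ℂ) = st x A := by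
  ext σ τ
  rw [siteOp, st, P, Matrix.of_apply, Matrix.of_apply]
  refine Finset.prod_congr rfl fun y _ => ?_
  by_cases h : y = x
  · subst h; simp
  · rw [if_neg h, Function.update_of_ne h]

theorem spinZ_one_eq : spinZ 1 = sz := by
  ext i j
  fin_cases i <;> fin_cases j <;> simp [spinZ, sz] <;> norm_num

theorem spinLower_one_eq : spinLower 1 = sm := by
  ext i j
  fin_cases i <;> fin_cases j <;> simp [spinLower, sm]

theorem oZ_eq (x : Λ) : (H.oZ 1 x : Matrix (Λ → Fin 2) (Λ → Fin 2) ℂ) = st x sz := by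
  rw [H.oZ, ← spinZ_one_eq]
  exact siteOp_eq_st x _

theorem oM_eq (x : Λ) : (H.oM 1 x : Matrix (Λ → Fin 2) (Λ → Fin 2) ℂ) = st x sm := by
  rw [H.oM, ← spinLower_one_eq]
  exact siteOp_eq_st x _

theorem oP_eq (x : Λ) : (H.oP 1 x : Matrix (Λ → Fin 2) (Λ → Fin 2) ℂ) = st x sp := by
  rw [H.oP, ← sm_conj, ← spinLower_one_eq]
  exact siteOp_eq_st x _

theorem dotOp_one {x y : Λ} (hxy : x ≠ y) :
    (H.dotOp 1 x y : Matrix (Λ → Fin 2) (Λ → Fin 2) ℂ) = Fp x y := by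
  have h := H.dotOp_eq (n := 1) x y
  rw [oZ_eq, oZ_eq, oP_eq, oP_eq, oM_eq, oM_eq] at h
  refine h.trans ?_
  have h1 : (st y sm : Opr Λ) * st x sp = st x sp * st y sm := st_comm hxy.symm _ _
  have h2 : (st y sz : Opr Λ) * st x sz = st x sz * st y sz := st_comm hxy.symm _ _
  rw [Fp, h1, h2]
  module

/-- Ordered list of nearest neighbour pairs of `Λ`. -/
def nnL (Λ : Finset Site) : List (Λ × Λ) :=
  ((univ : Finset (Λ × Λ)).filter fun e => IsNN e.1.1 e.2.1).toList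

theorem hT_one : (B.hT 1 Λ : Matrix (Λ → Fin 2) (Λ → Fin 2) ℂ) =
    (1 / 2 : ℂ) • cm (ham (nnL Λ) 0) := by
  have h0 : cm (ham (nnL Λ) 0) = ∑ x : Λ, ∑ y : Λ,
      if IsNN x.1 y.1 then cm (hM x y) else 0 := by
    have e1 : ham (nnL Λ) (0 : Λ → ℝ) = ∑ e ∈ (univ : Finset (Λ × Λ)).filter
        (fun e => IsNN e.1.1 e.2.1), hM e.1 e.2 := by
      rw [ham, nnL, Finset.sum_map_toList]
      simp
    rw [e1, cm_sum, Finset.sum_filter, Fintype.sum_prod_type]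
  rw [h0, B.hT]
  congr 1
  refine Finset.sum_congr rfl fun x _ => Finset.sum_congr rfl fun y _ => ?_
  by_cases h : IsNN x.1 y.1
  · rw [if_pos h, if_pos h]
    have hxy : x ≠ y := H.isNN_ne h
    have h3 := Fp_ne hxy
    have h4 := dotOp_one hxy
    rw [← h3, ← h4]
    congr 2
    norm_num
  · rw [if_neg h, if_neg h]

theorem numOp_one : (B.numOp 1 Λ : Matrix (Λ → Fin 2) (Λ → Fin 2) ℂ) = cm (Dn univ) := by
  rw [cm_Dn, B.numOp, Finset.sum_sub_distrib, Sg]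
  congr 1
  · rw [Finset.sum_const, ← Nat.cast_smul_eq_nsmul ℂ, smul_smul]
    congr 1
    push_cast
    ring
  · exact Finset.sum_congr rfl fun x _ => oZ_eq x

theorem cm_exp {V : Type} [Fintype V] [DecidableEq V] (A : Matrix (V → Fin 2) (V → Fin 2) ℝ) :
    cm (NormedSpace.exp A) = NormedSpace.exp (cm A) := by
  have hc : Continuous (Complex.ofRealHom.mapMatrix :
      Matrix (V → Fin 2) (V → Fin 2) ℝ →+* Matrix (V → Fin 2) (V → Fin 2) ℂ) := by
    exact Continuous.matrix_map continuous_id Complex.continuous_ofReal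
  open scoped Matrix.Norms.Operator in
  exact NormedSpace.map_exp (Complex.ofRealHom.mapMatrix :
      Matrix (V → Fin 2) (V → Fin 2) ℝ →+* Matrix (V → Fin 2) (V → Fin 2) ℂ) hc A

theorem Zt_one (β τ : ℝ) : B.Zt 1 Λ β τ =
    trace (NormedSpace.exp (-(β / 2) • ham (nnL Λ) 0 - τ • Dn (univ : Finset Λ))) := by
  have h : -((β : ℂ) • B.hT 1 Λ + (τ : ℂ) • B.numOp 1 Λ) =
      cm (-(β / 2) • ham (nnL Λ) 0 - τ • Dn (univ : Finset Λ)) := by
    have h1 : (β : ℂ) • (B.hT 1 Λ : Matrix (Λ → Fin 2) (Λ → Fin 2) ℂ) =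
        ((β / 2 : ℝ) : ℂ) • cm (ham (nnL Λ) 0) := by
      rw [hT_one, smul_smul]
      congr 1
      push_cast
      ring
    have h2 := numOp_one (Λ := Λ)
    have h3 : cm (-(β / 2) • ham (nnL Λ) 0 - τ • Dn (univ : Finset Λ)) =
        -(((β / 2 : ℝ) : ℂ) • cm (ham (nnL Λ) 0) + (τ : ℂ) • cm (Dn (univ : Finset Λ))) := by
      rw [cm_sub, cm_smul, cm_smul]
      push_cast
      module
    rw [h3, ← h1, ← h2]
  rw [B.Zt, h, ← cm_exp]
  exact (congrArg Complex.re (cm_trace _)).trans (Complex.ofReal_re _)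

theorem free_trace (β : ℝ) (X : Matrix (Λ → Fin 2) (Λ → Fin 2) ℝ) :
    (trace (NormedSpace.exp (-((β : ℂ) • B.hT 1 Λ) + cm X))).re =
      trace (NormedSpace.exp (-(β / 2) • ham (nnL Λ) 0 + X)) := by
  have h : -((β : ℂ) • B.hT 1 Λ) + cm X = cm (-(β / 2) • ham (nnL Λ) 0 + X) := by
    have h1 : (β : ℂ) • (B.hT 1 Λ : Matrix (Λ → Fin 2) (Λ → Fin 2) ℂ) =
        ((β / 2 : ℝ) : ℂ) • cm (ham (nnL Λ) 0) := by
      rw [hT_one, smul_smul]
      congr 1
      push_cast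
      ring
    rw [h1, cm_add, cm_smul]
    push_cast
    module
  rw [h, ← cm_exp]
  exact (congrArg Complex.re (cm_trace _)).trans (Complex.ofReal_re _)

end

end Vale.Agent.P361.LRO.S3
end

section

/-! # P361 LRO, stage 3 (E): the free cube of the torus and `Zt` (helper348) -/

namespace Vale.Agent.P361.LRO.Energy.ET

open Matrix Finset Vale.Agent.P361.LRO.Loc3
open scoped ComplexOrder

set_option linter.unusedSectionVars false

noncomputable section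

variable {n : ℕ} [NeZero n]

/-- the box in the torus -/
def eC (x : Tor n) (l : ℕ) (u : B.cube l) : Tor n := x + fun i => ((u.1 i : ℤ) : ZMod n)

theorem mem_bcube {l : ℕ} {u : Site} : u ∈ B.cube l ↔ ∀ i, 0 ≤ u i ∧ u i < l := by
  simp [B.cube, Fintype.mem_piFinset, Finset.mem_Ico]

theorem eC_injective {x : Tor n} {l : ℕ} (hl : l ≤ n) : Function.Injective (eC x l) := by
  intro u v h
  have h1 : (fun i => ((u.1 i : ℤ) : ZMod n)) = fun i => ((v.1 i : ℤ) : ZMod n) := add_left_cancel h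
  refine Subtype.ext (funext fun i => ?_)
  have h2 := congrFun h1 i
  have hu := mem_bcube.1 u.2 i
  have hv := mem_bcube.1 v.2 i
  have h3 := (ZMod.intCast_eq_intCast_iff _ _ _).1 h2
  unfold Int.ModEq at h3
  rwa [Int.emod_eq_of_lt hu.1 (by omega), Int.emod_eq_of_lt hv.1 (by omega)] at h3

theorem eC_mem (x : Tor n) (l : ℕ) (u : B.cube l) : eC x l u ∈ cube n x l := by
  have hu := mem_bcube.1 u.2
  refine mem_cube.2 ⟨fun i => ⟨(u.1 i).toNat, by have := hu i; omega⟩, ?_⟩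
  rw [eC]
  congr 1
  funext i
  have h1 : ((u.1 i).toNat : ℤ) = u.1 i := Int.toNat_of_nonneg (hu i).1
  calc ((u.1 i : ℤ) : ZMod n) = (((u.1 i).toNat : ℤ) : ZMod n) := by rw [h1]
    _ = (((u.1 i).toNat : ℕ) : ZMod n) := by push_cast; rfl

theorem nxt_eC (x : Tor n) (l : ℕ) (u v : B.cube l) (i : Fin 3) (h : v.1 = u.1 + Pi.single i 1) :
    eC x l v = nxt (eC x l u, i) := by
  rw [nxt, eC, eC, h, add_assoc]
  congr 1
  funext j
  by_cases hj : j = i
  · subst hj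
    simp
  · simp [hj]

theorem hM_symm {V : Type} [Fintype V] [DecidableEq V] (x y : V) :
    (hM x y : Matrix (Cfg V) (Cfg V) ℂ) = hM y x := by
  rw [hM, hM, swapM, swapM, Equiv.swap_comm]

/-- the nearest neighbour sum -/
theorem ite_isNN {M : Type*} [AddCommMonoid M] (x y : Site) (m : M) :
    (if IsNN x y then m else 0) =
      (∑ i : Fin 3, if y = x + Pi.single i 1 then m else 0) +
        ∑ i : Fin 3, if x = y + Pi.single i 1 then m else 0 := by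
  have hd : ∀ i : Fin 3, (x = y + Pi.single i 1) ↔ (y = x + H.dir (i, false)) := by
    intro i
    have e : (H.dir (i, false) : Site) = - Pi.single i 1 := by
      rw [H.dir, ← Pi.single_neg]
      rfl
    rw [e]
    constructor
    · rintro rfl; simp
    · rintro rfl; simp
  have hs : (∑ i : Fin 3, if y = x + Pi.single i 1 then m else 0) +
        (∑ i : Fin 3, if x = y + Pi.single i 1 then m else 0) =
      ∑ p : Fin 3 × Bool, if y = x + H.dir p then m else 0 := by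
    rw [Fintype.sum_prod_type]
    simp only [Fintype.sum_bool]
    rw [Finset.sum_add_distrib]
    congr 1
    refine Finset.sum_congr rfl fun i _ => ?_
    simp only [hd]
  rw [hs]
  by_cases h : IsNN x y
  · rw [if_pos h]
    obtain ⟨p, hp⟩ := (H.isNN_iff x y).1 h
    rw [Finset.sum_eq_single p]
    · rw [if_pos hp]
    · intro q _ hq
      rw [if_neg]
      intro h2
      rw [hp] at h2
      exact hq (H.dir_injective (add_left_cancel h2)).symm
    · intro h3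
      exact absurd (Finset.mem_univ _) h3
  · rw [if_neg h, Finset.sum_eq_zero]
    intro p _
    rw [if_neg]
    intro h2
    exact h ((H.isNN_iff x y).2 ⟨p, h2⟩)

theorem sum_isNN {M : Type*} [AddCommMonoid M] {Λ : Finset Site} (f : Λ → Λ → M)
    (hf : ∀ u v, f u v = f v u) :
    (∑ u : Λ, ∑ v : Λ, if IsNN u.1 v.1 then f u v else 0) =
      (∑ u : Λ, ∑ v : Λ, ∑ i : Fin 3, if v.1 = u.1 + Pi.single i 1 then f u v else 0) +
      (∑ u : Λ, ∑ v : Λ, ∑ i : Fin 3, if v.1 = u.1 + Pi.single i 1 then f u v else 0) := by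
  simp only [ite_isNN, Finset.sum_add_distrib]
  congr 1
  rw [Finset.sum_comm]
  refine Finset.sum_congr rfl fun u _ => Finset.sum_congr rfl fun v _ =>
    Finset.sum_congr rfl fun i _ => ?_
  rw [hf]

theorem cm_eq_cpx {V : Type} [Fintype V] [DecidableEq V] (A : Matrix (V → Fin 2) (V → Fin 2) ℝ) :
    TwJ.cm A = cpx A := by
  ext i j
  rfl

theorem hT_eq {Λ : Finset Site} : (B.hT 1 Λ : Matrix (Λ → Fin 2) (Λ → Fin 2) ℂ) =
    ∑ u : Λ, ∑ v : Λ, ∑ i : Fin 3, if v.1 = u.1 + Pi.single i 1 then hM u v else 0 := by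
  have h0 : TwJ.cm (ham (S3.nnL Λ) 0) = ∑ x : Λ, ∑ y : Λ,
      if IsNN x.1 y.1 then (hM x y : Matrix (Λ → Fin 2) (Λ → Fin 2) ℂ) else 0 := by
    have e1 : ham (S3.nnL Λ) (0 : Λ → ℝ) = ∑ e ∈ (Finset.univ : Finset (Λ × Λ)).filter
        (fun e => IsNN e.1.1 e.2.1), LRO.hM e.1 e.2 := by
      rw [ham, S3.nnL, Finset.sum_map_toList]
      simp
    rw [e1, cm_eq_cpx, cpx_sum, Finset.sum_filter, Fintype.sum_prod_type]
    simp only [cpx_hM]
  rw [S3.hT_one, h0, sum_isNN (fun u v => (hM u v : Matrix (Λ → Fin 2) (Λ → Fin 2) ℂ)) hM_symm,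
    smul_add, ← add_smul]
  norm_num

/-- bonds inside `Q` -/
def ins (Q : Finset (Tor n)) : Finset (Tor n × Fin 3) :=
  Finset.univ.filter fun z => z.1 ∈ Q ∧ nxt z ∈ Q

/-- the free box is below the bonds inside the cube -/
theorem emb_hT_le (x : Tor n) {l : ℕ} (hl : l ≤ n) :
    ((∑ z ∈ ins (cube n x l), (hM z.1 (nxt z) : Matrix (Cfg (Tor n)) (Cfg (Tor n)) ℂ)) -
      emb (eC x l) (B.hT 1 (B.cube l))).PosSemidef := by
  classical
  have he := eC_injective (x := x) hl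
  set T : Finset (B.cube l × Fin 3) := Finset.univ.filter fun p => p.1.1 + Pi.single p.2 1 ∈ B.cube l
    with hT
  have h1 : emb (eC x l) (B.hT 1 (B.cube l)) =
      ∑ p ∈ T, (hM (eC x l p.1) (nxt (eC x l p.1, p.2)) : Matrix (Cfg (Tor n)) (Cfg (Tor n)) ℂ) := by
    rw [hT_eq, emb_sum, hT, Finset.sum_filter, Fintype.sum_prod_type]
    refine Finset.sum_congr rfl fun u _ => ?_
    rw [Finset.sum_comm, emb_sum]
    refine Finset.sum_congr rfl fun i _ => ?_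
    rw [emb_sum]
    have e1 : ∀ v : B.cube l, emb (eC x l) (if v.1 = u.1 + Pi.single i 1 then hM u v else 0) =
        if v.1 = u.1 + Pi.single i 1 then
          (hM (eC x l u) (nxt (eC x l u, i)) : Matrix (Cfg (Tor n)) (Cfg (Tor n)) ℂ) else 0 := by
      intro v
      split_ifs with h
      · rw [emb_hM he, nxt_eC x l u v i h]
      · exact emb_zero _
    simp only [e1]
    refine (Finset.sum_coe_sort (B.cube l) (fun v => if v = u.1 + Pi.single i 1 then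
      (hM (eC x l u) (nxt (eC x l u, i)) : Matrix (Cfg (Tor n)) (Cfg (Tor n)) ℂ) else 0)).trans ?_
    rw [Finset.sum_ite_eq']
  have hinj : Function.Injective fun p : B.cube l × Fin 3 => (eC x l p.1, p.2) := by
    intro p q h
    have h2 := Prod.mk.inj h
    exact Prod.ext (he h2.1) h2.2
  have h2 : emb (eC x l) (B.hT 1 (B.cube l)) =
      ∑ z ∈ T.image fun p => (eC x l p.1, p.2), (hM z.1 (nxt z) : Matrix (Cfg (Tor n)) (Cfg (Tor n)) ℂ) := by
    rw [h1, Finset.sum_image fun p _ q _ h => hinj h]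
  have h3 : (T.image fun p => (eC x l p.1, p.2)) ⊆ ins (cube n x l) := by
    intro z hz
    obtain ⟨p, hp, rfl⟩ := Finset.mem_image.1 hz
    have hp' := (Finset.mem_filter.1 hp).2
    refine Finset.mem_filter.2 ⟨Finset.mem_univ _, eC_mem x l p.1, ?_⟩
    have := nxt_eC x l p.1 ⟨_, hp'⟩ p.2 rfl
    rw [← this]
    exact eC_mem x l _
  rw [h2, ← Finset.sum_sdiff h3, add_sub_cancel_right]
  exact Matrix.posSemidef_sum _ fun z _ => hM_posSemidef _ _

/-- log trace of the region -/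
theorem log_resQ {V : Type} [Fintype V] [DecidableEq V] (Q : Finset V) {B : Matrix (Cfg V) (Cfg V) ℂ}
    (hB : OnQ Q B) (hBh : B.IsHermitian) :
    Real.log (trace (NormedSpace.exp (resQ Q B))).re = nlt B + Q.card * Real.log 2 := by
  have h0 : OffQ Q (0 : Matrix (Cfg V) (Cfg V) ℂ) := by
    intro s t q q'
    simp
  have h1 := tr_exp_off_on h0 Matrix.isHermitian_zero hB hBh
  have h00 : (0 : Matrix (Cfg V) (Cfg V) ℂ).submatrix (extQ Q) (extQ Q) = 0 := rfl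
  rw [zero_add, h00, NormedSpace.exp_zero, Matrix.trace_one] at h1
  have h2 : Fintype.card {x // x ∉ Q} + Q.card = Fintype.card V := by
    rw [Fintype.card_subtype_compl, Fintype.card_coe]
    have := Q.card_le_univ
    omega
  have h3 := trace_exp_pos (resQ_isHermitian (Q := Q) hBh)
  unfold nlt
  rw [h1, Fintype.card_fun, Fintype.card_fin, ← h2]
  have h4 : (((2 ^ Fintype.card {x // x ∉ Q} : ℕ) : ℂ)).re = (2 : ℝ) ^ Fintype.card {x // x ∉ Q} := by
    rw [Complex.natCast_re]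
    push_cast
    rfl
  rw [h4, Real.log_mul (by positivity) h3.ne', Real.log_pow]
  push_cast
  ring

theorem sum_get {M : Type*} [AddCommMonoid M] (F : Tor n × Tor n → M) :
    ∑ i : Fin (edges n).length, F ((edges n).get i) = ∑ z : Tor n × Fin 3, F (z.1, nxt z) := by
  have h := sum_edges (n := n) F
  rw [← Fin.sum_univ_fun_getElem] at h
  exact h

/-- the bonds inside in the exponent -/
theorem inX_edges (Q : Finset (Tor n)) (β : ℝ) :
    inX Q β (fun i : Fin (edges n).length => ((edges n).get i).1) (fun i => ((edges n).get i).2)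
      (fun _ => 1) = (β : ℂ) • ∑ z ∈ ins Q, (hM z.1 (nxt z) : Matrix (Cfg (Tor n)) (Cfg (Tor n)) ℂ) := by
  rw [inX, Finset.sum_filter, ins, Finset.sum_filter, Finset.smul_sum]
  refine (sum_get (fun e : Tor n × Tor n => if e.1 ∈ Q ∧ e.2 ∈ Q then
    (((β * 1 : ℝ)) : ℂ) • (hM e.1 e.2 : Matrix (Cfg (Tor n)) (Cfg (Tor n)) ℂ) else 0)).trans ?_
  refine Finset.sum_congr rfl fun z _ => ?_
  rw [mul_one, smul_ite, smul_zero]

/-- the free cube of the torus against the free box -/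
theorem log_resQ_le (x : Tor n) {l : ℕ} (hl : l ≤ n) {β : ℝ} (hβ : 0 ≤ β) :
    Real.log (trace (NormedSpace.exp (resQ (cube n x l) (((-(1 / 2) : ℝ) : ℂ) •
      inX (cube n x l) β (fun i : Fin (edges n).length => ((edges n).get i).1)
        (fun i => ((edges n).get i).2) (fun _ => 1))))).re ≤
      Real.log (B.Zt 1 (B.cube l) (β / 2) 0) := by
  have hin := inX_isHermitian (cube n x l) β (fun i : Fin (edges n).length => ((edges n).get i).1)
        (fun i => ((edges n).get i).2) (fun _ => 1)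
  have hon := inX_onQ (cube n x l) β (fun i : Fin (edges n).length => ((edges n).get i).1)
        (fun i => ((edges n).get i).2) (fun _ => 1)
  have hT : (B.hT 1 (B.cube l)).IsHermitian := B.hT_isHermitian
  have hX : ((((-(β / 2)) : ℝ) : ℂ) • B.hT 1 (B.cube l)).IsHermitian := smul_real_isHermitian hT _
  rw [log_resQ _ (onQ_smul _ hon) (smul_real_isHermitian hin _)]
  have h1 : nlt (((-(1 / 2) : ℝ) : ℂ) •
      inX (cube n x l) β (fun i : Fin (edges n).length => ((edges n).get i).1)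
        (fun i => ((edges n).get i).2) (fun _ => 1)) ≤
      nlt ((((-(β / 2)) : ℝ) : ℂ) • B.hT 1 (B.cube l)) := by
    rw [← nlt_emb (eC x l) (eC_injective hl) hX]
    unfold nlt
    refine sub_le_sub_right (Real.log_le_log (trace_exp_pos (smul_real_isHermitian hin _)) ?_) _
    refine trace_exp_mono (smul_real_isHermitian hin _) (emb_isHermitian _ hX) ?_
    have e : emb (eC x l) ((((-(β / 2)) : ℝ) : ℂ) • B.hT 1 (B.cube l)) -
        ((-(1 / 2) : ℝ) : ℂ) • inX (cube n x l) β (fun i : Fin (edges n).length => ((edges n).get i).1)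
        (fun i => ((edges n).get i).2) (fun _ => 1) =
        (((β / 2 : ℝ)) : ℂ) • ((∑ z ∈ ins (cube n x l),
          (hM z.1 (nxt z) : Matrix (Cfg (Tor n)) (Cfg (Tor n)) ℂ)) -
          emb (eC x l) (B.hT 1 (B.cube l))) := by
      rw [emb_smul, inX_edges, smul_smul, smul_sub]
      push_cast
      module
    rw [e]
    exact smul_real_posSemidef (emb_hT_le x hl) (by positivity)
  have h2 : Real.log (B.Zt 1 (B.cube l) (β / 2) 0) =
      nlt ((((-(β / 2)) : ℝ) : ℂ) • B.hT 1 (B.cube l)) + ((l : ℝ) ^ 3) * Real.log 2 := by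
    have e : -((((β / 2 : ℝ)) : ℂ) • B.hT 1 (B.cube l) + (((0 : ℝ)) : ℂ) • B.numOp 1 (B.cube l)) =
        (((-(β / 2)) : ℝ) : ℂ) • B.hT 1 (B.cube l) := by
      push_cast
      module
    have hc : Fintype.card (B.cube l) = l ^ 3 := by
      rw [Fintype.card_coe, B.cube_eq, card_cube]
    rw [B.Zt, e]
    unfold nlt
    rw [hc]
    push_cast
    ring
  have h3 : ((cube n x l).card : ℝ) ≤ (l : ℝ) ^ 3 := by exact_mod_cast card_cube_le x l
  have h4 : 0 ≤ Real.log 2 := Real.log_nonneg (by norm_num)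
  have h5 := mul_le_mul_of_nonneg_right h3 h4
  rw [h2]
  linarith

/-- **Energy of a cube**, log-free input form. -/
theorem energy_ins {β : ℝ} (hβ : 0 ≤ β) {h : Tor n → ℝ} (hh : ∀ x, 0 ≤ h x) (x : Tor n) {l : ℕ}
    (hl0 : 0 < l) (hl : l ≤ n) :
    β * ∑ z ∈ ins (cube n x l), eb n β h z ≤
      2 * (Real.log (B.Zt 1 (B.cube l) (β / 2) 0) + 6 * β * (l : ℝ) ^ 2) := by
  have h1 := energy_half (cube n x l) h (fun i : Fin (edges n).length => ((edges n).get i).1)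
    (fun i => ((edges n).get i).2) hβ (c := fun _ => 1) (fun _ => zero_le_one) (fun y _ => hh y)
  have h2 := log_resQ_le x hl hβ
  have h3 : ∑ i : Fin (edges n).length with (((edges n).get i).1 ∈ cube n x l ∧
      ((edges n).get i).2 ∈ cube n x l), (1 : ℝ) * ex (gibX β h (fun i : Fin (edges n).length =>
        ((edges n).get i).1) (fun i => ((edges n).get i).2) (fun _ => 1))
        (hM ((edges n).get i).1 ((edges n).get i).2) = ∑ z ∈ ins (cube n x l), eb n β h z := by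
    rw [Finset.sum_filter, ins, Finset.sum_filter]
    simp only [one_mul, ← gib_hM]
    exact edges_sum (fun e => if e.1 ∈ cube n x l ∧ e.2 ∈ cube n x l then
      gib (edges n) β h (LRO.hM e.1 e.2) else 0)
  have h4 : ∑ i : Fin (edges n).length with ((((edges n).get i).1 ∈ cube n x l ∨
      ((edges n).get i).2 ∈ cube n x l) ∧ ¬ (((edges n).get i).1 ∈ cube n x l ∧
      ((edges n).get i).2 ∈ cube n x l)), (1 : ℝ) = ((bdy (cube n x l)).card : ℝ) := by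
    rw [Finset.sum_filter, bdy, Finset.card_filter]
    push_cast
    exact edges_sum (fun e => if (e.1 ∈ cube n x l ∨ e.2 ∈ cube n x l) ∧
      ¬ (e.1 ∈ cube n x l ∧ e.2 ∈ cube n x l) then 1 else 0)
  rw [h3, h4] at h1
  have h5 : ((bdy (cube n x l)).card : ℝ) ≤ 6 * (l : ℝ) ^ 2 := by exact_mod_cast card_bdy_le x hl0
  have h6 := mul_le_mul_of_nonneg_left h5 hβ
  linarith

end

end Vale.Agent.P361.LRO.Energy.ET
end

section

/-!
The tiling statement `TileStmt 12`.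
-/

namespace Vale.Agent.P361.LRO.EnR

open Matrix Finset

noncomputable section

/-- `(Fin 3 → α) ≃ α × α × α`. -/
def fin3Equiv (α : Type) : (Fin 3 → α) ≃ α × α × α where
  toFun y := (y 0, y 1, y 2)
  invFun q := ![q.1, q.2.1, q.2.2]
  left_inv y := by ext i; fin_cases i <;> rfl
  right_inv q := rfl

theorem sum_fin3 (m : ℕ) (f : ℕ → ℕ → ℕ → ℝ) :
    ∑ y : Fin 3 → Fin m, f (y 0) (y 1) (y 2) =
      ∑ a ∈ range m, ∑ b ∈ range m, ∑ c ∈ range m, f a b c := by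
  rw [Fintype.sum_equiv (fin3Equiv (Fin m)) (fun y => f (y 0) (y 1) (y 2))
    (fun q => f q.1 q.2.1 q.2.2) (fun y => rfl), Fintype.sum_prod_type]
  rw [Finset.sum_range]
  refine sum_congr rfl fun a _ => ?_
  rw [Fintype.sum_prod_type, Finset.sum_range]
  refine sum_congr rfl fun b _ => ?_
  rw [Finset.sum_range]

theorem edge_inj {n : ℕ} (hn : 2 ≤ n) :
    Function.Injective fun e : Tor n × Fin 3 => (e.1, e.1 + (Pi.single e.2 1 : Tor n)) := by
  rintro ⟨z, i⟩ ⟨z', i'⟩ h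
  simp only [Prod.mk.injEq] at h
  obtain ⟨rfl, h⟩ := h
  have h1 : (Pi.single i 1 : Tor n) = Pi.single i' 1 := add_left_cancel h
  have : Fact (1 < n) := ⟨by omega⟩
  have h2 : i = i' := by
    by_contra hne
    have := congrFun h1 i
    rw [Pi.single_eq_same, Pi.single_eq_of_ne hne] at this
    exact one_ne_zero this
  rw [h2]

theorem sum_edge_le {n : ℕ} [NeZero n] (hn : 2 ≤ n) (Q : Finset (Tor n))
    (F : Tor n → Tor n → ℝ) :
    ∑ e : Tor n × Fin 3 with (e.1 ∈ Q ∧ e.1 + Pi.single e.2 1 ∈ Q),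
        F e.1 (e.1 + Pi.single e.2 1) ≤
      ∑ e ∈ (edges n).toFinset with (e.1 ∈ Q ∧ e.2 ∈ Q), F e.1 e.2 := by
  apply le_of_eq
  have h1 : ((edges n).toFinset.filter fun e => e.1 ∈ Q ∧ e.2 ∈ Q) =
      (univ.filter fun e : Tor n × Fin 3 => e.1 ∈ Q ∧ e.1 + Pi.single e.2 1 ∈ Q).image
        fun e : Tor n × Fin 3 => (e.1, e.1 + (Pi.single e.2 1 : Tor n)) := by
    ext e
    simp only [mem_filter, List.mem_toFinset, edges, List.mem_map, mem_toList, mem_univ, true_and,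
      mem_image, Prod.exists]
    constructor
    · rintro ⟨⟨z, i, rfl⟩, h⟩
      exact ⟨z, i, h, rfl⟩
    · rintro ⟨z, i, h, rfl⟩
      exact ⟨⟨z, i, rfl⟩, h⟩
  rw [h1, sum_image (fun a _ b _ hab => edge_inj hn hab)]

theorem tileStmt : Energy.TileStmt 12 := by
  intro n _ β h x0 w m hw hm hwm hn
  have hwn : w ≤ n := le_trans (Nat.le_mul_of_pos_right w hm) hwm
  set G : Tor n → Tor n → ℝ := fun x y => gib (edges n) β h (LRO.hM x y) with hG
  have h1 : ∀ y : Fin 3 → Fin m,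
      ∑ x ∈ cube n (x0 + fun i => ((w * (y i : ℕ) : ℕ) : ZMod n)) w,
      ∑ x' ∈ cube n (x0 + fun i => ((w * (y i : ℕ) : ℕ) : ZMod n)) w, G x x' =
      pairSum (shp (tp n x0) w (y 0) (y 1) (y 2)) G w := by
    intro y
    rw [pairSum_eq _ hwn, ← tp_shift]
    congr 4
    ext i
    fin_cases i <;> rfl
  have h2 := tile_pair (edges n) β h (tp n x0) w m
  have h3 := edgeSum_le x0 hwm G (fun x y => gib_hM_nonneg _ _ _ _ _)
  have h4 := sum_edge_le (by omega : 2 ≤ n) (cube n x0 (w * m)) G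
  calc _ = ∑ y : Fin 3 → Fin m, pairSum (shp (tp n x0) w (y 0) (y 1) (y 2)) G w :=
        sum_congr rfl fun y _ => h1 y
    _ = ∑ u0 ∈ range m, ∑ u1 ∈ range m, ∑ u2 ∈ range m,
          pairSum (shp (tp n x0) w u0 u1 u2) G w :=
        sum_fin3 m fun u0 u1 u2 => pairSum (shp (tp n x0) w u0 u1 u2) G w
    _ ≤ 12 * (w : ℝ) ^ 5 * edgeSum (tp n x0) G (w * m) := h2
    _ ≤ _ := mul_le_mul_of_nonneg_left (h3.trans h4) (by positivity)

end

end Vale.Agent.P361.LRO.EnR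
end

section

/-! # P361 LRO, block (7): `PEnergy 2` and `EnergyStmt` (helper348, helper351) -/

namespace Vale.Agent.P361.LRO

/-- **Block (7)** (Top.lean). -/
theorem pEnergy : PEnergy 2 :=
  Energy.pEnergy_of_tile (by norm_num) EnR.tileStmt fun _ _ x _ hw => EnR.card_cube x hw

/-- **Block (7)** (Top/Iface.lean). -/
theorem energyStmt : EnergyStmt :=
  Energy.energyStmt_of_tile (by norm_num) EnR.tileStmt fun _ _ x _ hw => EnR.card_cube x hw

end Vale.Agent.P361.LRO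
end

section

/-!
P361 stage 3, block (E): log-free upper bound for the free energy of cubes in zero field
(helper213). (Z2): `log Zt` on a cube of side `β^{51/100}` in the field of (Z1); (Z3): all cubes.
-/

namespace Vale.Agent.P361.B

open Filter Topology

namespace ZF

/-- Choice of the cube, with an upper bound of the side. -/
theorem exists_cube_ub {n : ℕ} (hn : 1 ≤ n) {κ η : ℝ} (hκ : 0 < κ) (hη : 0 < η)
    (hη2 : η < 1 / 2) :
    ∀ᶠ β : ℝ in atTop, ∃ L : ℕ, 0 < L ∧ β ^ (1 / 2 + κ + η) / 2 ≤ L ∧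
      (L : ℝ) ≤ 2 * β ^ (1 / 2 + κ + η) ∧
      Real.log (Zt n (cube L) (β / 2) 0) ≤ 8 * β ^ (3 * κ + 7 * η) := by
  have hcr := crude_log hn hη (by linarith)
  have l1 : ∀ᶠ β : ℝ in atTop, 2 ≤ β ^ (1 / 2 - η) :=
    (tendsto_rpow_atTop (by linarith)).eventually_ge_atTop 2
  filter_upwards [hcr, l1, eventually_ge_atTop 1] with β hcr h2X hβ1
  have hβ0 : 0 < β := by linarith
  have pp : ∀ a : ℝ, 0 < β ^ a := fun a => Real.rpow_pos_of_pos hβ0 a
  set X : ℝ := β ^ (1 / 2 - η) with hX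
  set Y : ℝ := β ^ (κ + 2 * η) with hY
  have hX0 : 0 < X := pp _
  have hY1 : 1 ≤ Y := Real.one_le_rpow hβ1 (by linarith)
  obtain ⟨L0, hL0a, hL0b⟩ : ∃ L0 : ℕ, (L0 : ℝ) ≤ X ∧ X / 2 ≤ L0 := by
    refine ⟨⌊X⌋₊, Nat.floor_le hX0.le, ?_⟩
    have := Nat.lt_floor_add_one X
    linarith
  have hL0pos : 0 < L0 := by
    have : (0 : ℝ) < L0 := by linarith
    exact_mod_cast this
  obtain ⟨q, hqa, hqb⟩ : ∃ q : ℕ, Y ≤ q ∧ (q : ℝ) ≤ 2 * Y := by
    refine ⟨⌈Y⌉₊, Nat.le_ceil Y, ?_⟩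
    have := (Nat.ceil_lt_add_one (by linarith : 0 ≤ Y)).le
    linarith
  have hqpos : 0 < q := by
    have : (0 : ℝ) < q := by linarith
    exact_mod_cast this
  have hXY : X * Y = β ^ (1 / 2 + κ + η) := by
    rw [hX, hY, ← Real.rpow_add hβ0]; congr 1; ring
  refine ⟨q * L0, Nat.mul_pos hqpos hL0pos, ?_, ?_, ?_⟩
  · rw [Nat.cast_mul, ← hXY]
    have := mul_le_mul hqa hL0b (by positivity) (by positivity)
    linarith
  · rw [Nat.cast_mul, ← hXY]
    have := mul_le_mul hqb hL0a (by positivity) (by positivity)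
    linarith
  · have hYA : (2 * Y) ^ 3 * β ^ η = 8 * β ^ (3 * κ + 7 * η) := by
      rw [hY, mul_pow, ← Real.rpow_natCast (β ^ (κ + 2 * η)) 3, ← Real.rpow_mul hβ0.le, mul_assoc,
        ← Real.rpow_add hβ0]
      norm_num
      congr 1
      ring
    have h1 := log_Zt_cube_mul (n := n) (β := β / 2) (t := 0) (by positivity) le_rfl q L0 hL0pos
    have h2 := hcr L0 hL0pos hL0a
    refine h1.trans ?_
    calc (q : ℝ) ^ 3 * Real.log (Zt n (cube L0) (β / 2) 0) ≤ (q : ℝ) ^ 3 * β ^ η :=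
          mul_le_mul_of_nonneg_left h2 (by positivity)
      _ ≤ (2 * Y) ^ 3 * β ^ η :=
          mul_le_mul_of_nonneg_right (pow_le_pow_left₀ (by positivity) hqb 3) (pp _).le
      _ = _ := hYA

/-- The interaction error, `κ = η = 1/200`, field at least `β^{-1/50}/24`. -/
theorem inter_err {β A N W : ℝ} (hβ1 : 1 ≤ β) (hA : A = 8 * β ^ (1 / 20 : ℝ)) (hN0 : 0 ≤ N)
    (hN : N ≤ 48 * (A * β ^ (1 / 50 : ℝ))) (hW0 : 0 ≤ W) (hW : W ≤ 899 * Real.sqrt (A / β)) :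
    β * (12 * Real.exp 2 * (N ^ 2 * W ^ 3)) ≤
      12 * Real.exp 2 * (48 ^ 2 * 8 ^ 2) * (899 ^ 3 * Real.sqrt 8 ^ 3) := by
  have hβ0 : 0 < β := by linarith
  have pp : ∀ a : ℝ, 0 < β ^ a := fun a => Real.rpow_pos_of_pos hβ0 a
  have h1 : N ^ 2 ≤ (48 * (A * β ^ (1 / 50 : ℝ))) ^ 2 := pow_le_pow_left₀ hN0 hN 2
  have h1' : W ^ 3 ≤ (899 * Real.sqrt (A / β)) ^ 3 := pow_le_pow_left₀ hW0 hW 3
  have h2 : N ^ 2 * W ^ 3 ≤ (48 * (A * β ^ (1 / 50 : ℝ))) ^ 2 * (899 * Real.sqrt (A / β)) ^ 3 :=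
    mul_le_mul h1 h1' (by positivity) (by positivity)
  have h3 : Real.sqrt (A / β) ^ 3 = Real.sqrt 8 ^ 3 * β ^ (-(57 / 40) : ℝ) := by
    have e1 : A / β = 8 * β ^ (-(19 / 20) : ℝ) := by
      rw [hA, show (-(19 / 20) : ℝ) = 1 / 20 - 1 by norm_num, Real.rpow_sub hβ0, Real.rpow_one]
      ring
    rw [e1, Real.sqrt_mul (by norm_num), mul_pow, Real.sqrt_eq_rpow (β ^ _),
      ← Real.rpow_mul hβ0.le, ← Real.rpow_natCast (β ^ _), ← Real.rpow_mul hβ0.le]
    congr 2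
    norm_num
  have h4 : β * (12 * Real.exp 2 * (N ^ 2 * W ^ 3)) ≤
      β * (12 * Real.exp 2 *
        ((48 * (A * β ^ (1 / 50 : ℝ))) ^ 2 * (899 * Real.sqrt (A / β)) ^ 3)) :=
    mul_le_mul_of_nonneg_left (mul_le_mul_of_nonneg_left h2 (by positivity)) hβ0.le
  refine h4.trans ?_
  have h5 : β * (12 * Real.exp 2 *
        ((48 * (A * β ^ (1 / 50 : ℝ))) ^ 2 * (899 * Real.sqrt (A / β)) ^ 3)) =
      12 * Real.exp 2 * (48 ^ 2 * 8 ^ 2) * (899 ^ 3 * Real.sqrt 8 ^ 3) *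
      (β * (β ^ (1 / 20 : ℝ)) ^ 2 * (β ^ (1 / 50 : ℝ)) ^ 2 * β ^ (-(57 / 40) : ℝ)) := by
    rw [mul_pow 899, h3, hA]
    ring
  rw [h5]
  have h6 : β * (β ^ (1 / 20 : ℝ)) ^ 2 * (β ^ (1 / 50 : ℝ)) ^ 2 * β ^ (-(57 / 40) : ℝ) =
      β ^ (-(57 / 200) : ℝ) := by
    have e1 : (β ^ (1 / 20 : ℝ)) ^ 2 = β ^ (1 / 10 : ℝ) := by
      rw [← Real.rpow_natCast, ← Real.rpow_mul hβ0.le]; norm_num
    have e2 : (β ^ (1 / 50 : ℝ)) ^ 2 = β ^ (1 / 25 : ℝ) := by
      rw [← Real.rpow_natCast, ← Real.rpow_mul hβ0.le]; norm_num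
    rw [e1, e2]
    nth_rewrite 1 [← Real.rpow_one β]
    rw [← Real.rpow_add hβ0, ← Real.rpow_add hβ0, ← Real.rpow_add hβ0]
    norm_num
  rw [h6]
  have h7 : β ^ (-(57 / 200) : ℝ) ≤ 1 := by
    have := Real.rpow_le_rpow_of_exponent_le hβ1 (show (-(57 / 200) : ℝ) ≤ 0 by norm_num)
    rwa [Real.rpow_zero] at this
  have h8 : 0 ≤ 12 * Real.exp 2 * (48 ^ 2 * 8 ^ 2) * (899 ^ 3 * Real.sqrt 8 ^ 3) := by positivity
  calc _ ≤ 12 * Real.exp 2 * (48 ^ 2 * 8 ^ 2) * (899 ^ 3 * Real.sqrt 8 ^ 3) * 1 :=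
        mul_le_mul_of_nonneg_left h7 h8
    _ = _ := mul_one _

end ZF

/-- (Z2) -/
theorem log_Zt_zf {n : ℕ} (hn : 1 ≤ n) : ∃ C b0 : ℝ, 0 ≤ C ∧ 1 ≤ b0 ∧ ∀ b : ℝ, b0 ≤ b →
    ∃ L : ℕ, 0 < L ∧ b ^ (51 / 100 : ℝ) / 2 ≤ L ∧ (L : ℝ) ≤ 2 * b ^ (51 / 100 : ℝ) ∧
      Real.log (Zt n (cube L) b (n * b / (6 * (L : ℝ) ^ 2))) ≤
        C * (L : ℝ) ^ 3 / b ^ (3 / 2 : ℝ) := by
  have hnR : (1 : ℝ) ≤ n := by exact_mod_cast hn
  obtain ⟨C, hC0, hC⟩ := bosSer_le hn
  have l2 : ∀ᶠ β : ℝ in atTop, 8 ≤ β ^ (19 / 20 : ℝ) :=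
    (tendsto_rpow_atTop (by norm_num)).eventually_ge_atTop 8
  obtain ⟨β₀, hβ₀⟩ := eventually_atTop.1
    ((ZF.exists_cube_ub hn (κ := 1 / 200) (η := 1 / 200) (by norm_num) (by norm_num)
      (by norm_num)).and (l2.and (eventually_ge_atTop 448)))
  have hKnn : 0 ≤ 12 * Real.exp 2 * (48 ^ 2 * 8 ^ 2) * (899 ^ 3 * Real.sqrt 8 ^ 3) := by
    positivity
  have haS := aS_nonneg ((n : ℝ) / 2)
  have hlog3 : 0 ≤ Real.log 3 := Real.log_nonneg (by norm_num)
  refine ⟨8 * Real.log 3 + 8 * (12 * Real.exp 2 * (48 ^ 2 * 8 ^ 2) * (899 ^ 3 * Real.sqrt 8 ^ 3)) +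
    aS ((n : ℝ) / 2) + C * 7 + 200, max β₀ 1, by positivity, le_max_right _ _,
    fun β hβ' => ?_⟩
  have hβ : β₀ ≤ β := (le_max_left _ _).trans hβ'
  obtain ⟨⟨L, hLpos, hLge, hLle, hz1⟩, h8, h448⟩ := hβ₀ β hβ
  rw [show (1 / 2 + 1 / 200 + 1 / 200 : ℝ) = 51 / 100 by norm_num] at hLge hLle
  refine ⟨L, hLpos, hLge, hLle, ?_⟩
  have hβ0 : 0 < β := by linarith
  have hβ1 : 1 ≤ β := by linarith
  have pw : ∀ {a b : ℝ}, a ≤ b → β ^ a ≤ β ^ b := fun h =>
    Real.rpow_le_rpow_of_exponent_le hβ1 h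
  have pp : ∀ a : ℝ, 0 < β ^ a := fun a => Real.rpow_pos_of_pos hβ0 a
  have hLR : (0 : ℝ) < L := by exact_mod_cast hLpos
  set t : ℝ := n * β / (6 * (L : ℝ) ^ 2) with ht
  have ht0 : 0 < t := by positivity
  have htlow : β ^ (-(1 / 50) : ℝ) / 24 ≤ t := by
    rw [ht, le_div_iff₀ (by positivity)]
    have h1 : (L : ℝ) ^ 2 ≤ 4 * β ^ (51 / 50 : ℝ) := by
      calc (L : ℝ) ^ 2 ≤ (2 * β ^ (51 / 100 : ℝ)) ^ 2 := pow_le_pow_left₀ hLR.le hLle 2
        _ = 4 * β ^ (51 / 50 : ℝ) := by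
          rw [mul_pow, ← Real.rpow_natCast (β ^ _), ← Real.rpow_mul hβ0.le]; norm_num
    have h2 : β ^ (-(1 / 50) : ℝ) * β ^ (51 / 50 : ℝ) = β := by
      rw [← Real.rpow_add hβ0]
      nth_rewrite 2 [← Real.rpow_one β]
      norm_num
    have h3 : β ^ (-(1 / 50) : ℝ) * (L : ℝ) ^ 2 ≤ 4 * β := by
      calc _ ≤ β ^ (-(1 / 50) : ℝ) * (4 * β ^ (51 / 50 : ℝ)) :=
            mul_le_mul_of_nonneg_left h1 (pp _).le
        _ = 4 * (β ^ (-(1 / 50) : ℝ) * β ^ (51 / 50 : ℝ)) := by ring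
        _ = 4 * β := by rw [h2]
    nlinarith
  obtain ⟨A, hA⟩ : ∃ A : ℝ, A = 8 * β ^ (1 / 20 : ℝ) := ⟨_, rfl⟩
  rw [show (3 * (1 / 200) + 7 * (1 / 200) : ℝ) = 1 / 20 by norm_num, ← hA] at hz1
  have hA8 : 8 ≤ A := by
    have : 1 ≤ β ^ (1 / 20 : ℝ) := Real.one_le_rpow hβ1 (by norm_num)
    rw [hA]; linarith
  have hz2 : Real.log (Zt n (cube L) β 0) ≤ A :=
    (Real.log_le_log (Zt_pos β 0) (Zt_anti (by linarith) le_rfl)).trans hz1
  have hAβ : A ≤ β := by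
    have h1 : β ^ (1 / 20 : ℝ) * β ^ (19 / 20 : ℝ) = β := by
      rw [← Real.rpow_add hβ0]
      nth_rewrite 2 [← Real.rpow_one β]
      norm_num
    calc A = β ^ (1 / 20 : ℝ) * 8 := by rw [hA]; ring
      _ ≤ β ^ (1 / 20 : ℝ) * β ^ (19 / 20 : ℝ) :=
        mul_le_mul_of_nonneg_left h8 (pp _).le
      _ = β := h1
  have hinvt : 1 / t ≤ 24 * β ^ (1 / 50 : ℝ) := by
    rw [div_le_iff₀ ht0]
    have h3 : β ^ (1 / 50 : ℝ) * β ^ (-(1 / 50) : ℝ) = 1 := by
      rw [← Real.rpow_add hβ0]; norm_num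
    have h4 := mul_le_mul_of_nonneg_left htlow (a := 24 * β ^ (1 / 50 : ℝ))
      (by have := pp (1 / 50); positivity)
    have h5 : 24 * β ^ (1 / 50 : ℝ) * (β ^ (-(1 / 50) : ℝ) / 24) = 1 := by
      linear_combination h3
    linarith
  obtain ⟨N1, hN1a, hN1b⟩ : ∃ N1 : ℕ, A ≤ t * N1 ∧ (N1 : ℝ) ≤ 48 * (A * β ^ (1 / 50 : ℝ)) := by
    refine ⟨⌈A / t⌉₊, ?_, ?_⟩
    · have := Nat.le_ceil (A / t)
      rwa [div_le_iff₀ ht0, mul_comm] at this
    · have h1 := (Nat.ceil_lt_add_one (by positivity : 0 ≤ A / t)).le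
      have h2 : A / t ≤ 24 * (A * β ^ (1 / 50 : ℝ)) := by
        have := mul_le_mul_of_nonneg_left hinvt (a := A) (by linarith)
        calc A / t = A * (1 / t) := by ring
          _ ≤ _ := this
          _ = _ := by ring
      have h5 : 1 ≤ A * β ^ (1 / 50 : ℝ) := by
        have := Real.one_le_rpow hβ1 (show (0 : ℝ) ≤ 1 / 50 by norm_num)
        nlinarith
      linarith
  have hup := logZt_upper hn hLpos (β := β) (t := t) (E1 := 2 * A / β) hβ0.le ht0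
    (by positivity) N1 (hz1.trans (le_of_eq (by field_simp))) (hz2.trans hN1a)
  obtain ⟨sb1, sb2, sb3, sb4⟩ := side_bounds (κ := 1 / 200) (η := 1 / 200) (by norm_num)
    (by norm_num) hβ1 hLpos (by
      rw [show (1 / 2 + 1 / 200 + 1 / 200 : ℝ) = 51 / 100 by norm_num]; exact hLge)
  have hbJ := bJ_param hn hβ0 (by linarith) hAβ
  have hLinv : 1 / (L : ℝ) ≤ Real.sqrt (A / β) := by
    refine Real.le_sqrt_of_sq_le ?_
    rw [div_pow, one_pow, div_le_div_iff₀ (by positivity) hβ0, one_mul]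
    nlinarith
  have hP0 : 0 < Real.sqrt β ^ 3 / (L : ℝ) ^ 3 := by positivity
  have piece2 := ZF.inter_err hβ1 hA (Nat.cast_nonneg N1) hN1b
    (W := 1 / (L : ℝ) + 2 * H.bJ (2 * n / (2 * A / β)))
    (by have := H.bJ_nonneg (2 * n / (2 * A / β)); positivity) (by linarith)
  have hk1 : β ^ (-(1 / 200) : ℝ) ≤ 1 := by
    have := pw (show (-(1 / 200) : ℝ) ≤ 0 by norm_num)
    rwa [Real.rpow_zero] at this
  have hP3 : Real.sqrt β ^ 3 / (L : ℝ) ^ 3 ≤ 8 * β ^ (-(3 / 100) : ℝ) := by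
    have e : (-(3 * (1 / 200)) - 3 * (1 / 200) : ℝ) = -(3 / 100) := by norm_num
    rwa [e] at sb4
  have hP8 : Real.sqrt β ^ 3 / (L : ℝ) ^ 3 ≤ 8 := by
    have h1 : β ^ (-(3 / 100) : ℝ) ≤ 1 := by
      have := pw (show (-(3 / 100) : ℝ) ≤ 0 by norm_num)
      rwa [Real.rpow_zero] at this
    linarith
  have piece3 := hC β h448 L hLpos t ht0
  have g1 : 1 / β ≤ 1 := by rw [div_le_one hβ0]; exact hβ1
  have g4 : Real.sqrt β ^ 3 / (L : ℝ) ^ 3 / t ≤ 192 := by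
    have h1 : Real.sqrt β ^ 3 / (L : ℝ) ^ 3 / t =
        Real.sqrt β ^ 3 / (L : ℝ) ^ 3 * (1 / t) := by ring
    rw [h1]
    calc _ ≤ 8 * β ^ (-(3 / 100) : ℝ) * (24 * β ^ (1 / 50 : ℝ)) :=
          mul_le_mul hP3 hinvt (by positivity) (by have := pp (-(3 / 100)); positivity)
      _ = 192 * (β ^ (-(3 / 100) : ℝ) * β ^ (1 / 50 : ℝ)) := by ring
      _ = 192 * β ^ (-(1 / 100) : ℝ) := by rw [← Real.rpow_add hβ0]; norm_num
      _ ≤ 192 * 1 := by
          refine mul_le_mul_of_nonneg_left ?_ (by norm_num)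
          have := pw (show (-(1 / 100) : ℝ) ≤ 0 by norm_num)
          rwa [Real.rpow_zero] at this
      _ = 192 := by norm_num
  have g5 : C * (1 / β + Real.sqrt β / L + β / (L : ℝ) ^ 2) ≤ C * 7 :=
    mul_le_mul_of_nonneg_left (by linarith) hC0
  have hFS := FS_le ((n : ℝ) / 2) ht0.le
  set P : ℝ := Real.sqrt β ^ 3 / (L : ℝ) ^ 3 with hP
  have h3 := mul_le_mul_of_nonneg_left hup hP0.le
  rw [mul_add, mul_add] at h3
  generalize 12 * Real.exp 2 * (48 ^ 2 * 8 ^ 2) * (899 ^ 3 * Real.sqrt 8 ^ 3) = K at piece2 hKnn ⊢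
  have piece1 : P * Real.log 3 ≤ 8 * Real.log 3 := mul_le_mul_of_nonneg_right hP8 hlog3
  have piece2' : P * (β * (12 * Real.exp 2 *
      ((N1 : ℝ) ^ 2 * (1 / (L : ℝ) + 2 * H.bJ (2 * n / (2 * A / β))) ^ 3))) ≤ 8 * K := by
    calc _ ≤ P * K := mul_le_mul_of_nonneg_left piece2 hP0.le
      _ ≤ 8 * K := mul_le_mul_of_nonneg_right hP8 hKnn
  have h4 : P * Real.log (Zt n (cube L) β t) ≤
      8 * Real.log 3 + 8 * K + aS ((n : ℝ) / 2) + C * 7 + 200 := by linarith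
  have hsβ : Real.sqrt β ^ 3 = β ^ (3 / 2 : ℝ) := by
    rw [Real.sqrt_eq_rpow, ← Real.rpow_natCast, ← Real.rpow_mul hβ0.le]
    norm_num
  rw [le_div_iff₀ (pp _), ← hsβ]
  have h5 : P * (L : ℝ) ^ 3 = Real.sqrt β ^ 3 := by rw [hP]; field_simp
  have h6 := mul_le_mul_of_nonneg_right h4 (a := (L : ℝ) ^ 3) (by positivity)
  calc Real.log (Zt n (cube L) β t) * Real.sqrt β ^ 3
      = P * Real.log (Zt n (cube L) β t) * (L : ℝ) ^ 3 := by rw [← h5]; ring
    _ ≤ _ := h6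

/-- (Z3), from (Z1). -/
theorem log_Zt_zero_of {n : ℕ} (hn : 1 ≤ n)
    (hZ1 : ∀ L : ℕ, 0 < L → ∀ b' b : ℝ, 0 ≤ b' → b' ≤ b →
      Zt n (cube L) b 0 ≤ 2 * ((n : ℝ) * (L : ℝ) ^ 3 + 1) *
        Zt n (cube L) b' ((b - b') * n / (6 * (L : ℝ) ^ 2))) :
    ∃ C b0 : ℝ, 0 ≤ C ∧ 1 ≤ b0 ∧ ∀ b : ℝ, b0 ≤ b → ∀ l : ℕ,
      Real.log (Zt n (cube l) (2 * b) 0) ≤
        C * (l : ℝ) ^ 3 / b ^ (3 / 2 : ℝ) + C * b ^ (51 / 100 : ℝ) * (l : ℝ) ^ 2 := by
  have hnR : (1 : ℝ) ≤ n := by exact_mod_cast hn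
  obtain ⟨C, b1, hC, hb1, h⟩ := log_Zt_zf hn
  -- `log (2 (n L³ + 1)) ≤ L³ / b^{3/2}` for large `b`
  have l1 : Tendsto (fun β : ℝ => (Real.log (32 * n) + 2 * Real.log β) / β ^ (3 / 100 : ℝ)) atTop
      (𝓝 0) := by
    have h1 := (isLittleO_log_rpow_atTop (show (0 : ℝ) < 3 / 100 by norm_num)).tendsto_div_nhds_zero
    have h2 : Tendsto (fun β : ℝ => Real.log (32 * n) / β ^ (3 / 100 : ℝ)) atTop (𝓝 0) :=
      tendsto_const_nhds.div_atTop (tendsto_rpow_atTop (by norm_num))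
    have h3 := h2.add (h1.const_mul 2)
    simp only [mul_zero, add_zero] at h3
    refine h3.congr fun β => ?_
    ring
  obtain ⟨b2, hb2⟩ := eventually_atTop.1
    (l1.eventually (ge_mem_nhds (show (0 : ℝ) < 1 / 8 by norm_num)))
  have hlogn : 0 ≤ Real.log ((n : ℝ) + 1) := Real.log_nonneg (by linarith)
  refine ⟨C + 1 + 6 * Real.log ((n : ℝ) + 1), max (max b1 b2) 1, by positivity, le_max_right _ _,
    fun b hb l => ?_⟩
  have hbb1 : b1 ≤ b := (le_max_left _ _).trans ((le_max_left _ _).trans hb)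
  have hbb2 : b2 ≤ b := (le_max_right _ _).trans ((le_max_left _ _).trans hb)
  have hb1' : 1 ≤ b := (le_max_right _ _).trans hb
  have hb0 : 0 < b := by linarith
  have pp : ∀ a : ℝ, 0 < b ^ a := fun a => Real.rpow_pos_of_pos hb0 a
  obtain ⟨L, hLpos, hLge, hLle, hZ⟩ := h b hbb1
  have hLR : (0 : ℝ) < L := by exact_mod_cast hLpos
  have hlR : (0 : ℝ) ≤ l := Nat.cast_nonneg l
  -- the cube of side `L`
  have hZL : Real.log (Zt n (cube L) (2 * b) 0) ≤ (C + 1) * (L : ℝ) ^ 3 / b ^ (3 / 2 : ℝ) := by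
    have h1 := hZ1 L hLpos b (2 * b) hb0.le (by linarith)
    have e : (2 * b - b) * n / (6 * (L : ℝ) ^ 2) = n * b / (6 * (L : ℝ) ^ 2) := by ring
    rw [e] at h1
    have h2 := Real.log_le_log (Zt_pos (n := n) (Λ := cube L) (2 * b) 0) h1
    rw [Real.log_mul (by positivity) (Zt_pos b _).ne'] at h2
    have h3 : Real.log (2 * ((n : ℝ) * (L : ℝ) ^ 3 + 1)) ≤ (L : ℝ) ^ 3 / b ^ (3 / 2 : ℝ) := by
      have h4 : (L : ℝ) ^ 3 ≤ 8 * b ^ (2 : ℝ) := by
        calc (L : ℝ) ^ 3 ≤ (2 * b ^ (51 / 100 : ℝ)) ^ 3 := pow_le_pow_left₀ hLR.le hLle 3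
          _ = 8 * b ^ (153 / 100 : ℝ) := by
            rw [mul_pow, ← Real.rpow_natCast (b ^ _), ← Real.rpow_mul hb0.le]; norm_num
          _ ≤ 8 * b ^ (2 : ℝ) :=
            mul_le_mul_of_nonneg_left
              (Real.rpow_le_rpow_of_exponent_le hb1' (by norm_num)) (by norm_num)
      have h5 : 2 * ((n : ℝ) * (L : ℝ) ^ 3 + 1) ≤ 32 * n * b ^ (2 : ℝ) := by
        have h6 : 1 ≤ b ^ (2 : ℝ) := Real.one_le_rpow hb1' (by norm_num)
        have h7 : (n : ℝ) * (L : ℝ) ^ 3 ≤ n * (8 * b ^ (2 : ℝ)) :=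
          mul_le_mul_of_nonneg_left h4 (by positivity)
        have h8 : 1 ≤ (n : ℝ) * b ^ (2 : ℝ) := one_le_mul_of_one_le_of_one_le hnR h6
        nlinarith
      have h6 := Real.log_le_log (by positivity) h5
      rw [Real.log_mul (x := 32 * (n : ℝ)) (by positivity) (by positivity), Real.log_rpow hb0] at h6
      have h7 := hb2 b hbb2
      rw [div_le_iff₀ (pp _)] at h7
      have h8 : b ^ (3 / 100 : ℝ) / 8 ≤ (L : ℝ) ^ 3 / b ^ (3 / 2 : ℝ) := by
        rw [le_div_iff₀ (pp _)]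
        have h9 : (b ^ (51 / 100 : ℝ) / 2) ^ 3 ≤ (L : ℝ) ^ 3 :=
          pow_le_pow_left₀ (by have := pp (51 / 100); positivity) hLge 3
        have h10 : (b ^ (51 / 100 : ℝ) / 2) ^ 3 = b ^ (3 / 100 : ℝ) / 8 * b ^ (3 / 2 : ℝ) := by
          have e1 : b ^ (3 / 100 : ℝ) * b ^ (3 / 2 : ℝ) = b ^ (153 / 100 : ℝ) := by
            rw [← Real.rpow_add hb0]; norm_num
          have e2 : (b ^ (51 / 100 : ℝ)) ^ 3 = b ^ (153 / 100 : ℝ) := by
            rw [← Real.rpow_natCast, ← Real.rpow_mul hb0.le]; norm_num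
          rw [div_pow, e2, div_mul_eq_mul_div, e1]
          norm_num
        rw [← h10]; exact h9
      linarith
    have h9 : (C + 1) * (L : ℝ) ^ 3 / b ^ (3 / 2 : ℝ) =
        C * (L : ℝ) ^ 3 / b ^ (3 / 2 : ℝ) + (L : ℝ) ^ 3 / b ^ (3 / 2 : ℝ) := by ring
    rw [h9]
    linarith
  -- general cubes
  set q : ℕ := l / L with hq
  have hqL : q * L ≤ l := Nat.div_mul_le_self _ _
  have hqL2 : l ≤ q * L + L := by
    have h1 := Nat.div_add_mod l L
    have h2 := Nat.mod_lt l hLpos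
    have h3 : L * (l / L) = q * L := by rw [hq, mul_comm]
    omega
  have hqLR : (q : ℝ) * L ≤ l := by exact_mod_cast hqL
  have hqL2R : (l : ℝ) ≤ q * L + L := by exact_mod_cast hqL2
  have hG := P361.G_cube_mul (G := gset n (2 * b) 0) (gset_superadd (by linarith))
    gset_translate (gset_nonneg (by linarith) le_rfl) L q l hLpos hqL
  unfold gset at hG
  rw [card_cube, card_cube, ← cube_eq, ← cube_eq] at hG
  push_cast at hG
  have h1 : Real.log (Zt n (cube l) (2 * b) 0) ≤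
      (q : ℝ) ^ 3 * Real.log (Zt n (cube L) (2 * b) 0) +
        Real.log ((n : ℝ) + 1) * ((l : ℝ) ^ 3 - ((q : ℝ) * L) ^ 3) := by
    rw [mul_pow]
    nlinarith
  have h2 : (q : ℝ) ^ 3 * Real.log (Zt n (cube L) (2 * b) 0) ≤
      (C + 1) * (l : ℝ) ^ 3 / b ^ (3 / 2 : ℝ) := by
    calc _ ≤ (q : ℝ) ^ 3 * ((C + 1) * (L : ℝ) ^ 3 / b ^ (3 / 2 : ℝ)) :=
          mul_le_mul_of_nonneg_left hZL (by positivity)
      _ = (C + 1) * ((q : ℝ) * L) ^ 3 / b ^ (3 / 2 : ℝ) := by rw [mul_pow]; ring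
      _ ≤ (C + 1) * (l : ℝ) ^ 3 / b ^ (3 / 2 : ℝ) := by
          refine div_le_div_of_nonneg_right ?_ (pp _).le
          exact mul_le_mul_of_nonneg_left (pow_le_pow_left₀ (by positivity) hqLR 3) (by linarith)
  have h3 : (l : ℝ) ^ 3 - ((q : ℝ) * L) ^ 3 ≤ 3 * (l : ℝ) ^ 2 * L := by
    have hx0 : 0 ≤ (q : ℝ) * L := by positivity
    generalize (q : ℝ) * L = x at hqLR hqL2R hx0
    have e : (l : ℝ) ^ 3 - x ^ 3 = (l - x) * (l ^ 2 + l * x + x ^ 2) := by ring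
    rw [e]
    have h4 : (l : ℝ) ^ 2 + l * x + x ^ 2 ≤ 3 * (l : ℝ) ^ 2 := by nlinarith
    have h5 : 0 ≤ (l : ℝ) - x := by linarith
    calc _ ≤ ((l : ℝ) - x) * (3 * (l : ℝ) ^ 2) := mul_le_mul_of_nonneg_left h4 h5
      _ ≤ L * (3 * (l : ℝ) ^ 2) := mul_le_mul_of_nonneg_right (by linarith) (by positivity)
      _ = _ := by ring
  have h4 : Real.log ((n : ℝ) + 1) * ((l : ℝ) ^ 3 - ((q : ℝ) * L) ^ 3) ≤
      6 * Real.log ((n : ℝ) + 1) * b ^ (51 / 100 : ℝ) * (l : ℝ) ^ 2 := by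
    calc _ ≤ Real.log ((n : ℝ) + 1) * (3 * (l : ℝ) ^ 2 * L) :=
          mul_le_mul_of_nonneg_left h3 hlogn
      _ ≤ Real.log ((n : ℝ) + 1) * (3 * (l : ℝ) ^ 2 * (2 * b ^ (51 / 100 : ℝ))) :=
          mul_le_mul_of_nonneg_left (mul_le_mul_of_nonneg_left hLle (by positivity)) hlogn
      _ = _ := by ring
  have h5 : 0 ≤ 6 * Real.log ((n : ℝ) + 1) * ((l : ℝ) ^ 3 / b ^ (3 / 2 : ℝ)) := by
    have := pp (3 / 2); positivity
  have h6 : 0 ≤ (C + 1) * (b ^ (51 / 100 : ℝ) * (l : ℝ) ^ 2) := by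
    have := pp (51 / 100); positivity
  have e1 : (C + 1 + 6 * Real.log ((n : ℝ) + 1)) * (l : ℝ) ^ 3 / b ^ (3 / 2 : ℝ) =
      (C + 1) * (l : ℝ) ^ 3 / b ^ (3 / 2 : ℝ) +
        6 * Real.log ((n : ℝ) + 1) * ((l : ℝ) ^ 3 / b ^ (3 / 2 : ℝ)) := by ring
  have e2 : (C + 1 + 6 * Real.log ((n : ℝ) + 1)) * b ^ (51 / 100 : ℝ) * (l : ℝ) ^ 2 =
      (C + 1) * (b ^ (51 / 100 : ℝ) * (l : ℝ) ^ 2) +
        6 * Real.log ((n : ℝ) + 1) * b ^ (51 / 100 : ℝ) * (l : ℝ) ^ 2 := by ring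
  rw [e1, e2]
  linarith

/-- (Z3), all cubes, all spins. -/
theorem log_Zt_zero {n : ℕ} (hn : 1 ≤ n) :
    ∃ C b0 : ℝ, 0 ≤ C ∧ 1 ≤ b0 ∧ ∀ b : ℝ, b0 ≤ b → ∀ l : ℕ,
      Real.log (Zt n (cube l) (2 * b) 0) ≤
        C * (l : ℝ) ^ 3 / b ^ (3 / 2 : ℝ) + C * b ^ (51 / 100 : ℝ) * (l : ℝ) ^ 2 :=
  log_Zt_zero_of hn fun _ hL _ _ _ hbb => Zt_su2 (by omega) hL hbb

/-- (Z3), the form with a negative power. -/
theorem log_Zt_zero' {n : ℕ} (hn : 1 ≤ n) :
    ∃ C b0 : ℝ, 0 ≤ C ∧ 1 ≤ b0 ∧ ∀ b : ℝ, b0 ≤ b → ∀ l : ℕ,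
      Real.log (Zt n (cube l) (2 * b) 0) ≤
        C * (l : ℝ) ^ 3 * b ^ (-(3 / 2) : ℝ) + C * b ^ (0.51 : ℝ) * (l : ℝ) ^ 2 := by
  obtain ⟨C, b0, hC, hb0, h⟩ := log_Zt_zero hn
  refine ⟨C, b0, hC, hb0, fun b hb l => (h b hb l).trans (le_of_eq ?_)⟩
  rw [Real.rpow_neg (by linarith), div_eq_mul_inv,
    show (0.51 : ℝ) = 51 / 100 by norm_num]

end Vale.Agent.P361.B
end

section

/-! # P361 LRO, stage 3, block (E): crude energy without logarithm (helper348, helper213) -/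

namespace Vale.Agent.P361.LRO.S3.En3

open Matrix Finset

noncomputable section

variable {n : ℕ} [NeZero n]

theorem sum_edges_ins (β : ℝ) (h : Tor n → ℝ) (Q : Finset (Tor n)) :
    ∑ e ∈ (edges n).toFinset with (e.1 ∈ Q ∧ e.2 ∈ Q), gib (edges n) β h (hM e.1 e.2) ≤
      ∑ z ∈ Energy.ET.ins Q, Energy.eb n β h z := by
  classical
  have h1 : ((edges n).toFinset.filter fun e => e.1 ∈ Q ∧ e.2 ∈ Q) ⊆
      (Energy.ET.ins Q).image fun z => (z.1, Energy.nxt z) := by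
    intro e he
    rw [Finset.mem_filter, List.mem_toFinset, edges, List.mem_map] at he
    obtain ⟨⟨z, -, hz⟩, h2⟩ := he
    rw [Finset.mem_image]
    refine ⟨z, ?_, hz⟩
    rw [Energy.ET.ins, Finset.mem_filter]
    refine ⟨Finset.mem_univ _, ?_⟩
    rw [← hz] at h2
    exact h2
  refine (Finset.sum_le_sum_of_subset_of_nonneg h1 fun e _ _ =>
    Energy.gib_hM_nonneg _ _ _ _ _).trans ?_
  exact Finset.sum_image_le_of_nonneg fun z _ => Energy.gib_hM_nonneg _ _ _ _ _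

theorem gib_CM {V : Type} [Fintype V] [DecidableEq V] (L : List (V × V)) (β : ℝ) (h : V → ℝ)
    (b : Finset V) : gib L β h (CM b) = ∑ x ∈ b, ∑ y ∈ b, gib L β h (hM x y) := by
  rw [CM, EnR.gib_sum]
  exact Finset.sum_congr rfl fun x _ => EnR.gib_sum _ _ _ _ _

/-- the average of `y_b` over the blocks, for any free energy bound `Z` -/
theorem sum_yb_le {β : ℝ} (hβ : 0 < β) {h : Tor n → ℝ} (hh : ∀ x, 0 ≤ h x) (x : Tor n) (w m : ℕ)
    (hw : 0 < w) (hm : 0 < m) (hwm : w * m ≤ n) (hn : 3 ≤ n) {Z : ℝ}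
    (hZ : Real.log (B.Zt 1 (B.cube (w * m)) (β / 2) 0) ≤ Z) :
    (∑ y : Fin 3 → Fin m, yb (edges n) β h
      (cube n (x + fun i => ((w * (y i : ℕ) : ℕ) : ZMod n)) w)) ≤
      12 / (w : ℝ) * (2 / β * (Z + 6 * β * ((w : ℝ) * m) ^ 2)) := by
  have hw' : (0 : ℝ) < w := by exact_mod_cast hw
  have hwn : w ≤ n := le_trans (Nat.le_mul_of_pos_right w hm) hwm
  have h1 := EnR.tileStmt n β h x w m hw hm hwm hn
  have h2 := sum_edges_ins β h (cube n x (w * m))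
  have h3 := Energy.ET.energy_ins hβ.le hh x (l := w * m) (Nat.mul_pos hw hm) hwm
  have h4 : ∑ z ∈ Energy.ET.ins (cube n x (w * m)), Energy.eb n β h z ≤
      2 / β * (Z + 6 * β * ((w : ℝ) * m) ^ 2) := by
    rw [div_mul_eq_mul_div, le_div_iff₀ hβ, mul_comm]
    push_cast at h3
    linarith
  have h5 : ∀ y : Fin 3 → Fin m, yb (edges n) β h
      (cube n (x + fun i => ((w * (y i : ℕ) : ℕ) : ZMod n)) w) =
      1 / (w : ℝ) ^ 6 * ∑ x' ∈ cube n (x + fun i => ((w * (y i : ℕ) : ℕ) : ZMod n)) w,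
        ∑ x'' ∈ cube n (x + fun i => ((w * (y i : ℕ) : ℕ) : ZMod n)) w,
          gib (edges n) β h (hM x' x'') := by
    intro y
    rw [yb, gib_CM, EnR.card_cube _ hwn]
    push_cast
    field_simp
  simp only [h5]
  rw [← Finset.mul_sum]
  have h6 := h1.trans (mul_le_mul_of_nonneg_left (h2.trans h4)
    (by positivity : (0 : ℝ) ≤ 12 * (w : ℝ) ^ 5))
  refine (mul_le_mul_of_nonneg_left h6 (by positivity : (0 : ℝ) ≤ 1 / (w : ℝ) ^ 6)).trans
    (le_of_eq ?_)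
  field_simp

theorem energyStmt3_of {C b0 : ℝ} (hC : 0 ≤ C) (hZ : ∀ b : ℝ, b0 ≤ b → ∀ l : ℕ, 1 ≤ l →
    Real.log (B.Zt 1 (B.cube l) (2 * b) 0) ≤ C * (l : ℝ) ^ 3 * b ^ (-(3 / 2) : ℝ) + C * b * (l : ℝ) ^ 2) :
    EnergyStmt3 := by
  refine ⟨24 * 72 * C + 216 * (C / 4 + 6), max (4 * b0) 1, fun β hβ0 => ?_⟩
  have hb0 : 4 * b0 ≤ β := (le_max_left _ _).trans hβ0
  have hβ1 : 1 ≤ β := (le_max_right _ _).trans hβ0
  have hβ : 0 < β := by linarith
  refine ⟨max 3 ⌈2 * β ^ (3 : ℝ)⌉₊, fun n _ hn g hg x w m hw hw3 hwm1 hwm2 => ?_⟩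
  have hn3 : 3 ≤ n := (le_max_left _ _).trans hn
  have hn2 : w * m ≤ n := by
    have h1 : 2 * β ^ (3 : ℝ) ≤ (n : ℝ) := Nat.ceil_le.1 ((le_max_right _ _).trans hn)
    have h2 : ((w * m : ℕ) : ℝ) ≤ (n : ℝ) := by
      push_cast
      linarith
    exact_mod_cast h2
  have hw' : (0 : ℝ) < w := by exact_mod_cast hw
  have hp3 : (0 : ℝ) < β ^ (3 : ℝ) := Real.rpow_pos_of_pos hβ _
  have hm' : (0 : ℝ) < m := by
    rcases Nat.eq_zero_or_pos m with h | h
    · subst h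
      rw [Nat.cast_zero, mul_zero] at hwm1
      linarith
    · exact_mod_cast h
  have hm : 0 < m := by exact_mod_cast hm'
  set P : ℝ := β ^ (-(3 / 2) : ℝ) with hP
  have hPpos : 0 < P := Real.rpow_pos_of_pos hβ _
  have hb : (β / 4) ^ (-(3 / 2) : ℝ) = 8 * P := by
    rw [Real.div_rpow hβ.le (by norm_num), hP]
    have h4 : (4 : ℝ) ^ (-(3 / 2) : ℝ) = 1 / 8 := by
      rw [show (4 : ℝ) = 2 ^ (2 : ℝ) by norm_num, ← Real.rpow_mul (by norm_num)]
      rw [show (2 : ℝ) * (-(3 / 2)) = -(3 : ℝ) by norm_num, Real.rpow_neg (by norm_num)]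
      norm_num
    rw [h4]
    ring
  have hZ' := hZ (β / 4) (by linarith) (w * m) (Nat.mul_pos hw hm)
  rw [show 2 * (β / 4) = β / 2 by ring, hb] at hZ'
  have h1 := sum_yb_le (n := n) hβ (h := fun z => g z / β) (fun z => div_nonneg (hg z).1.le hβ.le)
    x w m hw hm hn2 hn3 hZ'
  rw [div_le_iff₀ (by positivity)]
  refine h1.trans ?_
  push_cast
  have e1 : 12 / (w : ℝ) * (2 / β * (C * ((w : ℝ) * m) ^ 3 * (8 * P) + C * (β / 4) * ((w : ℝ) * m) ^ 2 +
      6 * β * ((w : ℝ) * m) ^ 2)) =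
      (24 * (8 * C * P * ((w : ℝ) ^ 2 / β)) + 24 * ((C / 4 + 6) * ((w : ℝ) ^ 2 / (w * m)))) * (m : ℝ) ^ 3 := by
    field_simp
    ring
  rw [e1]
  refine mul_le_mul_of_nonneg_right ?_ (by positivity)
  have hw2 : (w : ℝ) ^ 2 ≤ 9 * β := by
    calc (w : ℝ) ^ 2 ≤ (3 * Real.sqrt β) ^ 2 := by gcongr
      _ = 9 * β := by rw [mul_pow, Real.sq_sqrt hβ.le]; norm_num
  have h2 : (w : ℝ) ^ 2 / β ≤ 9 := by
    rw [div_le_iff₀ hβ]; exact hw2
  have h3 : (w : ℝ) ^ 2 / (w * m) ≤ 9 * P := by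
    rw [div_le_iff₀ (by positivity)]
    have h4 : 9 * β ≤ 9 * P * β ^ (3 : ℝ) := by
      have h5 : P * β ^ (3 : ℝ) = β ^ (3 / 2 : ℝ) := by
        rw [hP, ← Real.rpow_add hβ]
        norm_num
      have h6 : β ≤ β ^ (3 / 2 : ℝ) := by
        calc β = β ^ (1 : ℝ) := (Real.rpow_one β).symm
          _ ≤ β ^ (3 / 2 : ℝ) := Real.rpow_le_rpow_of_exponent_le hβ1 (by norm_num)
      calc 9 * β ≤ 9 * β ^ (3 / 2 : ℝ) := by linarith
        _ = 9 * P * β ^ (3 : ℝ) := by rw [mul_assoc, h5]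
    exact hw2.trans (h4.trans (mul_le_mul_of_nonneg_left hwm1 (by positivity)))
  have h7 : 8 * C * P * ((w : ℝ) ^ 2 / β) ≤ 8 * C * P * 9 :=
    mul_le_mul_of_nonneg_left h2 (by positivity)
  have h8 : (C / 4 + 6) * ((w : ℝ) ^ 2 / (w * m)) ≤ (C / 4 + 6) * (9 * P) :=
    mul_le_mul_of_nonneg_left h3 (by positivity)
  calc 24 * (8 * C * P * ((w : ℝ) ^ 2 / β)) + 24 * ((C / 4 + 6) * ((w : ℝ) ^ 2 / (w * m))) ≤
      24 * (8 * C * P * 9) + 24 * ((C / 4 + 6) * (9 * P)) := by linarith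
    _ = _ := by ring

end

end Vale.Agent.P361.LRO.S3.En3

/-- **Block (E)** of stage 3. -/
theorem Vale.Agent.P361.LRO.S3.energyStmt3 : Vale.Agent.P361.LRO.S3.EnergyStmt3 := by
  obtain ⟨C, b0, hC, hb0, h⟩ := Vale.Agent.P361.B.log_Zt_zero' (n := 1) le_rfl
  refine Vale.Agent.P361.LRO.S3.En3.energyStmt3_of (C := C) (b0 := b0) hC fun b hb l _ => ?_
  refine (h b hb l).trans ?_
  have hb1 : 1 ≤ b := hb0.trans hb
  have h1 : b ^ (0.51 : ℝ) ≤ b := by
    calc b ^ (0.51 : ℝ) ≤ b ^ (1 : ℝ) := Real.rpow_le_rpow_of_exponent_le hb1 (by norm_num)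
      _ = b := Real.rpow_one b
  have h2 : C * b ^ (0.51 : ℝ) * (l : ℝ) ^ 2 ≤ C * b * (l : ℝ) ^ 2 :=
    mul_le_mul_of_nonneg_right (mul_le_mul_of_nonneg_left h1 hC) (by positivity)
  linarith
end

section

/-!
P361, stage 3, block (M): translation invariance of the static state in a uniform field, and the
block rewards averaged over all translates.
-/

namespace Vale.Agent.P361.LRO.S3

open Finset Matrix

noncomputable section

section gen

variable {V : Type} [Fintype V] [DecidableEq V]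

theorem gib_relab (L : List (V × V)) (g : V ≃ V)
    (hL : ∀ f : V → V → Matrix (V → Fin 2) (V → Fin 2) ℝ,
      (L.map fun e => f e.1 e.2).sum = (L.map fun e => f (g e.1) (g e.2)).sum)
    (β : ℝ) (h : V → ℝ) (A : Matrix (V → Fin 2) (V → Fin 2) ℝ) :
    gib L β (fun y => h (g y)) (A.submatrix (Bs.relab g) (Bs.relab g)) = gib L β h A := by
  have h1 : (ham L h).submatrix (Bs.relab g) (Bs.relab g) = ham L (fun y => h (g y)) := by
    unfold ham
    rw [Bs.subm_sub]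
    congr 1
    · have h2 : ∀ L : List (V × V),
          ((L.map fun e => hM (g e.1) (g e.2)).sum).submatrix (Bs.relab g) (Bs.relab g) =
            (L.map fun e => hM e.1 e.2).sum := by
        intro L
        induction L with
        | nil => ext i j; rfl
        | cons a L ih =>
          rw [List.map_cons, List.sum_cons, List.map_cons, List.sum_cons, Bs.subm_add, ih,
            Bs.hM_relab]
      conv_lhs => rw [hL hM]
      exact h2 L
    · rw [Bs.subm_sum, ← Equiv.sum_comp g]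
      refine Finset.sum_congr rfl fun y _ => ?_
      rw [Bs.subm_smul, Bs.szM_relab]
  have h2 : NormedSpace.exp (-β • ham L (fun y => h (g y))) =
      (NormedSpace.exp (-β • ham L h)).submatrix (Bs.relab g) (Bs.relab g) := by
    rw [← Bs.exp_submatrix_real, ← h1]
    congr 1
  unfold gib
  rw [h2, Bs.trace_submatrix_real, Matrix.submatrix_mul_equiv, Bs.trace_submatrix_real]

theorem gib_hM_nonneg (L : List (V × V)) (β : ℝ) (h : V → ℝ) (x y : V) :
    0 ≤ gib L β h (hM x y) := Bs.gib_nonneg L β h (Bs.hM_posSemidef x y)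

theorem nn_posSemidef (x y : V) : (nM x * nM y).PosSemidef := by
  have h1 : nM x * nM y = Matrix.diagonal fun σ : V → Fin 2 =>
      (if σ x = 1 then (1 : ℝ) else 0) * (if σ y = 1 then 1 else 0) := by
    unfold nM
    rw [Matrix.diagonal_mul_diagonal]
  rw [h1]
  exact Matrix.PosSemidef.diagonal fun σ => by
    simp only [Pi.zero_apply]
    split_ifs <;> norm_num

theorem gib_nn_nonneg (L : List (V × V)) (β : ℝ) (h : V → ℝ) (x y : V) :
    0 ≤ gib L β h (nM x * nM y) := Bs.gib_nonneg L β h (nn_posSemidef x y)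

theorem hM_self (x : V) : hM x x = 0 := by
  unfold hM
  have h1 : swapM x x = 1 := by
    ext σ τ
    simp only [swapM, Matrix.of_apply, Equiv.swap_self, Matrix.one_apply]
    rfl
  rw [h1, sub_self, smul_zero]

end gen

section torus

variable {n : ℕ} [NeZero n]

theorem gib_hM_translate (β h : ℝ) (x y v : Tor n) :
    gib (edges n) β (fun _ => h) (hM (x + v) (y + v)) = gib (edges n) β (fun _ => h) (hM x y) := by
  have h1 := gib_relab (edges n) (Equiv.addRight v) (fun f => Bs.edges_translate f v) β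
    (fun _ => h) (hM (x + v) (y + v))
  have h2 : (hM (x + v) (y + v)).submatrix (Bs.relab (Equiv.addRight v))
      (Bs.relab (Equiv.addRight v)) = hM x y := Bs.hM_relab (Equiv.addRight v) x y
  rw [h2] at h1
  exact h1.symm

/-- The point `z + a` of the cube. -/
def ptc (z : Tor n) {w : ℕ} (a : Fin 3 → Fin w) : Tor n := z + fun i => ((a i : ℕ) : ZMod n)

omit [NeZero n] in
theorem ptc_injective {w : ℕ} (hw : w ≤ n) (z : Tor n) :
    Function.Injective fun a : Fin 3 → Fin w => ptc z a := by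
  intro a b hab
  have h2 := add_left_cancel hab
  funext i
  have h3 := congrFun h2 i
  have h4 : ((a i : ℕ) : ZMod n) = ((b i : ℕ) : ZMod n) := h3
  rw [ZMod.natCast_eq_natCast_iff'] at h4
  rw [Nat.mod_eq_of_lt ((a i).2.trans_le hw), Nat.mod_eq_of_lt ((b i).2.trans_le hw)] at h4
  exact Fin.ext h4

omit [NeZero n] in
theorem sum_cubeM {w : ℕ} (hw : w ≤ n) {M : Type*} [AddCommMonoid M] (z : Tor n)
    (f : Tor n → M) : ∑ x ∈ cube n z w, f x = ∑ a : Fin 3 → Fin w, f (ptc z a) := by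
  unfold cube
  rw [Finset.sum_image]
  · rfl
  · intro a _ b _ hab
    exact ptc_injective hw z hab

omit [NeZero n] in
theorem card_cubeM {w : ℕ} (hw : w ≤ n) (z : Tor n) : (cube n z w).card = w ^ 3 := by
  rw [Finset.card_eq_sum_ones, sum_cubeM hw, Finset.sum_const, Finset.card_univ, Fintype.card_fun,
    Fintype.card_fin, Fintype.card_fin, smul_eq_mul, mul_one]

theorem gib_CM_eq {w : ℕ} (hw : w ≤ n) (β h : ℝ) (z : Tor n) :
    gib (edges n) β (fun _ => h) (CM (cube n z w)) =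
      ∑ a : Fin 3 → Fin w, ∑ b : Fin 3 → Fin w,
        gib (edges n) β (fun _ => h) (hM (ptc z a) (ptc z b)) := by
  unfold CM
  rw [Bs.gib_sum, sum_cubeM hw]
  refine Finset.sum_congr rfl fun a _ => ?_
  rw [Bs.gib_sum, sum_cubeM hw]

theorem gib_CM_translate {w : ℕ} (hw : w ≤ n) (β h : ℝ) (z z' : Tor n) :
    gib (edges n) β (fun _ => h) (CM (cube n z w)) =
      gib (edges n) β (fun _ => h) (CM (cube n z' w)) := by
  rw [gib_CM_eq hw, gib_CM_eq hw]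
  refine Finset.sum_congr rfl fun a _ => Finset.sum_congr rfl fun b _ => ?_
  have h1 : ∀ c : Fin 3 → Fin w, ptc z c = ptc z' c + (z - z') := by
    intro c
    unfold ptc
    abel
  rw [h1 a, h1 b, gib_hM_translate]

/-- The rewards of all translates of the cube together. -/
theorem yb_eq {w : ℕ} (hw : w ≤ n) (hw0 : 0 < w) (β h : ℝ) (x : Tor n) :
    (n : ℝ) ^ 3 * yb (edges n) β (fun _ => h) (cube n x w) =
      (1 / (w : ℝ) ^ 6) * ∑ z : Tor n, ∑ a : Fin 3 → Fin w, ∑ b : Fin 3 → Fin w,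
        gib (edges n) β (fun _ => h) (hM (ptc z a) (ptc z b)) := by
  have h1 : ∀ z : Tor n, ∑ a : Fin 3 → Fin w, ∑ b : Fin 3 → Fin w,
      gib (edges n) β (fun _ => h) (hM (ptc z a) (ptc z b)) =
      gib (edges n) β (fun _ => h) (CM (cube n x w)) := by
    intro z
    rw [← gib_CM_eq hw, gib_CM_translate hw β h z x]
  simp only [h1, Finset.sum_const, Finset.card_univ, nsmul_eq_mul]
  unfold yb
  rw [card_cubeM hw, Fintype.card_fun, ZMod.card, Fintype.card_fin]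
  push_cast
  have : (0 : ℝ) < w := by exact_mod_cast hw0
  field_simp

/-- Sum of the pair terms over the edges. -/
theorem pair_sum_le {β h ρ : ℝ} (hp : ∀ x y : Tor n, x ≠ y →
    gib (edges n) β (fun _ => h) (nM x * nM y) ≤ 8 * ρ ^ 2) (hn : 2 ≤ n) :
    ((edges n).map fun e => gib (edges n) β (fun _ => h) (nM e.1 * nM e.2)).sum ≤
      24 * (n : ℝ) ^ 3 * ρ ^ 2 := by
  have h1 := Bs.edges_map_sum (n := n)
    (fun x y : Tor n => gib (edges n) β (fun _ => h) (nM x * nM y))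
  rw [h1]
  have h2 : ∀ z : Tor n × Fin 3, gib (edges n) β (fun _ => h)
      (nM z.1 * nM (z.1 + Pi.single z.2 1)) ≤ 8 * ρ ^ 2 := by
    intro z
    refine hp _ _ fun hz => ?_
    have : Fact (1 < n) := ⟨hn⟩
    have h2 : (Pi.single z.2 1 : Tor n) = 0 := (left_eq_add.1 hz)
    have h3 := congrFun h2 z.2
    rw [Pi.single_eq_same, Pi.zero_apply] at h3
    exact one_ne_zero h3
  refine (Finset.sum_le_card_nsmul _ _ _ fun z _ => h2 z).trans (le_of_eq ?_)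
  rw [Finset.card_univ, Fintype.card_prod, Fintype.card_fun, ZMod.card, Fintype.card_fin,
    nsmul_eq_mul]
  push_cast
  ring

/-- The density from the bootstrap, uniform field `h`. -/
theorem rho_uniform_of_boot (hB : BootStmt3) : ∃ C7 β0 : ℝ, 0 < C7 ∧ ∀ β : ℝ, β0 ≤ β → ∀ h : ℝ,
    0 < h → β * h ≤ 1 → ∃ n0 : ℕ, ∀ (n : ℕ) [NeZero n], n0 ≤ n → Odd n → ∀ x : Tor n,
      rho (edges n) β (fun _ => h) x ≤ C7 * β ^ (-(3 / 2) : ℝ) := by
  obtain ⟨C7, β0, hC7, H⟩ := hB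
  refine ⟨C7, max β0 1, hC7, fun β hβ h hh hβh => ?_⟩
  have hβ0 : β0 ≤ β := le_trans (le_max_left _ _) hβ
  have hβ1 : 0 < β := lt_of_lt_of_le one_pos (le_trans (le_max_right _ _) hβ)
  obtain ⟨n0, Hn⟩ := H β hβ0
  have hlim : Filter.Tendsto (fun n : ℕ => (n : ℝ) ^ (-(1 / 4) : ℝ)) Filter.atTop
      (nhds 0) :=
    (tendsto_rpow_neg_atTop (by norm_num : (0 : ℝ) < 1 / 4)).comp tendsto_natCast_atTop_atTop
  have hpos : 0 < β * h := by positivity
  obtain ⟨n1, hn1⟩ := Filter.eventually_atTop.1 ((tendsto_order.1 hlim).2 (β * h) hpos)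
  refine ⟨max n0 n1, fun n _ hn hodd x => ?_⟩
  have h1 := Hn n (le_trans (le_max_left _ _) hn) hodd (β * h)
    (hn1 n (le_trans (le_max_right _ _) hn)).le hβh (fun _ => β * h) ?_ x
  · have h2 : (fun _ : Tor n => β * h / β) = fun _ => h := by
      funext _
      field_simp
    simp only [h2] at h1
    exact h1
  · refine ⟨fun _ => ⟨le_rfl, hβh⟩, fun _ _ => ?_⟩
    have e : 0 ≤ β ^ (-(9 / 2) : ℝ) := (Real.rpow_pos_of_pos hβ1 _).le
    have e1 : 1 ≤ Real.exp (β ^ (-(9 / 2) : ℝ)) := Real.one_le_exp e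
    constructor <;> nlinarith

end torus

end

end Vale.Agent.P361.LRO.S3
end

section

/-!
P361, stage 3, block (M): the inequality for the block mean on a finite torus.
-/

namespace Vale.Agent.P361.LRO.S3.MA

open Finset Matrix

noncomputable section

theorem spectral_of {V : Type} [Fintype V] [DecidableEq V] {a : V → V → ℝ} {al : V → ℝ}
    {e : V → V → ℝ} (hc : ∀ x y, ∑ k, e k x * e k y = if x = y then 1 else 0)
    (ha : ∀ k u, ∑ v, a u v * e k v = al k * e k u) (u v : V) :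
    a u v = ∑ k, al k * (e k u * e k v) := by
  have h1 : ∀ k, al k * (e k u * e k v) = ∑ x, a u x * (e k x * e k v) := by
    intro k
    rw [← mul_assoc, ← ha k u, Finset.sum_mul]
    exact Finset.sum_congr rfl fun x _ => by ring
  rw [Finset.sum_congr rfl fun k _ => h1 k, Finset.sum_comm]
  have h2 : ∀ x, ∑ k, a u x * (e k x * e k v) = if x = v then a u x else 0 := by
    intro x
    rw [← Finset.mul_sum, hc]
    split_ifs <;> simp
  rw [Finset.sum_congr rfl fun x _ => h2 x, Finset.sum_ite_eq' Finset.univ v,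
    if_pos (Finset.mem_univ _)]

variable {n : ℕ} [NeZero n]

theorem edges_ne' (hn : 2 ≤ n) : ∀ e ∈ edges n, e.1 ≠ e.2 := by
  intro e he
  unfold edges at he
  rw [List.mem_map] at he
  obtain ⟨z, _, rfl⟩ := he
  intro hz
  have : Fact (1 < n) := ⟨hn⟩
  have h2 : (Pi.single z.2 1 : Tor n) = 0 := (left_eq_add.1 hz)
  have h3 := congrFun h2 z.2
  rw [Pi.single_eq_same, Pi.zero_apply] at h3
  exact one_ne_zero h3

theorem tL_eq (u v : Tor n) : Mean.tL (edges n) u v = OB.tmat n u v := by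
  unfold Mean.tL OB.tmat
  have : (fun e : Tor n × Tor n => pairK e.1 e.2 u v) = fun e => OB.dd e.1 e.2 u v := rfl
  rw [this]
  ring

theorem oneK_hb (k u : Tor n) : ∑ v, Mean.oneK u v * OB.hb k v = OB.hb k u := by
  unfold Mean.oneK
  simp

theorem one_body_hb (β h lam : ℝ) (w : ℕ) (k u : Tor n) :
    ∑ v, β * (Mean.tL (edges n) u v + h * Mean.oneK u v - lam * OB.gmat n w u v) * OB.hb k v =
      β * (OB.tq k + h - lam * OB.gq w k) * OB.hb k u := by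
  have h1 : ∀ v, β * (Mean.tL (edges n) u v + h * Mean.oneK u v - lam * OB.gmat n w u v) *
      OB.hb k v = β * (OB.tmat n u v * OB.hb k v) + β * h * (Mean.oneK u v * OB.hb k v) -
        β * lam * (OB.gmat n w u v * OB.hb k v) := by
    intro v
    rw [tL_eq]
    ring
  rw [Finset.sum_congr rfl fun v _ => h1 v, Finset.sum_sub_distrib, Finset.sum_add_distrib,
    ← Finset.mul_sum, ← Finset.mul_sum, ← Finset.mul_sum, OB.tmat_hb, oneK_hb, OB.gmat_hb]
  ring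

theorem trace_le {w : ℕ} {β h lam μ : ℝ} (hβ : 0 < β) (hh : 0 < h) (hlam : 0 ≤ lam)
    (hμ : 12 * lam * (w : ℝ) ^ 2 ≤ μ) (hμ1 : μ ≤ 1) :
    trace (NormedSpace.exp (-(hcM fun u v => β * (Mean.tL (edges n) u v +
      h * Mean.oneK u v - lam * OB.gmat n w u v)))) ≤
      Real.exp (∑ k : Tor n, -Real.log (1 - Real.exp
        (-(β * (OB.tq k + h - lam * OB.gq w k))))) := by
  have hc : ∀ x y : Tor n, ∑ k, OB.hb k x * OB.hb k y = if x = y then 1 else 0 :=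
    fun x y => OB.hb_compl x y
  have he : Fock.Orth (OB.hb (n := n)) := ⟨hc, fun k l => OB.hb_orth k l⟩
  have hal : ∀ k : Tor n, 0 < β * (OB.tq k + h - lam * OB.gq w k) := fun k => by
    obtain ⟨h1, h2⟩ := OB.eig_pos (w := w) hβ hh hlam hμ hμ1 k
    exact h2.trans_le h1
  have h1 : (fun u v : Tor n => β * (Mean.tL (edges n) u v +
      h * Mean.oneK u v - lam * OB.gmat n w u v)) =
      fun u v => ∑ k, β * (OB.tq k + h - lam * OB.gq w k) * (OB.hb k u * OB.hb k v) := by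
    funext u v
    exact spectral_of hc (one_body_hb β h lam w) u v
  rw [h1]
  refine (Fock.trace_exp_hcM_le he hal).trans (le_of_eq ?_)
  rw [Real.exp_sum]
  refine Finset.prod_congr rfl fun k _ => ?_
  have h2 : 0 < 1 - Real.exp (-(β * (OB.tq k + h - lam * OB.gq w k))) := by
    have : Real.exp (-(β * (OB.tq k + h - lam * OB.gq w k))) < 1 := by
      rw [Real.exp_lt_one_iff]
      linarith [hal k]
    linarith
  rw [Real.exp_neg (Real.log _), Real.exp_log h2]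

theorem gib_pair (β h : ℝ) (x y : Tor n) :
    2 * gib (edges n) β (fun _ => h) (hM x y) ≤
      gib (edges n) β (fun _ => h) (hcM (OB.dd x y)) := by
  by_cases hxy : x = y
  · subst hxy
    have h1 : (OB.dd x x : Tor n → Tor n → ℝ) = fun _ _ => 0 := by
      funext u v
      unfold OB.dd
      ring
    rw [h1, Mean.hcM_zero, Mean.hM_self]
    have : gib (edges n) β (fun _ => h) (0 : Matrix (Tor n → Fin 2) (Tor n → Fin 2) ℝ) = 0 := by
      unfold gib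
      simp
    rw [this]
    norm_num
  · have h1 : hcM (OB.dd x y) = (2 : ℝ) • hM x y + (2 : ℝ) • (nM x * nM y) := hcM_pairK hxy
    rw [h1, Mean.gib_add, Mean.gib_smul, Mean.gib_smul]
    have := gib_nn_nonneg (edges n) β (fun _ => h) x y
    linarith

/-- The average reward of a block is at most the second quantisation of `gmat`. -/
theorem yb_le_gmat {w : ℕ} (hw : w ≤ n) (hw0 : 0 < w) (β h : ℝ) (x : Tor n) :
    (n : ℝ) ^ 3 * yb (edges n) β (fun _ => h) (cube n x w) ≤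
      gib (edges n) β (fun _ => h) (hcM (OB.gmat n w)) := by
  have hw' : (0 : ℝ) < w := by exact_mod_cast hw0
  have h0 : OB.gmat n w = fun u v : Tor n => (1 / (2 * (w : ℝ) ^ 6)) *
      ∑ z : Tor n, ∑ a : Fin 3 → Fin w, ∑ b : Fin 3 → Fin w,
        OB.dd (z + OB.io n a) (z + OB.io n b) u v := by
    funext u v
    unfold OB.gmat
    rw [div_eq_mul_inv, one_div]
    exact mul_comm _ _
  have h1 : hcM (OB.gmat n w) = (1 / (2 * (w : ℝ) ^ 6)) •
      ∑ z : Tor n, ∑ a : Fin 3 → Fin w, ∑ b : Fin 3 → Fin w,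
        hcM (OB.dd (z + OB.io n a) (z + OB.io n b)) := by
    rw [h0, hcM_smul, hcM_sum]
    congr 1
    refine Finset.sum_congr rfl fun z _ => ?_
    rw [hcM_sum]
    refine Finset.sum_congr rfl fun a _ => ?_
    rw [hcM_sum]
  rw [h1, Mean.gib_smul, Mean.gib_sum, yb_eq hw hw0]
  have h2 : ∀ z : Tor n, ∑ a : Fin 3 → Fin w, ∑ b : Fin 3 → Fin w,
      2 * gib (edges n) β (fun _ => h) (hM (ptc z a) (ptc z b)) ≤
      gib (edges n) β (fun _ => h) (∑ a : Fin 3 → Fin w, ∑ b : Fin 3 → Fin w,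
        hcM (OB.dd (z + OB.io n a) (z + OB.io n b))) := by
    intro z
    rw [Mean.gib_sum]
    refine Finset.sum_le_sum fun a _ => ?_
    rw [Mean.gib_sum]
    exact Finset.sum_le_sum fun b _ => gib_pair β h _ _
  have h3 := Finset.sum_le_sum fun z (_ : z ∈ (Finset.univ : Finset (Tor n))) => h2 z
  have h4 : ∑ z : Tor n, ∑ a : Fin 3 → Fin w, ∑ b : Fin 3 → Fin w,
      2 * gib (edges n) β (fun _ => h) (hM (ptc z a) (ptc z b)) =
      2 * ∑ z : Tor n, ∑ a : Fin 3 → Fin w, ∑ b : Fin 3 → Fin w,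
        gib (edges n) β (fun _ => h) (hM (ptc z a) (ptc z b)) := by
    simp only [Finset.mul_sum]
  rw [h4] at h3
  have h5 : (0 : ℝ) ≤ 1 / (2 * (w : ℝ) ^ 6) := by positivity
  have h6 := mul_le_mul_of_nonneg_left h3 h5
  refine le_trans (le_of_eq ?_) h6
  rw [← mul_assoc]
  congr 1
  field_simp

theorem gib_WL_eq (β h : ℝ) : gib (edges n) β (fun _ => h) (Mean.WL (edges n)) =
    ((edges n).map fun e => gib (edges n) β (fun _ => h) (nM e.1 * nM e.2)).sum := by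
  unfold Mean.WL
  have h2 : ∀ L : List (Tor n × Tor n),
      gib (edges n) β (fun _ => h) (L.map fun e => nM e.1 * nM e.2).sum =
        (L.map fun e => gib (edges n) β (fun _ => h) (nM e.1 * nM e.2)).sum := by
    intro L
    induction L with
    | nil =>
      simp only [List.map_nil, List.sum_nil]
      unfold gib
      simp
    | cons a L ih => rw [List.map_cons, List.sum_cons, Mean.gib_add, ih, List.map_cons,
        List.sum_cons]
  exact h2 _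

/-- The inequality for the block mean on a finite torus. -/
theorem mean_fin {w : ℕ} (hn : 2 ≤ n) (hw : w ≤ n) (hw0 : 0 < w) {β h lam μ η : ℝ} (hβ : 0 < β)
    (hh : 0 < h) (hlam : 0 ≤ lam) (hμ : 12 * lam * (w : ℝ) ^ 2 ≤ μ) (hμ1 : μ ≤ 1)
    (hη : η ≤ 1 / 4) (hρ : ∀ x : Tor n, rho (edges n) β (fun _ => h) x ≤ η) (x : Tor n) :
    β * lam * ((n : ℝ) ^ 3 * yb (edges n) β (fun _ => h) (cube n x w)) ≤
      ∑ k : Tor n, -Real.log (1 - Real.exp (-(β * (OB.tq k + h - lam * OB.gq w k)))) -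
        logZ n β h + 24 * β * (n : ℝ) ^ 3 * η ^ 2 := by
  have h1 := Mean.mean_ineq (edges n) (edges_ne' hn) β h lam (OB.gmat n w) (fun u v => by
    unfold OB.gmat
    congr 1
    refine Finset.sum_congr rfl fun z _ => Finset.sum_congr rfl fun a _ =>
      Finset.sum_congr rfl fun b _ => ?_
    unfold OB.dd
    ring) (trace_le hβ hh hlam hμ hμ1)
  have h2 := mul_le_mul_of_nonneg_left (yb_le_gmat hw hw0 β h x) (mul_nonneg hβ.le hlam)
  have h3 : β * gib (edges n) β (fun _ => h) (Mean.WL (edges n)) ≤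
      24 * β * (n : ℝ) ^ 3 * η ^ 2 := by
    rw [gib_WL_eq]
    have h4 := pair_sum_le (n := n) (β := β) (h := h) (ρ := η) (fun a b hab => by
      rw [nM_eq, nM_eq]
      exact PairS.pair_le (edges n) hβ (fun _ => hh.le) hab hη (hρ a) (hρ b)) hn
    have h5 := mul_le_mul_of_nonneg_left h4 hβ.le
    linarith
  have h4 : Real.log (trace (NormedSpace.exp (-β • ham (edges n) fun _ => h))) -
      β * h * (Fintype.card (Tor n) : ℝ) / 2 = logZ n β h := by
    unfold logZ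
    rw [Fintype.card_fun, ZMod.card, Fintype.card_fin]
    push_cast
    ring
  rw [h4] at h1
  linarith

end

end Vale.Agent.P361.LRO.S3.MA
end

section

/-!
P361 stage 3, block (M): the numbers.  From the output of the Peierls-Bogoliubov step
`βλ m³ y ≤ ∑_k -log (1 - exp (-β (t_k + h - λ g_k))) - lZ + 24 β m³ ρ²` to the sharp mean.
-/

namespace Vale.Agent.P361.LRO.S3

open Filter Topology Vale.Agent.P361.B

/-- The coefficient of the landed part is Bloch's constant. -/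
theorem aS_half : aS (1 / 2) = BC := by
  have hpi := Real.pi_pos
  unfold aS BC
  have h1 : Real.sqrt (4 * Real.pi * (1 / 2)) ^ 3 = (2 * Real.pi) ^ (3 / 2 : ℝ) := by
    rw [show 4 * Real.pi * (1 / 2) = 2 * Real.pi by ring, Real.sqrt_eq_rpow, ← Real.rpow_natCast,
      ← Real.rpow_mul (by positivity)]
    norm_num
  have h2 : (8 : ℝ) * Real.pi ^ (3 / 2 : ℝ) * (1 / 2 : ℝ) ^ (3 / 2 : ℝ) =
      (2 * Real.pi) ^ (3 / 2 : ℝ) := by
    have h8 : (8 : ℝ) = 4 ^ (3 / 2 : ℝ) := by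
      rw [show (4 : ℝ) = 2 ^ (2 : ℝ) by norm_num, ← Real.rpow_mul (by norm_num)]
      norm_num
    rw [h8, ← Real.mul_rpow (by norm_num) hpi.le, ← Real.mul_rpow (by positivity) (by norm_num)]
    congr 1
    ring
  rw [h1, h2, inv_mul_eq_div]

theorem neg_log_sub_le {a b : ℝ} (hb : 0 < b) (hab : b ≤ a) :
    -Real.log (1 - Real.exp (-b)) ≤ -Real.log (1 - Real.exp (-a)) + (a - b) / (Real.exp b - 1) := by
  have eb : Real.exp (-b) < 1 := by rw [Real.exp_lt_one_iff]; linarith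
  have ea : Real.exp (-a) < 1 := by rw [Real.exp_lt_one_iff]; linarith
  have hu : 0 < 1 - Real.exp (-b) := by linarith
  have hv : 0 < 1 - Real.exp (-a) := by linarith
  have h1 := Real.log_le_sub_one_of_pos (div_pos hv hu)
  rw [Real.log_div hv.ne' hu.ne'] at h1
  have h2 : (1 - Real.exp (-a)) / (1 - Real.exp (-b)) - 1 =
      (Real.exp (-b) - Real.exp (-a)) / (1 - Real.exp (-b)) := by
    field_simp
    ring
  have h3 : Real.exp (-b) - Real.exp (-a) ≤ (a - b) * Real.exp (-b) := by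
    have h4 : Real.exp (-a) = Real.exp (-b) * Real.exp (-(a - b)) := by
      rw [← Real.exp_add]; congr 1; ring
    rw [h4]
    have h5 := Real.add_one_le_exp (-(a - b))
    have h6 := Real.exp_pos (-b)
    nlinarith
  have h4 : (a - b) * Real.exp (-b) / (1 - Real.exp (-b)) = (a - b) / (Real.exp b - 1) := by
    have h5 : Real.exp b * Real.exp (-b) = 1 := by rw [← Real.exp_add]; simp
    have h6 : 0 < Real.exp b - 1 := by
      have : 1 < Real.exp b := by rw [Real.one_lt_exp_iff]; exact hb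
      linarith
    rw [div_eq_div_iff hu.ne' h6.ne']
    linear_combination (a - b) * h5
  have h5 := div_le_div_of_nonneg_right h3 hu.le
  rw [h4] at h5
  rw [h2] at h1
  linarith

theorem log_shift_le (m : ℕ) [NeZero m] {β h lam τ : ℝ} (g : (Fin 3 → ZMod m) → ℝ) (hβ : 0 < β)
    (hh : 0 < h) (hlam : 0 ≤ lam) (hτ : τ < 1) (hg0 : ∀ k, 0 ≤ g k) (hg1 : ∀ k, g k ≤ 1)
    (hgt : ∀ k, lam * g k ≤ τ * tK m k) :
    ∑ k : Fin 3 → ZMod m, -Real.log (1 - Real.exp (-(β * (tK m k + h - lam * g k)))) ≤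
      ∑ k : Fin 3 → ZMod m, -Real.log (1 - Real.exp (-(β * (tK m k + h)))) +
      β * lam * ∑ k : Fin 3 → ZMod m, 1 / (Real.exp ((1 - τ) * β * tK m k + β * h) - 1) := by
  rw [Finset.mul_sum, ← Finset.sum_add_distrib]
  refine Finset.sum_le_sum fun k _ => ?_
  have ht := tK_nonneg m k
  have hb0 : 0 < (1 - τ) * β * tK m k + β * h := by
    have : 0 ≤ (1 - τ) * β * tK m k :=
      mul_nonneg (mul_nonneg (by linarith) hβ.le) ht
    have := mul_pos hβ hh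
    linarith
  have hb1 : (1 - τ) * β * tK m k + β * h ≤ β * (tK m k + h - lam * g k) := by
    have := mul_le_mul_of_nonneg_left (hgt k) hβ.le
    nlinarith
  have hab : β * (tK m k + h - lam * g k) ≤ β * (tK m k + h) := by
    have : 0 ≤ β * (lam * g k) := mul_nonneg hβ.le (mul_nonneg hlam (hg0 k))
    nlinarith
  have h1 := neg_log_sub_le (lt_of_lt_of_le hb0 hb1) hab
  refine h1.trans (add_le_add le_rfl ?_)
  have e1 : β * (tK m k + h) - β * (tK m k + h - lam * g k) = β * lam * g k := by ring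
  have hd : 0 < Real.exp ((1 - τ) * β * tK m k + β * h) - 1 := by
    have : 1 < Real.exp ((1 - τ) * β * tK m k + β * h) := by rw [Real.one_lt_exp_iff]; exact hb0
    linarith
  have hd2 : Real.exp ((1 - τ) * β * tK m k + β * h) - 1 ≤
      Real.exp (β * (tK m k + h - lam * g k)) - 1 := by
    have := Real.exp_le_exp.2 hb1
    linarith
  rw [e1, mul_one_div]
  refine (div_le_div_of_nonneg_left ?_ hd hd2).trans (div_le_div_of_nonneg_right ?_ hd.le)
  · exact mul_nonneg (mul_nonneg hβ.le hlam) (hg0 k)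
  · exact mul_le_of_le_one_right (mul_nonneg hβ.le hlam) (hg1 k)

theorem FS_mono_zero {s : ℝ} (hs : 0 ≤ s) (S : ℝ) : FS S s ≤ FS S 0 := by
  unfold FS
  refine mul_le_mul_of_nonneg_left ?_ (by positivity)
  refine Summable.tsum_le_tsum (fun r => ?_) (summable_F hs) (summable_F le_rfl)
  refine div_le_div_of_nonneg_right ?_ (by positivity)
  have := exp_le_one hs r
  simpa using this

theorem rpow_neg_three_half {β : ℝ} (hβ : 0 < β) :
    β ^ (-(3 / 2) : ℝ) = (Real.sqrt β ^ 3)⁻¹ := by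
  rw [Real.sqrt_eq_rpow, ← Real.rpow_natCast, ← Real.rpow_mul hβ.le, ← Real.rpow_neg hβ.le]
  norm_num

theorem BC_pos : 0 < BC := by
  rw [← aS_half]
  have h1 : 0 < fS (1 / 2) 0 := by
    unfold fS
    have hpi := Real.pi_pos
    refine mul_pos (by positivity) ?_
    refine (summable_f le_rfl).tsum_pos (fun r => by positivity) 0 ?_
    positivity
  rwa [fS_zero] at h1

/-- Real-variable core of `mean_num`. -/
theorem mean_core {β c c' C1 C7 D1 F0 A Y M P Q lZ y ρ : ℝ} (hβp : 0 < β) (hm3 : 0 < M)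
    (P1 : P / M ≤ (Real.sqrt β ^ 3)⁻¹ * (F0 + D1 / β))
    (Q1 : Q / M ≤ (Real.sqrt β ^ 3)⁻¹ * (Y⁻¹ * A))
    (hlZ : (Real.sqrt β ^ 3)⁻¹ * (F0 - C1 * β ^ (-c)) ≤ lZ / M)
    (hρ0 : 0 ≤ ρ) (hρ : ρ ≤ C7 * (Real.sqrt β ^ 3)⁻¹)
    (hV : β * β ^ (-1 - c') * M * y ≤ P + β * β ^ (-1 - c') * Q - lZ + 24 * β * M * ρ ^ 2) :
    y ≤ (Real.sqrt β ^ 3)⁻¹ * (Y⁻¹ * A + (D1 * β ^ (-(1 - c')) + |C1| * β ^ (-(c - c'))) +
      24 * C7 ^ 2 * β ^ (-(1 / 2 - c'))) := by
  have hX0 : 0 < Real.sqrt β ^ 3 := by have := Real.sqrt_pos.2 hβp; positivity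
  have hXr : (Real.sqrt β ^ 3)⁻¹ = β ^ (-(3 / 2) : ℝ) := (rpow_neg_three_half hβp).symm
  generalize (Real.sqrt β ^ 3)⁻¹ = X at *
  have hX1 : 0 < X := by rw [hXr]; exact Real.rpow_pos_of_pos hβp _
  obtain ⟨lam, hlam⟩ : ∃ l : ℝ, l = β ^ (-1 - c') := ⟨_, rfl⟩
  rw [← hlam] at hV
  have hlam0 : 0 < lam := by rw [hlam]; exact Real.rpow_pos_of_pos hβp _
  have hbl : β * lam = β ^ (-c') := by
    rw [hlam]
    nth_rewrite 1 [← Real.rpow_one β]
    rw [← Real.rpow_add hβp]; congr 1; ring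
  have hbl0 : 0 < β * lam := mul_pos hβp hlam0
  have V1 : β * lam * y ≤ P / M + β * lam * (Q / M) - lZ / M + 24 * β * ρ ^ 2 := by
    have h2 := div_le_div_of_nonneg_right hV hm3.le
    have e3 : β * lam * M * y / M = β * lam * y := by field_simp
    have e4 : (P + β * lam * Q - lZ + 24 * β * M * ρ ^ 2) / M =
        P / M + β * lam * (Q / M) - lZ / M + 24 * β * ρ ^ 2 := by
      field_simp
    rwa [e3, e4] at h2
  have hρ2 : ρ ^ 2 ≤ C7 ^ 2 * X ^ 2 := by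
    rw [← mul_pow]
    exact pow_le_pow_left₀ hρ0 hρ 2
  have V2 : β * lam * y ≤ X * ((D1 / β + |C1| * β ^ (-c)) +
      β * lam * (Y⁻¹ * A) + 24 * β * C7 ^ 2 * X) := by
    have h1 := mul_le_mul_of_nonneg_left Q1 hbl0.le
    have h2 : 24 * β * ρ ^ 2 ≤ 24 * β * (C7 ^ 2 * X ^ 2) :=
      mul_le_mul_of_nonneg_left hρ2 (by positivity)
    have h3 : C1 * β ^ (-c) ≤ |C1| * β ^ (-c) :=
      mul_le_mul_of_nonneg_right (le_abs_self _) (Real.rpow_nonneg hβp.le _)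
    have h4 := mul_le_mul_of_nonneg_left h3 hX1.le
    have e : X * ((D1 / β + |C1| * β ^ (-c)) + β * lam * (Y⁻¹ * A) + 24 * β * C7 ^ 2 * X) =
        X * (F0 + D1 / β) - X * (F0 - C1 * β ^ (-c)) +
        (X * (|C1| * β ^ (-c)) - X * (C1 * β ^ (-c))) + β * lam * (X * (Y⁻¹ * A)) +
        24 * β * (C7 ^ 2 * X ^ 2) := by ring
    rw [e]
    linarith
  have hk : β ^ c' * (β * lam) = 1 := by
    rw [hbl, ← Real.rpow_add hβp]; simp
  have hbc : 0 < β ^ c' := Real.rpow_pos_of_pos hβp _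
  have V3 := mul_le_mul_of_nonneg_left V2 hbc.le
  have e5 : β ^ c' * (β * lam * y) = y := by rw [← mul_assoc, hk, one_mul]
  have e6 : β ^ c' * (D1 / β) = D1 * β ^ (-(1 - c')) := by
    have : β ^ (-(1 - c')) = β ^ c' / β := by
      rw [show -(1 - c') = c' - 1 by ring, Real.rpow_sub hβp, Real.rpow_one]
    rw [this]; ring
  have e7 : β ^ c' * (|C1| * β ^ (-c)) = |C1| * β ^ (-(c - c')) := by
    have : β ^ (-(c - c')) = β ^ c' * β ^ (-c) := by
      rw [← Real.rpow_add hβp]; congr 1; ring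
    rw [this]; ring
  have e8 : β ^ c' * (24 * β * C7 ^ 2 * X) = 24 * C7 ^ 2 * β ^ (-(1 / 2 - c')) := by
    rw [hXr]
    have : β ^ (-(1 / 2 - c')) = β ^ c' * (β * β ^ (-(3 / 2) : ℝ)) := by
      nth_rewrite 3 [← Real.rpow_one β]
      rw [← Real.rpow_add hβp, ← Real.rpow_add hβp]; congr 1; ring
    rw [this]; ring
  have e9 : β ^ c' * (X * ((D1 / β + |C1| * β ^ (-c)) +
      β * lam * (Y⁻¹ * A) + 24 * β * C7 ^ 2 * X)) =
      X * (Y⁻¹ * A + (D1 * β ^ (-(1 - c')) +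
        |C1| * β ^ (-(c - c'))) + 24 * C7 ^ 2 * β ^ (-(1 / 2 - c'))) := by
    rw [← e6, ← e7, ← e8]
    linear_combination X * (Y⁻¹ * A) * hk
  rwa [e5, e9] at V3

theorem p_step {β P M F0 Cp : ℝ} (hβp : 0 < β)
    (h : Real.sqrt β ^ 3 / M * P ≤ F0 + Cp / β + β⁻¹) :
    P / M ≤ (Real.sqrt β ^ 3)⁻¹ * (F0 + (Cp + 1) / β) := by
  have hX0 : 0 < Real.sqrt β ^ 3 := by have := Real.sqrt_pos.2 hβp; positivity
  rw [inv_mul_eq_div, le_div_iff₀ hX0]
  have : (Cp + 1) / β = Cp / β + β⁻¹ := by rw [add_div, one_div]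
  rw [this]
  calc P / M * Real.sqrt β ^ 3 = Real.sqrt β ^ 3 / M * P := by ring
    _ ≤ _ := h
    _ = _ := by ring

theorem q_step {β τ Q M A Cd : ℝ} (hβp : 0 < β) (hCd : 0 ≤ Cd) (hτ : τ ≤ 1 / 2)
    (h : Real.sqrt ((1 - τ) * β) ^ 3 / M * Q ≤ A + Cd / ((1 - τ) * β) + β⁻¹) :
    Q / M ≤ (Real.sqrt β ^ 3)⁻¹ * ((Real.sqrt (1 - τ) ^ 3)⁻¹ * (A + (2 * Cd + 1) / β)) := by
  have hX0 : 0 < Real.sqrt β ^ 3 := by have := Real.sqrt_pos.2 hβp; positivity
  have hY0 : 0 < Real.sqrt (1 - τ) ^ 3 := by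
    have := Real.sqrt_pos.2 (by linarith : 0 < 1 - τ); positivity
  rw [Real.sqrt_mul (by linarith), mul_pow] at h
  generalize Real.sqrt β ^ 3 = X at *
  generalize Real.sqrt (1 - τ) ^ 3 = Y at *
  have h2 : Cd / ((1 - τ) * β) ≤ 2 * Cd / β := by
    rw [div_le_div_iff₀ (by nlinarith) hβp]
    have h3 : 1 ≤ 2 * (1 - τ) := by linarith
    have h4 : 0 ≤ Cd * β := mul_nonneg hCd hβp.le
    nlinarith
  have h1 : Y * X * (Q / M) ≤ A + (2 * Cd + 1) / β := by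
    have : (2 * Cd + 1) / β = 2 * Cd / β + β⁻¹ := by rw [add_div, one_div]
    rw [this]
    calc Y * X * (Q / M) = Y * X / M * Q := by ring
      _ ≤ _ := h
      _ ≤ _ := by linarith
  have h3 : ∀ T : ℝ, X⁻¹ * (Y⁻¹ * T) = T / (Y * X) := fun T => by field_simp
  rw [h3, le_div_iff₀ (by positivity)]
  linarith

theorem w_step {β C0 c' d w t gk : ℝ} (hβp : 0 < β) (ht : 0 ≤ t) (hw0 : 0 ≤ w)
    (hw : w ≤ 3 * β ^ (1 / 2 + d)) (hgt : gk ≤ C0 * w ^ 2 * t) :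
    β ^ (-1 - c') * gk ≤ 9 * |C0| * β ^ (-(c' - 2 * d)) * t := by
  have hlam0 : 0 < β ^ (-1 - c') := Real.rpow_pos_of_pos hβp _
  have h1 : gk ≤ |C0| * w ^ 2 * t := by
    refine hgt.trans ?_
    refine mul_le_mul_of_nonneg_right ?_ ht
    exact mul_le_mul_of_nonneg_right (le_abs_self _) (by positivity)
  have h2 : w ^ 2 ≤ 9 * β ^ (1 + 2 * d) := by
    calc w ^ 2 ≤ (3 * β ^ (1 / 2 + d)) ^ 2 := pow_le_pow_left₀ hw0 hw 2
      _ = 9 * β ^ (1 + 2 * d) := by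
        rw [mul_pow, ← Real.rpow_natCast (β ^ (1 / 2 + d)), ← Real.rpow_mul hβp.le]
        norm_num
        congr 1
        ring
  have h3 : β ^ (-1 - c') * (|C0| * w ^ 2) ≤ 9 * |C0| * β ^ (-(c' - 2 * d)) := by
    have h4 : β ^ (-1 - c') * (|C0| * w ^ 2) ≤ β ^ (-1 - c') * (|C0| * (9 * β ^ (1 + 2 * d))) :=
      mul_le_mul_of_nonneg_left (mul_le_mul_of_nonneg_left h2 (abs_nonneg _)) hlam0.le
    refine h4.trans (le_of_eq ?_)
    have h5 : β ^ (-1 - c') * β ^ (1 + 2 * d) = β ^ (-(c' - 2 * d)) := by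
      rw [← Real.rpow_add hβp]; congr 1; ring
    rw [← h5]
    ring
  calc β ^ (-1 - c') * gk ≤ β ^ (-1 - c') * (|C0| * w ^ 2 * t) :=
        mul_le_mul_of_nonneg_left h1 hlam0.le
    _ = β ^ (-1 - c') * (|C0| * w ^ 2) * t := by ring
    _ ≤ _ := mul_le_mul_of_nonneg_right h3 ht

/-- The bounding function tends to Bloch's constant. -/
theorem G_lim {C0 c c' d Cp Cd C1 C7 δ : ℝ} (hδ : 0 < δ) (hcd : 0 < c' - 2 * d) (h1c : 0 < 1 - c')
    (hcc : 0 < c - c') (hc2 : 0 < 1 / 2 - c') :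
    ∀ᶠ β : ℝ in atTop, ((Real.sqrt (1 - 9 * |C0| * β ^ (-(c' - 2 * d))) ^ 3)⁻¹ *
      (aS (1 / 2) + (2 * Cd + 1) / β) +
      ((Cp + 1) * β ^ (-(1 - c')) + |C1| * β ^ (-(c - c'))) +
      24 * C7 ^ 2 * β ^ (-(1 / 2 - c')) ≤ (1 + δ) * BC) ∧
      9 * |C0| * β ^ (-(c' - 2 * d)) ≤ 1 / 2 := by
  have T1 : Tendsto (fun β : ℝ => 9 * |C0| * β ^ (-(c' - 2 * d))) atTop (𝓝 0) := by
    simpa using (tendsto_rpow_neg_atTop hcd).const_mul (9 * |C0|)
  have T2 : Tendsto (fun β : ℝ => (Real.sqrt (1 - 9 * |C0| * β ^ (-(c' - 2 * d))) ^ 3)⁻¹) atTop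
      (𝓝 1) := by
    have h1 : Tendsto (fun β : ℝ => 1 - 9 * |C0| * β ^ (-(c' - 2 * d))) atTop (𝓝 1) := by
      simpa using tendsto_const_nhds.sub T1
    have h2 := (Real.continuous_sqrt.tendsto 1).comp h1
    have h3 := (h2.pow 3).inv₀ (by simp)
    simpa using h3
  have T3 : Tendsto (fun β : ℝ => aS (1 / 2) + (2 * Cd + 1) / β) atTop (𝓝 (aS (1 / 2))) := by
    have h1 : Tendsto (fun β : ℝ => (2 * Cd + 1) / β) atTop (𝓝 0) :=
      tendsto_const_nhds.div_atTop tendsto_id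
    simpa using tendsto_const_nhds.add h1
  have T4 : Tendsto (fun β : ℝ => (Cp + 1) * β ^ (-(1 - c')) + |C1| * β ^ (-(c - c'))) atTop
      (𝓝 0) := by
    have h1 := (tendsto_rpow_neg_atTop h1c).const_mul (Cp + 1)
    have h2 := (tendsto_rpow_neg_atTop hcc).const_mul |C1|
    simpa using h1.add h2
  have T5 : Tendsto (fun β : ℝ => 24 * C7 ^ 2 * β ^ (-(1 / 2 - c'))) atTop (𝓝 0) := by
    simpa using (tendsto_rpow_neg_atTop hc2).const_mul (24 * C7 ^ 2)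
  have T6 := ((T2.mul T3).add T4).add T5
  have hlim : (1 : ℝ) * aS (1 / 2) + 0 + 0 < (1 + δ) * BC := by
    rw [aS_half]
    have := BC_pos
    nlinarith
  filter_upwards [T6.eventually (gt_mem_nhds hlim),
    T1.eventually (gt_mem_nhds (by norm_num : (0 : ℝ) < 1 / 2))] with β h1 h2
  exact ⟨h1.le, h2.le⟩

/-- The numbers of block (M). -/
theorem mean_num {c : ℝ} (hc : 0 < c) (C0 C1 C7 : ℝ) : ∃ c' d : ℝ, 0 < c' ∧ 0 < d ∧ d ≤ 1 / 100 ∧
    ∀ δ : ℝ, 0 < δ → ∃ β0 : ℝ, 1 ≤ β0 ∧ ∀ β : ℝ, β0 ≤ β → ∀ w : ℝ, 0 ≤ w → w ≤ 3 * β ^ (1 / 2 + d) →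
    ∀ h : ℝ, 0 < h → ∀ᶠ m : ℕ in atTop, ∀ [NeZero m] (y lZ ρ : ℝ) (g : (Fin 3 → ZMod m) → ℝ),
      (∀ k, 0 ≤ g k) → (∀ k, g k ≤ 1) → (∀ k, g k ≤ C0 * w ^ 2 * tK m k) →
      β ^ (-(3 / 2) : ℝ) * (FS (1 / 2) 0 - C1 * β ^ (-c)) ≤ lZ / (m : ℝ) ^ 3 →
      0 ≤ ρ → ρ ≤ C7 * β ^ (-(3 / 2) : ℝ) →
      β * β ^ (-1 - c') * (m : ℝ) ^ 3 * y ≤
        ∑ k : Fin 3 → ZMod m,
          -Real.log (1 - Real.exp (-(β * (tK m k + h - β ^ (-1 - c') * g k)))) - lZ +
          24 * β * (m : ℝ) ^ 3 * ρ ^ 2 →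
      y ≤ (1 + δ) * BC * β ^ (-(3 / 2) : ℝ) := by
  obtain ⟨Cp, hCp, hp⟩ := tor_log_eventually (n := 1) le_rfl
  obtain ⟨Cd, hCd, hd⟩ := tor_dens_eventually (n := 1) le_rfl
  obtain ⟨c', hc'0, hc'c, hc'4⟩ : ∃ c' : ℝ, 0 < c' ∧ c' < c ∧ c' ≤ 1 / 4 :=
    ⟨min (c / 2) (1 / 4), lt_min (by linarith) (by norm_num),
      lt_of_le_of_lt (min_le_left _ _) (by linarith), min_le_right _ _⟩
  obtain ⟨d, hd0, hd100, hdc⟩ : ∃ d : ℝ, 0 < d ∧ d ≤ 1 / 100 ∧ d ≤ c' / 4 :=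
    ⟨min (1 / 100) (c' / 4), lt_min (by norm_num) (by linarith), min_le_left _ _, min_le_right _ _⟩
  refine ⟨c', d, hc'0, hd0, hd100, fun δ hδ => ?_⟩
  obtain ⟨β0, hβ0⟩ := eventually_atTop.1 ((G_lim (C0 := C0) (c := c) (c' := c') (d := d) (Cp := Cp)
    (Cd := Cd) (C1 := C1) (C7 := C7) hδ (by linarith) (by linarith) (by linarith)
    (by linarith)).and (eventually_ge_atTop (2 * 448 : ℝ)))
  refine ⟨max 1 β0, le_max_left _ _, fun β hβ w hw0 hw h hh => ?_⟩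
  obtain ⟨⟨hG, hτ⟩, h896⟩ := hβ0 β (le_trans (le_max_right _ _) hβ)
  have hβ1 : 1 ≤ β := by linarith
  have hβp : 0 < β := by linarith
  obtain ⟨τ, hτd⟩ : ∃ τ : ℝ, τ = 9 * |C0| * β ^ (-(c' - 2 * d)) := ⟨_, rfl⟩
  rw [← hτd] at hG hτ
  have hβ' : 448 ≤ (1 - τ) * β := by nlinarith
  have hs : 0 < β * h := mul_pos hβp hh
  filter_upwards [hp β (by linarith) (β * h) hs β⁻¹ (by positivity),
    hd ((1 - τ) * β) hβ' (β * h) hs β⁻¹ (by positivity), eventually_gt_atTop 0] with m hm1 hm2 hm0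
  intro _ y lZ ρ g hg0 hg1 hgt hlZ hρ0 hρ hV
  have m1 := hm1
  have m2 := hm2
  have hmR : (0 : ℝ) < m := by exact_mod_cast hm0
  have hm3 : (0 : ℝ) < (m : ℝ) ^ 3 := by positivity
  have hlam0 : 0 < β ^ (-1 - c') := Real.rpow_pos_of_pos hβp _
  have hlg : ∀ k, β ^ (-1 - c') * g k ≤ τ * tK m k := fun k => by
    rw [hτd]
    exact w_step hβp (tK_nonneg m k) hw0 hw (hgt k)
  have hsh := log_shift_le m g hβp hh hlam0.le (by linarith : τ < 1) hg0 hg1 hlg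
  have e1 : ∀ k : Fin 3 → ZMod m,
      β * (((1 : ℕ) : ℝ) * tK m k) + β * h = β * (tK m k + h) := fun k => by push_cast; ring
  have e2 : ∀ k : Fin 3 → ZMod m, (1 - τ) * β * (((1 : ℕ) : ℝ) * tK m k) + β * h =
      (1 - τ) * β * tK m k + β * h := fun k => by push_cast; ring
  have hh1 : (((1 : ℕ) : ℝ) / 2) = 1 / 2 := by norm_num
  rw [hh1] at m1 m2
  simp only [e1] at m1
  simp only [e2] at m2
  have f1 : FS (1 / 2) (β * h) ≤ FS (1 / 2) 0 := FS_mono_zero hs.le _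
  have f2 : fS (1 / 2) (β * h) ≤ aS (1 / 2) := fS_le _ hs.le
  generalize (∑ k : Fin 3 → ZMod m, -Real.log (1 - Real.exp (-(β * (tK m k + h))))) = P at *
  generalize (∑ k : Fin 3 → ZMod m, 1 / (Real.exp ((1 - τ) * β * tK m k + β * h) - 1)) = Q at *
  have P1 := p_step (P := P) (M := (m : ℝ) ^ 3) (F0 := FS (1 / 2) 0) (Cp := Cp) hβp
    (m1.trans (by linarith))
  have Q1 := q_step (Q := Q) (M := (m : ℝ) ^ 3) (A := aS (1 / 2)) (Cd := Cd) hβp hCd hτ
    (m2.trans (by linarith))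
  rw [rpow_neg_three_half hβp] at hlZ hρ ⊢
  have V3 := mean_core (c := c) (c' := c') (C1 := C1) (C7 := C7) (D1 := Cp + 1) (F0 := FS (1 / 2) 0)
    (A := aS (1 / 2) + (2 * Cd + 1) / β) (y := y) hβp hm3 P1 Q1 hlZ hρ0 hρ (by linarith)
  refine V3.trans ?_
  rw [mul_comm ((1 + δ) * BC)]
  exact mul_le_mul_of_nonneg_left hG (by positivity)

theorem FS_ge {s : ℝ} (hs : 0 ≤ s) (S : ℝ) : FS S 0 - s * aS S ≤ FS S s := by
  have h0 : aS S = fS S 0 := (fS_zero S).symm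
  rw [h0]
  unfold FS fS
  have h1 := summable_F (t := 0) le_rfl
  have h2 := summable_F hs
  have h3 := summable_f (t := 0) le_rfl
  have h4 : ∑' r : ℕ, Real.exp (-(((r : ℝ) + 1) * 0)) / (((r : ℝ) + 1) * Real.sqrt ((r : ℝ) + 1) ^ 3) -
      s * ∑' r : ℕ, Real.exp (-(((r : ℝ) + 1) * 0)) / Real.sqrt ((r : ℝ) + 1) ^ 3 ≤
      ∑' r : ℕ, Real.exp (-(((r : ℝ) + 1) * s)) / (((r : ℝ) + 1) * Real.sqrt ((r : ℝ) + 1) ^ 3) := by
    rw [← tsum_mul_left, ← h1.tsum_sub (h3.mul_left s)]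
    refine Summable.tsum_le_tsum (fun r => ?_) (h1.sub (h3.mul_left s)) h2
    have hr1 : (0 : ℝ) < (r : ℝ) + 1 := by positivity
    have hq : 0 < Real.sqrt ((r : ℝ) + 1) ^ 3 := by
      have := Real.sqrt_pos.2 hr1; positivity
    have h5 := Real.add_one_le_exp (-(((r : ℝ) + 1) * s))
    have h6 : Real.exp (-(((r : ℝ) + 1) * 0)) = 1 := by simp
    rw [h6]
    have h7 : 1 / (((r : ℝ) + 1) * Real.sqrt ((r : ℝ) + 1) ^ 3) - s * (1 / Real.sqrt ((r : ℝ) + 1) ^ 3)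
        = (1 - ((r : ℝ) + 1) * s) / (((r : ℝ) + 1) * Real.sqrt ((r : ℝ) + 1) ^ 3) := by
      field_simp
    rw [h7]
    refine div_le_div_of_nonneg_right ?_ (by positivity)
    linarith
  have h5 := mul_le_mul_of_nonneg_left h4
    (a := (Real.sqrt (4 * Real.pi * S) ^ 3)⁻¹) (by positivity)
  refine le_trans (le_of_eq ?_) h5
  ring

end Vale.Agent.P361.LRO.S3
end

section

/-!
P361, stage 3, block (M): the sharp upper bound for the block mean in a uniform small field.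
-/

namespace Vale.Agent.P361.LRO.S3.MF

open Filter Topology Vale.Agent.P361.B

/-- `mean_num` with the relation between the two exponents. -/
theorem mean_num2 {c : ℝ} (hc : 0 < c) (C0 C1 C7 : ℝ) : ∃ c' d : ℝ, 0 < c' ∧ 0 < d ∧ d ≤ 1 / 100 ∧
    d ≤ c' / 4 ∧ ∀ δ : ℝ, 0 < δ → ∃ β0 : ℝ, 1 ≤ β0 ∧ ∀ β : ℝ, β0 ≤ β → ∀ w : ℝ, 0 ≤ w → w ≤ 3 * β ^ (1 / 2 + d) →
    ∀ h : ℝ, 0 < h → ∀ᶠ m : ℕ in atTop, ∀ [NeZero m] (y lZ ρ : ℝ) (g : (Fin 3 → ZMod m) → ℝ),
      (∀ k, 0 ≤ g k) → (∀ k, g k ≤ 1) → (∀ k, g k ≤ C0 * w ^ 2 * tK m k) →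
      β ^ (-(3 / 2) : ℝ) * (FS (1 / 2) 0 - C1 * β ^ (-c)) ≤ lZ / (m : ℝ) ^ 3 →
      0 ≤ ρ → ρ ≤ C7 * β ^ (-(3 / 2) : ℝ) →
      β * β ^ (-1 - c') * (m : ℝ) ^ 3 * y ≤
        ∑ k : Fin 3 → ZMod m,
          -Real.log (1 - Real.exp (-(β * (tK m k + h - β ^ (-1 - c') * g k)))) - lZ +
          24 * β * (m : ℝ) ^ 3 * ρ ^ 2 →
      y ≤ (1 + δ) * BC * β ^ (-(3 / 2) : ℝ) := by
  obtain ⟨Cp, hCp, hp⟩ := tor_log_eventually (n := 1) le_rfl
  obtain ⟨Cd, hCd, hd⟩ := tor_dens_eventually (n := 1) le_rfl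
  obtain ⟨c', hc'0, hc'c, hc'4⟩ : ∃ c' : ℝ, 0 < c' ∧ c' < c ∧ c' ≤ 1 / 4 :=
    ⟨min (c / 2) (1 / 4), lt_min (by linarith) (by norm_num),
      lt_of_le_of_lt (min_le_left _ _) (by linarith), min_le_right _ _⟩
  obtain ⟨d, hd0, hd100, hdc⟩ : ∃ d : ℝ, 0 < d ∧ d ≤ 1 / 100 ∧ d ≤ c' / 4 :=
    ⟨min (1 / 100) (c' / 4), lt_min (by norm_num) (by linarith), min_le_left _ _, min_le_right _ _⟩
  refine ⟨c', d, hc'0, hd0, hd100, hdc, fun δ hδ => ?_⟩
  obtain ⟨β0, hβ0⟩ := eventually_atTop.1 ((G_lim (C0 := C0) (c := c) (c' := c') (d := d) (Cp := Cp)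
    (Cd := Cd) (C1 := C1) (C7 := C7) hδ (by linarith) (by linarith) (by linarith)
    (by linarith)).and (eventually_ge_atTop (2 * 448 : ℝ)))
  refine ⟨max 1 β0, le_max_left _ _, fun β hβ w hw0 hw h hh => ?_⟩
  obtain ⟨⟨hG, hτ⟩, h896⟩ := hβ0 β (le_trans (le_max_right _ _) hβ)
  have hβ1 : 1 ≤ β := by linarith
  have hβp : 0 < β := by linarith
  obtain ⟨τ, hτd⟩ : ∃ τ : ℝ, τ = 9 * |C0| * β ^ (-(c' - 2 * d)) := ⟨_, rfl⟩
  rw [← hτd] at hG hτ
  have hβ' : 448 ≤ (1 - τ) * β := by nlinarith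
  have hs : 0 < β * h := mul_pos hβp hh
  filter_upwards [hp β (by linarith) (β * h) hs β⁻¹ (by positivity),
    hd ((1 - τ) * β) hβ' (β * h) hs β⁻¹ (by positivity), eventually_gt_atTop 0] with m hm1 hm2 hm0
  intro _ y lZ ρ g hg0 hg1 hgt hlZ hρ0 hρ hV
  have m1 := hm1
  have m2 := hm2
  have hmR : (0 : ℝ) < m := by exact_mod_cast hm0
  have hm3 : (0 : ℝ) < (m : ℝ) ^ 3 := by positivity
  have hlam0 : 0 < β ^ (-1 - c') := Real.rpow_pos_of_pos hβp _
  have hlg : ∀ k, β ^ (-1 - c') * g k ≤ τ * tK m k := fun k => by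
    rw [hτd]
    exact w_step hβp (tK_nonneg m k) hw0 hw (hgt k)
  have hsh := log_shift_le m g hβp hh hlam0.le (by linarith : τ < 1) hg0 hg1 hlg
  have e1 : ∀ k : Fin 3 → ZMod m,
      β * (((1 : ℕ) : ℝ) * tK m k) + β * h = β * (tK m k + h) := fun k => by push_cast; ring
  have e2 : ∀ k : Fin 3 → ZMod m, (1 - τ) * β * (((1 : ℕ) : ℝ) * tK m k) + β * h =
      (1 - τ) * β * tK m k + β * h := fun k => by push_cast; ring
  have hh1 : (((1 : ℕ) : ℝ) / 2) = 1 / 2 := by norm_num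
  rw [hh1] at m1 m2
  simp only [e1] at m1
  simp only [e2] at m2
  have f1 : FS (1 / 2) (β * h) ≤ FS (1 / 2) 0 := FS_mono_zero hs.le _
  have f2 : fS (1 / 2) (β * h) ≤ aS (1 / 2) := fS_le _ hs.le
  generalize (∑ k : Fin 3 → ZMod m, -Real.log (1 - Real.exp (-(β * (tK m k + h))))) = P at *
  generalize (∑ k : Fin 3 → ZMod m, 1 / (Real.exp ((1 - τ) * β * tK m k + β * h) - 1)) = Q at *
  have P1 := p_step (P := P) (M := (m : ℝ) ^ 3) (F0 := FS (1 / 2) 0) (Cp := Cp) hβp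
    (m1.trans (by linarith))
  have Q1 := q_step (Q := Q) (M := (m : ℝ) ^ 3) (A := aS (1 / 2)) (Cd := Cd) hβp hCd hτ
    (m2.trans (by linarith))
  rw [rpow_neg_three_half hβp] at hlZ hρ ⊢
  have V3 := mean_core (c := c) (c' := c') (C1 := C1) (C7 := C7) (D1 := Cp + 1) (F0 := FS (1 / 2) 0)
    (A := aS (1 / 2) + (2 * Cd + 1) / β) (y := y) hβp hm3 P1 Q1 hlZ hρ0 hρ (by linarith)
  refine V3.trans ?_
  rw [mul_comm ((1 + δ) * BC)]
  exact mul_le_mul_of_nonneg_left hG (by positivity)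


theorem tq_tK {n : ℕ} [NeZero n] (k : Tor n) : OB.tq k = tK n k := OB.tq_eq k

/-- The lower bound for the partition function in the form of `mean_num2`. -/
theorem logZ_step {K β h n3 lZ : ℝ} (hK : 1 ≤ K) (hβ : K ≤ β) (hh : 0 ≤ h)
    (hh2 : h ≤ β ^ (-(10 : ℝ))) (hn : 0 < n3)
    (H : ((1 - K / β) * FS (1 / 2) (β * h) / Real.sqrt β ^ 3 - β ^ (-(5 / 2) : ℝ)) * n3 ≤ lZ) :
    β ^ (-(3 / 2) : ℝ) * (FS (1 / 2) 0 - (K * FS (1 / 2) 0 + aS (1 / 2) + 1) * β ^ (-1 : ℝ)) ≤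
      lZ / n3 := by
  have hβ1 : 1 ≤ β := hK.trans hβ
  have hβ0 : 0 < β := by linarith
  rw [le_div_iff₀ hn]
  refine le_trans (mul_le_mul_of_nonneg_right ?_ hn.le) H
  have e1 : β ^ (-(5 / 2) : ℝ) = β ^ (-(3 / 2) : ℝ) * β ^ (-1 : ℝ) := by
    rw [← Real.rpow_add hβ0]
    norm_num
  have e2 : (Real.sqrt β ^ 3)⁻¹ = β ^ (-(3 / 2) : ℝ) := by
    rw [rpow_neg_three_half hβ0]
  have hP : 0 < β ^ (-(3 / 2) : ℝ) := Real.rpow_pos_of_pos hβ0 _
  rw [div_eq_mul_inv _ (Real.sqrt β ^ 3), e2, e1]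
  have e3 : β ^ (-1 : ℝ) = 1 / β := by
    rw [Real.rpow_neg_one, one_div]
  have hs0 : 0 ≤ β * h := mul_nonneg hβ0.le hh
  have hs1 : β * h ≤ 1 / β := by
    have h1 : β * h ≤ β * β ^ (-(10 : ℝ)) := mul_le_mul_of_nonneg_left hh2 hβ0.le
    have h2 : β * β ^ (-(10 : ℝ)) = β ^ (-9 : ℝ) := by
      nth_rewrite 1 [← Real.rpow_one β]
      rw [← Real.rpow_add hβ0]
      norm_num
    have h3 : β ^ (-9 : ℝ) ≤ β ^ (-1 : ℝ) :=
      Real.rpow_le_rpow_of_exponent_le hβ1 (by norm_num)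
    rw [← e3]
    linarith
  have hF := FS_ge hs0 (1 / 2)
  have hA : 0 ≤ aS (1 / 2) := by
    rw [aS_half]
    exact BC_pos.le
  have hk : 0 ≤ 1 - K / β := by
    have : K / β ≤ 1 := (div_le_one hβ0).2 hβ
    linarith
  have hk1 : 1 - K / β ≤ 1 := by
    have : 0 ≤ K / β := by positivity
    linarith
  rw [e3]
  have h4 : FS (1 / 2) 0 - (K * FS (1 / 2) 0 + aS (1 / 2)) * (1 / β) ≤
      (1 - K / β) * FS (1 / 2) (β * h) := by
    have h5 := mul_le_mul_of_nonneg_left hF hk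
    have h6 : (1 - K / β) * (β * h * aS (1 / 2)) ≤ 1 * (1 / β * aS (1 / 2)) :=
      mul_le_mul hk1 (mul_le_mul_of_nonneg_right hs1 hA) (mul_nonneg hs0 hA) one_pos.le
    have h7 : (1 - K / β) * (FS (1 / 2) 0 - β * h * aS (1 / 2)) =
        FS (1 / 2) 0 - K * FS (1 / 2) 0 * (1 / β) - (1 - K / β) * (β * h * aS (1 / 2)) := by
      ring
    rw [h7] at h5
    linarith
  nlinarith [mul_le_mul_of_nonneg_left h4 hP.le]

/-- Block (M): the sharp upper bound for the block mean. -/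
theorem meanStmt3_of (hB : BootStmt3) : MeanStmt3 := by
  obtain ⟨C7, β7, hC7, Hρ⟩ := rho_uniform_of_boot hB
  obtain ⟨K, hK1, HZ⟩ := logZ_lower
  obtain ⟨c', d, hc', hd, hd1, hdc, H⟩ := mean_num2 (c := 1) one_pos 12
    (K * FS (1 / 2) 0 + aS (1 / 2) + 1) C7
  refine ⟨d, hd, hd1, fun δ hδ => ?_⟩
  obtain ⟨β0, hβ01, Hβ⟩ := H δ hδ
  have e1 : ∀ᶠ β : ℝ in atTop, C7 * β ^ (-(3 / 2) : ℝ) < 1 / 4 := by
    have h1 : Tendsto (fun β : ℝ => C7 * β ^ (-(3 / 2) : ℝ)) atTop (𝓝 (C7 * 0)) :=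
      (tendsto_rpow_neg_atTop (by norm_num : (0 : ℝ) < 3 / 2)).const_mul C7
    rw [mul_zero] at h1
    exact (tendsto_order.1 h1).2 _ (by norm_num)
  have e2 : ∀ᶠ β : ℝ in atTop, 108 * β ^ (-(c' / 2) : ℝ) < 1 := by
    have h1 : Tendsto (fun β : ℝ => 108 * β ^ (-(c' / 2) : ℝ)) atTop (𝓝 (108 * 0)) :=
      (tendsto_rpow_neg_atTop (by linarith : (0 : ℝ) < c' / 2)).const_mul 108
    rw [mul_zero] at h1
    exact (tendsto_order.1 h1).2 _ one_pos
  obtain ⟨β1, hβ1⟩ := eventually_atTop.1 (e1.and e2)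
  refine ⟨max (max β0 β1) (max β7 K), fun β hβ a _ ha2 h hh hh2 => ?_⟩
  have g0 : β0 ≤ β := le_trans (le_trans (le_max_left _ _) (le_max_left _ _)) hβ
  have g1 : β1 ≤ β := le_trans (le_trans (le_max_right _ _) (le_max_left _ _)) hβ
  have g7 : β7 ≤ β := le_trans (le_trans (le_max_left _ _) (le_max_right _ _)) hβ
  have gK : K ≤ β := le_trans (le_trans (le_max_right _ _) (le_max_right _ _)) hβ
  have hb1 : 1 ≤ β := hβ01.trans g0
  have hb0 : 0 < β := by linarith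
  obtain ⟨f1, f2⟩ := hβ1 β g1
  have hβh : β * h ≤ 1 := by
    have h1 : β * h ≤ β * β ^ (-(10 : ℝ)) := mul_le_mul_of_nonneg_left hh2 hb0.le
    have h2 : β * β ^ (-(10 : ℝ)) = β ^ (-9 : ℝ) := by
      nth_rewrite 1 [← Real.rpow_one β]
      rw [← Real.rpow_add hb0]
      norm_num
    have h3 : β ^ (-9 : ℝ) ≤ 1 := Real.rpow_le_one_of_one_le_of_nonpos hb1 (by norm_num)
    linarith
  obtain ⟨n1, hn1⟩ := Hρ β g7 h hh hβh
  obtain ⟨n2, hn2⟩ := HZ β gK h hh.le (β ^ (-(5 / 2) : ℝ)) (Real.rpow_pos_of_pos hb0 _)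
  have hw0 : (0 : ℝ) ≤ ((3 ^ a : ℕ) : ℝ) := Nat.cast_nonneg _
  have hw3 : ((3 ^ a : ℕ) : ℝ) ≤ 3 * β ^ (1 / 2 + d) := by
    push_cast
    exact ha2
  obtain ⟨n3, hn3⟩ := eventually_atTop.1 (Hβ β g0 ((3 ^ a : ℕ) : ℝ) hw0 hw3 h hh)
  refine ⟨max (max n1 n2) (max n3 (3 ^ a + 2)), fun n _ hn hodd x => ?_⟩
  have k1 : n1 ≤ n := le_trans (le_trans (le_max_left _ _) (le_max_left _ _)) hn
  have k2 : n2 ≤ n := le_trans (le_trans (le_max_right _ _) (le_max_left _ _)) hn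
  have k3 : n3 ≤ n := le_trans (le_trans (le_max_left _ _) (le_max_right _ _)) hn
  have k4 : 3 ^ a + 2 ≤ n := le_trans (le_trans (le_max_right _ _) (le_max_right _ _)) hn
  have k6 : 2 ≤ n := le_trans (Nat.le_add_left 2 _) k4
  have k7 : 3 ^ a ≤ n := le_trans (Nat.le_add_right _ 2) k4
  have hn0 : (0 : ℝ) < n := by exact_mod_cast lt_of_lt_of_le two_pos k6
  have hn3' : (0 : ℝ) < (n : ℝ) ^ 3 := by positivity
  have hlam : 0 < β ^ (-1 - c') := Real.rpow_pos_of_pos hb0 _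
  have hwsq : ((3 ^ a : ℕ) : ℝ) ^ 2 ≤ 9 * β ^ (1 + 2 * d) := by
    have h1 := pow_le_pow_left₀ hw0 hw3 2
    have h2 : (3 * β ^ (1 / 2 + d)) ^ 2 = 9 * β ^ (1 + 2 * d) := by
      rw [mul_pow, ← Real.rpow_natCast (β ^ (1 / 2 + d)) 2, ← Real.rpow_mul hb0.le]
      norm_num
      ring_nf
    rw [h2] at h1
    exact h1
  have hμ : 12 * β ^ (-1 - c') * ((3 ^ a : ℕ) : ℝ) ^ 2 ≤ 1 := by
    have h1 : 12 * β ^ (-1 - c') * ((3 ^ a : ℕ) : ℝ) ^ 2 ≤
        12 * β ^ (-1 - c') * (9 * β ^ (1 + 2 * d)) :=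
      mul_le_mul_of_nonneg_left hwsq (by positivity)
    have h2 : 12 * β ^ (-1 - c') * (9 * β ^ (1 + 2 * d)) = 108 * β ^ (2 * d - c') := by
      have : β ^ (2 * d - c') = β ^ (-1 - c') * β ^ (1 + 2 * d) := by
        rw [← Real.rpow_add hb0]
        congr 1
        ring
      rw [this]
      ring
    have h3 : β ^ (2 * d - c') ≤ β ^ (-(c' / 2) : ℝ) :=
      Real.rpow_le_rpow_of_exponent_le hb1 (by linarith)
    linarith
  refine hn3 n k3 (yb (edges n) β (fun _ => h) (cube n x (3 ^ a))) (logZ n β h)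
    (C7 * β ^ (-(3 / 2) : ℝ)) (fun k => OB.gq (3 ^ a) k) (OB.gq_nonneg _) (OB.gq_le_one _) ?_ ?_
    (by positivity) le_rfl ?_
  · intro k
    rw [← tq_tK]
    exact OB.gq_le (3 ^ a) k
  · exact logZ_step hK1 gK hh.le hh2 hn3' (hn2 n k2 hodd)
  · have h1 := MA.mean_fin (n := n) (w := 3 ^ a) k6 k7 (by positivity) hb0 hh
      hlam.le hμ le_rfl f1.le (hn1 n k1 hodd) x
    simp only [← tq_tK]
    refine le_trans (le_of_eq ?_) h1
    ring

end Vale.Agent.P361.LRO.S3.MF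
end

section

/-!
P361, block twist, part 11: for a matrix commuting with the block spin the law of `p` given `r`
is uniform on `0, …, N`; hence `tr W exp(-τ N_b) ≤ (|b| + 1) tr W exp(-τ (down spins of b))`.
-/

namespace Vale.Agent.P361.LRO.TwJ

set_option linter.all false

open Matrix Finset
open scoped ComplexOrder

variable {V : Type} [Fintype V] [DecidableEq V]

theorem cm_Om_comm_Dn (b : Finset V) : cm (Om b) * cm (Dn b) = cm (Dn b) * cm (Om b) := by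
  rw [cm_Om, cm_Dn]
  simp only [Matrix.mul_sub, Matrix.sub_mul, Matrix.mul_smul, Matrix.smul_mul, mul_one, one_mul,
    Cas_Sz, smul_sub, smul_smul]
  ext σ τ
  simp only [Matrix.sub_apply, Matrix.smul_apply, smul_eq_mul]
  ring

theorem cm_smsp (b : Finset V) : Sg b sm * Sg b sp =
    -cm (Om b) + (((b.card : ℝ) + 1 : ℝ) : ℂ) • cm (Dn b) - cm (Dn b) * cm (Dn b) := by
  have h : Cas b = Sg b sm * Sg b sp + Sg b sz * Sg b sz + Sg b sz := rfl
  rw [cm_Om, cm_Dn, h]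
  simp only [Matrix.mul_sub, Matrix.sub_mul, Matrix.mul_smul, Matrix.smul_mul, mul_one, one_mul,
    smul_sub, smul_smul]
  ext σ τ
  simp only [Matrix.add_apply, Matrix.sub_apply, Matrix.smul_apply, Matrix.neg_apply, smul_eq_mul]
  push_cast
  ring

theorem cm_spsm (b : Finset V) : Sg b sp * Sg b sm =
    -cm (Om b) + (((b.card : ℝ) - 1 : ℝ) : ℂ) • cm (Dn b) - cm (Dn b) * cm (Dn b) +
      ((b.card : ℝ) : ℂ) • (1 : Opr V) := by
  rw [Sp_Sm, cm_smsp]
  have h : Sg b sz = (((b.card : ℝ) / 2 : ℝ) : ℂ) • (1 : Opr V) - cm (Dn b) := by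
    rw [cm_Dn]; abel
  rw [h]
  ext σ τ
  simp only [Matrix.add_apply, Matrix.sub_apply, Matrix.smul_apply, Matrix.neg_apply, smul_eq_mul]
  push_cast
  ring

theorem sp_Dn (b : Finset V) : Sg b sp * cm (Dn b) = (cm (Dn b) + 1) * Sg b sp := by
  rw [cm_Dn]
  have h := Sz_Sp b
  have h' : Sg b sp * Sg b sz = Sg b sz * Sg b sp - Sg b sp := by rw [h]; abel
  simp only [Matrix.mul_sub, Matrix.add_mul, Matrix.sub_mul, Matrix.mul_smul, Matrix.smul_mul,
    mul_one, one_mul, h']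
  abel

theorem sp_aeval (b : Finset V) (Q : Polynomial ℝ) :
    Sg b sp * cm (Polynomial.aeval (Dn b) Q) =
      cm (Polynomial.aeval (Dn b) (Q.comp (Polynomial.X + 1))) * Sg b sp := by
  induction Q using Polynomial.induction_on with
  | C a =>
    rw [Polynomial.C_comp, Polynomial.aeval_C, Algebra.algebraMap_eq_smul_one, cm_smul, cm_one,
      Matrix.mul_smul, Matrix.smul_mul, mul_one, one_mul]
  | add p q hp hq =>
    rw [map_add, cm_add, mul_add, hp, hq, Polynomial.add_comp, map_add, cm_add, add_mul]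
  | monomial n a ih =>
    have e : (Polynomial.C a * Polynomial.X ^ n * Polynomial.X).comp (Polynomial.X + 1) =
        (Polynomial.C a * Polynomial.X ^ n).comp (Polynomial.X + 1) * (Polynomial.X + 1) := by
      rw [Polynomial.mul_comp, Polynomial.X_comp]
    rw [pow_succ, ← mul_assoc, map_mul, Polynomial.aeval_X, cm_mul, ← mul_assoc, ih, mul_assoc,
      sp_Dn, e, map_mul, cm_mul, ← mul_assoc, map_add,
      Polynomial.aeval_X, map_one, cm_add, cm_one]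

/-- The algebraic identity behind uniformity. -/
theorem unif0 {W : Matrix (V → Fin 2) (V → Fin 2) ℝ} {b : Finset V}
    (hcomm : Sg b sp * cm W = cm W * Sg b sp) (P Q : Polynomial ℝ) :
    Matrix.trace (cm W * (cm (Polynomial.aeval (Om b) P) * cm (Polynomial.aeval (Dn b) Q) *
        (Sg b sm * Sg b sp))) =
      Matrix.trace (cm W * (cm (Polynomial.aeval (Om b) P) *
        cm (Polynomial.aeval (Dn b) (Q.comp (Polynomial.X + 1))) * (Sg b sp * Sg b sm))) := by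
  have hP : Sg b sp * cm (Polynomial.aeval (Om b) P) =
      cm (Polynomial.aeval (Om b) P) * Sg b sp := by
    apply comm_cm_aeval
    rw [cm_Om, Matrix.mul_sub, Matrix.sub_mul, Matrix.mul_smul, Matrix.smul_mul, mul_one, one_mul,
      Cas_Sp]
  have hQ := sp_aeval b Q
  set PP := cm (Polynomial.aeval (Om b) P)
  set QQ := cm (Polynomial.aeval (Dn b) Q)
  set Q' := cm (Polynomial.aeval (Dn b) (Q.comp (Polynomial.X + 1)))
  set S := Sg b sp
  set T := Sg b sm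
  have e1 : cm W * (PP * QQ * (T * S)) = (cm W * PP * QQ * T) * S := by noncomm_ring
  rw [e1, Matrix.trace_mul_comm]
  congr 1
  calc S * (cm W * PP * QQ * T) = (S * cm W) * PP * QQ * T := by noncomm_ring
    _ = cm W * (S * PP) * QQ * T := by rw [hcomm]; noncomm_ring
    _ = cm W * PP * (S * QQ) * T := by rw [hP]; noncomm_ring
    _ = cm W * (PP * Q' * (S * T)) := by rw [hQ]; noncomm_ring

section law

variable {ι : Type} [Fintype ι] {μ : ι → ℝ} {N r p : ι → ℕ} {b : Finset V}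
  {W : Matrix (V → Fin 2) (V → Fin 2) ℝ}

/-- Uniformity in the form of moments. -/
theorem unif1 (hN : ∀ i, N i + 2 * r i = b.card)
    (h : ∀ P Q : Polynomial ℝ, ∑ i, μ i * (P.eval ((r i : ℝ) * ((b.card : ℝ) - r i + 1)) *
      Q.eval ((r i : ℝ) + p i)) =
        Matrix.trace (W * (Polynomial.aeval (Om b) P * Polynomial.aeval (Dn b) Q)))
    (hcomm : Sg b sp * cm W = cm W * Sg b sp) (P Q : Polynomial ℝ) :
    ∑ i, μ i * (P.eval ((r i : ℝ) * ((b.card : ℝ) - r i + 1)) * Q.eval ((r i : ℝ) + p i) *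
        ((p i : ℝ) * ((N i : ℝ) - p i + 1))) =
      ∑ i, μ i * (P.eval ((r i : ℝ) * ((b.card : ℝ) - r i + 1)) * Q.eval ((r i : ℝ) + p i + 1) *
        (((N i : ℝ) - p i) * (p i + 1))) := by
  have h0 := unif0 hcomm P Q
  have hOm : ∀ Q : Polynomial ℝ, cm (Polynomial.aeval (Dn b) Q) * cm (Om b) =
      cm (Om b) * cm (Polynomial.aeval (Dn b) Q) := fun Q =>
    (comm_cm_aeval (cm_Om_comm_Dn b) Q).symm
  -- both sides as traces
  have key : ∀ (Q : Polynomial ℝ) (c d : ℝ), Matrix.trace (cm W *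
      (cm (Polynomial.aeval (Om b) P) * cm (Polynomial.aeval (Dn b) Q) *
        (-cm (Om b) + ((c : ℝ) : ℂ) • cm (Dn b) - cm (Dn b) * cm (Dn b) +
          ((d : ℝ) : ℂ) • (1 : Opr V)))) =
      ((∑ i, μ i * (P.eval ((r i : ℝ) * ((b.card : ℝ) - r i + 1)) * Q.eval ((r i : ℝ) + p i) *
        (-((r i : ℝ) * ((b.card : ℝ) - r i + 1)) + c * ((r i : ℝ) + p i) -
          ((r i : ℝ) + p i) ^ 2 + d)) : ℝ) : ℂ) := by
    intro Q c d
    have e1 : cm W * (cm (Polynomial.aeval (Om b) P) * cm (Polynomial.aeval (Dn b) Q) *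
        (-cm (Om b) + ((c : ℝ) : ℂ) • cm (Dn b) - cm (Dn b) * cm (Dn b) +
          ((d : ℝ) : ℂ) • (1 : Opr V))) =
        cm (W * (-(Polynomial.aeval (Om b) (P * Polynomial.X) * Polynomial.aeval (Dn b) Q) +
          c • (Polynomial.aeval (Om b) P * Polynomial.aeval (Dn b) (Q * Polynomial.X)) -
          Polynomial.aeval (Om b) P * Polynomial.aeval (Dn b) (Q * Polynomial.X ^ 2) +
          d • (Polynomial.aeval (Om b) P * Polynomial.aeval (Dn b) Q))) := by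
      have hneg : ∀ A : Matrix (V → Fin 2) (V → Fin 2) ℝ, cm (-A) = -cm A := by
        intro A; ext σ τ; simp [cm]
      rw [cm_mul]
      congr 1
      simp only [map_mul, Polynomial.aeval_X, map_pow, pow_two, cm_add, cm_sub, hneg, cm_smul,
        cm_mul, mul_add, mul_sub, mul_neg, Matrix.mul_smul, mul_one]
      have := hOm Q
      simp only [mul_assoc] at this ⊢
      rw [this]
    rw [e1, cm_trace]
    congr 1
    simp only [Matrix.mul_add, Matrix.mul_sub, Matrix.mul_neg, Matrix.mul_smul, Matrix.trace_add,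
      Matrix.trace_sub, Matrix.trace_neg, Matrix.trace_smul, ← h, smul_eq_mul]
    rw [← Finset.sum_neg_distrib, Finset.mul_sum, Finset.mul_sum, ← Finset.sum_add_distrib,
      ← Finset.sum_sub_distrib, ← Finset.sum_add_distrib]
    refine Finset.sum_congr rfl fun i _ => ?_
    simp only [Polynomial.eval_mul, Polynomial.eval_X, Polynomial.eval_pow]
    ring
  have k1 := key Q ((b.card : ℝ) + 1) 0
  have k2 := key (Q.comp (Polynomial.X + 1)) ((b.card : ℝ) - 1) (b.card : ℝ)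
  rw [← cm_spsm] at k2
  rw [Complex.ofReal_zero, zero_smul, add_zero, ← cm_smsp] at k1
  rw [k1, k2] at h0
  have h1 := Complex.ofReal_injective h0
  have hb : ∀ i, (b.card : ℝ) = N i + 2 * r i := fun i => by
    rw [← hN i]; push_cast; ring
  calc _ = _ := by
        refine Finset.sum_congr rfl fun i _ => ?_
        congr 2
        rw [hb i]; ring
    _ = _ := h1
    _ = _ := by
        refine Finset.sum_congr rfl fun i _ => ?_
        rw [Polynomial.eval_comp]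
        simp only [Polynomial.eval_add, Polynomial.eval_X, Polynomial.eval_one]
        congr 2
        rw [hb i]; ring

/-- Lagrange interpolation at the integers. -/
theorem exists_polyD (n : ℕ) (g : ℕ → ℝ) :
    ∃ P : Polynomial ℝ, ∀ q : ℕ, q ≤ n → P.eval (q : ℝ) = g q := by
  classical
  refine ⟨Lagrange.interpolate (Finset.range (n + 1)) (fun q : ℕ => (q : ℝ)) g, fun q hq => ?_⟩
  exact Lagrange.eval_interpolate_at_node g (fun a _ b _ h => Nat.cast_injective h)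
    (Finset.mem_range.2 (by omega))

/-- The weight of `(r, p)`. -/
noncomputable def nu (μ : ι → ℝ) (r p : ι → ℕ) (a c : ℕ) : ℝ :=
  ∑ i, μ i * if r i = a ∧ p i = c then 1 else 0

theorem nu_step (hN : ∀ i, N i + 2 * r i = b.card) (hp : ∀ i, p i ≤ N i)
    (h : ∀ P Q : Polynomial ℝ, ∑ i, μ i * (P.eval ((r i : ℝ) * ((b.card : ℝ) - r i + 1)) *
      Q.eval ((r i : ℝ) + p i)) =
        Matrix.trace (W * (Polynomial.aeval (Om b) P * Polynomial.aeval (Dn b) Q)))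
    (hcomm : Sg b sp * cm W = cm W * Sg b sp) {a c : ℕ} (hac : 2 * a + c + 1 ≤ b.card) :
    nu μ r p a (c + 1) = nu μ r p a c := by
  obtain ⟨P, hP⟩ := exists_poly b.card (fun x => if x = a then 1 else 0)
  obtain ⟨Q, hQ⟩ := exists_polyD (b.card + 1) (fun x => if x = a + c + 1 then 1 else 0)
  have h1 := unif1 hN h hcomm P Q
  have hP' : ∀ i, P.eval ((r i : ℝ) * ((b.card : ℝ) - r i + 1)) = if r i = a then 1 else 0 :=
    fun i => hP (r i) (by have := hN i; omega)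
  have hQ' : ∀ i, Q.eval ((r i : ℝ) + p i) = if r i + p i = a + c + 1 then 1 else 0 := by
    intro i
    rw [← Nat.cast_add]
    exact hQ _ (by have := hN i; have := hp i; omega)
  have hQ'' : ∀ i, Q.eval ((r i : ℝ) + p i + 1) = if r i + p i + 1 = a + c + 1 then 1 else 0 := by
    intro i
    have : ((r i : ℝ) + p i + 1) = ((r i + p i + 1 : ℕ) : ℝ) := by push_cast; ring
    rw [this]
    exact hQ _ (by have := hN i; have := hp i; omega)
  simp only [hP', hQ', hQ''] at h1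
  have hac' : (0 : ℝ) < ((b.card : ℝ) - 2 * a - c) * (c + 1) := by
    have : ((2 * a + c + 1 : ℕ) : ℝ) ≤ b.card := by exact_mod_cast hac
    push_cast at this
    have h2 : 0 < (b.card : ℝ) - 2 * a - c := by linarith
    positivity
  have e1 : ∀ i, μ i * ((if r i = a then (1 : ℝ) else 0) *
      (if r i + p i = a + c + 1 then 1 else 0) * ((p i : ℝ) * ((N i : ℝ) - p i + 1))) =
      (((b.card : ℝ) - 2 * a - c) * (c + 1)) *
        (μ i * if r i = a ∧ p i = c + 1 then 1 else 0) := by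
    intro i
    by_cases h2 : r i = a
    · by_cases h3 : p i = c + 1
      · have h4 : (N i : ℝ) = b.card - 2 * a := by
          have := hN i; rw [h2] at this
          rw [← this]; push_cast; ring
        rw [if_pos h2, if_pos (by omega), if_pos ⟨h2, h3⟩, h3, h4]
        push_cast
        ring
      · rw [if_neg (show ¬ (r i + p i = a + c + 1) by omega),
          if_neg (show ¬ (r i = a ∧ p i = c + 1) from fun h => h3 h.2)]
        simp
    · rw [if_neg h2, if_neg (show ¬ (r i = a ∧ p i = c + 1) from fun h => h2 h.1)]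
      simp
  have e2 : ∀ i, μ i * ((if r i = a then (1 : ℝ) else 0) *
      (if r i + p i + 1 = a + c + 1 then 1 else 0) * (((N i : ℝ) - p i) * ((p i : ℝ) + 1))) =
      (((b.card : ℝ) - 2 * a - c) * (c + 1)) *
        (μ i * if r i = a ∧ p i = c then 1 else 0) := by
    intro i
    by_cases h2 : r i = a
    · by_cases h3 : p i = c
      · have h4 : (N i : ℝ) = b.card - 2 * a := by
          have := hN i; rw [h2] at this
          rw [← this]; push_cast; ring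
        rw [if_pos h2, if_pos (by omega), if_pos ⟨h2, h3⟩, h3, h4]
        ring
      · rw [if_neg (show ¬ (r i + p i + 1 = a + c + 1) by omega),
          if_neg (show ¬ (r i = a ∧ p i = c) from fun h => h3 h.2)]
        simp
    · rw [if_neg h2, if_neg (show ¬ (r i = a ∧ p i = c) from fun h => h2 h.1)]
      simp
  simp only [e1, e2, ← Finset.mul_sum] at h1
  exact mul_left_cancel₀ hac'.ne' h1

theorem nu_eq (hN : ∀ i, N i + 2 * r i = b.card) (hp : ∀ i, p i ≤ N i)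
    (h : ∀ P Q : Polynomial ℝ, ∑ i, μ i * (P.eval ((r i : ℝ) * ((b.card : ℝ) - r i + 1)) *
      Q.eval ((r i : ℝ) + p i)) =
        Matrix.trace (W * (Polynomial.aeval (Om b) P * Polynomial.aeval (Dn b) Q)))
    (hcomm : Sg b sp * cm W = cm W * Sg b sp) {a c : ℕ} (hac : 2 * a + c ≤ b.card) :
    nu μ r p a c = nu μ r p a 0 := by
  induction c with
  | zero => rfl
  | succ c ih => rw [nu_step hN hp h hcomm (by omega), ih (by omega)]

theorem nu_nonneg (hμ : ∀ i, 0 ≤ μ i) (a c : ℕ) : 0 ≤ nu μ r p a c :=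
  Finset.sum_nonneg fun i _ => mul_nonneg (hμ i) (by split_ifs <;> norm_num)

/-- `E[g(r)] ≤ (|b| + 1) E[g(r); p = 0]`. -/
theorem law_le (hμ : ∀ i, 0 ≤ μ i) (hN : ∀ i, N i + 2 * r i = b.card) (hp : ∀ i, p i ≤ N i)
    (h : ∀ P Q : Polynomial ℝ, ∑ i, μ i * (P.eval ((r i : ℝ) * ((b.card : ℝ) - r i + 1)) *
      Q.eval ((r i : ℝ) + p i)) =
        Matrix.trace (W * (Polynomial.aeval (Om b) P * Polynomial.aeval (Dn b) Q)))
    (hcomm : Sg b sp * cm W = cm W * Sg b sp) {g : ℕ → ℝ} (hg : ∀ x, 2 * x ≤ b.card → 0 ≤ g x) :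
    ∑ i, μ i * g (r i) ≤ ((b.card : ℝ) + 1) * ∑ i, μ i * (if p i = 0 then g (r i) else 0) := by
  classical
  -- the sum over `p i = c`
  have e0 : ∀ c : ℕ, ∑ i, μ i * (if p i = c then g (r i) else 0) =
      ∑ a ∈ Finset.range (b.card + 1), nu μ r p a c * g a := by
    intro c
    simp only [nu, Finset.sum_mul]
    rw [Finset.sum_comm]
    refine Finset.sum_congr rfl fun i _ => ?_
    rw [Finset.sum_eq_single (r i)]
    · by_cases h1 : p i = c
      · simp [h1]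
      · simp [h1]
    · intro a _ ha
      rw [if_neg (fun h => ha h.1.symm)]
      simp
    · intro h1
      exact absurd (Finset.mem_range.2 (by have := hN i; omega)) h1
  have e1 : ∀ c : ℕ, ∑ i, μ i * (if p i = c then g (r i) else 0) ≤
      ∑ i, μ i * (if p i = 0 then g (r i) else 0) := by
    intro c
    rw [e0, e0]
    refine Finset.sum_le_sum fun a _ => ?_
    by_cases h1 : 2 * a ≤ b.card
    · by_cases h2 : 2 * a + c ≤ b.card
      · rw [nu_eq hN hp h hcomm h2]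
      · have : nu μ r p a c = 0 := by
          refine Finset.sum_eq_zero fun i _ => ?_
          rw [if_neg, mul_zero]
          rintro ⟨h3, h4⟩
          have := hN i
          have := hp i
          omega
        rw [this, zero_mul]
        exact mul_nonneg (nu_nonneg hμ _ _) (hg a h1)
    · have : ∀ c, nu μ r p a c = 0 := by
        intro c
        refine Finset.sum_eq_zero fun i _ => ?_
        rw [if_neg, mul_zero]
        rintro ⟨h3, h4⟩
        have := hN i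
        omega
      rw [this, this]
  calc ∑ i, μ i * g (r i) =
        ∑ c ∈ Finset.range (b.card + 1), ∑ i, μ i * (if p i = c then g (r i) else 0) := by
        rw [Finset.sum_comm]
        refine Finset.sum_congr rfl fun i _ => ?_
        rw [← Finset.mul_sum, Finset.sum_ite_eq, if_pos]
        exact Finset.mem_range.2 (by have := hN i; have := hp i; omega)
    _ ≤ ∑ c ∈ Finset.range (b.card + 1), ∑ i, μ i * (if p i = 0 then g (r i) else 0) :=
        Finset.sum_le_sum fun c _ => e1 c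
    _ = _ := by
        rw [Finset.sum_const, Finset.card_range, nsmul_eq_mul]
        push_cast
        ring

end law

end Vale.Agent.P361.LRO.TwJ
end

section

/-!
P361, stage 3, lower tail: traces of functions of the block spin against the magnon number
(`J_max - J` against `J_max - S³`), free region.
-/

namespace Vale.Agent.P361.LRO.S3

open Matrix Finset
open Vale.Agent.P361.LRO.TwJ

set_option linter.all false

noncomputable section

variable {V : Type} [Fintype V] [DecidableEq V]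

theorem swap_comm_Sg (x y : V) (A : M2) :
    cm (swapM x y) * Sg univ A = Sg univ A * cm (swapM x y) := by
  have hinv : ∀ σ τ : V → Fin 2, σ = τ ∘ Equiv.swap x y ↔ τ = σ ∘ Equiv.swap x y := by
    intro σ τ
    constructor
    · intro h; rw [h]; ext1 z; simp
    · intro h; rw [h]; ext1 z; simp
  ext σ τ
  have h1 : (cm (swapM x y) * Sg univ A : Opr V) σ τ = Sg univ A (σ ∘ Equiv.swap x y) τ := by
    rw [Matrix.mul_apply, Finset.sum_eq_single (σ ∘ Equiv.swap x y)]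
    · rw [cm, Matrix.of_apply, swapM, Matrix.of_apply, if_pos ((hinv _ _).2 rfl)]; simp
    · intro ρ _ hρ
      rw [cm, Matrix.of_apply, swapM, Matrix.of_apply, if_neg (fun h => hρ ((hinv _ _).1 h))]; simp
    · intro h; exact absurd (Finset.mem_univ _) h
  have h2 : (Sg univ A * cm (swapM x y) : Opr V) σ τ = Sg univ A σ (τ ∘ Equiv.swap x y) := by
    rw [Matrix.mul_apply, Finset.sum_eq_single (τ ∘ Equiv.swap x y)]
    · rw [cm, Matrix.of_apply, swapM, Matrix.of_apply, if_pos rfl]; simp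
    · intro ρ _ hρ
      rw [cm, Matrix.of_apply, swapM, Matrix.of_apply, if_neg hρ]; simp
    · intro h; exact absurd (Finset.mem_univ _) h
  rw [h1, h2, Sg, Matrix.sum_apply, Matrix.sum_apply]
  refine Finset.sum_equiv (Equiv.swap x y) (fun _ => by simp) fun z _ => ?_
  rw [st_apply, st_apply]
  simp only [Function.comp_apply, Equiv.swap_apply_self]
  congr 1
  have key : (∀ u, u ≠ z → σ (Equiv.swap x y u) = τ u) ↔
      (∀ u, u ≠ Equiv.swap x y z → σ u = τ (Equiv.swap x y u)) := by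
    constructor
    · intro h u hu
      have := h (Equiv.swap x y u) (fun h' => hu (by rw [← h', Equiv.swap_apply_self]))
      rwa [Equiv.swap_apply_self] at this
    · intro h u hu
      have := h (Equiv.swap x y u) (fun h' => hu ((Equiv.swap x y).injective h'))
      rwa [Equiv.swap_apply_self] at this
  simp only [key]

theorem hM_comm_Sg (x y : V) (A : M2) : cm (hM x y) * Sg univ A = Sg univ A * cm (hM x y) := by
  rw [hM, cm_smul, cm_sub, cm_one, Matrix.smul_mul, Matrix.mul_smul, Matrix.sub_mul,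
    Matrix.mul_sub, one_mul, mul_one, swap_comm_Sg]

theorem ham_comm_Sg (L : List (V × V)) (A : M2) :
    cm (ham L 0) * Sg univ A = Sg univ A * cm (ham L 0) := by
  have e : ham L (0 : V → ℝ) = (L.map fun e => hM e.1 e.2).sum := by
    rw [ham]; simp
  rw [e]
  induction L with
  | nil =>
    have : cm (0 : Matrix (V → Fin 2) (V → Fin 2) ℝ) = 0 := by
      ext σ τ; simp [cm]
    simp [this]
  | cons a L ih =>
    have ih' := ih (by rw [ham]; simp)
    rw [List.map_cons, List.sum_cons, cm_add, add_mul, mul_add, ih', hM_comm_Sg]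

theorem cm_inj {A B : Matrix (V → Fin 2) (V → Fin 2) ℝ} (h : cm A = cm B) : A = B := by
  ext σ τ
  have := congrFun (congrFun h σ) τ
  rw [cm, cm, Matrix.of_apply, Matrix.of_apply] at this
  exact_mod_cast this

theorem ham_comm_Om (L : List (V × V)) : Commute (ham L 0) (Om (univ : Finset V)) := by
  apply cm_inj
  rw [cm_mul, cm_mul, cm_Om, Matrix.mul_sub, Matrix.sub_mul, Matrix.mul_smul, Matrix.smul_mul,
    one_mul, mul_one]
  congr 1
  have h1 := ham_comm_Sg L sm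
  have h2 := ham_comm_Sg L sp
  have h3 := ham_comm_Sg L sz
  rw [Cas, mul_add, mul_add, add_mul, add_mul, h3, ← mul_assoc, h1, mul_assoc, h2, ← mul_assoc,
    ← mul_assoc, h3, mul_assoc (Sg univ sz), h3, ← mul_assoc]

theorem ham_comm_Dn (L : List (V × V)) : Commute (ham L 0) (Dn (univ : Finset V)) := by
  apply cm_inj
  rw [cm_mul, cm_mul, cm_Dn, Matrix.mul_sub, Matrix.sub_mul, Matrix.mul_smul, Matrix.smul_mul,
    one_mul, mul_one, ham_comm_Sg]

theorem commute_aeval {A B : Matrix (V → Fin 2) (V → Fin 2) ℝ} (h : Commute A B)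
    (P : Polynomial ℝ) : Commute A (Polynomial.aeval B P) := by
  induction P using Polynomial.induction_on with
  | C a =>
    rw [Polynomial.aeval_C]
    exact Algebra.commute_algebraMap_right a A
  | add p q hp hq => rw [map_add]; exact hp.add_right hq
  | monomial n a ih =>
    rw [pow_succ, ← mul_assoc, map_mul, Polynomial.aeval_X]
    exact ih.mul_right h

theorem sp_comm_expH (L : List (V × V)) (β : ℝ) :
    Sg univ sp * cm (NormedSpace.exp (-β • ham L 0)) =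
      cm (NormedSpace.exp (-β • ham L 0)) * Sg univ sp := by
  rw [cm_exp]
  have h : Commute (Sg (univ : Finset V) sp) (cm (-β • ham L 0)) := by
    rw [cm_smul]
    exact Commute.smul_right (ham_comm_Sg L sp).symm _
  open scoped Matrix.Norms.Operator in
  exact h.exp_right

/-- **Comparison of the total spin with the magnon number**, real form. -/
theorem lt0_real (L : List (V × V)) (β : ℝ) {τ1 τ2 c1 c2 : ℝ} (hτ1 : 0 ≤ τ1) (hτ2 : 0 ≤ τ2)
    (hc1 : 0 ≤ c1) (hc2 : 0 ≤ c2) (G : Polynomial ℝ)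
    (hG : ∀ r : ℕ, 2 * r ≤ Fintype.card V →
      Real.exp (G.eval ((r : ℝ) * ((Fintype.card V : ℝ) - r + 1))) ≤
        c1 * Real.exp (-(τ1 * r)) + c2 * Real.exp (-(τ2 * r))) :
    trace (NormedSpace.exp (-β • ham L 0 + Polynomial.aeval (Om (univ : Finset V)) G)) ≤
      ((Fintype.card V : ℝ) + 1) *
        (c1 * trace (NormedSpace.exp (-β • ham L 0 - τ1 • Dn (univ : Finset V))) +
          c2 * trace (NormedSpace.exp (-β • ham L 0 - τ2 • Dn (univ : Finset V)))) := by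
  have hsym : ∀ σ τ : V → Fin 2, NormedSpace.exp (-β • ham L 0) σ τ ≠ 0 →
      ∑ x, ((σ x : ℕ) : ℤ) = ∑ x, ((τ x : ℕ) : ℤ) := by
    intro σ τ h
    have h1 := Tw.expH_cons L β 0 σ τ h
    unfold Tw.dn at h1
    exact_mod_cast h1
  obtain ⟨ι, hι, μ, N, r, p, hμ, hN, h, -, -⟩ :=
    joint_law_poly (Tw.expH_psd L β 0) hsym (univ : Finset V)
  rw [Finset.card_univ] at hN
  have hcard : (univ : Finset V).card = Fintype.card V := Finset.card_univ
  -- left side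
  have e1 : trace (NormedSpace.exp (-β • ham L 0 + Polynomial.aeval (Om (univ : Finset V)) G)) =
      ∑ i, μ i * Real.exp (G.eval ((r i : ℝ) * ((Fintype.card V : ℝ) - r i + 1))) := by
    have hc : Commute (-β • ham L 0) (Polynomial.aeval (Om (univ : Finset V)) G) :=
      (commute_aeval (ham_comm_Om L) G).smul_left _
    have h1 := law_exp h G 1
    simp only [Polynomial.eval_one, mul_one, map_one, hcard] at h1
    rw [h1]
    congr 1
    open scoped Matrix.Norms.Operator in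
    exact NormedSpace.exp_add_of_commute hc
  have e2 : ∀ τ : ℝ, trace (NormedSpace.exp (-β • ham L 0 - τ • Dn (univ : Finset V))) =
      ∑ i, μ i * Real.exp (-(τ * ((r i : ℝ) + p i))) := by
    intro τ
    have hc : Commute (-β • ham L 0) (-τ • Dn (univ : Finset V)) :=
      ((ham_comm_Dn L).smul_left _).smul_right _
    have h1 := law_exp2 h 0 (Polynomial.C (-τ) * Polynomial.X)
    simp only [Polynomial.eval_zero, Real.exp_zero, one_mul, Polynomial.eval_mul,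
      Polynomial.eval_C, Polynomial.eval_X, map_zero, NormedSpace.exp_zero, map_mul,
      Polynomial.aeval_C, Polynomial.aeval_X, Algebra.algebraMap_eq_smul_one, Matrix.smul_mul,
      neg_mul] at h1
    rw [h1]
    congr 1
    rw [sub_eq_add_neg, ← neg_smul]
    open scoped Matrix.Norms.Operator in
    exact NormedSpace.exp_add_of_commute hc
  have e3 : ∀ τ : ℝ, 0 ≤ τ → ∑ i, μ i * Real.exp (-(τ * r i)) ≤
      ((Fintype.card V : ℝ) + 1) *
        trace (NormedSpace.exp (-β • ham L 0 - τ • Dn (univ : Finset V))) := by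
    intro τ hτ
    have h1 := law_le hμ (fun i => by rw [hcard]; exact (hN i).1) (fun i => (hN i).2) h
      (sp_comm_expH L β) (g := fun r : ℕ => Real.exp (-(τ * r))) (fun _ _ => (Real.exp_pos _).le)
    rw [hcard] at h1
    refine h1.trans (mul_le_mul_of_nonneg_left ?_ (by positivity))
    rw [e2]
    refine Finset.sum_le_sum fun i _ => mul_le_mul_of_nonneg_left ?_ (hμ i)
    split_ifs with hp
    · rw [hp]; simp
    · exact (Real.exp_pos _).le
  rw [e1]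
  calc ∑ i, μ i * Real.exp (G.eval ((r i : ℝ) * ((Fintype.card V : ℝ) - r i + 1))) ≤
        ∑ i, μ i * (c1 * Real.exp (-(τ1 * r i)) + c2 * Real.exp (-(τ2 * r i))) :=
        Finset.sum_le_sum fun i _ => mul_le_mul_of_nonneg_left
          (hG (r i) (by have := (hN i).1; omega)) (hμ i)
    _ = c1 * ∑ i, μ i * Real.exp (-(τ1 * r i)) + c2 * ∑ i, μ i * Real.exp (-(τ2 * r i)) := by
        rw [Finset.mul_sum, Finset.mul_sum, ← Finset.sum_add_distrib]
        exact Finset.sum_congr rfl fun i _ => by ring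
    _ ≤ c1 * (((Fintype.card V : ℝ) + 1) *
          trace (NormedSpace.exp (-β • ham L 0 - τ1 • Dn (univ : Finset V)))) +
        c2 * (((Fintype.card V : ℝ) + 1) *
          trace (NormedSpace.exp (-β • ham L 0 - τ2 • Dn (univ : Finset V)))) :=
        add_le_add (mul_le_mul_of_nonneg_left (e3 τ1 hτ1) hc1)
          (mul_le_mul_of_nonneg_left (e3 τ2 hτ2) hc2)
    _ = _ := by ring

theorem cM_zero : cm (0 : Matrix (V → Fin 2) (V → Fin 2) ℝ) = 0 := by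
  ext σ τ; simp [cm]

theorem cm_aeval (A : Matrix (V → Fin 2) (V → Fin 2) ℝ) (G : Polynomial ℝ) :
    cm (Polynomial.aeval A G) = Polynomial.aeval (cm A) (G.map (algebraMap ℝ ℂ)) := by
  induction G using Polynomial.induction_on with
  | C a =>
    rw [Polynomial.aeval_C, Algebra.algebraMap_eq_smul_one, cm_smul, cm_one, Polynomial.map_C,
      Polynomial.aeval_C, Algebra.algebraMap_eq_smul_one]
    rfl
  | add p q hp hq => rw [map_add, cm_add, hp, hq, Polynomial.map_add, map_add]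
  | monomial n a ih =>
    have e : Polynomial.map (algebraMap ℝ ℂ) (Polynomial.C a * Polynomial.X ^ n * Polynomial.X) =
        Polynomial.map (algebraMap ℝ ℂ) (Polynomial.C a * Polynomial.X ^ n) * Polynomial.X := by
      rw [Polynomial.map_mul, Polynomial.map_X]
    rw [pow_succ, ← mul_assoc, map_mul, Polynomial.aeval_X, cm_mul, ih, e, map_mul,
      Polynomial.aeval_X]

theorem casX_one (Λ : Finset Site) :
    (B.casX 1 Λ : Matrix (Λ → Fin 2) (Λ → Fin 2) ℂ) = cm (CM (univ : Finset Λ)) := by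
  have h0 : cm (CM (univ : Finset Λ)) = ∑ x : Λ, ∑ y : Λ, cm (hM x y) := by
    rw [CM, cm_sum]
    exact Finset.sum_congr rfl fun x _ => cm_sum _ _
  rw [h0, B.casX]
  refine Finset.sum_congr rfl fun x _ => Finset.sum_congr rfl fun y _ => ?_
  by_cases h : x = y
  · subst h
    rw [if_pos rfl, Vale.Agent.P361.LRO.TwJ.hM_self]
  · rw [if_neg h, ← Fp_ne h, ← dotOp_one h]
    congr 2
    norm_num

/-- **(T0)** the same in the free region `Λ ⊂ ℤ³`, with the partition functions `Zt`. -/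
theorem lt0_cm (Λ : Finset Site) (β : ℝ) {τ1 τ2 c1 c2 : ℝ} (hτ1 : 0 ≤ τ1) (hτ2 : 0 ≤ τ2)
    (hc1 : 0 ≤ c1) (hc2 : 0 ≤ c2) (G : Polynomial ℝ)
    (hG : ∀ r : ℕ, 2 * r ≤ Λ.card → Real.exp (G.eval ((r : ℝ) * ((Λ.card : ℝ) - r + 1))) ≤
      c1 * Real.exp (-(τ1 * r)) + c2 * Real.exp (-(τ2 * r))) :
    (trace (NormedSpace.exp (-((β : ℂ) • B.hT 1 Λ) +
      cm (Polynomial.aeval (CM (univ : Finset Λ)) G)))).re ≤
      ((Λ.card : ℝ) + 1) * (c1 * B.Zt 1 Λ β τ1 + c2 * B.Zt 1 Λ β τ2) := by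
  have hc : Fintype.card Λ = Λ.card := Fintype.card_coe Λ
  have h := lt0_real (V := Λ) (nnL Λ) (β / 2) hτ1 hτ2 hc1 hc2 G (by rw [hc]; exact hG)
  rw [hc] at h
  rw [free_trace, Zt_one, Zt_one]
  exact h

/-- **(T0)** with the landed operator `casX`. -/
theorem lt0 (Λ : Finset Site) (β : ℝ) {τ1 τ2 c1 c2 : ℝ} (hτ1 : 0 ≤ τ1) (hτ2 : 0 ≤ τ2)
    (hc1 : 0 ≤ c1) (hc2 : 0 ≤ c2) (G : Polynomial ℝ)
    (hG : ∀ r : ℕ, 2 * r ≤ Λ.card → Real.exp (G.eval ((r : ℝ) * ((Λ.card : ℝ) - r + 1))) ≤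
      c1 * Real.exp (-(τ1 * r)) + c2 * Real.exp (-(τ2 * r))) :
    (trace (NormedSpace.exp (-((β : ℂ) • B.hT 1 Λ) +
      Polynomial.aeval (B.casX 1 Λ) (G.map (algebraMap ℝ ℂ))))).re ≤
      ((Λ.card : ℝ) + 1) * (c1 * B.Zt 1 Λ β τ1 + c2 * B.Zt 1 Λ β τ2) := by
  have h := lt0_cm Λ β hτ1 hτ2 hc1 hc2 G hG
  rw [cm_aeval, ← casX_one] at h
  exact h

end

end Vale.Agent.P361.LRO.S3
end

section

/-!
P361, stage 3, block (T): `tailStmt3`.
-/

namespace Vale.Agent.P361.LRO.S3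

open Finset Matrix Filter Topology
open Vale.Agent.P361.LRO.S3T

theorem cardB (w : ℕ) : (B.cube w).card = w ^ 3 := by
  unfold B.cube
  rw [Fintype.card_piFinset]
  simp

theorem lt01Stmt : LT01Stmt := by
  intro β h hβ hh w hw ε hε
  obtain ⟨n0, hn0⟩ := lt1 hβ hh.le hw hε
  refine ⟨n0, fun n _ hn hodd x G τ1 τ2 c1 c2 hτ1 hτ2 hc1 hc2 hG => ?_⟩
  have h1 := hn0 n hn hodd x G
  have h2 := lt0 (B.cube w) β hτ1.le hτ2.le hc1 hc2 G (by
    rw [cardB]
    intro r hr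
    have := hG r hr
    push_cast
    exact this)
  rw [cardB] at h2
  push_cast at h2
  refine h1.trans ?_
  have hT : (B.hT 1 (B.cube w)).IsHermitian := B.hT_isHermitian
  have hH : (-((β : ℂ) • B.hT 1 (B.cube w)) +
      Polynomial.aeval (B.casX 1 (B.cube w)) (G.map (algebraMap ℝ ℂ))).IsHermitian := by
    refine Matrix.IsHermitian.add (Matrix.IsHermitian.neg ?_)
      (LT1.aeval_isHermitian (LT1.casX_isHermitian' w) G)
    rw [Matrix.IsHermitian, Matrix.conjTranspose_smul, hT]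
    simp
  have h3 := Real.log_le_log (trace_exp_pos hH) h2
  linarith

theorem tailStmt3 (hB : BootStmt3) : TailStmt3 :=
  tailStmt3_of lt01Stmt (fun d hd hd1 τ ε hτ hε => lt2 d hd hd1 τ hτ ε hε) hB

end Vale.Agent.P361.LRO.S3
end

section

/-!
# P361 LRO, stage 3, network chapter: one rung of the ladder
-/

namespace Vale.Agent.P361.LRO.Ind3

open Finset Vale.Agent.P361.LRO _root_.P361.LRO Vale.Agent.P361.LRO.Ind

private theorem lm3_num_a {C X κ μ : ℝ} (hC : 0 < C) (hX1 : 1 ≤ X) (hκ : 1 ≤ κ) (hμ : 1 ≤ μ) :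
    C * (X ^ (4 / 9 : ℝ) / (1 + C)) ≤ κ * X ∧
    C * (X ^ (4 / 9 : ℝ) / (1 + C)) ≤ X ^ (4 / 3 : ℝ) ∧
    C * (X ^ (4 / 9 : ℝ) / (1 + C)) ^ 3 ≤ X ^ (4 / 3 : ℝ) * μ ^ 2 := by
  have hX0 : 0 < X := by linarith
  have hC1 : C / (1 + C) ≤ 1 := by rw [div_le_one (by positivity)]; linarith
  have hC0 : 0 ≤ C / (1 + C) := by positivity
  have hmain : C * (X ^ (4 / 9 : ℝ) / (1 + C)) ≤ X ^ (4 / 9 : ℝ) := by
    calc C * (X ^ (4 / 9 : ℝ) / (1 + C)) = C / (1 + C) * X ^ (4 / 9 : ℝ) := by ring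
      _ ≤ 1 * X ^ (4 / 9 : ℝ) := mul_le_mul_of_nonneg_right hC1 (by positivity)
      _ = _ := one_mul _
  refine ⟨?_, ?_, ?_⟩
  · have h1 : X ^ (4 / 9 : ℝ) ≤ X := by
      conv_rhs => rw [← Real.rpow_one X]
      exact Real.rpow_le_rpow_of_exponent_le hX1 (by norm_num)
    nlinarith
  · exact hmain.trans (Real.rpow_le_rpow_of_exponent_le hX1 (by norm_num))
  · have h6 : (X ^ (4 / 9 : ℝ)) ^ 3 = X ^ (4 / 3 : ℝ) := by
      rw [← Real.rpow_natCast, ← Real.rpow_mul hX0.le]; norm_num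
    have h7 : C / (1 + C) ^ 3 ≤ 1 := by
      rw [div_le_one (by positivity)]
      nlinarith [sq_nonneg C, pow_pos hC 3]
    have h8 : 1 ≤ μ ^ 2 := one_le_pow₀ hμ
    calc C * (X ^ (4 / 9 : ℝ) / (1 + C)) ^ 3
        = C / (1 + C) ^ 3 * (X ^ (4 / 9 : ℝ)) ^ 3 := by
          rw [div_pow]; field_simp
      _ = C / (1 + C) ^ 3 * X ^ (4 / 3 : ℝ) := by rw [h6]
      _ ≤ 1 * X ^ (4 / 3 : ℝ) := mul_le_mul_of_nonneg_right h7 (by positivity)
      _ = X ^ (4 / 3 : ℝ) * 1 := by ring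
      _ ≤ X ^ (4 / 3 : ℝ) * μ ^ 2 := mul_le_mul_of_nonneg_left h8 (by positivity)

private theorem lm3_num_b {C X lam ε : ℝ} (hC : 0 < C) (hX8 : 8 ≤ X)
    (hXC : 2 * (1 + C) ≤ X ^ (1 / 20 : ℝ)) (hlam0 : 0 < lam)
    (h2l : 2 / lam ≤ X ^ 4) (hε : 0 ≤ ε) (hε1 : ε ≤ 1 / 1000) :
    X ^ (1 / 3 : ℝ) ≤
      (1 * (X ^ 4 + 2 / lam) ^ 3) ^ (-(4 * ε)) * (X ^ (4 / 9 : ℝ) / (1 + C)) - 2 * ε := by
  have hX1 : 1 ≤ X := by linarith
  have hX0 : 0 < X := by linarith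
  have hpos : 0 < 1 * (X ^ 4 + 2 / lam) ^ 3 := by positivity
  have hle : 1 * (X ^ 4 + 2 / lam) ^ 3 ≤ X ^ 13 := by
    calc 1 * (X ^ 4 + 2 / lam) ^ 3 ≤ 1 * (2 * X ^ 4) ^ 3 := by
          gcongr
          linarith
      _ = 8 * X ^ 12 := by ring
      _ ≤ X * X ^ 12 := by gcongr
      _ = X ^ 13 := by ring
  have h1 : X ^ (-(52 / 1000) : ℝ) ≤ (1 * (X ^ 4 + 2 / lam) ^ 3) ^ (-(4 * ε)) := by
    calc X ^ (-(52 / 1000) : ℝ) ≤ X ^ (-(52 * ε)) :=
          Real.rpow_le_rpow_of_exponent_le hX1 (by linarith)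
      _ = (X ^ 13) ^ (-(4 * ε)) := by
          rw [← Real.rpow_natCast X 13, ← Real.rpow_mul hX0.le]
          congr 1
          push_cast
          ring
      _ ≤ _ := Real.rpow_le_rpow_of_nonpos hpos hle (by linarith)
  have h6 : 2 * X ^ (1 / 3 : ℝ) ≤
      X ^ (-(52 / 1000) : ℝ) * (X ^ (4 / 9 : ℝ) / (1 + C)) := by
    have h7 : X ^ (1 / 3 : ℝ) * X ^ (1 / 20 : ℝ) ≤ X ^ (-(52 / 1000) : ℝ) * X ^ (4 / 9 : ℝ) := by
      rw [← Real.rpow_add hX0, ← Real.rpow_add hX0]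
      exact Real.rpow_le_rpow_of_exponent_le hX1 (by norm_num)
    have h8 : 2 * (1 + C) * X ^ (1 / 3 : ℝ) ≤ X ^ (-(52 / 1000) : ℝ) * X ^ (4 / 9 : ℝ) := by
      calc 2 * (1 + C) * X ^ (1 / 3 : ℝ) ≤ X ^ (1 / 20 : ℝ) * X ^ (1 / 3 : ℝ) :=
            mul_le_mul_of_nonneg_right hXC (by positivity)
        _ = X ^ (1 / 3 : ℝ) * X ^ (1 / 20 : ℝ) := mul_comm _ _
        _ ≤ _ := h7
    have e1 : X ^ (-(52 / 1000) : ℝ) * (X ^ (4 / 9 : ℝ) / (1 + C)) =
        (X ^ (-(52 / 1000) : ℝ) * X ^ (4 / 9 : ℝ)) / (1 + C) := by ring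
    rw [e1, le_div_iff₀ (by positivity)]
    calc 2 * X ^ (1 / 3 : ℝ) * (1 + C) = 2 * (1 + C) * X ^ (1 / 3 : ℝ) := by ring
      _ ≤ _ := h8
  have h9 : X ^ (-(52 / 1000) : ℝ) * (X ^ (4 / 9 : ℝ) / (1 + C)) ≤
      (1 * (X ^ 4 + 2 / lam) ^ 3) ^ (-(4 * ε)) * (X ^ (4 / 9 : ℝ) / (1 + C)) :=
    mul_le_mul_of_nonneg_right h1 (by positivity)
  have h10 : 1 ≤ X ^ (1 / 3 : ℝ) := Real.one_le_rpow hX1 (by norm_num)
  linarith

/-- One rung of the ladder. -/
theorem lad_mid3 (c1 : ℝ) (hc1 : 0 < c1) : ∃ e0 : ℕ, 1 ≤ e0 ∧ ∀ (n N W e : ℕ) [NeZero n]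
    (K h0 lam ε : ℝ) (o : Tor n) (b : Finset (Tor n)) (h : Tor n → ℝ)
    (c : (Tor n → ℝ) → Nd n N → Nd n N → ℝ) (r S : ℕ),
    e0 ≤ e → 0 < W → N = 4 * W → 4 * r ≤ S → 8 * 3 ^ S < n →
    0 < h0 → h0 ≤ 1 → 1 / 3 ^ (10 * e) ≤ lam → 0 ≤ ε → ε ≤ 1 / 1000 →
    100 * e ≤ r → h0⁻¹ ≤ ((3 : ℝ) ^ S) ^ (5 / 2 : ℝ) →
    (∀ g, Fam n h0 lam g → Local3 n N W e K c1 b g (c g)) → Low n N 1 h0 lam ε c →
    Fam n h0 lam h →
    LBn (c (HH n lam o (3 ^ (4 * r)) h)) (EE6 n N o b (3 ^ (4 * r))) (GG6 n N o (3 ^ S))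
      (((3 : ℝ) ^ (4 * r)) ^ (1 / 3 : ℝ)) →
    LBn (c (HH n lam o (3 ^ r) h)) (EE6 n N o b (3 ^ r)) (GG6 n N o (3 ^ S))
      (((3 : ℝ) ^ r) ^ (1 / 3 : ℝ)) := by
  obtain ⟨C, hC, hstep⟩ := step_mid3 c1 hc1
  obtain ⟨eg, heg, hground⟩ := num_ground3
  obtain ⟨e1, he1⟩ := pow_unbounded_of_one_lt (2 * (1 + C)) (show (1 : ℝ) < 3 by norm_num)
  refine ⟨max eg e1, heg.trans (le_max_left _ _), ?_⟩
  intro n N W e _ K h0 lam ε o b h c r S he hW hN hrS hSn hh0 hh01 hlam hε hε1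
    hr hS hloc hlow hfam hLB
  have heg' : eg ≤ e := (le_max_left _ _).trans he
  have he1' : e1 ≤ e := (le_max_right _ _).trans he
  have he0 : 1 ≤ e := heg.trans heg'
  have hlam0 : 0 < lam := lt_of_lt_of_le (by positivity) hlam
  have h4rS : (3 : ℕ) ^ (4 * r) ≤ 3 ^ S := Nat.pow_le_pow_right (by norm_num) hrS
  have hrr : (3 : ℕ) ^ r ≤ 3 ^ (4 * r) := Nat.pow_le_pow_right (by norm_num) (by omega)
  have h8 : (3 : ℕ) ^ S ≤ 8 * 3 ^ S := by omega
  have h4rn : (3 : ℕ) ^ (4 * r) < n := by omega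
  have hrn : (3 : ℕ) ^ r ≤ n := by omega
  have hfam4 : Fam n h0 lam (HH n lam o (3 ^ (4 * r)) h) := Fam_HH hlam0.le o (by positivity) hfam
  have hfam1 : Fam n h0 lam (HH n lam o (3 ^ r) h) := Fam_HH hlam0.le o (by positivity) hfam
  have hXe : ((3 : ℝ) ^ (4 * r)) ^ (1 / 3 : ℝ) = ((3 : ℝ) ^ r) ^ (4 / 3 : ℝ) := by
    rw [mul_comm 4 r, pow_mul, ← Real.rpow_natCast ((3 : ℝ) ^ r) 4,
      ← Real.rpow_mul (by positivity)]
    norm_num
  have hX1 : (1 : ℝ) ≤ (3 : ℝ) ^ r := one_le_pow₀ (by norm_num)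
  obtain ⟨hB1, hB2, hB3⟩ := lm3_num_a (κ := 9 ^ e) (μ := 27 ^ e) hC hX1
    (one_le_pow₀ (by norm_num)) (one_le_pow₀ (by norm_num))
  rw [hXe] at hLB
  have hstep1 := hstep n N W e K o b (HH n lam o (3 ^ (4 * r)) h)
    (c (HH n lam o (3 ^ (4 * r)) h)) r (4 * r) (GG6 n N o (3 ^ S))
    (((3 : ℝ) ^ r) ^ (4 / 3 : ℝ)) (((3 : ℝ) ^ r) ^ (4 / 9 : ℝ) / (1 + C))
    hW hN (by omega) (by omega) h4rn
    (fun x => (hfam4.1 x).2) (fun x hx => HH_one hlam0.le o h4rn.le hfam hx) (hloc _ hfam4)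
    (disj_EG o _ h4rS hSn.le) hLB (by positivity) hB1 hB2 hB3
  have hsm := hground h0 lam e S heg' hh0 hlam (by omega) hS
  have hlow1 := hlow.prim (HH n lam o (3 ^ (4 * r)) h) (HH n lam o (3 ^ r) h) hfam4 hfam1
    (fun x => HH_mono hlam0.le o hrr h x)
    (EE6 n N o b (3 ^ r)) (GG6 n N o (3 ^ S)) (disj_EG o _ (hrr.trans h4rS) hSn.le) (by
      intro z hz hz0
      rcases mem_union.1 hz with hz | hz
      · unfold EE6 at hz
        rcases mem_union.1 hz with hz | hz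
        · exfalso
          apply hz0
          unfold hatb at hz
          exact mem_singleton.1 (mem_product.1 hz).1
        · have hx := (mem_product.1 hz).2
          rw [HH_one hlam0.le o hrn hfam hx]
          have hx4 : z.2 ∈ cube n o (3 ^ (4 * r)) := by
            unfold cube at hx ⊢
            rw [mem_image] at hx ⊢
            obtain ⟨y, -, hy⟩ := hx
            exact ⟨fun i => ⟨(y i : ℕ), lt_of_lt_of_le (y i).2 hrr⟩, mem_univ _, hy⟩
          rw [HH_one hlam0.le o h4rn.le hfam hx4]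
      · unfold GG6 at hz
        have hx := (mem_product.1 hz).2
        rw [HH_ground hlam0.le o (hrr.trans h4rS) hSn.le hfam (by push_cast; exact hsm) hx,
          HH_ground hlam0.le o h4rS hSn.le hfam (by push_cast; exact hsm) hx])
    (((3 ^ (4 * r) : ℕ) + 2 / lam) ^ 3) (by
      have h1r : (1 : ℝ) ≤ ((3 ^ (4 * r) : ℕ) : ℝ) := by
        push_cast; exact one_le_pow₀ (by norm_num)
      have h2 : (1 : ℝ) ≤ ((3 ^ (4 * r) : ℕ) : ℝ) + 2 / lam := by
        have : 0 ≤ 2 / lam := by positivity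
        linarith
      have h3 : (1 : ℝ) ≤ (((3 ^ (4 * r) : ℕ) : ℝ) + 2 / lam) ^ 3 := one_le_pow₀ h2
      linarith)
    (sum_lowered hlam0 o hrr h) (((3 : ℝ) ^ r) ^ (4 / 9 : ℝ) / (1 + C)) (by positivity)
    hstep1
  have hX8 : (8 : ℝ) ≤ (3 : ℝ) ^ r := by
    calc (8 : ℝ) ≤ 3 ^ 2 := by norm_num
      _ ≤ 3 ^ r := pow_le_pow_right₀ (by norm_num) (by omega)
  have hXC : 2 * (1 + C) ≤ ((3 : ℝ) ^ r) ^ (1 / 20 : ℝ) := by
    calc 2 * (1 + C) ≤ (3 : ℝ) ^ e1 := he1.le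
      _ ≤ (3 : ℝ) ^ e := pow_le_pow_right₀ (by norm_num) he1'
      _ = (3 : ℝ) ^ (e : ℝ) := (Real.rpow_natCast _ _).symm
      _ ≤ (3 : ℝ) ^ ((r : ℝ) * (1 / 20)) := by
          apply Real.rpow_le_rpow_of_exponent_le (by norm_num)
          have : (100 * e : ℝ) ≤ r := by exact_mod_cast hr
          have h0e : (0 : ℝ) ≤ e := Nat.cast_nonneg _
          linarith
      _ = ((3 : ℝ) ^ r) ^ (1 / 20 : ℝ) := by
          rw [Real.rpow_mul (by norm_num), Real.rpow_natCast]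
  have h2l : 2 / lam ≤ ((3 : ℝ) ^ r) ^ 4 := by
    have h1 : 2 / lam ≤ 2 * 3 ^ (10 * e) := by
      rw [div_le_iff₀ hlam0]
      have h3 := mul_le_mul_of_nonneg_left hlam (show (0 : ℝ) ≤ 2 * 3 ^ (10 * e) by positivity)
      have e2 : (2 : ℝ) * 3 ^ (10 * e) * (1 / 3 ^ (10 * e)) = 2 := by field_simp
      linarith
    have h2 : (2 : ℝ) * 3 ^ (10 * e) ≤ ((3 : ℝ) ^ r) ^ 4 := by
      calc (2 : ℝ) * 3 ^ (10 * e) ≤ 3 ^ 1 * 3 ^ (10 * e) := by
            apply mul_le_mul_of_nonneg_right (by norm_num) (by positivity)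
        _ = 3 ^ (1 + 10 * e) := (pow_add _ _ _).symm
        _ ≤ 3 ^ (r * 4) := pow_le_pow_right₀ (by norm_num) (by omega)
        _ = _ := pow_mul _ _ _
    exact h1.trans h2
  have hnum := lm3_num_b hC hX8 hXC hlam0 h2l hε hε1
  intro f hf hg
  refine le_trans hnum ?_
  have h5 := hlow1 f hf hg
  have e3 : ((3 ^ (4 * r) : ℕ) : ℝ) = ((3 : ℝ) ^ r) ^ 4 := by
    push_cast
    rw [mul_comm 4 r, pow_mul]
  rw [e3] at h5
  exact h5

end Vale.Agent.P361.LRO.Ind3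
end

section

/-!
# P361 LRO, stage 3, network chapter: the last step before lowering (helper535)
-/

namespace Vale.Agent.P361.LRO.Ind3

open Finset Vale.Agent.P361.LRO _root_.P361.LRO Vale.Agent.P361.LRO.Ind

lemma s3_num {t K κ A P Q C : ℝ} (ht : 0 < t) (hK : 0 < K) (hκ0 : 0 ≤ κ) (hκ : κ ≤ K)
    (hP : 0 ≤ P) (hQ : 0 ≤ Q) (hC : 2 * P < C) (hC' : 2 * Q ≤ C) (h1 : C * K ≤ A)
    (h2 : C * K ^ 3 ≤ A * t ^ 2) (h3 : A ≤ P * κ + Q * (κ ^ 3 / t ^ 2)) : False := by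
  have ht2 : 0 < t ^ 2 := by positivity
  have e2 : κ ^ 3 / t ^ 2 ≤ K ^ 3 / t ^ 2 :=
    div_le_div_of_nonneg_right (pow_le_pow_left₀ hκ0 hκ 3) ht2.le
  have e3 : C * (K ^ 3 / t ^ 2) ≤ A := by
    rw [← mul_div_assoc, div_le_iff₀ ht2]
    exact h2
  have e5 : 0 ≤ K ^ 3 / t ^ 2 := by positivity
  have e6 : P * κ ≤ P * K := mul_le_mul_of_nonneg_left hκ hP
  have e7 : Q * (κ ^ 3 / t ^ 2) ≤ Q * (K ^ 3 / t ^ 2) := mul_le_mul_of_nonneg_left e2 hQ
  have e8 : 2 * P * K < C * K := mul_lt_mul_of_pos_right hC hK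
  have e9 : 2 * Q * (K ^ 3 / t ^ 2) ≤ C * (K ^ 3 / t ^ 2) := mul_le_mul_of_nonneg_right hC' e5
  linarith

/-- the volume bound in numbers -/
lemma s3_vol {t κ A E D cn c1 Cc : ℝ} (ht : 0 < t) (hκ0 : 0 ≤ κ) (hc1 : 0 < c1) (hCc : 0 < Cc)
    (hE0 : 0 ≤ E) (hE : c1 * t * E ≤ 16 * κ) (hD : c1 * D ≤ 1000 * κ)
    (hcn : cn ≤ Cc * (E + E ^ 3)) (hA : A ≤ 4 * κ + (32 * D + t / 2 * cn)) :
    A ≤ (4 + 32000 / c1 + 8 * Cc / c1) * κ + (Cc / 2 * (16 / c1) ^ 3) * (κ ^ 3 / t ^ 2) := by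
  have hE' : E ≤ 16 / c1 * κ / t := by
    rw [le_div_iff₀ ht, div_mul_eq_mul_div, le_div_iff₀ hc1]
    linarith
  have hD' : D ≤ 1000 / c1 * κ := by
    rw [div_mul_eq_mul_div, le_div_iff₀ hc1]
    linarith
  have h1 : t / 2 * cn ≤ t / 2 * (Cc * (E + E ^ 3)) := mul_le_mul_of_nonneg_left hcn (by positivity)
  have h2 : E ^ 3 ≤ (16 / c1 * κ / t) ^ 3 := pow_le_pow_left₀ hE0 hE' 3
  have h3 : t / 2 * (Cc * (E + E ^ 3)) ≤
      t / 2 * (Cc * (16 / c1 * κ / t + (16 / c1 * κ / t) ^ 3)) :=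
    mul_le_mul_of_nonneg_left (mul_le_mul_of_nonneg_left (add_le_add hE' h2) hCc.le) (by positivity)
  have h4 : t / 2 * (Cc * (16 / c1 * κ / t + (16 / c1 * κ / t) ^ 3)) =
      8 * Cc / c1 * κ + (Cc / 2 * (16 / c1) ^ 3) * (κ ^ 3 / t ^ 2) := by
    field_simp
    ring
  rw [h4] at h3
  have h5 : 32 * D ≤ 32000 / c1 * κ := by
    have : 32000 / c1 * κ = 32 * (1000 / c1 * κ) := by ring
    rw [this]
    linarith
  have h6 : (4 + 32000 / c1 + 8 * Cc / c1) * κ = 4 * κ + 32000 / c1 * κ + 8 * Cc / c1 * κ := by ring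
  rw [h6]
  linarith

lemma s3_eq2 {Dv cn N t : ℝ} (hN : 0 < N) :
    (64 * Dv + N * t * cn) * (1 / (2 * N)) = 32 * (1 / N * Dv) + t / 2 * cn := by
  field_simp
  ring

/-- first condition of `start3` -/
lemma s3_st1 {Cs X c1 K κ C t B : ℝ} (hCs : 0 < Cs) (hc1 : 0 < c1) (hK : 0 < K) (hκ0 : 0 ≤ κ)
    (ht : 0 < t) (hB : 0 < B) (hκC : κ * C < K) (hKB : K ≤ B)
    (hY : c1 * K * (1 / t) * X ≤ 1000 * (1 + K / B) * κ) (hC : 2000 * Cs ≤ c1 * C) :
    Cs * X ≤ t := by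
  have h0 : K / B ≤ 1 := (div_le_one hB).2 hKB
  have h1 : c1 * K * (1 / t) * X ≤ 2000 * κ := by
    refine hY.trans (mul_le_mul_of_nonneg_right ?_ hκ0)
    linarith
  have h2 : c1 * K * X ≤ 2000 * κ * t := by
    have : c1 * K * (1 / t) * X = c1 * K * X / t := by ring
    rw [this, div_le_iff₀ ht] at h1
    exact h1
  have h3 : c1 * K * (Cs * X) ≤ c1 * K * t := by
    have e1 : c1 * K * (Cs * X) = Cs * (c1 * K * X) := by ring
    have e2 : Cs * (c1 * K * X) ≤ Cs * (2000 * κ * t) := mul_le_mul_of_nonneg_left h2 hCs.le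
    have e3 : Cs * (2000 * κ * t) = 2000 * Cs * κ * t := by ring
    have e4 : 2000 * Cs * κ ≤ c1 * K := by
      have e5 : 2000 * Cs * κ ≤ c1 * C * κ := mul_le_mul_of_nonneg_right hC hκ0
      have e6 : c1 * C * κ = c1 * (κ * C) := by ring
      have e7 : c1 * (κ * C) ≤ c1 * K := mul_le_mul_of_nonneg_left hκC.le hc1.le
      linarith
    have e5 : 2000 * Cs * κ * t ≤ c1 * K * t := mul_le_mul_of_nonneg_right e4 ht.le
    linarith
  exact le_of_mul_le_mul_left h3 (by positivity)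

/-- second condition of `start3`, and the condition of `chain3` -/
lemma s3_st2 {Cs c1 K κ C t x E : ℝ} (hCs : 0 < Cs) (hc1 : 0 < c1) (hκ0 : 0 ≤ κ) (ht : 0 < t)
    (hκK : κ ≤ K) (hC : 16 * Cs ≤ c1 * C) (hC0 : 0 < C) (hE : c1 * t * E ≤ 16 * κ)
    (hKx : C * K ≤ t * x) : Cs * E ≤ x := by
  have e1 : c1 * t * (Cs * E) ≤ c1 * t * x := by
    have e2 : c1 * t * (Cs * E) = Cs * (c1 * t * E) := by ring
    have e3 : Cs * (c1 * t * E) ≤ Cs * (16 * κ) := mul_le_mul_of_nonneg_left hE hCs.le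
    have e4 : Cs * (16 * κ) = 16 * Cs * κ := by ring
    have e5 : 16 * Cs * κ ≤ c1 * C * κ := mul_le_mul_of_nonneg_right hC hκ0
    have e6 : c1 * C * κ ≤ c1 * C * K := mul_le_mul_of_nonneg_left hκK (by positivity)
    have e7 : c1 * C * K = c1 * (C * K) := by ring
    have e8 : c1 * (C * K) ≤ c1 * (t * x) := mul_le_mul_of_nonneg_left hKx hc1.le
    have e9 : c1 * (t * x) = c1 * t * x := by ring
    linarith
  exact le_of_mul_le_mul_left e1 (by positivity)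

/-- the cost of the modified nodes -/
lemma s3_cost {n N W e : ℕ} [NeZero n] {K c1 : ℝ} {b' b : Finset (Tor n)} {h : Tor n → ℝ}
    {c : Nd n N → Nd n N → ℝ} (hloc : Local3 n N W e K c1 b' h c) (o : Tor n) (S : ℕ)
    (hh : ∀ x ∈ cube n o S, h x = 1) (u : Nd n N → ℝ) :
    ∑ z ∈ ((EE6 n N o b S) \ (hatb N b)).filter (fun z => u z < 1 / 2), ∑ v, c z v ≤
      ((((univ.filter fun k => k ≠ 0) ×ˢ cube n o S : Finset (Nd n N)).filter
        fun z => u z < 1 / 2).card : ℝ) * (1 / (2 * N)) := by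
  have hsub : ((EE6 n N o b S) \ (hatb N b)).filter (fun z => u z < 1 / 2) ⊆
      (((univ.filter fun k => k ≠ 0) ×ˢ cube n o S : Finset (Nd n N)).filter
        fun z => u z < 1 / 2) := by
    intro z hz
    rw [Finset.mem_filter, Finset.mem_sdiff, EE6, Finset.mem_union] at hz
    rw [Finset.mem_filter]
    exact ⟨hz.1.1.resolve_left hz.1.2, hz.2⟩
  have hnn : ∀ z : Nd n N, 0 ≤ ∑ v, c z v := fun z => Finset.sum_nonneg fun v _ => hloc.nonneg z v
  refine (Finset.sum_le_sum_of_subset_of_nonneg hsub fun z _ _ => hnn z).trans ?_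
  rw [← nsmul_eq_mul]
  refine Finset.sum_le_card_nsmul _ _ _ fun z hz => ?_
  rw [Finset.mem_filter, Finset.mem_product, Finset.mem_filter] at hz
  have h1 := hloc.tot z.1 z.2 hz.1.1.2
  refine h1.trans ?_
  rw [hh z.2 hz.1.2]

/-- the last step in the form `a = e + r`, `s = e + s'` -/
lemma s3_core {c1 Cs Cc C : ℝ} (hc1 : 0 < c1) (hCs : 0 < Cs) (hCc : 0 < Cc)
    (hstart : ∀ (r s T : ℕ), 0 < T → r ≤ s → ∀ U : ℕ → ℕ → ℕ → ℕ → ℝ,
      Cs * (∑ x ∈ range (3 ^ r), ∑ y ∈ range (3 ^ r), ∑ z ∈ range (3 ^ r), (1 - U x y z 0) ^ 2)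
        ≤ 27 ^ r →
      Cs * T * E4 (3 ^ s) T U ≤ 27 ^ r →
      (∑ x ∈ range (3 ^ r), ∑ y ∈ range (3 ^ r), ∑ z ∈ range (3 ^ r),
        (1 - (1 / (T : ℝ)) * ∑ w ∈ range T, U x y z w) ≤ 27 ^ r / 16))
    (hchain : ∀ (r s T : ℕ), 0 < T → r ≤ s → ∀ U : ℕ → ℕ → ℕ → ℕ → ℝ,
      (∑ x ∈ range (3 ^ r), ∑ y ∈ range (3 ^ r), ∑ z ∈ range (3 ^ r),
        (1 - (1 / (T : ℝ)) * ∑ w ∈ range T, U x y z w) ≤ 27 ^ r / 16) →
      Cc * E4 (3 ^ s) T U ≤ T * 3 ^ r →
      cnt (3 ^ s) T (5 / 8) U ≤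
        Cc * (T ^ 2 * E4 (3 ^ s) T U + (E4 (3 ^ s) T U) ^ 3 / T ^ 2))
    (hC1 : 1 ≤ C) (hCP : 2 * (4 + 32000 / c1 + 8 * Cc / c1) < C)
    (hCQ : 2 * (Cc / 2 * (16 / c1) ^ 3) ≤ C) (hCs' : 2000 * Cs ≤ c1 * C)
    (hCc' : 16 * Cc ≤ c1 * C)
    {n N W e : ℕ} [NeZero n]
    {K : ℝ} {o : Tor n} {r : ℕ} {h : Tor n → ℝ} {c : Nd n N → Nd n N → ℝ}
    {s : ℕ} {G : Finset (Nd n N)} {A : ℝ}
    (hW : 0 < W) (hN : N = 4 * W) (hrs : r ≤ s) (hsn : 3 ^ (e + s) < n)
    (hK : 0 < K) (hK1 : C * K ≤ 27 ^ (e + r)) (hK2 : C * K ≤ 9 ^ e * 3 ^ (e + r))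
    (hh : ∀ x ∈ cube n o (3 ^ (e + s)), h x = 1)
    (hloc : Local3 n N W e K c1 (cube n o (3 ^ (e + r))) h c)
    (hdis : Disjoint (EE6 n N o (cube n o (3 ^ (e + r))) (3 ^ (e + s))) G)
    (hLB : LBn c (EE6 n N o (cube n o (3 ^ (e + r))) (3 ^ (e + s))) G A)
    (hA1 : C * K ≤ A) (hA2 : C * K ^ 3 ≤ A * (27 ^ e) ^ 2) :
    LBn c (hatb N (cube n o (3 ^ (e + r)))) G (K / C) := by
  have hC0 : 0 < C := by linarith
  refine LBn_of_trunc hloc.nonneg fun u hu huE huG => ?_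
  by_contra hcon
  rw [not_le] at hcon
  obtain ⟨κ, hκ⟩ : ∃ κ : ℝ, κ = netK c u := ⟨_, rfl⟩
  rw [← hκ] at hcon
  have hκ0 : 0 ≤ κ := by rw [hκ]; exact netK_nonneg hloc.nonneg u
  have hκC : κ * C < K := by rwa [lt_div_iff₀ hC0] at hcon
  have hκK : κ ≤ K := (le_mul_of_one_le_right hκ0 hC1).trans hκC.le
  have hN0 : (0 : ℝ) < N := by rw [hN]; exact_mod_cast (by omega : 0 < 4 * W)
  have ht : (0 : ℝ) < 27 ^ e := by positivity
  have hrse : 3 ^ (e + r) ≤ 3 ^ (e + s) := Nat.pow_le_pow_right (by norm_num) (by omega)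
  have hrn : 3 ^ (e + r) < n := lt_of_le_of_lt hrse hsn
  have hps : 3 ^ e * 3 ^ s = 3 ^ (e + s) := (pow_add 3 e s).symm
  have hsn' : 3 ^ e * 3 ^ s < n := by rw [hps]; exact hsn
  have hh' : ∀ x ∈ cube n o (3 ^ e * 3 ^ s), h x = 1 := by rw [hps]; exact hh
  have hbs : ∀ x ∈ cube n o (3 ^ (e + r)), h x = 1 := fun x hx => hh x (sl_cube_mono o hrse hx)
  -- energy
  obtain ⟨E, hEdef⟩ : ∃ E : ℝ, E = E4 (3 ^ s) 1 (UT n N e o u) := ⟨_, rfl⟩
  have hE0 : 0 ≤ E := by rw [hEdef]; exact sl_E4_nonneg _ _ _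
  have hE : c1 * 27 ^ e * E ≤ 16 * κ := by
    rw [hEdef, hκ]
    exact E4_le3 hW hN hc1 hloc o (3 ^ s) hsn' hh' u
  -- contact
  have huE' : ∀ x ∈ cube n o (3 ^ (e + r)), u (0, x) = 1 := by
    intro x hx
    refine huE _ ?_
    rw [hatb, Finset.mem_product]
    exact ⟨Finset.mem_singleton_self _, hx⟩
  have hcont := contact_le3 hW hN hK hc1 hloc hrn hbs u huE'
  rw [← hκ] at hcont
  have h27r : (0 : ℝ) < 27 ^ r := by positivity
  have h27b : (0 : ℝ) < 27 ^ (e + r) := by positivity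
  have hKB : K ≤ 27 ^ (e + r) := (le_mul_of_one_le_left hK.le hC1).trans hK1
  have hst1 := s3_st1 hCs hc1 hK hκ0 h27r h27b hκC hKB hcont hCs'
  have hst2 : Cs * E ≤ 27 ^ r := by
    refine s3_st2 hCs hc1 hκ0 ht hκK (by linarith) hC0 hE ?_
    rw [← pow_add]
    exact hK1
  have hch : Cc * E ≤ 3 ^ r := by
    refine s3_st2 hCc hc1 hκ0 ht hκK hCc' hC0 hE ?_
    have e1 : (27 : ℝ) ^ e * 3 ^ r = 9 ^ e * 3 ^ (e + r) := by
      rw [pow_add, ← mul_assoc, ← mul_pow]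
      norm_num
    rw [e1]
    exact hK2
  have hmean := hstart r s 1 Nat.one_pos hrs (UT n N e o u) hst1 (by
    rw [Nat.cast_one, mul_one, ← hEdef]
    exact hst2)
  have hcnt := hchain r s 1 Nat.one_pos hrs (UT n N e o u) hmean (by
    rw [Nat.cast_one, one_mul, ← hEdef]
    exact hch)
  rw [← hEdef, Nat.cast_one, one_pow, one_mul, div_one] at hcnt
  -- deviation
  obtain ⟨Dv, hDv⟩ : ∃ Dv : ℝ, Dv = DevC n N e o u (3 ^ s) := ⟨_, rfl⟩
  have hdev := dev_le3 hW hN hc1 hloc o (3 ^ s) hsn' hh' u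
  have hlow := card_low_le3 hW hN o (3 ^ s) hsn'.le u
  rw [← hDv] at hdev hlow
  rw [← hκ] at hdev
  have hdev2 : c1 * (1 / N * Dv) ≤ 1000 * κ := by
    have : c1 * (1 / N * Dv) = c1 / N * Dv := by ring
    rw [this]
    exact hdev
  obtain ⟨cn, hcn⟩ : ∃ cn : ℝ, cn = cnt (3 ^ s) 1 (5 / 8) (UT n N e o u) := ⟨_, rfl⟩
  rw [← hcn] at hcnt hlow
  -- test function
  have htest := test_le hloc.symm hloc.nonneg hLB hdis (fun x => (hu x).1) huE huG
  rw [← hκ] at htest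
  have hsum := s3_cost (b := cube n o (3 ^ (e + r))) hloc o (3 ^ (e + s)) hh u
  rw [hps] at hlow
  obtain ⟨M, hM⟩ : ∃ M : ℝ, M = ((((univ.filter fun k => k ≠ 0) ×ˢ cube n o (3 ^ (e + s)) :
    Finset (Nd n N)).filter fun z => u z < 1 / 2).card : ℝ) := ⟨_, rfl⟩
  rw [← hM] at hlow hsum
  have hfin : A ≤ 4 * κ + (32 * (1 / N * Dv) + 27 ^ e / 2 * cn) := by
    have e1 := htest.trans (add_le_add_right hsum (4 * κ))
    have e2 : M * (1 / (2 * N)) ≤ (64 * Dv + N * 27 ^ e * cn) * (1 / (2 * N)) :=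
      mul_le_mul_of_nonneg_right hlow (by positivity)
    rw [s3_eq2 hN0] at e2
    linarith
  have hvol := s3_vol ht hκ0 hc1 hCc hE0 hE hdev2 hcnt hfin
  exact s3_num ht hK hκ0 hκK (by positivity) (by positivity) hCP hCQ hA1 hA2 hvol

/-- (S3) The last step, before lowering. -/
theorem step_last3 (c1 : ℝ) (hc1 : 0 < c1) : ∃ C : ℝ, 0 < C ∧ ∀ (n N W e : ℕ) [NeZero n]
    (K : ℝ) (o : Tor n) (a : ℕ) (h : Tor n → ℝ) (c : Nd n N → Nd n N → ℝ)
    (s : ℕ) (G : Finset (Nd n N)) (A : ℝ),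
    0 < W → N = 4 * W → e ≤ a → a ≤ s → 3 ^ s < n →
    0 < K → C * K ≤ 27 ^ a → C * K ≤ 9 ^ e * 3 ^ a →
    (∀ x, h x ≤ 1) → (∀ x ∈ cube n o (3 ^ s), h x = 1) →
    Local3 n N W e K c1 (cube n o (3 ^ a)) h c →
    Disjoint (EE6 n N o (cube n o (3 ^ a)) (3 ^ s)) G →
    LBn c (EE6 n N o (cube n o (3 ^ a)) (3 ^ s)) G A →
    C * K ≤ A → C * K ^ 3 ≤ A * (27 ^ e) ^ 2 →
    LBn c (hatb N (cube n o (3 ^ a))) G (K / C) := by
  obtain ⟨Cs, hCs, hstart⟩ := start3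
  obtain ⟨Cc, hCc, hchain⟩ := chain3
  obtain ⟨C, hC⟩ : ∃ C : ℝ, C = 1 + 2 * (4 + 32000 / c1 + 8 * Cc / c1) +
      2 * (Cc / 2 * (16 / c1) ^ 3) + 2000 * Cs / c1 + 16 * Cc / c1 := ⟨_, rfl⟩
  have q0 : 0 < 2 * (4 + 32000 / c1 + 8 * Cc / c1) := by positivity
  have q0' : 0 < 2 * (Cc / 2 * (16 / c1) ^ 3) := by positivity
  have q1 : 0 < 2000 * Cs / c1 := by positivity
  have q2 : 0 < 16 * Cc / c1 := by positivity
  have hC1 : 1 ≤ C := by linarith
  have hCP : 2 * (4 + 32000 / c1 + 8 * Cc / c1) < C := by linarith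
  have hCQ : 2 * (Cc / 2 * (16 / c1) ^ 3) ≤ C := by linarith
  have hCs' : 2000 * Cs ≤ c1 * C := by
    have : 2000 * Cs / c1 ≤ C := by linarith
    rw [div_le_iff₀ hc1] at this
    linarith
  have hCc' : 16 * Cc ≤ c1 * C := by
    have : 16 * Cc / c1 ≤ C := by linarith
    rw [div_le_iff₀ hc1] at this
    linarith
  refine ⟨C, by linarith, ?_⟩
  intro n N W e _ K o a h c s G A hW hN hea has hsn hK hK1 hK2 _ hh hloc hdis hLB hA1 hA2
  obtain ⟨r, rfl⟩ := Nat.exists_eq_add_of_le hea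
  obtain ⟨s', rfl⟩ := Nat.exists_eq_add_of_le (hea.trans has)
  exact s3_core hc1 hCs hCc hstart hchain hC1 hCP hCQ hCs' hCc' hW hN (by omega) hsn hK hK1 hK2 hh
    hloc hdis hLB hA1 hA2

end Vale.Agent.P361.LRO.Ind3
end

section

/-!
# P361 LRO, stage 3, network chapter, package L3: the last rung of the ladder
-/

namespace Vale.Agent.P361.LRO.Ind3

open Finset Vale.Agent.P361.LRO _root_.P361.LRO Vale.Agent.P361.LRO.Ind

/-- The last rung; the radius is `3 ^ (100 e)`. `C5` is absolute. -/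
theorem lad_last3 (c1 : ℝ) (hc1 : 0 < c1) : ∃ (e0 : ℕ) (C5 c3 c4 : ℝ), 1 ≤ e0 ∧ 0 < C5 ∧
    0 < c3 ∧ 0 < c4 ∧ ∀ (n N W e : ℕ) [NeZero n]
    (K h0 lam ε : ℝ) (o : Tor n) (a : ℕ) (h : Tor n → ℝ)
    (c : (Tor n → ℝ) → Nd n N → Nd n N → ℝ) (S : ℕ),
    e0 ≤ e → 0 < W → N = 4 * W → 100 * e ≤ S → 8 * 3 ^ S < n →
    e ≤ a → a ≤ 2 * e → 1 ≤ K → K ≤ 27 ^ (2 * e) → C5 * K ≤ 27 ^ a → C5 * K ≤ 9 ^ e * 3 ^ a →
    0 < h0 → h0 ≤ 1 → 1 / 3 ^ (10 * e) ≤ lam → 0 ≤ ε → ε * e ≤ c4 →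
    h0⁻¹ ≤ ((3 : ℝ) ^ S) ^ (5 / 2 : ℝ) →
    (∀ g, Fam n h0 lam g → Local3 n N W e K c1 (cube n o (3 ^ a)) g (c g)) →
    Low n N 1 h0 lam ε c →
    Fam n h0 lam h →
    LBn (c (HH n lam o (3 ^ (100 * e)) h)) (EE6 n N o (cube n o (3 ^ a)) (3 ^ (100 * e)))
      (GG6 n N o (3 ^ S)) (((3 : ℝ) ^ (100 * e)) ^ (1 / 3 : ℝ)) →
    LBn (c h) (hatb N (cube n o (3 ^ a))) (GG6 n N o (3 ^ S)) (c3 * K) :=
  lad_last3_of c1 (step_last3 c1 hc1)

end Vale.Agent.P361.LRO.Ind3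
end

section

/-!
# P361 LRO, stage 3, network chapter: assembly
-/

namespace Vale.Agent.P361.LRO.Ind3

open Finset Vale.Agent.P361.LRO _root_.P361.LRO Vale.Agent.P361.LRO.Ind

/-- STAGE 3 NETWORK CHAPTER. `c3, C5` absolute (do not depend on `K`). -/
theorem block3 (c1 : ℝ) (hc1 : 0 < c1) : ∃ (e0 : ℕ) (C5 c3 c4 : ℝ), 1 ≤ e0 ∧ 0 < C5 ∧
    0 < c3 ∧ 0 < c4 ∧ ∀ e : ℕ, e0 ≤ e → ∃ n0 : ℕ, ∀ (n N W : ℕ) [NeZero n]
    (K h0 lam ε : ℝ) (o : Tor n) (a : ℕ) (h : Tor n → ℝ)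
    (c : (Tor n → ℝ) → Nd n N → Nd n N → ℝ),
    n0 ≤ n → 0 < W → N = 4 * W → e ≤ a → a ≤ 2 * e →
    1 ≤ K → K ≤ 27 ^ (2 * e) → C5 * K ≤ 27 ^ a → C5 * K ≤ 9 ^ e * 3 ^ a →
    (n : ℝ) ^ (-(1 / 4 : ℝ)) ≤ h0 → h0 ≤ 1 → 1 / 3 ^ (10 * e) ≤ lam → 0 ≤ ε → ε * e ≤ c4 →
    (∀ g, Fam n h0 lam g → Local3 n N W e K c1 (cube n o (3 ^ a)) g (c g)) →
    Low n N 1 h0 lam ε c →
    Fam n h0 lam h →
    c3 * K ≤ netK (c h) (fun z => if z ∈ hatb N (cube n o (3 ^ a)) then 1 else 0) := by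
  obtain ⟨e1, he1, H1⟩ := lad_top3_of c1 (step_top3 c1 hc1)
  obtain ⟨e2, he2, H2⟩ := lad_mid3 c1 hc1
  obtain ⟨e3, C5, c3, c4, he3, hC5, hc3, hc4, H3⟩ := lad_last3 c1 hc1
  refine ⟨max e1 (max e2 e3), C5, c3, min c4 (1 / 1000), he1.trans (le_max_left _ _), hC5, hc3,
    lt_min hc4 (by norm_num), ?_⟩
  intro e he
  have he1' : e1 ≤ e := (le_max_left _ _).trans he
  have he2' : e2 ≤ e := ((le_max_left _ _).trans (le_max_right _ _)).trans he
  have he3' : e3 ≤ e := ((le_max_right _ _).trans (le_max_right _ _)).trans he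
  have he0 : 1 ≤ e := he1.trans he1'
  obtain ⟨n0, hn0⟩ := num_ladder3 e he0
  refine ⟨n0, ?_⟩
  intro n N W _ K h0 lam ε o a h c hn hW hN hea ha2 hK hK2 hC5a hC5b hh0 hh1 hlam hε hεe
    hloc hlow hfam
  have hnpos : (0 : ℝ) < n := by exact_mod_cast Nat.pos_of_ne_zero (NeZero.ne n)
  have hh0pos : 0 < h0 := lt_of_lt_of_le (Real.rpow_pos_of_pos hnpos _) hh0
  have heR : (1 : ℝ) ≤ e := by exact_mod_cast he0
  have hε1 : ε ≤ 1 / 1000 := by
    have h1 : ε * e ≤ 1 / 1000 := le_trans hεe (min_le_right _ _)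
    nlinarith
  have hε4 : ε * e ≤ c4 := le_trans hεe (min_le_left _ _)
  obtain ⟨I, hI, hIn⟩ := hn0 n h0 hn hh0 hh1
  have hpow : ∀ i : ℕ, 100 * e ≤ 4 ^ i * (100 * e) := fun i =>
    Nat.le_mul_of_pos_left _ (by positivity)
  have key : ∀ k i : ℕ, i + k = I →
      LBn (c (HH n lam o (3 ^ (4 ^ i * (100 * e))) h))
        (EE6 n N o (cube n o (3 ^ a)) (3 ^ (4 ^ i * (100 * e))))
        (GG6 n N o (3 ^ (4 ^ I * (100 * e))))
        (((3 : ℝ) ^ (4 ^ i * (100 * e))) ^ (1 / 3 : ℝ)) := by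
    intro k
    induction k with
    | zero =>
      intro i hi
      have : i = I := by omega
      subst this
      exact H1 n N W e K h0 lam ε o _ h c _ he1' hW hN hIn hh0pos hh1 hlam hε hε1
        (hpow _) hI hloc hlow hfam
    | succ k ih =>
      intro i hi
      have h1 := ih (i + 1) (by omega)
      have e5 : 4 ^ (i + 1) * (100 * e) = 4 * (4 ^ i * (100 * e)) := by ring
      rw [e5] at h1
      have hle : 4 * (4 ^ i * (100 * e)) ≤ 4 ^ I * (100 * e) := by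
        rw [← e5]
        exact Nat.mul_le_mul_right _ (Nat.pow_le_pow_right (by norm_num) (by omega))
      exact H2 n N W e K h0 lam ε o _ h c _ _ he2' hW hN hle hIn hh0pos hh1 hlam hε hε1
        (hpow _) hI hloc hlow hfam h1
  have h0' := key I 0 (by omega)
  simp only [pow_zero, one_mul] at h0'
  have hfin := H3 n N W e K h0 lam ε o a h c (4 ^ I * (100 * e)) he3' hW hN (hpow I) hIn hea ha2
    hK hK2 hC5a hC5b hh0pos hh1 hlam hε hε4 hI hloc hlow hfam h0'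
  apply hfin
  · intro x hx
    simp [hx]
  · intro x hx
    have hx0 : x.1 ≠ 0 := by
      simp only [GG6, mem_product, mem_filter, mem_univ, true_and] at hx
      exact hx.1
    have : x ∉ hatb N (cube n o (3 ^ a)) := by
      intro h
      simp only [hatb, mem_product, mem_singleton] at h
      exact hx0 h.1
    simp [this]

end Vale.Agent.P361.LRO.Ind3
end

section

/-!
P361 LRO, stage 3: the defect bound `DeltaStmt` (input of `Ind3/LocalInst.lean`), hence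
`LocalStmt3`.
-/

namespace Vale.Agent.P361.LRO.Ind3

open Finset Matrix Vale.Agent.P361.LRO _root_.P361.LRO Vale.Agent.P361.LRO.Ind
  Vale.Agent.P361.LRO.Bloch

noncomputable section

/-- **The defect bound.** -/
theorem deltaStmt : DeltaStmt := by
  refine ⟨4, by norm_num, ?_⟩
  intro V _ _ L β K η b hβ hK _ hb hη
  obtain ⟨N0, hN00, hN0⟩ := Delta.hX L hβ hK.le hη
  obtain ⟨N1, hN1⟩ := exists_nat_gt β
  refine ⟨N0 + N1, ?_⟩
  intro N hN h hh hr k m hkm x y w1 w2 a c p hw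
  obtain ⟨h1, h2⟩ := hN0 N (by omega) b hb h hh hr k m hkm x y w1 w2 a c p hw
  have hN' : 1 ≤ N := by omega
  have hNr : (0 : ℝ) < N := by exact_mod_cast hN'
  have hβN : β ≤ N := by
    have : (N1 : ℝ) ≤ N := by exact_mod_cast (by omega : N1 ≤ N)
    linarith
  have hp0 : 0 ≤ β / (2 * N) := by positivity
  have hp1 : β / (2 * N) ≤ 1 := by
    rw [div_le_one (by positivity)]
    linarith
  have hθ : ∀ z, 0 ≤ th β N h (blk K b) z ∧ th β N h (blk K b) z ≤ 1 := by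
    intro z
    unfold th
    split_ifs with h0
    · exact Delta.blk_bd hK.le b _
    · have h3 := Delta.tt_bd hβ hN' hh z.2
      unfold Delta.tt at h3
      exact ⟨h3.1, h3.2.trans hp1⟩
  have hA : Le 0 (lctx L β N (th β N h (blk K b)) (k + m + 1) x) :=
    (preM_nonneg L hp0 hp1 hθ _).zero_mul (rmM_nonneg (fun _ => hθ _) _)
  have hC : Le 0 (rctx L β N (th β N h (blk K b)) k y) :=
    (rmM_nonneg (fun _ => hθ _) _).zero_mul (restM_nonneg L hp0 hp1 hθ _)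
  have hW : Le 0 (wd (mword L β N (th β N h (blk K b)) k m)) :=
    wd_nonneg (ok_mid L hp0 hp1 (fun _ _ => hθ _) m)
  have hZ : 0 ≤ trace (lctx L β N (th β N h (blk K b)) (k + m + 1) x *
      wd (mword L β N (th β N h (blk K b)) k m) * rctx L β N (th β N h (blk K b)) k y) := by
    have := ((hA.zero_mul hW).zero_mul hC).trace
    rwa [Matrix.trace_zero] at this
  have hc : 4 * η * Real.exp (K * η) ≤ 4 * η * Real.exp (4 * (K * η)) := by
    have h5 : 0 ≤ K * η := by positivity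
    have h6 : Real.exp (K * η) ≤ Real.exp (4 * (K * η)) := Real.exp_le_exp.2 (by linarith)
    exact mul_le_mul_of_nonneg_left h6 (by positivity)
  have h4 := mul_le_mul_of_nonneg_right hc hZ
  exact ⟨h1.trans h4, h2.trans h4⟩

theorem localStmt3 : LocalStmt3 := localStmt3_of deltaStmt

end

end Vale.Agent.P361.LRO.Ind3
end

section

/-!
P361 LRO, stage 3, block (K): the stiffness statement `kappaStmt3`.
-/

namespace Vale.Agent.P361.LRO.Ind3

/-- **Block (K) of stage 3.** -/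
theorem kappaStmt3 : S3.KappaStmt3 :=
  kappaStmt3_of block3 localStmt3

end Vale.Agent.P361.LRO.Ind3
end

section

/-! # Bloch's law for spin `1/2` -/

namespace Vale.Agent.P361.LRO.S3

open Filter Topology

/-- The order `β^{-3/2}` on the torus, for all profiles of the family. -/
theorem bootStmt3 : BootStmt3 :=
  bootStmt3_of Ind3.kappaStmt3 dirStmt3 energyStmt3 startStmt3

theorem finalStmt3 : FinalStmt3 :=
  S3F.finalStmt3_of Ind3.kappaStmt3 dirSharpStmt3 bootStmt3 (MF.meanStmt3_of bootStmt3)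
    (tailStmt3 bootStmt3)

/-- Bloch's law for spin `1/2`. -/
theorem bloch_half :
    (∀ β : ℝ, 0 < β →
      (∀ h : ℝ, Tendsto (fun N : ℕ => Model.finPressure 1 N β h) atTop (𝓝 (Model.pressure 1 β h))) ∧
      ConvexOn ℝ Set.univ (Model.pressure 1 β) ∧
      HasDerivWithinAt (Model.pressure 1 β) (Model.spontMag 1 β) (Set.Ioi 0) 0 ∧
      Model.spontMag 1 β ≤ 1 / 2) ∧
    (∃ β₀ : ℝ, 0 < β₀ ∧ ∀ β : ℝ, β₀ ≤ β → 0 < Model.spontMag 1 β) ∧
    Tendsto (fun β : ℝ => Model.spontMag 1 β) atTop (𝓝 (1 / 2)) ∧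
    Tendsto (fun β : ℝ => β ^ (3 / 2 : ℝ) * (1 / 2 - Model.spontMag 1 β)) atTop
      (𝓝 ((riemannZeta (3 / 2)).re / (8 * Real.pi ^ (3 / 2 : ℝ) * (1 / 2 : ℝ) ^ (3 / 2 : ℝ)))) :=
  answer_half (bloch_of_final finalStmt3)

end Vale.Agent.P361.LRO.S3
end
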